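import Mathlib

/-!
# Row 30: elementary real analysis used by the last window (E) and the final assembly

Everything here is stated for plain real numbers / finite sums.
-/

set_option autoImplicit false

namespace Crest.Agent.R030

open Finset Filter Topology

/-! ### (a1) Riemann sums of `1 / (1 + 2 m x)` -/

private lemma log_step_lower {a h : ℝ} (ha : 0 < a) (hh : 0 ≤ h) :
    h / (a + h) ≤ Real.log (a + h) - Real.log a := by
  have h1 : 0 < a + h := by linarith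
  have h2 : Real.log (a / (a + h)) ≤ a / (a + h) - 1 := Real.log_le_sub_one_of_pos (by positivity)
  rw [Real.log_div ha.ne' h1.ne'] at h2
  have h3 : a / (a + h) - 1 = - (h / (a + h)) := by field_simp; ring
  linarith

private lemma log_step_upper {a h : ℝ} (ha : 0 < a) (hh : 0 ≤ h) :
    Real.log (a + h) - Real.log a ≤ h / a := by
  have h1 : 0 < a + h := by linarith
  have h2 : Real.log ((a + h) / a) ≤ (a + h) / a - 1 := Real.log_le_sub_one_of_pos (by positivity)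
  rw [Real.log_div h1.ne' ha.ne'] at h2
  have h3 : (a + h) / a - 1 = h / a := by field_simp; ring
  linarith

/-- partial sums, upper bound -/
theorem riemann_log_aux {m : ℝ} (hm : 0 < m) {M : ℕ} (hM : 0 < M) (k : ℕ) :
    ∑ l ∈ range (k + 1), (1 / (1 + 2 * m * l / M)) / M ≤
      1 / M + Real.log (1 + 2 * m * k / M) / (2 * m) := by
  have hM' : (0:ℝ) < M := by exact_mod_cast hM
  induction k with
  | zero => simp
  | succ k ih =>
    rw [sum_range_succ]
    have hstep := log_step_lower (a := 1 + 2 * m * k / M) (h := 2 * m / M) (by positivity)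
      (by positivity)
    have e1 : 1 + 2 * m * (k:ℝ) / M + 2 * m / M = 1 + 2 * m * ((k + 1 : ℕ) : ℝ) / M := by
      push_cast; ring
    rw [e1] at hstep
    have hpos : 0 < 1 + 2 * m * ((k + 1 : ℕ) : ℝ) / M := by positivity
    have e2 : (1 / (1 + 2 * m * ((k + 1 : ℕ) : ℝ) / M)) / M
        = (2 * m / M / (1 + 2 * m * ((k + 1 : ℕ) : ℝ) / M)) / (2 * m) := by
      field_simp
    have h3 : (2 * m / M / (1 + 2 * m * ((k + 1 : ℕ) : ℝ) / M)) / (2 * m) ≤
        (Real.log (1 + 2 * m * ((k + 1 : ℕ) : ℝ) / M) - Real.log (1 + 2 * m * (k:ℝ) / M))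
          / (2 * m) := by
      apply div_le_div_of_nonneg_right hstep (by positivity)
    rw [e2]
    have h4 : (Real.log (1 + 2 * m * ((k + 1 : ℕ) : ℝ) / M) - Real.log (1 + 2 * m * (k:ℝ) / M))
          / (2 * m) = Real.log (1 + 2 * m * ((k + 1 : ℕ) : ℝ) / M) / (2 * m)
            - Real.log (1 + 2 * m * (k:ℝ) / M) / (2 * m) := by ring
    linarith

/-- `(1/M) ∑_{l<M} 1/(1+2ml/M) ≤ 1/M + log(1+2m)/(2m)` -/
theorem riemann_log_le {m : ℝ} (hm : 0 < m) {M : ℕ} (hM : 0 < M) :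
    (∑ l ∈ range M, 1 / (1 + 2 * m * l / M)) / M ≤ 1 / M + Real.log (1 + 2 * m) / (2 * m) := by
  have hM' : (0:ℝ) < M := by exact_mod_cast hM
  obtain ⟨k, rfl⟩ : ∃ k, M = k + 1 := ⟨M - 1, by omega⟩
  rw [sum_div]
  refine (riemann_log_aux hm hM k).trans ?_
  have h1 : Real.log (1 + 2 * m * k / ((k + 1 : ℕ) : ℝ)) ≤ Real.log (1 + 2 * m) := by
    apply Real.log_le_log (by positivity)
    have : 2 * m * k / ((k + 1 : ℕ) : ℝ) ≤ 2 * m := by
      rw [div_le_iff₀ hM']
      push_cast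
      nlinarith
    linarith
  have := div_le_div_of_nonneg_right h1 (show (0:ℝ) ≤ 2 * m by positivity)
  linarith

/-- `log(1+2mk/M)/(2m) ≤ (1/M) ∑_{l<k} 1/(1+2ml/M)` -/
theorem riemann_log_lower_aux {m : ℝ} (hm : 0 < m) {M : ℕ} (hM : 0 < M) (k : ℕ) :
    Real.log (1 + 2 * m * k / M) / (2 * m) ≤ ∑ l ∈ range k, (1 / (1 + 2 * m * l / M)) / M := by
  have hM' : (0:ℝ) < M := by exact_mod_cast hM
  induction k with
  | zero => simp
  | succ k ih =>
    rw [sum_range_succ]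
    have hstep := log_step_upper (a := 1 + 2 * m * k / M) (h := 2 * m / M) (by positivity)
      (by positivity)
    have e1 : 1 + 2 * m * (k:ℝ) / M + 2 * m / M = 1 + 2 * m * ((k + 1 : ℕ) : ℝ) / M := by
      push_cast; ring
    rw [e1] at hstep
    have hpos : 0 < 1 + 2 * m * (k : ℝ) / M := by positivity
    have e2 : (1 / (1 + 2 * m * (k : ℝ) / M)) / M
        = (2 * m / M / (1 + 2 * m * (k : ℝ) / M)) / (2 * m) := by
      field_simp
    have h3 : (Real.log (1 + 2 * m * ((k + 1 : ℕ) : ℝ) / M) - Real.log (1 + 2 * m * (k:ℝ) / M))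
          / (2 * m) ≤ (2 * m / M / (1 + 2 * m * (k : ℝ) / M)) / (2 * m) := by
      apply div_le_div_of_nonneg_right hstep (by positivity)
    rw [e2]
    have h4 : (Real.log (1 + 2 * m * ((k + 1 : ℕ) : ℝ) / M) - Real.log (1 + 2 * m * (k:ℝ) / M))
          / (2 * m) = Real.log (1 + 2 * m * ((k + 1 : ℕ) : ℝ) / M) / (2 * m)
            - Real.log (1 + 2 * m * (k:ℝ) / M) / (2 * m) := by ring
    linarith

theorem le_riemann_log {m : ℝ} (hm : 0 < m) {M : ℕ} (hM : 0 < M) :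
    Real.log (1 + 2 * m) / (2 * m) ≤ (∑ l ∈ range M, 1 / (1 + 2 * m * l / M)) / M := by
  have hM' : (0:ℝ) < M := by exact_mod_cast hM
  have := riemann_log_lower_aux hm hM M
  rw [mul_div_assoc, div_self hM'.ne', mul_one] at this
  rw [sum_div]
  exact this

/-- The form used with visit weights: if `om l ≤ (1+ε)/(1+2ml/M)` then
`(∑ om)/M * (2m) ≤ (1+ε)(2m/M + log(1+2m))`. -/
theorem omega_sum_le {m ε : ℝ} (hm : 0 < m) (hε : 0 ≤ ε) {M : ℕ} (hM : 0 < M) {om : ℕ → ℝ}
    (h : ∀ l < M, om l ≤ (1 + ε) * (1 / (1 + 2 * m * l / M))) :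
    (∑ l ∈ range M, om l) / M * (2 * m) ≤ (1 + ε) * (2 * m / M + Real.log (1 + 2 * m)) := by
  have hM' : (0:ℝ) < M := by exact_mod_cast hM
  have h1 : (∑ l ∈ range M, om l) / M ≤ (1 + ε) * ((∑ l ∈ range M, 1 / (1 + 2 * m * l / M)) / M) := by
    rw [← mul_div_assoc, mul_sum]
    apply div_le_div_of_nonneg_right _ hM'.le
    exact sum_le_sum fun l hl => h l (mem_range.1 hl)
  have h2 := riemann_log_le hm hM
  have h3 : (∑ l ∈ range M, om l) / M ≤ (1 + ε) * (1 / M + Real.log (1 + 2 * m) / (2 * m)) :=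
    h1.trans (mul_le_mul_of_nonneg_left h2 (by linarith))
  calc (∑ l ∈ range M, om l) / M * (2 * m)
      ≤ (1 + ε) * (1 / M + Real.log (1 + 2 * m) / (2 * m)) * (2 * m) :=
        mul_le_mul_of_nonneg_right h3 (by positivity)
    _ = (1 + ε) * (2 * m / M + Real.log (1 + 2 * m)) := by field_simp

/-! ### (a2), (a3) exponential sums -/

/-- `W S j = S^j / j!` -/
noncomputable def Wf (S : ℝ) (j : ℕ) : ℝ := S ^ j / (j.factorial : ℝ)

theorem Wf_nonneg {S : ℝ} (hS : 0 ≤ S) (j : ℕ) : 0 ≤ Wf S j := by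
  unfold Wf; positivity

theorem Wf_mul_pow (S R : ℝ) (j : ℕ) : Wf S j * R ^ j = (S * R) ^ j / (j.factorial : ℝ) := by
  unfold Wf; rw [mul_pow]; ring

theorem sum_Wf_le {S R : ℝ} (hS : 0 ≤ S) (hR : 0 ≤ R) (K : ℕ) :
    ∑ j ∈ range K, Wf S j * R ^ j ≤ Real.exp (S * R) := by
  simp_rw [Wf_mul_pow]
  exact Real.sum_le_exp_of_nonneg (by positivity) K

/-- one-variable tail: `∑_{K ≤ j < N} W_j R^j ≤ exp(-K) exp(e S R)` -/
theorem sum_Wf_tail_le {S R : ℝ} (hS : 0 ≤ S) (hR : 0 ≤ R) (K N : ℕ) :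
    ∑ j ∈ (range N).filter (fun j => K ≤ j), Wf S j * R ^ j ≤
      Real.exp (-K) * Real.exp (Real.exp 1 * S * R) := by
  have h1 : ∀ j ∈ (range N).filter (fun j => K ≤ j), Wf S j * R ^ j ≤
      Real.exp (-K) * (Wf (Real.exp 1 * S) j * R ^ j) := by
    intro j hj
    have hKj : K ≤ j := (mem_filter.1 hj).2
    have e1 : Wf (Real.exp 1 * S) j = Real.exp j * Wf S j := by
      unfold Wf
      rw [mul_pow, ← Real.exp_nat_mul, mul_one, mul_div_assoc]
    rw [e1]
    have h2 : 1 ≤ Real.exp (-K) * Real.exp j := by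
      rw [← Real.exp_add]
      apply Real.one_le_exp
      have : (K:ℝ) ≤ j := by exact_mod_cast hKj
      linarith
    have h3 : 0 ≤ Wf S j * R ^ j := mul_nonneg (Wf_nonneg hS j) (by positivity)
    calc Wf S j * R ^ j = 1 * (Wf S j * R ^ j) := (one_mul _).symm
      _ ≤ (Real.exp (-K) * Real.exp j) * (Wf S j * R ^ j) := mul_le_mul_of_nonneg_right h2 h3
      _ = _ := by ring
  refine (sum_le_sum h1).trans ?_
  rw [← mul_sum]
  refine mul_le_mul_of_nonneg_left ?_ (Real.exp_pos _).le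
  have hS' : 0 ≤ Real.exp 1 * S := by positivity
  refine (sum_le_sum_of_subset_of_nonneg (filter_subset _ _) ?_).trans (sum_Wf_le hS' hR N)
  intro j _ _
  exact mul_nonneg (Wf_nonneg hS' j) (by positivity)

/-- `W'_j := W_{j-1}` for `j ≥ 1`, `0` for `j = 0`. -/
noncomputable def Wp (S : ℝ) : ℕ → ℝ
  | 0 => 0
  | j + 1 => Wf S j

theorem Wp_nonneg {S : ℝ} (hS : 0 ≤ S) (j : ℕ) : 0 ≤ Wp S j := by
  cases j with
  | zero => exact le_refl _
  | succ j => exact Wf_nonneg hS j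

theorem sum_Wp_le {S R : ℝ} (hS : 0 ≤ S) (hR : 0 ≤ R) (K : ℕ) :
    ∑ j ∈ range K, Wp S j * R ^ j ≤ R * Real.exp (S * R) := by
  cases K with
  | zero => simp; positivity
  | succ K =>
    rw [sum_range_succ']
    simp only [Wp, zero_mul, add_zero]
    have : ∀ k ∈ range K, Wf S k * R ^ (k + 1) = R * (Wf S k * R ^ k) := by
      intro k _; rw [pow_succ]; ring
    rw [sum_congr rfl this, ← mul_sum]
    exact mul_le_mul_of_nonneg_left (sum_Wf_le hS hR K) hR

/-- full triple sum: `∑_{a,b,c<K} W_a W'_b W'_c R^{a+b+c} ≤ R² exp(3SR)` -/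
theorem triple_sum_le {S R : ℝ} (hS : 0 ≤ S) (hR : 0 ≤ R) (K : ℕ) :
    ∑ a ∈ range K, ∑ b ∈ range K, ∑ c ∈ range K,
      Wf S a * Wp S b * Wp S c * R ^ (a + b + c) ≤ R ^ 2 * Real.exp (3 * (S * R)) := by
  have e : ∑ a ∈ range K, ∑ b ∈ range K, ∑ c ∈ range K,
      Wf S a * Wp S b * Wp S c * R ^ (a + b + c) =
      (∑ a ∈ range K, Wf S a * R ^ a) * ((∑ b ∈ range K, Wp S b * R ^ b) *
        (∑ c ∈ range K, Wp S c * R ^ c)) := by
    rw [sum_mul]
    refine sum_congr rfl fun a _ => ?_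
    rw [sum_mul, mul_sum]
    refine sum_congr rfl fun b _ => ?_
    rw [mul_sum, mul_sum]
    refine sum_congr rfl fun c _ => ?_
    rw [pow_add, pow_add]; ring
  rw [e]
  have h1 := sum_Wf_le hS hR K
  have h2 := sum_Wp_le hS hR K
  have h1' : 0 ≤ ∑ a ∈ range K, Wf S a * R ^ a :=
    sum_nonneg fun j _ => mul_nonneg (Wf_nonneg hS j) (by positivity)
  have h2' : 0 ≤ ∑ a ∈ range K, Wp S a * R ^ a :=
    sum_nonneg fun j _ => mul_nonneg (Wp_nonneg hS j) (by positivity)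
  calc (∑ a ∈ range K, Wf S a * R ^ a) * ((∑ b ∈ range K, Wp S b * R ^ b) *
        (∑ c ∈ range K, Wp S c * R ^ c))
      ≤ Real.exp (S * R) * ((R * Real.exp (S * R)) * (R * Real.exp (S * R))) := by
        apply mul_le_mul h1 (mul_le_mul h2 h2 h2' (by positivity)) (by positivity) (by positivity)
    _ = R ^ 2 * Real.exp (3 * (S * R)) := by
        have : Real.exp (3 * (S * R)) = Real.exp (S * R) * Real.exp (S * R) * Real.exp (S * R) := by
          rw [← Real.exp_add, ← Real.exp_add]; congr 1; ring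
        rw [this]; ring

/-- tail of the triple sum: `a + b + c ≥ K`:
`∑ ≤ R² e² exp(-K) exp(3 e S R)` -/
theorem triple_sum_tail_le {S R : ℝ} (hS : 0 ≤ S) (hR : 0 ≤ R) (K N : ℕ) :
    ∑ a ∈ range N, ∑ b ∈ range N, ∑ c ∈ range N,
      (if K ≤ a + b + c then Wf S a * Wp S b * Wp S c * R ^ (a + b + c) else 0) ≤
      Real.exp (-K) * (Real.exp 1 ^ 2 * R ^ 2 * Real.exp (3 * (Real.exp 1 * S * R))) := by
  have hS' : 0 ≤ Real.exp 1 * S := by positivity
  -- replace `R` by `e R`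
  have h1 : ∀ a b c : ℕ,
      (if K ≤ a + b + c then Wf S a * Wp S b * Wp S c * R ^ (a + b + c) else 0) ≤
      Real.exp (-K) * (Wf S a * Wp S b * Wp S c * (Real.exp 1 * R) ^ (a + b + c)) := by
    intro a b c
    have h0 : 0 ≤ Wf S a * Wp S b * Wp S c :=
      mul_nonneg (mul_nonneg (Wf_nonneg hS a) (Wp_nonneg hS b)) (Wp_nonneg hS c)
    split_ifs with h
    · rw [mul_pow, ← Real.exp_nat_mul, mul_one]
      have h2 : 1 ≤ Real.exp (-K) * Real.exp ((a + b + c : ℕ) : ℝ) := by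
        rw [← Real.exp_add]
        apply Real.one_le_exp
        have : (K:ℝ) ≤ ((a + b + c : ℕ) : ℝ) := by exact_mod_cast h
        linarith
      have h3 : 0 ≤ Wf S a * Wp S b * Wp S c * R ^ (a + b + c) := mul_nonneg h0 (by positivity)
      calc Wf S a * Wp S b * Wp S c * R ^ (a + b + c)
          = 1 * (Wf S a * Wp S b * Wp S c * R ^ (a + b + c)) := (one_mul _).symm
        _ ≤ (Real.exp (-K) * Real.exp ((a + b + c : ℕ) : ℝ)) *
            (Wf S a * Wp S b * Wp S c * R ^ (a + b + c)) := mul_le_mul_of_nonneg_right h2 h3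
        _ = _ := by ring
    · exact mul_nonneg (Real.exp_pos _).le (mul_nonneg h0 (by positivity))
  refine (sum_le_sum fun a _ => sum_le_sum fun b _ => sum_le_sum fun c _ => h1 a b c).trans ?_
  have h2 := triple_sum_le hS (R := Real.exp 1 * R) (by positivity) N
  calc ∑ a ∈ range N, ∑ b ∈ range N, ∑ c ∈ range N,
        Real.exp (-K) * (Wf S a * Wp S b * Wp S c * (Real.exp 1 * R) ^ (a + b + c))
      = Real.exp (-K) * ∑ a ∈ range N, ∑ b ∈ range N, ∑ c ∈ range N,
        Wf S a * Wp S b * Wp S c * (Real.exp 1 * R) ^ (a + b + c) := by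
        simp_rw [mul_sum]
    _ ≤ Real.exp (-K) * ((Real.exp 1 * R) ^ 2 * Real.exp (3 * (S * (Real.exp 1 * R)))) :=
        mul_le_mul_of_nonneg_left h2 (Real.exp_pos _).le
    _ = _ := by rw [mul_pow]; ring_nf

/-! ### (a4) the constant `1/(2√2)` -/

/-- If `lam = 4x²/n³` and `|m/lam - 1| ≤ θ ≤ 1/2` then `x (1+2m)^{-1/2}` is
`n^{3/2}/(2√2)` up to the relative error `2θ + 1/(2 lam)`. -/
theorem final_constant {n x lam m θ : ℝ} (hn : 0 < n) (hx : 0 < x)
    (hlam : lam = 4 * x ^ 2 / n ^ 3) (hθ : θ ≤ 1 / 2) (hm : |m / lam - 1| ≤ θ) :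
    |x / Real.sqrt (1 + 2 * m) - n ^ ((3:ℝ) / 2) / (2 * Real.sqrt 2)| ≤
      n ^ ((3:ℝ) / 2) / (2 * Real.sqrt 2) * (2 * θ + 1 / (2 * lam)) := by
  have hlam0 : 0 < lam := by rw [hlam]; positivity
  have hθ0 : 0 ≤ θ := (abs_nonneg _).trans hm
  obtain ⟨h1, h2⟩ := abs_le.1 hm
  have hm1 : (1 - θ) * lam ≤ m := by
    have := (le_div_iff₀ hlam0).1 (show 1 - θ ≤ m / lam by linarith)
    linarith
  have hm2 : m ≤ (1 + θ) * lam := by
    have := (div_le_iff₀ hlam0).1 (show m / lam ≤ 1 + θ by linarith)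
    linarith
  have hm0 : 0 < m := lt_of_lt_of_le (by nlinarith) hm1
  set c : ℝ := n ^ ((3:ℝ) / 2) / (2 * Real.sqrt 2) with hc
  have hn32 : (n ^ ((3:ℝ) / 2)) ^ 2 = n ^ 3 := by
    rw [← Real.rpow_natCast, ← Real.rpow_mul hn.le, ← Real.rpow_natCast]
    norm_num
  have hc0 : 0 < c := by positivity
  -- x / sqrt(1+2m) = c * sqrt (2 lam/(1+2m))
  set z : ℝ := 2 * lam / (1 + 2 * m) with hz
  have hz0 : 0 < z := by positivity
  have hx2 : x / Real.sqrt (1 + 2 * m) = c * Real.sqrt z := by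
    have hA : 0 ≤ x / Real.sqrt (1 + 2 * m) := by positivity
    have hB : 0 ≤ c * Real.sqrt z := by positivity
    have hsq : (x / Real.sqrt (1 + 2 * m)) ^ 2 = (c * Real.sqrt z) ^ 2 := by
      rw [div_pow, Real.sq_sqrt (by positivity), mul_pow, Real.sq_sqrt hz0.le, hc, div_pow,
        hn32, mul_pow, Real.sq_sqrt (by norm_num), hz, hlam]
      field_simp
      ring
    exact (pow_left_inj₀ hA hB (by norm_num)).1 hsq
  rw [hx2]
  have e : c * Real.sqrt z - c = c * (Real.sqrt z - 1) := by ring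
  rw [e, abs_mul, abs_of_pos hc0]
  refine mul_le_mul_of_nonneg_left ?_ hc0.le
  -- |sqrt z - 1| ≤ |z - 1|
  have hs0 : 0 ≤ Real.sqrt z := Real.sqrt_nonneg z
  have hsq : Real.sqrt z ^ 2 = z := Real.sq_sqrt hz0.le
  have h3 : |Real.sqrt z - 1| ≤ |z - 1| := by
    have : z - 1 = (Real.sqrt z - 1) * (Real.sqrt z + 1) := by linear_combination -hsq
    rw [this, abs_mul]
    have h4 : 1 ≤ |Real.sqrt z + 1| := by rw [abs_of_nonneg (by linarith)]; linarith
    nlinarith [abs_nonneg (Real.sqrt z - 1)]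
  refine h3.trans ?_
  rw [abs_le]
  constructor
  · -- z ≥ 1 - 2θ - 1/(2lam)
    have : 1 - (2 * θ + 1 / (2 * lam)) ≤ z := by
      rw [hz, le_div_iff₀ (by positivity)]
      have hlow : (1 - (2 * θ + 1 / (2 * lam))) * (1 + 2 * m) ≤
          (1 - (2 * θ + 1 / (2 * lam))) * (1 + 2 * m) := le_refl _
      by_cases hs : 0 ≤ 1 - (2 * θ + 1 / (2 * lam))
      · have hb : (1 - (2 * θ + 1 / (2 * lam))) * (1 + 2 * m) ≤
            (1 - (2 * θ + 1 / (2 * lam))) * (1 + 2 * ((1 + θ) * lam)) :=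
          mul_le_mul_of_nonneg_left (by linarith) hs
        have hc1 : (1 - (2 * θ + 1 / (2 * lam))) * (1 + 2 * ((1 + θ) * lam)) ≤ 2 * lam := by
          have e1 : (1 - (2 * θ + 1 / (2 * lam))) * (1 + 2 * ((1 + θ) * lam)) =
              2 * lam - 2 * θ * lam - 3 * θ - 4 * θ ^ 2 * lam - 1 / (2 * lam) := by
            field_simp; ring
          rw [e1]
          have : 0 < 1 / (2 * lam) := by positivity
          nlinarith [mul_nonneg hθ0 hlam0.le, mul_nonneg (sq_nonneg θ) hlam0.le]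
        linarith
      · push Not at hs
        have : (1 - (2 * θ + 1 / (2 * lam))) * (1 + 2 * m) ≤ 0 :=
          mul_nonpos_of_nonpos_of_nonneg hs.le (by positivity)
        linarith
    linarith
  · -- z ≤ 1 + 2θ + 1/(2lam)
    have : z ≤ 1 + 2 * θ := by
      rw [hz, div_le_iff₀ (by positivity)]
      have hb : (1 + 2 * θ) * (2 * ((1 - θ) * lam)) ≤ (1 + 2 * θ) * (1 + 2 * m) :=
        mul_le_mul_of_nonneg_left (by linarith) (by linarith)
      have hc1 : 2 * lam ≤ (1 + 2 * θ) * (2 * ((1 - θ) * lam)) := by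
        nlinarith [mul_nonneg hθ0 hlam0.le, mul_nonneg (mul_nonneg hθ0 hlam0.le)
          (show 0 ≤ 1 - 2 * θ by linarith)]
      linarith
    have : 0 < 1 / (2 * lam) := by positivity
    linarith

/-! ### (a5) eventually lemmas -/

/-- powers of `log n` are eventually below `n^c` -/
theorem eventually_log_pow_le (A : ℝ) {c : ℝ} (hc : 0 < c) :
    ∀ᶠ x : ℝ in atTop, Real.log x ^ A ≤ x ^ c := by
  have h := (isLittleO_log_rpow_rpow_atTop A hc).bound (show (0:ℝ) < 1 by norm_num)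
  filter_upwards [h, eventually_ge_atTop (1:ℝ)] with x hx hx1
  rw [one_mul, Real.norm_of_nonneg (Real.rpow_nonneg (Real.log_nonneg hx1) _),
    Real.norm_of_nonneg (Real.rpow_nonneg (by linarith) _)] at hx
  exact hx

theorem eventually_mul_log_pow_le (C A : ℝ) {c : ℝ} (hc : 0 < c) :
    ∀ᶠ x : ℝ in atTop, C * Real.log x ^ A ≤ x ^ c := by
  rcases le_or_gt C 0 with hC | hC
  · filter_upwards [eventually_ge_atTop (1:ℝ)] with x hx1
    have h1 : 0 ≤ Real.log x ^ A := Real.rpow_nonneg (Real.log_nonneg hx1) _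
    have h2 : 0 ≤ x ^ c := Real.rpow_nonneg (by linarith) _
    nlinarith
  · have h := (isLittleO_log_rpow_rpow_atTop A hc).bound (show (0:ℝ) < 1 / C by positivity)
    filter_upwards [h, eventually_ge_atTop (1:ℝ)] with x hx hx1
    rw [Real.norm_of_nonneg (Real.rpow_nonneg (Real.log_nonneg hx1) _),
      Real.norm_of_nonneg (Real.rpow_nonneg (by linarith) _)] at hx
    calc C * Real.log x ^ A ≤ C * (1 / C * x ^ c) := mul_le_mul_of_nonneg_left hx hC.le
      _ = x ^ c := by field_simp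

/-- `C (log n)^A n^{-c} ≤ ε` eventually -/
theorem eventually_log_pow_mul_rpow_neg_le (C A : ℝ) {c ε : ℝ} (hc : 0 < c) (hε : 0 < ε) :
    ∀ᶠ x : ℝ in atTop, C * Real.log x ^ A * x ^ (-c) ≤ ε := by
  filter_upwards [eventually_mul_log_pow_le (C / ε) A hc, eventually_gt_atTop (0:ℝ)] with x hx hx0
  have h1 : C * Real.log x ^ A ≤ ε * x ^ c := by
    have h2 : C * Real.log x ^ A = ε * (C / ε * Real.log x ^ A) := by field_simp
    rw [h2]; exact mul_le_mul_of_nonneg_left hx hε.le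
  have h3 : 0 < x ^ (-c) := Real.rpow_pos_of_pos hx0 _
  calc C * Real.log x ^ A * x ^ (-c) ≤ ε * x ^ c * x ^ (-c) := mul_le_mul_of_nonneg_right h1 h3.le
    _ = ε := by rw [mul_assoc, ← Real.rpow_add hx0]; simp

/-- `(1 + a)^k ≤ 1 + ε` as soon as `k a ≤ log (1+ε)`. -/
theorem one_add_pow_le_of {a ε : ℝ} (ha : 0 ≤ a) (hε : 0 < ε) {k : ℕ}
    (h : k * a ≤ Real.log (1 + ε)) : (1 + a) ^ k ≤ 1 + ε := by
  calc (1 + a) ^ k ≤ Real.exp a ^ k :=
        pow_le_pow_left₀ (by linarith) (by linarith [Real.add_one_le_exp a]) k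
    _ = Real.exp (k * a) := by rw [← Real.exp_nat_mul]
    _ ≤ Real.exp (Real.log (1 + ε)) := Real.exp_le_exp.2 h
    _ = 1 + ε := Real.exp_log (by linarith)

/-- `(1 + y)^k ≤ exp (k y)` -/
theorem one_add_pow_le_exp {y : ℝ} (hy : -1 ≤ y) (k : ℕ) : (1 + y) ^ k ≤ Real.exp (k * y) := by
  calc (1 + y) ^ k ≤ Real.exp y ^ k :=
        pow_le_pow_left₀ (by linarith) (by linarith [Real.add_one_le_exp y]) k
    _ = Real.exp (k * y) := by rw [← Real.exp_nat_mul]

end Crest.Agent.R030
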