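import Crest.Agent.R030.Cavity2

/-!
Row 30 (S0040), block (D): the numerical hypotheses of `cavity_dev` hold for all large `n`.
-/

set_option autoImplicit false

namespace Crest.Agent.R030.Cavity

open Finset Filter

theorem ev_log_le (C : ℝ) {c : ℝ} (hc : 0 < c) :
    ∀ᶠ n : ℕ in atTop, C * Real.log (n : ℝ) ≤ (n : ℝ) ^ c := by
  have h1 : ∀ᶠ x : ℝ in atTop, C * Real.log x ≤ x ^ c := by
    have h := (isLittleO_log_rpow_atTop hc).bound (c := 1 / (|C| + 1)) (by positivity)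
    filter_upwards [h, eventually_ge_atTop 1] with x hx hx1
    rw [Real.norm_of_nonneg (Real.log_nonneg hx1), Real.norm_of_nonneg (by positivity)] at hx
    have h2 : C * Real.log x ≤ (|C| + 1) * Real.log x :=
      mul_le_mul_of_nonneg_right (by linarith [le_abs_self C]) (Real.log_nonneg hx1)
    refine h2.trans ?_
    have h3 := mul_le_mul_of_nonneg_left hx (by positivity : 0 ≤ |C| + 1)
    refine h3.trans (le_of_eq ?_)
    field_simp
  exact tendsto_natCast_atTop_atTop.eventually h1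

set_option maxHeartbeats 1000000 in
theorem cav_params {δ κ₀ Γ : ℝ} {q : ℕ} (hδ : 0 < δ) (hδ1 : δ ≤ 1) (hκ₀ : 0 ≤ κ₀) (hΓ : 0 ≤ Γ)
    (hsmall : 2 / (q : ℝ) + κ₀ * δ ≤ δ / 100) :
    ∀ᶠ n : ℕ in atTop, ∀ (M : ℕ) (m η d : ℝ), n ^ 2 ≤ M → (n : ℝ) ^ δ / 4 ≤ m →
      m ≤ 4 * (n : ℝ) ^ δ → 0 ≤ η → η ≤ (n : ℝ) ^ (-(δ / 8)) → 0 ≤ d → d ≤ (n : ℝ) ^ 2 →
      0 < m ∧ 8 ≤ M ∧ m ≤ M ∧ η ≤ 1 ∧
      4 * JJ m M M ≤ 4 * (1 / M + Real.log (1 + 2 * m) / (2 * m)) ∧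
      4 * (1 / M + Real.log (1 + 2 * m) / (2 * m)) ≤ 1 / 8 ∧
      2 * (n : ℝ) ^ (-(δ / 12)) + 4 * (4 * (1 / M + Real.log (1 + 2 * m) / (2 * m))) ≤ 1 ∧
      d ^ ((1 : ℝ) / (q : ℝ)) * ((1 + Γ) *
        (η + bb m M (4 * (1 / M + Real.log (1 + 2 * m) / (2 * m))) ((n : ℝ) ^ (-(δ / 12)))) *
        (m * JJ m M M) * Real.exp (κ₀ * (m * JJ m M M))) ≤ (n : ℝ) ^ (-(δ / 12)) := by
  have e2 := ev_log_le (32 * δ) (c := δ / 2) (by positivity)
  have e3 : ∀ᶠ n : ℕ in atTop, (152 : ℝ) ≤ (n : ℝ) ^ (δ / 24) :=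
    (tendsto_rpow_atTop (by positivity : 0 < δ / 24)).comp tendsto_natCast_atTop_atTop
      |>.eventually_ge_atTop 152
  have e4 := ev_log_le (2 * (1 + Γ) * δ) (c := δ / 40) (by positivity)
  have e5 : ∀ᶠ n : ℕ in atTop, 6 / δ ≤ Real.log (n : ℝ) :=
    (Real.tendsto_log_atTop.comp tendsto_natCast_atTop_atTop).eventually_ge_atTop (6 / δ)
  filter_upwards [e2, e3, e4, e5, eventually_ge_atTop 8] with n e2 e3 e4 e5 e6
  intro M m η d hM hm1 hm2 hη0 hη hd0 hd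
  have hn8 : (8 : ℝ) ≤ (n : ℝ) := by exact_mod_cast e6
  have hn0 : (0 : ℝ) < (n : ℝ) := by linarith
  have hn1 : (1 : ℝ) ≤ (n : ℝ) := by linarith
  set N : ℝ := (n : ℝ) with hN
  have hL : 3 ≤ δ / 2 * Real.log N := by
    rw [div_le_iff₀ hδ] at e5
    linarith
  have hMN : N ^ 2 ≤ (M : ℝ) := by
    rw [hN]; exact_mod_cast hM
  have hN2 : 8 * N ≤ N ^ 2 := by rw [sq]; exact mul_le_mul_of_nonneg_right hn8 hn0.le
  have hM8 : 8 ≤ M := by
    have : (8 : ℝ) ≤ M := by linarith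
    exact_mod_cast this
  have hM0 : (0 : ℝ) < M := by linarith
  have hNδ : 0 < N ^ δ := Real.rpow_pos_of_pos hn0 _
  have hm0 : 0 < m := by linarith [div_pos hNδ (by norm_num : (0 : ℝ) < 4)]
  have hNδ1 : N ^ δ ≤ N := by
    calc N ^ δ ≤ N ^ (1 : ℝ) := Real.rpow_le_rpow_of_exponent_le hn1 hδ1
      _ = N := Real.rpow_one N
  have hmM : m ≤ M := by linarith
  set θ : ℝ := N ^ (-(δ / 12)) with hθ
  have hθ0 : 0 < θ := Real.rpow_pos_of_pos hn0 _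
  set α : ℝ := 4 * (1 / M + Real.log (1 + 2 * m) / (2 * m)) with hα
  -- log bound
  have hlog' : Real.log (1 + 2 * m) ≤ 3 + δ * Real.log N := by
    have h1 : 1 + 2 * m ≤ 9 * N ^ δ := by
      have : 1 ≤ N ^ δ := Real.one_le_rpow hn1 hδ.le
      linarith
    have h2 : Real.log (1 + 2 * m) ≤ Real.log (9 * N ^ δ) := Real.log_le_log (by positivity) h1
    rw [Real.log_mul (by norm_num) hNδ.ne', Real.log_rpow hn0] at h2
    have h3 : Real.log 9 ≤ 3 := by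
      have : Real.log 9 ≤ Real.log (Real.exp 3) := by
        apply Real.log_le_log (by norm_num)
        have h5 : (2.7 : ℝ) < Real.exp 1 := by
          have := Real.exp_one_gt_d9; linarith
        have h4 : Real.exp 3 = Real.exp 1 ^ 3 := by rw [← Real.exp_nat_mul]; norm_num
        rw [h4]
        have := pow_le_pow_left₀ (by norm_num : (0:ℝ) ≤ 2.7) h5.le 3
        norm_num at this ⊢
        linarith
      rwa [Real.log_exp] at this
    linarith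
  have hlog : Real.log (1 + 2 * m) ≤ 2 * δ * Real.log N := by linarith
  have hlog0 : 0 ≤ Real.log (1 + 2 * m) := Real.log_nonneg (by linarith)
  have hhalf : N ^ δ = N ^ (δ / 2) * N ^ (δ / 2) := by
    rw [← Real.rpow_add hn0]; ring_nf
  have hh0 : 0 < N ^ (δ / 2) := Real.rpow_pos_of_pos hn0 _
  have hhN : N ^ (δ / 2) ≤ N := by
    calc N ^ (δ / 2) ≤ N ^ (1 : ℝ) := Real.rpow_le_rpow_of_exponent_le hn1 (by linarith)
      _ = N := Real.rpow_one N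
  have hinv : N ^ (-(δ / 2)) = (N ^ (δ / 2))⁻¹ := Real.rpow_neg hn0.le _
  have hαle : α ≤ N ^ (-(δ / 2)) := by
    rw [hinv, hα]
    have h1 : 1 / (M : ℝ) ≤ 1 / 8 * (N ^ (δ / 2))⁻¹ := by
      have h8 : 8 * N ^ (δ / 2) ≤ M := by linarith
      have h9 : 1 / 8 * (N ^ (δ / 2))⁻¹ = 1 / (8 * N ^ (δ / 2)) := by field_simp
      rw [h9]
      exact one_div_le_one_div_of_le (by positivity) h8
    have h2 : Real.log (1 + 2 * m) / (2 * m) ≤ 1 / 8 * (N ^ (δ / 2))⁻¹ := by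
      rw [div_le_iff₀ (by positivity)]
      have h3 : 1 / 8 * (N ^ (δ / 2))⁻¹ * (2 * (N ^ δ / 4)) ≤
          1 / 8 * (N ^ (δ / 2))⁻¹ * (2 * m) :=
        mul_le_mul_of_nonneg_left (by linarith) (by positivity)
      refine le_trans ?_ h3
      have h4 : 1 / 8 * (N ^ (δ / 2))⁻¹ * (2 * (N ^ δ / 4)) = 1 / 16 * N ^ (δ / 2) := by
        rw [hhalf]; field_simp; ring
      rw [h4]
      linarith
    linarith
  have hα0 : 0 ≤ α := by
    rw [hα]; positivity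
  have hJJ : JJ m M M ≤ 1 / M + Real.log (1 + 2 * m) / (2 * m) := JJ_le hm0 (by omega)
  have hJ0 : 0 ≤ JJ m M M := by
    unfold JJ
    apply mul_nonneg (by positivity)
    exact Finset.sum_nonneg fun l _ => (inv_pos.2 (RR_pos hm0.le M l)).le
  -- powers of `Y = N^(δ/24)`
  set Y : ℝ := N ^ (δ / 24) with hY
  have hY0 : 0 < Y := Real.rpow_pos_of_pos hn0 _
  have hYpow : ∀ k : ℕ, N ^ (-((k : ℝ) * (δ / 24))) = (Y ^ k)⁻¹ := by
    intro k
    rw [Real.rpow_neg hn0.le, hY, ← Real.rpow_natCast (N ^ (δ / 24)), ← Real.rpow_mul hn0.le]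
    ring_nf
  have hθY : θ = (Y ^ 2)⁻¹ := by
    rw [hθ, ← hYpow 2]; congr 1; push_cast; ring
  have hαY : α ≤ (Y ^ 12)⁻¹ := by
    refine hαle.trans (le_of_eq ?_)
    rw [← hYpow 12]; congr 1; push_cast; ring
  have hηY : η ≤ (Y ^ 3)⁻¹ := by
    refine hη.trans (le_of_eq ?_)
    rw [← hYpow 3]; congr 1; push_cast; ring
  have hYinv : Y⁻¹ ≤ 1 / 152 := by
    rw [inv_le_comm₀ hY0 (by norm_num)]; linarith
  have hYi0 : 0 < Y⁻¹ := inv_pos.2 hY0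
  have hα2 : α ≤ (Y⁻¹) ^ 12 := by rw [inv_pow]; exact hαY
  have hθ2 : θ = (Y⁻¹) ^ 2 := by rw [inv_pow]; exact hθY
  have hη2 : η ≤ (Y⁻¹) ^ 3 := by rw [inv_pow]; exact hηY
  have hα4 : α ≤ (Y⁻¹) ^ 4 := hα2.trans (pow_le_pow_of_le_one hYi0.le (by linarith) (by norm_num))
  have hNY : (N : ℝ)⁻¹ ≤ (Y⁻¹) ^ 4 := by
    rw [inv_pow]
    apply inv_anti₀ (by positivity)
    rw [hY, ← Real.rpow_natCast, ← Real.rpow_mul hn0.le]
    calc N ^ (δ / 24 * ((4 : ℕ) : ℝ)) ≤ N ^ (1 : ℝ) :=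
          Real.rpow_le_rpow_of_exponent_le hn1 (by push_cast; linarith)
      _ = N := Real.rpow_one N
  have hbb : bb m M α θ ≤ (Y⁻¹) ^ 3 := by
    unfold bb
    have t1 : (64 + 2 * m) / M ≤ 72 * N⁻¹ := by
      rw [div_le_iff₀ hM0]
      have h1 : 64 + 2 * m ≤ 72 * N := by linarith
      have h2 : 72 * N⁻¹ * N ^ 2 ≤ 72 * N⁻¹ * M :=
        mul_le_mul_of_nonneg_left hMN (by positivity)
      have h3 : 72 * N⁻¹ * N ^ 2 = 72 * N := by field_simp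
      linarith
    have t2 : 2 * θ + 4 * α ≤ 6 * (Y⁻¹) ^ 2 := by
      have : α ≤ (Y⁻¹) ^ 2 :=
        hα2.trans (pow_le_pow_of_le_one hYi0.le (by linarith) (by norm_num))
      rw [hθ2]; linarith
    have t3 : (2 * θ + 4 * α) ^ 2 ≤ (6 * (Y⁻¹) ^ 2) ^ 2 :=
      pow_le_pow_left₀ (by positivity) t2 2
    have t4 : (6 * (Y⁻¹) ^ 2) ^ 2 = 36 * (Y⁻¹) ^ 4 := by ring
    have t5 : 152 * (Y⁻¹) ^ 4 ≤ (Y⁻¹) ^ 3 := by
      have h5 : 152 * Y⁻¹ ≤ 1 := by linarith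
      have h6 : 0 ≤ (Y⁻¹) ^ 3 := by positivity
      have h7 := mul_le_mul_of_nonneg_right h5 h6
      calc 152 * (Y⁻¹) ^ 4 = 152 * Y⁻¹ * (Y⁻¹) ^ 3 := by ring
        _ ≤ 1 * (Y⁻¹) ^ 3 := h7
        _ = (Y⁻¹) ^ 3 := one_mul _
    rw [t4] at t3
    generalize (Y⁻¹) ^ 4 = y4 at *
    generalize (Y⁻¹) ^ 3 = y3 at *
    linarith
  have hτ : m * JJ m M M ≤ δ * Real.log N := by
    have h1 := mul_le_mul_of_nonneg_left hJJ hm0.le
    have h2 : m * (1 / M + Real.log (1 + 2 * m) / (2 * m)) = m / M + Real.log (1 + 2 * m) / 2 := by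
      field_simp
    have h3 : m / M ≤ 1 / 2 := by
      rw [div_le_iff₀ hM0]
      have : 8 * N ≤ N ^ 2 := by rw [sq]; exact mul_le_mul_of_nonneg_right hn8 hn0.le
      linarith
    rw [h2] at h1
    linarith
  have hτ0 : 0 ≤ m * JJ m M M := by positivity
  refine ⟨hm0, hM8, hmM, ?_, ?_, ?_, ?_, ?_⟩
  · refine hη2.trans ?_
    exact pow_le_one₀ hYi0.le (by linarith)
  · rw [hα]; linarith
  · refine hα4.trans ?_
    have : (Y⁻¹) ^ 4 ≤ Y⁻¹ := by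
      calc (Y⁻¹) ^ 4 ≤ (Y⁻¹) ^ 1 := pow_le_pow_of_le_one hYi0.le (by linarith) (by norm_num)
        _ = Y⁻¹ := pow_one _
    linarith
  · have h1 : (Y⁻¹) ^ 4 ≤ Y⁻¹ := by
      calc (Y⁻¹) ^ 4 ≤ (Y⁻¹) ^ 1 := pow_le_pow_of_le_one hYi0.le (by linarith) (by norm_num)
        _ = Y⁻¹ := pow_one _
    have h2 : (Y⁻¹) ^ 2 ≤ Y⁻¹ := by
      calc (Y⁻¹) ^ 2 ≤ (Y⁻¹) ^ 1 := pow_le_pow_of_le_one hYi0.le (by linarith) (by norm_num)
        _ = Y⁻¹ := pow_one _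
    rw [hθ2]
    linarith
  · have hd' : d ^ ((1 : ℝ) / (q : ℝ)) ≤ N ^ (2 / (q : ℝ)) := by
      calc d ^ ((1 : ℝ) / (q : ℝ)) ≤ (N ^ 2) ^ ((1 : ℝ) / (q : ℝ)) :=
            Real.rpow_le_rpow hd0 hd (by positivity)
        _ = N ^ (2 / (q : ℝ)) := by
            rw [← Real.rpow_natCast N 2, ← Real.rpow_mul hn0.le]
            congr 1; push_cast; ring
    have hexp : Real.exp (κ₀ * (m * JJ m M M)) ≤ N ^ (κ₀ * δ) := by
      rw [Real.rpow_def_of_pos hn0]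
      apply Real.exp_le_exp.2
      have := mul_le_mul_of_nonneg_left hτ hκ₀
      linarith
    have hsum : η + bb m M α θ ≤ 2 * (Y⁻¹) ^ 3 := by linarith
    have hb0 : 0 ≤ bb m M α θ := by
      unfold bb; positivity
    calc d ^ ((1 : ℝ) / (q : ℝ)) * ((1 + Γ) * (η + bb m M α θ) *
        (m * JJ m M M) * Real.exp (κ₀ * (m * JJ m M M)))
        ≤ N ^ (2 / (q : ℝ)) * ((1 + Γ) * (2 * (Y⁻¹) ^ 3) * (δ * Real.log N) * N ^ (κ₀ * δ)) := by
          have hlogN : 0 ≤ Real.log N := Real.log_nonneg hn1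
          gcongr
      _ = (2 * (1 + Γ) * δ * Real.log N) * (N ^ (2 / (q : ℝ)) * N ^ (κ₀ * δ)) * (Y⁻¹) ^ 3 := by
          ring
      _ ≤ N ^ (δ / 40) * N ^ (δ / 100) * (Y⁻¹) ^ 3 := by
          apply mul_le_mul_of_nonneg_right _ (by positivity)
          apply mul_le_mul e4 _ (by positivity) (by positivity)
          rw [← Real.rpow_add hn0]
          exact Real.rpow_le_rpow_of_exponent_le hn1 hsmall
      _ ≤ Y * (Y⁻¹) ^ 3 := by
          apply mul_le_mul_of_nonneg_right _ (by positivity)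
          rw [← Real.rpow_add hn0, hY]
          apply Real.rpow_le_rpow_of_exponent_le hn1
          linarith
      _ = (Y⁻¹) ^ 2 := by field_simp
      _ = θ := hθ2.symm

end Crest.Agent.R030.Cavity
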