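import Crest.Agent.R030.Chain

/-!
# R030 (S0040): abstract final assembly

`tendsto_of_pieces`: the theorem S0040 from
* a good set `G` of states which is left before step `k` with probability `≤ ε / n`,
* lower / upper bounds of `E[F | state]`, `E[F² | state]` for good states after `k` steps with an
  error functional `R` whose killed expectation is `≤ ε n^{3/2}`.
-/

set_option autoImplicit false

open Finset Filter Topology
open Crest.CombinatoricsR.TriangleRemoval

namespace Crest.Agent.R030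

namespace Ker

variable {ι Ω : Type*} (K : Ker ι Ω) {G : Ω → Prop}

open Classical in
/-- being outside `G` at time `k` after a path in `G` -/
lemma kill_not_le_hit (k : ℕ) (ω : Ω) :
    K.kill G (fun x => if G x then (0:ℝ) else 1) k ω ≤ K.hit (fun x => ¬ G x) G k ω := by
  induction k generalizing ω with
  | zero =>
    by_cases h : G ω
    · rw [K.hit_zero_of_not (B := fun x => ¬ G x) (by simpa using h)]
      simp [h]
    · rw [K.hit_of_mem (B := fun x => ¬ G x) h]
      simp [h]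
  | succ k ih =>
    by_cases h : G ω
    · rw [K.kill_succ _ _ h, K.hit_succ (B := fun x => ¬ G x) (by simpa using h) h]
      exact K.avg_mono _ _ _ (fun x _ => ih x)
    · rw [K.kill_succ_not _ _ h]
      exact K.hit_nonneg _ _

open Classical in
/-- the probability to stay in `G` up to time `k` (included) is at least `1 - 2 hit`. -/
lemma one_sub_le_kill (k : ℕ) (ω : Ω) :
    1 - 2 * K.hit (fun x => ¬ G x) G k ω ≤ K.kill G (fun x => if G x then (1:ℝ) else 0) k ω := by
  have h1 := K.E_le_kill_add (G := G) (f := fun _ => (1:ℝ)) (C := 1) (fun _ => le_rfl)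
    (by norm_num) k ω
  rw [E_const] at h1
  have h2 := K.kill_not_le_hit (G := G) k ω
  have h3 : K.kill G (fun _ => (1:ℝ)) k ω
      = K.kill G (fun x => if G x then (1:ℝ) else 0) k ω
        + K.kill G (fun x => if G x then (0:ℝ) else 1) k ω := by
    rw [← K.kill_add]
    congr 1
    funext x
    split_ifs <;> norm_num
  linarith

open Classical in
lemma kill_one_le (k : ℕ) (ω : Ω) : K.kill G (fun _ => (1:ℝ)) k ω ≤ 1 := by
  refine (K.kill_le_E (fun _ => zero_le_one) k ω).trans ?_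
  rw [E_const]

end Ker

variable {V : Type*} [DecidableEq V] {H : Finset (Finset V)}

/-- in the killed process the state at time `k` has lost exactly `3k` vertices. -/
lemma kill_mono_card (hH : Lin3 H) {G : Finset V → Prop} (hG : ∀ A, G A → act H A ≠ ∅)
    {f g : Finset V → ℝ} (k : ℕ) (A : Finset V)
    (h : ∀ B ⊆ A, B.card + 3 * k = A.card → f B ≤ g B) :
    (baseKer H).kill G f k A ≤ (baseKer H).kill G g k A := by
  induction k generalizing A with
  | zero => exact h A (Finset.Subset.refl _) (by simp)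
  | succ k ih =>
    by_cases hA : G A
    · rw [Ker.kill_succ _ _ _ hA, Ker.kill_succ _ _ _ hA]
      refine (baseKer H).avg_mono _ _ _ (fun x hx => ih x (fun B hB hc => ?_))
      have h1 := card_of_mem_supp hH (hG A hA) hx
      exact h B (hB.trans (subset_of_mem_supp hx)) (by omega)
    · rw [Ker.kill_succ_not _ _ _ hA, Ker.kill_succ_not _ _ _ hA]

theorem val_mono {f g : Finset V → ℝ} (k : ℕ) (A : Finset V) (h : ∀ B ⊆ A, f B ≤ g B) :
    val H f k A ≤ val H g k A := by
  induction k generalizing A with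
  | zero => exact h A (Finset.Subset.refl _)
  | succ k ih =>
    simp only [val]
    split_ifs with h0
    · exact h A (Finset.Subset.refl _)
    · exact mul_le_mul_of_nonneg_left (Finset.sum_le_sum fun T _ =>
        ih _ (fun B hB => h B (hB.trans Finset.sdiff_subset))) (by positivity)

theorem Phi_mono {f g : Finset V → ℝ} (A : Finset V) (h : ∀ B ⊆ A, f B ≤ g B) :
    Phi H f A ≤ Phi H g A := val_mono _ _ h

theorem val_const (c : ℝ) (k : ℕ) (A : Finset V) : val H (fun _ => c) k A = c := by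
  induction k generalizing A with
  | zero => rfl
  | succ k ih =>
    simp only [val]
    split_ifs with h0
    · rfl
    · rw [Finset.sum_congr rfl (fun T _ => ih (A \ T)), Finset.sum_const, nsmul_eq_mul,
        inv_mul_cancel_left₀]
      exact_mod_cast h0

theorem Phi_const (c : ℝ) (A : Finset V) : Phi H (fun _ => c) A = c := val_const _ _ _

theorem card_sym2_le (n : ℕ) (A : Finset (Sym2 (Fin n))) : A.card ≤ n ^ 2 := by
  have h1 : A.card ≤ Fintype.card (Sym2 (Fin n)) := Finset.card_le_univ A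
  have h2 : Fintype.card (Sym2 (Fin n)) = (n + 1).choose 2 := by
    rw [Sym2.card, Fintype.card_fin]
  rw [h2] at h1
  have h3 : (n + 1).choose 2 ≤ n ^ 2 := by
    rw [Nat.choose_two_right]
    apply Nat.div_le_of_le_mul
    rcases Nat.eq_zero_or_pos n with rfl | hn
    · simp
    · have : (n + 1) * (n + 1 - 1) = n * n + n := by
        rw [Nat.add_sub_cancel]; ring
      rw [this]
      nlinarith
  exact h1.trans h3

open Classical in
/-- **The quantitative core of the final assembly.** -/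
theorem moment_bounds {n : ℕ} (hn : 1 ≤ n) {ε : ℝ} (hε0 : 0 < ε) (hε1 : ε ≤ 1)
    {G : Finset (Sym2 (Fin n)) → Prop} {k : ℕ} {R : Finset (Sym2 (Fin n)) → ℝ}
    (hG : ∀ A, G A → act (triHyp n) A ≠ ∅)
    (hhit : (baseKer (triHyp n)).hit (fun A => ¬ G A) G k (allEdges n) * n ≤ ε)
    (hR : (baseKer (triHyp n)).kill G (fun A => if G A then R A else 0) k (allEdges n)
      ≤ ε * (n : ℝ) ^ ((3 : ℝ) / 2))
    (hmain : ∀ A, G A → A.card + 3 * k = (allEdges n).card → A ⊆ allEdges n →
      (1 - ε) * ((n : ℝ) ^ ((3 : ℝ) / 2) / (2 * Real.sqrt 2)) - R A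
        ≤ Phi (triHyp n) (fun B => (B.card : ℝ)) A ∧
      Phi (triHyp n) (fun B => (B.card : ℝ) ^ 2) A
        ≤ (1 + ε) * ((n : ℝ) ^ 3 / 8) + (n : ℝ) ^ ((3 : ℝ) / 2) * R A) :
    expectFinal (fun e : ℕ => ((e : ℝ) / (n : ℝ) ^ ((3 : ℝ) / 2) - 1 / (2 * Real.sqrt 2)) ^ 2)
      (n ^ 2) (allEdges n) ≤ 8 * ε := by
  set K := baseKer (triHyp n) with hK
  set ω := allEdges n with hω
  set N : ℝ := (n : ℝ) ^ ((3 : ℝ) / 2) with hN
  set c : ℝ := 1 / (2 * Real.sqrt 2) with hc
  have hne : ∀ T ∈ triHyp n, T.Nonempty := fun T hT => (lin3_triHyp n).nonempty hT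
  have hn0 : (0:ℝ) < n := by exact_mod_cast hn
  have hn1 : (1:ℝ) ≤ n := by exact_mod_cast hn
  have hN0 : 0 < N := Real.rpow_pos_of_pos hn0 _
  have hN2 : N ^ 2 = (n:ℝ) ^ 3 := by
    rw [hN, ← Real.rpow_natCast, ← Real.rpow_mul hn0.le]
    norm_num
  have hs : 0 < Real.sqrt 2 := by positivity
  have hs2 : Real.sqrt 2 ^ 2 = 2 := Real.sq_sqrt (by norm_num)
  have hc0 : 0 < c := by positivity
  have hc2 : c ^ 2 = 1 / 8 := by
    rw [hc, div_pow, mul_pow, hs2]; norm_num
  have hc1 : c ≤ 2 / 5 := by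
    by_contra hcon
    push Not at hcon
    nlinarith
  -- the two moments
  set E1 := K.E (Phi (triHyp n) (fun B => (B.card : ℝ))) k ω with hE1
  set E2 := K.E (Phi (triHyp n) (fun B => (B.card : ℝ) ^ 2)) k ω with hE2
  have hk' : (allEdges n).card ≤ (allEdges n).card := le_rfl
  have e1 : K.E (fun A => (A.card : ℝ)) ω.card ω = E1 := by
    rw [hE1, ← Phi_eq_E_Phi hne, baseKer_E_eq_Phi hne _ le_rfl]
  have e2 : K.E (fun A => (A.card : ℝ) ^ 2) ω.card ω = E2 := by
    rw [hE2, ← Phi_eq_E_Phi hne, baseKer_E_eq_Phi hne _ le_rfl]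
  have hexp : expectFinal (fun e : ℕ => ((e : ℝ) / N - c) ^ 2) (n ^ 2) (allEdges n)
      = E2 / N ^ 2 - 2 * c / N * E1 + c ^ 2 := by
    rw [expectFinal_eq_E _ n (allEdges n).card le_rfl]
    have h1 : (fun A : Finset (Sym2 (Fin n)) => ((A.card : ℝ) / N - c) ^ 2)
        = fun A => (1 / N ^ 2) * (A.card : ℝ) ^ 2
          + ((- (2 * c / N)) * (A.card : ℝ) + c ^ 2) := by
      funext A
      field_simp
      ring
    rw [h1, Ker.E_add, Ker.E_smul, Ker.E_add, Ker.E_smul, Ker.E_const, ← hω, ← hK, e1, e2]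
    ring
  rw [hexp]
  -- hitting probability
  set P := K.hit (fun A => ¬ G A) G k ω with hP
  have hP0 : 0 ≤ P := K.hit_nonneg k ω
  have hPε : P ≤ ε := by
    have : P * 1 ≤ P * n := mul_le_mul_of_nonneg_left hn1 hP0
    linarith
  have hgood := K.one_sub_le_kill (G := G) k ω
  -- lower bound
  have hlow : (1 - ε) * (N * c) * (1 - 2 * P) - ε * N ≤ E1 := by
    have h0 : ∀ A : Finset (Sym2 (Fin n)), 0 ≤ Phi (triHyp n) (fun B => (B.card : ℝ)) A := by
      intro A
      rw [← Phi_const (H := triHyp n) 0 A]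
      exact Phi_mono A (fun B _ => by positivity)
    have h1 : K.kill G (fun A => if G A then Phi (triHyp n) (fun B => (B.card : ℝ)) A else 0) k ω
        ≤ E1 := by
      refine le_trans (K.kill_mono (fun A => ?_) k ω) (K.kill_le_E h0 k ω)
      split_ifs
      · exact le_rfl
      · exact h0 A
    have h2 : K.kill G (fun A => (1 - ε) * (N * c) * (if G A then (1:ℝ) else 0)
          + (-1) * (if G A then R A else 0)) k ω
        ≤ K.kill G (fun A => if G A then Phi (triHyp n) (fun B => (B.card : ℝ)) A else 0) k ω := by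
      refine kill_mono_card (lin3_triHyp n) hG k ω (fun B hB hcard => ?_)
      by_cases hGB : G B
      · have := (hmain B hGB hcard hB).1
        simp only [hGB, if_true]
        have e : N / (2 * Real.sqrt 2) = N * c := by rw [hc]; ring
        rw [e] at this
        linarith
      · simp [hGB]
    rw [K.kill_add, K.kill_smul, K.kill_smul] at h2
    have h3 : (1 - ε) * (N * c) * (1 - 2 * P)
        ≤ (1 - ε) * (N * c) * K.kill G (fun x => if G x then (1:ℝ) else 0) k ω :=
      mul_le_mul_of_nonneg_left hgood (mul_nonneg (by linarith) (by positivity))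
    linarith
  -- upper bound
  have hup : E2 ≤ (1 + ε) * (n ^ 3 / 8) + ε * N ^ 2 + 2 * ((n:ℝ) ^ 4 * P) := by
    have hb : ∀ A : Finset (Sym2 (Fin n)),
        Phi (triHyp n) (fun B => (B.card : ℝ) ^ 2) A ≤ (n:ℝ) ^ 4 := by
      intro A
      rw [← Phi_const (H := triHyp n) ((n:ℝ) ^ 4) A]
      refine Phi_mono A (fun B _ => ?_)
      have h1 : (B.card : ℝ) ≤ (n:ℝ) ^ 2 := by exact_mod_cast card_sym2_le n B
      calc (B.card : ℝ) ^ 2 ≤ ((n:ℝ) ^ 2) ^ 2 := pow_le_pow_left₀ (by positivity) h1 2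
        _ = (n:ℝ) ^ 4 := by ring
    have h1 := K.E_le_kill_add (G := G) hb (by positivity) k ω
    have h2 : K.kill G (Phi (triHyp n) (fun B => (B.card : ℝ) ^ 2)) k ω
        ≤ K.kill G (fun A => (1 + ε) * ((n:ℝ) ^ 3 / 8) * 1
            + (N * (if G A then R A else 0) + (n:ℝ) ^ 4 * (if G A then (0:ℝ) else 1))) k ω := by
      refine kill_mono_card (lin3_triHyp n) hG k ω (fun B hB hcard => ?_)
      by_cases hGB : G B
      · have := (hmain B hGB hcard hB).2
        simp only [hGB, if_true]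
        linarith
      · simp only [hGB, if_false]
        have := hb B
        have h3 : 0 ≤ (1 + ε) * ((n:ℝ) ^ 3 / 8) := by positivity
        linarith
    rw [K.kill_add, K.kill_smul, K.kill_add, K.kill_smul, K.kill_smul] at h2
    have h3 := K.kill_not_le_hit (G := G) k ω
    have h4 := K.kill_one_le (G := G) k ω
    have h5 : (1 + ε) * ((n:ℝ) ^ 3 / 8) * K.kill G (fun _ => (1:ℝ)) k ω
        ≤ (1 + ε) * ((n:ℝ) ^ 3 / 8) * 1 := mul_le_mul_of_nonneg_left h4 (by positivity)
    have h6 : N * K.kill G (fun A => if G A then R A else 0) k ω ≤ N * (ε * N) :=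
      mul_le_mul_of_nonneg_left hR hN0.le
    have h7 : (n:ℝ) ^ 4 * K.kill G (fun x => if G x then (0:ℝ) else 1) k ω ≤ (n:ℝ) ^ 4 * P :=
      mul_le_mul_of_nonneg_left h3 (by positivity)
    have h8 : N * (ε * N) = ε * N ^ 2 := by ring
    linarith
  have h4P : (n:ℝ) ^ 4 * P ≤ ε * N ^ 2 := by
    rw [hN2]
    have := mul_le_mul_of_nonneg_left hhit (by positivity : (0:ℝ) ≤ (n:ℝ) ^ 3)
    calc (n:ℝ) ^ 4 * P = (n:ℝ) ^ 3 * (P * n) := by ring
      _ ≤ (n:ℝ) ^ 3 * ε := this
      _ = ε * (n:ℝ) ^ 3 := by ring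
  -- conclusion
  have hlow2 : N * c - 3 * ε * N ≤ E1 := by
    refine le_trans ?_ hlow
    have h1 : (1 - ε) * (1 - 2 * P) ≥ 1 - 3 * ε := by nlinarith
    have h2 : (1 - ε) * (N * c) * (1 - 2 * P) ≥ (N * c) * (1 - 3 * ε) := by
      have := mul_le_mul_of_nonneg_left h1 (by positivity : 0 ≤ N * c)
      nlinarith
    have h3 : N * c * (3 * ε) ≤ N * (2 / 5) * (3 * ε) := by
      apply mul_le_mul_of_nonneg_right _ (by positivity)
      exact mul_le_mul_of_nonneg_left hc1 hN0.le
    nlinarith [mul_pos hN0 hε0]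
  have hup2 : E2 ≤ N ^ 2 * (1 / 8 + 4 * ε) := by
    rw [← hN2] at hup
    nlinarith [mul_pos (pow_pos hN0 2) hε0]
  have h1 : E2 / N ^ 2 ≤ 1 / 8 + 4 * ε := by
    rw [div_le_iff₀ (by positivity)]
    linarith
  have h2 : 2 * c / N * (N * c - 3 * ε * N) ≤ 2 * c / N * E1 :=
    mul_le_mul_of_nonneg_left hlow2 (by positivity)
  have h3 : 2 * c / N * (N * c - 3 * ε * N) = 2 * c ^ 2 - 6 * c * ε := by
    field_simp
    ring
  rw [h3] at h2
  have h4 : c * ε ≤ 2 / 5 * ε := mul_le_mul_of_nonneg_right hc1 hε0.le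
  linarith

open Classical in
/-- **Abstract final assembly of S0040.** -/
theorem tendsto_of_pieces
    (h : ∀ ε : ℝ, 0 < ε → ∀ᶠ n : ℕ in atTop,
      ∃ (G : Finset (Sym2 (Fin n)) → Prop) (k : ℕ) (R : Finset (Sym2 (Fin n)) → ℝ),
        (∀ A, G A → act (triHyp n) A ≠ ∅) ∧
        (baseKer (triHyp n)).hit (fun A => ¬ G A) G k (allEdges n) * n ≤ ε ∧
        (baseKer (triHyp n)).kill G (fun A => if G A then R A else 0) k (allEdges n)
          ≤ ε * (n : ℝ) ^ ((3 : ℝ) / 2) ∧
        ∀ A, G A → A.card + 3 * k = (allEdges n).card → A ⊆ allEdges n →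
          (1 - ε) * ((n : ℝ) ^ ((3 : ℝ) / 2) / (2 * Real.sqrt 2)) - R A
            ≤ Phi (triHyp n) (fun B => (B.card : ℝ)) A ∧
          Phi (triHyp n) (fun B => (B.card : ℝ) ^ 2) A
            ≤ (1 + ε) * ((n : ℝ) ^ 3 / 8) + (n : ℝ) ^ ((3 : ℝ) / 2) * R A) :
    Tendsto (fun n : ℕ =>
      expectFinal
        (fun e : ℕ => ((e : ℝ) / (n : ℝ) ^ ((3 : ℝ) / 2) - 1 / (2 * Real.sqrt 2)) ^ 2)
        (n ^ 2) (allEdges n))
      atTop (nhds 0) := by
  have hnonneg : ∀ n : ℕ, 0 ≤ expectFinal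
        (fun e : ℕ => ((e : ℝ) / (n : ℝ) ^ ((3 : ℝ) / 2) - 1 / (2 * Real.sqrt 2)) ^ 2)
        (n ^ 2) (allEdges n) := by
    intro n
    rw [expectFinal_eq_E _ n (allEdges n).card le_rfl]
    exact Ker.E_nonneg _ (fun A => sq_nonneg _) _ _
  rw [Metric.tendsto_nhds]
  intro ε hε
  have hε' : 0 < min 1 (ε / 16) := lt_min one_pos (by linarith)
  filter_upwards [h (min 1 (ε / 16)) hε', eventually_ge_atTop 1] with n hn hn1
  obtain ⟨G, k, R, hG, hhit, hR, hmain⟩ := hn
  have := moment_bounds hn1 hε' (min_le_left _ _) hG hhit hR hmain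
  rw [Real.dist_eq, sub_zero, abs_of_nonneg (hnonneg n)]
  have h2 : min 1 (ε / 16) ≤ ε / 16 := min_le_right _ _
  linarith

end Crest.Agent.R030
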