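import Crest.Agent.R030.Iface
import Crest.Agent.R030.Analysis
import Crest.Agent.R030.FinalAbs

/-!
# R030 (S0040): facts about the parameter block
-/

set_option autoImplicit false

open Finset Filter Topology
open Crest.CombinatoricsR.TriangleRemoval

namespace Crest.Agent.R030

namespace Iface

variable {n : ℕ}

theorem card_allEdges (n : ℕ) : (allEdges n).card = n.choose 2 := by
  have := Sym2.card_subtype_not_diag (α := Fin n)
  rw [Fintype.card_fin] at this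
  rw [← this, allEdges, Fintype.card_subtype]

theorem x0n_eq (n : ℕ) : x0n n = n * (n - 1) / 2 := by
  rw [x0n, card_allEdges, Nat.cast_choose_two]

theorem x0n_le (n : ℕ) : x0n n ≤ (n : ℝ) ^ 2 / 2 := by
  rw [x0n_eq]
  have : (0:ℝ) ≤ n := by positivity
  nlinarith

theorem x0n_nonneg (n : ℕ) : 0 ≤ x0n n := by unfold x0n; positivity

theorem x0n_ge {n : ℕ} (hn : 2 ≤ n) : (n : ℝ) ^ 2 / 4 ≤ x0n n := by
  rw [x0n_eq]
  have : (2:ℝ) ≤ n := by exact_mod_cast hn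
  nlinarith

theorem card_le_x0n {E : Finset (Sym2 (Fin n))} (hE : E ⊆ allEdges n) :
    (E.card : ℝ) ≤ x0n n := by
  unfold x0n
  exact_mod_cast Finset.card_le_card hE

theorem Xn_pos {δ : ℝ} (hn : 1 ≤ n) : 0 < Xn δ n := by
  have : (0:ℝ) < n := by exact_mod_cast hn
  unfold Xn; positivity

theorem lamx_Xn {δ : ℝ} (hn : 1 ≤ n) : Kap.lamx n (Xn δ n) = (n : ℝ) ^ δ := by
  have hn0 : (0:ℝ) < n := by exact_mod_cast hn
  unfold Kap.lamx Xn
  have h1 : ((n : ℝ) ^ ((3 + δ) / 2)) ^ 2 = (n:ℝ) ^ (3:ℕ) * (n:ℝ) ^ δ := by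
    rw [← Real.rpow_natCast, ← Real.rpow_mul hn0.le, ← Real.rpow_natCast,
      ← Real.rpow_add hn0]
    congr 1
    push_cast
    ring
  rw [div_pow, h1]
  field_simp
  ring

theorem lamx_mono {N x y : ℝ} (hN : 0 < N) (hx : 0 ≤ x) (hxy : x ≤ y) :
    Kap.lamx N x ≤ Kap.lamx N y := by
  unfold Kap.lamx
  apply div_le_div_of_nonneg_right _ (by positivity)
  have := pow_le_pow_left₀ hx hxy 2
  linarith

/-- `lamx ≥ n^δ` on the states considered -/
theorem lamx_ge {δ x : ℝ} (hn : 1 ≤ n) (hx : Xn δ n ≤ x) : (n : ℝ) ^ δ ≤ Kap.lamx n x := by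
  rw [← lamx_Xn (δ := δ) hn]
  exact lamx_mono (by exact_mod_cast hn) (Xn_pos hn).le hx

theorem Xn_ge {δ : ℝ} (hn : 1 ≤ n) (hδ : 0 ≤ δ) : (n : ℝ) ^ ((3:ℝ) / 2) / 2 ≤ Xn δ n := by
  unfold Xn
  have : (1:ℝ) ≤ n := by exact_mod_cast hn
  apply div_le_div_of_nonneg_right _ (by norm_num)
  exact Real.rpow_le_rpow_of_exponent_le this (by linarith)

/-- the number of edges at the end of Stage 1 is large -/
theorem eventually_Xn_ge (δ : ℝ) (hδ : 0 ≤ δ) (C : ℝ) : ∀ᶠ n : ℕ in atTop, C ≤ Xn δ n := by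
  have h1 : Tendsto (fun n : ℕ => (n : ℝ) ^ ((3:ℝ) / 2)) atTop atTop :=
    (tendsto_rpow_atTop (by norm_num)).comp tendsto_natCast_atTop_atTop
  filter_upwards [h1.eventually_ge_atTop (2 * C), eventually_ge_atTop 1] with n hn hn1
  have := Xn_ge (n := n) hn1 hδ
  linarith

theorem eventually_Xn_le (δ : ℝ) (hδ : δ < 1) :
    ∀ᶠ n : ℕ in atTop, Xn δ n + 3 ≤ x0n n := by
  have h2 : Tendsto (fun n : ℕ => (n : ℝ) ^ ((1 - δ) / 2)) atTop atTop :=
    (tendsto_rpow_atTop (by linarith)).comp tendsto_natCast_atTop_atTop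
  filter_upwards [h2.eventually_ge_atTop 4, eventually_ge_atTop 5] with n hn hn1
  have hn0 : (0:ℝ) < n := by positivity
  have hn5 : (5:ℝ) ≤ n := by exact_mod_cast hn1
  have h3 := x0n_ge (n := n) (by omega)
  have h4 : (n:ℝ) ^ 2 = (n:ℝ) ^ ((3 + δ) / 2) * (n:ℝ) ^ ((1 - δ) / 2) := by
    rw [← Real.rpow_add hn0, ← Real.rpow_natCast]
    congr 1
    push_cast
    ring
  have h5 : 0 < (n:ℝ) ^ ((3 + δ) / 2) := by positivity
  have h6 : 8 * Xn δ n ≤ (n:ℝ) ^ 2 := by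
    rw [h4]
    unfold Xn
    nlinarith
  nlinarith

/-- size of the window -/
theorem eventually_kap_le (δ : ℝ) (hδ0 : 0 < δ) (hδ1 : δ < 1) :
    ∀ᶠ n : ℕ in atTop, ∀ x : ℝ, Xn δ n ≤ x → x ≤ x0n n →
      Kap.kap n (x0n n) (etan δ n) x ≤ (n : ℝ) ^ (-(δ / 9)) / 4 := by
  have h1 := (eventually_log_pow_mul_rpow_neg_le 4 1 (c := δ / 72) (ε := 1 / 8)
    (by positivity) (by norm_num))
  have h1' := tendsto_natCast_atTop_atTop.eventually h1
  have h2 : Tendsto (fun n : ℕ => (n : ℝ) ^ (δ - δ / 9)) atTop atTop :=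
    (tendsto_rpow_atTop (by linarith)).comp tendsto_natCast_atTop_atTop
  filter_upwards [h1', h2.eventually_ge_atTop 24, eventually_ge_atTop 2] with n hn1 hn2 hn3
  intro x hx hx0
  have hn0 : (0:ℝ) < n := by positivity
  have hn1' : (1:ℝ) ≤ n := by
    have : 1 ≤ n := by omega
    exact_mod_cast this
  have hXpos := Xn_pos (δ := δ) (n := n) (by omega)
  have hxpos : 0 < x := lt_of_lt_of_le hXpos hx
  rw [Real.rpow_one] at hn1
  have hlogn : 0 ≤ Real.log n := Real.log_nonneg hn1'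
  -- the log term
  have hlog : Real.log (x0n n / x) ≤ Real.log n := by
    apply Real.log_le_log
    · have : 0 < x0n n := lt_of_lt_of_le hxpos hx0
      positivity
    · rw [div_le_iff₀ hxpos]
      have h3 := x0n_le n
      have h4 : (n:ℝ) ^ ((3:ℝ)/2) / 2 ≤ x := (Xn_ge (by omega) hδ0.le).trans hx
      have h5 : (n:ℝ) ^ (1:ℝ) ≤ (n:ℝ) ^ ((3:ℝ)/2) :=
        Real.rpow_le_rpow_of_exponent_le hn1' (by norm_num)
      rw [Real.rpow_one] at h5
      nlinarith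
  unfold Kap.kap etan
  have h3 : 4 * (n:ℝ) ^ (-(δ / 8)) * Real.log (x0n n / x) ≤ (n:ℝ) ^ (-(δ / 9)) / 8 := by
    have e : (n:ℝ) ^ (-(δ / 8)) = (n:ℝ) ^ (-(δ / 72)) * (n:ℝ) ^ (-(δ / 9)) := by
      rw [← Real.rpow_add hn0]; congr 1; ring
    rw [e]
    have h9 : 0 < (n:ℝ) ^ (-(δ / 9)) := by positivity
    calc 4 * ((n:ℝ) ^ (-(δ / 72)) * (n:ℝ) ^ (-(δ / 9))) * Real.log (x0n n / x)
        ≤ 4 * ((n:ℝ) ^ (-(δ / 72)) * (n:ℝ) ^ (-(δ / 9))) * Real.log n :=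
          mul_le_mul_of_nonneg_left hlog (by positivity)
      _ = (4 * Real.log n * (n:ℝ) ^ (-(δ / 72))) * (n:ℝ) ^ (-(δ / 9)) := by ring
      _ ≤ (1 / 8) * (n:ℝ) ^ (-(δ / 9)) := mul_le_mul_of_nonneg_right hn1 h9.le
      _ = _ := by ring
  have h4 : 3 / Kap.lamx n x ≤ (n:ℝ) ^ (-(δ / 9)) / 8 := by
    have h5 := lamx_ge (n := n) (δ := δ) (by omega) hx
    have h6 : 0 < (n:ℝ) ^ δ := by positivity
    have h7 : 3 / Kap.lamx n x ≤ 3 / (n:ℝ) ^ δ := by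
      apply div_le_div_of_nonneg_left (by norm_num) h6 h5
    refine h7.trans ?_
    rw [div_le_iff₀ h6]
    have e : (n:ℝ) ^ (-(δ / 9)) / 8 * (n:ℝ) ^ δ = (n:ℝ) ^ (δ - δ / 9) / 8 := by
      rw [div_mul_eq_mul_div, ← Real.rpow_add hn0]
      congr 2
      ring
    rw [e]
    linarith
  linarith

/-- the number of edges after Stage 1 -/
theorem kn_spec (δ : ℝ) {n : ℕ} (h : Xn δ n ≤ x0n n) :
    Xn δ n ≤ x0n n - 3 * kn δ n ∧ x0n n - 3 * kn δ n < Xn δ n + 3 := by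
  have h1 : (kn δ n : ℝ) ≤ (x0n n - Xn δ n) / 3 := Nat.floor_le (by linarith)
  have h2 : (x0n n - Xn δ n) / 3 < kn δ n + 1 := Nat.lt_floor_add_one _
  constructor <;> linarith

theorem etan_pos {δ : ℝ} (hn : 1 ≤ n) : 0 < etan δ n := by
  have : (0:ℝ) < n := by exact_mod_cast hn
  unfold etan; positivity

theorem eventually_etan_le (δ : ℝ) (hδ : 0 < δ) {c : ℝ} (hc : 0 < c) :
    ∀ᶠ n : ℕ in atTop, etan δ n ≤ c := by
  have h1 : Tendsto (fun n : ℕ => (n : ℝ) ^ (-(δ / 8))) atTop (nhds 0) :=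
    (tendsto_rpow_neg_atTop (by linarith)).comp tendsto_natCast_atTop_atTop
  filter_upwards [h1.eventually (ge_mem_nhds hc)] with n hn
  exact hn

end Iface

end Crest.Agent.R030
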