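import Mathlib

/-!
Row 30 (helper148): program monad with label oracle.  `Prog B L A` = programs that may ask
the label (in `L`) of an element of `B` and finally return an element of `A`.
`run U` = real semantics for the label assignment `U : B → L`;
`fresh` = every ask is answered by a fresh uniform label;
`tfresh` = the same, with the list of asked elements;
`rep` = fresh probability that some element is asked twice.
Main result: `coupling : |avg_U f (run U p) - fresh p f| ≤ rep p ∅` for `0 ≤ f ≤ 1`
and `rep p ∅ ≤ tfresh p (fun _ t => pairs t)`.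
-/

open Finset

namespace Crest.Agent.R030

/-- Programs asking labels. -/
inductive Prog (B L A : Type) : Type
  | ret (a : A) : Prog B L A
  | ask (b : B) (k : L → Prog B L A) : Prog B L A

/-- Average over a finite type. -/
noncomputable def avg (L : Type) [Fintype L] (F : L → ℝ) : ℝ :=
  (Fintype.card L : ℝ)⁻¹ * ∑ l, F l

section avg
variable {L L' : Type} [Fintype L] [Fintype L']

theorem avg_const [Nonempty L] (c : ℝ) : avg L (fun _ => c) = c := by
  unfold avg
  rw [Finset.sum_const, Finset.card_univ, nsmul_eq_mul, ← mul_assoc,
    inv_mul_cancel₀ (Nat.cast_ne_zero.mpr Fintype.card_ne_zero), one_mul]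

theorem avg_mono {F G : L → ℝ} (h : ∀ l, F l ≤ G l) : avg L F ≤ avg L G := by
  unfold avg
  exact mul_le_mul_of_nonneg_left (Finset.sum_le_sum fun l _ => h l) (by positivity)

theorem avg_nonneg {F : L → ℝ} (h : ∀ l, 0 ≤ F l) : 0 ≤ avg L F := by
  unfold avg
  exact mul_nonneg (by positivity) (Finset.sum_nonneg fun l _ => h l)

theorem avg_add (F G : L → ℝ) : avg L (fun l => F l + G l) = avg L F + avg L G := by
  unfold avg; rw [Finset.sum_add_distrib, mul_add]

theorem avg_sub (F G : L → ℝ) : avg L (fun l => F l - G l) = avg L F - avg L G := by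
  unfold avg; rw [Finset.sum_sub_distrib, mul_sub]

theorem avg_mul_left (c : ℝ) (F : L → ℝ) : avg L (fun l => c * F l) = c * avg L F := by
  unfold avg; rw [← Finset.mul_sum]; ring

theorem avg_mul_right (c : ℝ) (F : L → ℝ) : avg L (fun l => F l * c) = avg L F * c := by
  unfold avg; rw [← Finset.sum_mul]; ring

theorem avg_sum {ι : Type*} (s : Finset ι) (F : ι → L → ℝ) :
    avg L (fun l => ∑ i ∈ s, F i l) = ∑ i ∈ s, avg L (F i) := by
  unfold avg; rw [Finset.sum_comm, Finset.mul_sum]

theorem abs_avg_le (F : L → ℝ) : |avg L F| ≤ avg L (fun l => |F l|) := by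
  unfold avg
  rw [abs_mul, abs_of_nonneg (by positivity : (0:ℝ) ≤ (Fintype.card L : ℝ)⁻¹)]
  exact mul_le_mul_of_nonneg_left (Finset.abs_sum_le_sum_abs _ _) (by positivity)

theorem avg_comm (F : L → L' → ℝ) :
    avg L (fun l => avg L' (fun l' => F l l')) = avg L' (fun l' => avg L (fun l => F l l')) := by
  unfold avg
  simp_rw [Finset.mul_sum]
  rw [Finset.sum_comm]
  refine Finset.sum_congr rfl fun l' _ => Finset.sum_congr rfl fun l _ => by ring

/-- Resampling one coordinate. -/
theorem avg_update {B : Type} [Fintype B] [DecidableEq B] (b : B) [Nonempty L]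
    (G : (B → L) → ℝ) :
    avg L (fun l => avg (B → L) (fun U => G (Function.update U b l))) = avg (B → L) G := by
  classical
  have key : ∑ l : L, ∑ U : B → L, G (Function.update U b l)
      = (Fintype.card L : ℝ) * ∑ U : B → L, G U := by
    let e := Equiv.funSplitAt b L
    have h1 : ∀ F : (B → L) → ℝ, ∑ U : B → L, F U
        = ∑ x : L, ∑ r : {j // j ≠ b} → L, F (e.symm (x, r)) := by
      intro F
      rw [← Fintype.sum_prod_type' (f := fun x r => F (e.symm (x, r)))]
      exact (Equiv.sum_comp e.symm F).symm
    have h2 : ∀ (l x : L) (r : {j // j ≠ b} → L),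
        Function.update (e.symm (x, r)) b l = e.symm (l, r) := by
      intro l x r
      funext j
      by_cases hj : j = b
      · subst hj; simp [e, Equiv.funSplitAt, Equiv.piSplitAt]
      · simp [e, Equiv.funSplitAt, Equiv.piSplitAt, hj]
    calc ∑ l : L, ∑ U : B → L, G (Function.update U b l)
        = ∑ l : L, ∑ x : L, ∑ r : {j // j ≠ b} → L, G (e.symm (l, r)) := by
          refine Finset.sum_congr rfl fun l _ => ?_
          rw [h1]
          simp_rw [h2]
      _ = ∑ l : L, (Fintype.card L : ℝ) * ∑ r : {j // j ≠ b} → L, G (e.symm (l, r)) := by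
          refine Finset.sum_congr rfl fun l _ => ?_
          rw [Finset.sum_const, Finset.card_univ, nsmul_eq_mul]
      _ = (Fintype.card L : ℝ) * ∑ U : B → L, G U := by
          rw [← Finset.mul_sum, ← h1]
  have hL : (Fintype.card L : ℝ) ≠ 0 := Nat.cast_ne_zero.mpr Fintype.card_ne_zero
  unfold avg
  rw [← Finset.mul_sum, key]
  field_simp

end avg

namespace Prog

variable {B L A C : Type}

/-- Sequential composition. -/
def bind : Prog B L A → (A → Prog B L C) → Prog B L C
  | ret a, f => f a
  | ask b k, f => ask b (fun l => bind (k l) f)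

/-- Real semantics. -/
def run (U : B → L) : Prog B L A → A
  | ret a => a
  | ask b k => run U (k (U b))

/-- Fresh semantics (expectation of a test function). -/
noncomputable def fresh [Fintype L] : Prog B L A → (A → ℝ) → ℝ
  | ret a, f => f a
  | ask _ k, f => avg L (fun l => fresh (k l) f)

/-- Fresh semantics with the list of asked elements. -/
noncomputable def tfresh [Fintype L] : Prog B L A → (A → List B → ℝ) → ℝ
  | ret a, g => g a []
  | ask b k, g => avg L (fun l => tfresh (k l) (fun a t => g a (b :: t)))

/-- Fresh probability that some element is asked twice (or that an element of `D` is asked). -/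
noncomputable def rep [Fintype L] [DecidableEq B] : Prog B L A → Finset B → ℝ
  | ret _, _ => 0
  | ask b k, D => if b ∈ D then 1 else avg L (fun l => rep (k l) (insert b D))

/-! ### simp lemmas -/

@[simp] theorem bind_ret (a : A) (f : A → Prog B L C) : bind (ret a) f = f a := rfl
@[simp] theorem bind_ask (b : B) (k : L → Prog B L A) (f : A → Prog B L C) :
    bind (ask b k) f = ask b (fun l => bind (k l) f) := rfl
@[simp] theorem run_ret (U : B → L) (a : A) : run U (ret a) = a := rfl
@[simp] theorem run_ask (U : B → L) (b : B) (k : L → Prog B L A) :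
    run U (ask b k) = run U (k (U b)) := rfl

@[simp] theorem run_bind (U : B → L) (p : Prog B L A) (f : A → Prog B L C) :
    run U (bind p f) = run U (f (run U p)) := by
  induction p with
  | ret a => rfl
  | ask b k ih => exact ih _

theorem bind_assoc {D : Type} (p : Prog B L A) (f : A → Prog B L C) (g : C → Prog B L D) :
    bind (bind p f) g = bind p (fun a => bind (f a) g) := by
  induction p with
  | ret a => rfl
  | ask b k ih => simp only [bind_ask]; congr 1; funext l; exact ih l

theorem bind_ret_right (p : Prog B L A) : bind p ret = p := by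
  induction p with
  | ret a => rfl
  | ask b k ih => simp only [bind_ask]; congr 1; funext l; exact ih l

section
variable [Fintype L]

@[simp] theorem fresh_ret (a : A) (f : A → ℝ) : fresh (ret a : Prog B L A) f = f a := rfl
@[simp] theorem fresh_ask (b : B) (k : L → Prog B L A) (f : A → ℝ) :
    fresh (ask b k) f = avg L (fun l => fresh (k l) f) := rfl
@[simp] theorem tfresh_ret (a : A) (g : A → List B → ℝ) :
    tfresh (ret a : Prog B L A) g = g a [] := rfl
@[simp] theorem tfresh_ask (b : B) (k : L → Prog B L A) (g : A → List B → ℝ) :
    tfresh (ask b k) g = avg L (fun l => tfresh (k l) (fun a t => g a (b :: t))) := rfl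

theorem fresh_bind (p : Prog B L A) (f : A → Prog B L C) (g : C → ℝ) :
    fresh (bind p f) g = fresh p (fun a => fresh (f a) g) := by
  induction p with
  | ret a => rfl
  | ask b k ih => simp only [bind_ask, fresh_ask, ih]

theorem tfresh_bind (p : Prog B L A) (f : A → Prog B L C) (g : C → List B → ℝ) :
    tfresh (bind p f) g
      = tfresh p (fun a t => tfresh (f a) (fun c t' => g c (t ++ t'))) := by
  induction p generalizing g with
  | ret a => simp
  | ask b k ih => simp only [bind_ask, tfresh_ask, ih, List.cons_append]

/-- `tfresh` of a test function not depending on the trace. -/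
theorem tfresh_eq_fresh (p : Prog B L A) (f : A → ℝ) :
    tfresh p (fun a _ => f a) = fresh p f := by
  induction p with
  | ret a => rfl
  | ask b k ih => simp only [tfresh_ask, fresh_ask, ih]

theorem fresh_mono (p : Prog B L A) {f g : A → ℝ} (h : ∀ a, f a ≤ g a) :
    fresh p f ≤ fresh p g := by
  induction p with
  | ret a => exact h a
  | ask b k ih => exact avg_mono ih

theorem tfresh_mono (p : Prog B L A) {f g : A → List B → ℝ} (h : ∀ a t, f a t ≤ g a t) :
    tfresh p f ≤ tfresh p g := by
  induction p generalizing f g with
  | ret a => exact h a []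
  | ask b k ih => exact avg_mono fun l => ih l fun a t => h a (b :: t)

theorem fresh_const [Nonempty L] (p : Prog B L A) (c : ℝ) : fresh p (fun _ => c) = c := by
  induction p with
  | ret a => rfl
  | ask b k ih => simp only [fresh_ask, ih, avg_const]

theorem tfresh_const [Nonempty L] (p : Prog B L A) (c : ℝ) :
    tfresh p (fun _ _ => c) = c := by
  rw [tfresh_eq_fresh, fresh_const]

theorem fresh_add (p : Prog B L A) (f g : A → ℝ) :
    fresh p (fun a => f a + g a) = fresh p f + fresh p g := by
  induction p with
  | ret a => rfl
  | ask b k ih => simp only [fresh_ask, ih, avg_add]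

theorem tfresh_add (p : Prog B L A) (f g : A → List B → ℝ) :
    tfresh p (fun a t => f a t + g a t) = tfresh p f + tfresh p g := by
  induction p generalizing f g with
  | ret a => rfl
  | ask b k ih => simp only [tfresh_ask, ih, avg_add]

theorem fresh_mul_left (c : ℝ) (p : Prog B L A) (f : A → ℝ) :
    fresh p (fun a => c * f a) = c * fresh p f := by
  induction p with
  | ret a => rfl
  | ask b k ih => simp only [fresh_ask, ih, avg_mul_left]

theorem tfresh_mul_left (c : ℝ) (p : Prog B L A) (f : A → List B → ℝ) :
    tfresh p (fun a t => c * f a t) = c * tfresh p f := by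
  induction p generalizing f with
  | ret a => rfl
  | ask b k ih => simp only [tfresh_ask, ih, avg_mul_left]

theorem fresh_mul_right (c : ℝ) (p : Prog B L A) (f : A → ℝ) :
    fresh p (fun a => f a * c) = fresh p f * c := by
  simp only [mul_comm _ c, fresh_mul_left]

theorem tfresh_mul_right (c : ℝ) (p : Prog B L A) (f : A → List B → ℝ) :
    tfresh p (fun a t => f a t * c) = tfresh p f * c := by
  simp only [mul_comm _ c, tfresh_mul_left]

theorem fresh_sum {ι : Type*} (s : Finset ι) (p : Prog B L A) (f : ι → A → ℝ) :
    fresh p (fun a => ∑ i ∈ s, f i a) = ∑ i ∈ s, fresh p (f i) := by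
  induction p with
  | ret a => rfl
  | ask b k ih => simp only [fresh_ask, ih, avg_sum]

theorem tfresh_sum {ι : Type*} (s : Finset ι) (p : Prog B L A) (f : ι → A → List B → ℝ) :
    tfresh p (fun a t => ∑ i ∈ s, f i a t) = ∑ i ∈ s, tfresh p (f i) := by
  induction p generalizing f with
  | ret a => rfl
  | ask b k ih => simp only [tfresh_ask, ih, avg_sum]

theorem fresh_nonneg (p : Prog B L A) {f : A → ℝ} (h : ∀ a, 0 ≤ f a) : 0 ≤ fresh p f := by
  induction p with
  | ret a => exact h a
  | ask b k ih => exact avg_nonneg ih

theorem tfresh_nonneg (p : Prog B L A) {f : A → List B → ℝ} (h : ∀ a t, 0 ≤ f a t) :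
    0 ≤ tfresh p f := by
  induction p generalizing f with
  | ret a => exact h a []
  | ask b k ih => exact avg_nonneg fun l => ih l fun a t => h a (b :: t)

theorem fresh_le_one [Nonempty L] (p : Prog B L A) {f : A → ℝ} (h : ∀ a, f a ≤ 1) :
    fresh p f ≤ 1 := by
  have := fresh_mono p h
  rwa [fresh_const] at this

/-- Two programs one after the other: the fresh expectation of a product. -/
theorem fresh_pair (p : Prog B L A) (q : Prog B L C) (f : A → ℝ) (g : C → ℝ) :
    fresh (bind p (fun a => bind q (fun c => ret (a, c)))) (fun x => f x.1 * g x.2)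
      = fresh p f * fresh q g := by
  rw [fresh_bind]
  simp only [fresh_bind, fresh_ret, fresh_mul_left, fresh_mul_right]

theorem run_pair (U : B → L) (p : Prog B L A) (q : Prog B L C) :
    run U (bind p (fun a => bind q (fun c => ret (a, c)))) = (run U p, run U q) := by
  simp

end

/-! ### The coupling lemma -/

section coupling
variable [Fintype L] [Nonempty L] [Fintype B] [DecidableEq B]

theorem rep_nonneg (p : Prog B L A) (D : Finset B) : 0 ≤ rep p D := by
  induction p generalizing D with
  | ret a => exact le_refl _
  | ask b k ih =>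
    unfold rep
    split_ifs
    · exact zero_le_one
    · exact avg_nonneg fun l => ih l _

/-- Average over the labels outside `D`, the labels on `D` being given by `a`. -/
noncomputable def condAvg (D : Finset B) (a : B → L) (F : (B → L) → ℝ) : ℝ :=
  avg (B → L) (fun U => F (fun b => if b ∈ D then a b else U b))

theorem condAvg_split (D : Finset B) (a : B → L) (F : (B → L) → ℝ) (b : B) (hb : b ∉ D) :
    condAvg D a F = avg L (fun l => condAvg (insert b D) (Function.update a b l) F) := by
  unfold condAvg
  rw [← avg_update b (fun U => F (fun c => if c ∈ D then a c else U c))]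
  refine congrArg (avg L) (funext fun l => congrArg _ (funext fun U => congrArg F ?_))
  funext c
  by_cases hc : c = b
  · subst hc; simp [hb]
  · simp [hc, Function.update_of_ne hc]

theorem condAvg_coupling (p : Prog B L A) (f : A → ℝ) (h0 : ∀ a, 0 ≤ f a) (h1 : ∀ a, f a ≤ 1)
    (D : Finset B) (a : B → L) :
    |condAvg D a (fun U => f (run U p)) - fresh p f| ≤ rep p D := by
  induction p generalizing D a with
  | ret x =>
    simp only [run_ret, fresh_ret, condAvg, avg_const, sub_self, abs_zero]
    exact le_refl _
  | ask b k ih =>
    unfold rep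
    split_ifs with hb
    · have e1 : condAvg D a (fun U => f (run U (ask b k))) ≤ 1 := by
        have := avg_mono (L := B → L)
          (F := fun U => f (run (fun b => if b ∈ D then a b else U b) (ask b k)))
          (G := fun _ => 1) (fun U => h1 _)
        rwa [avg_const] at this
      have e2 : 0 ≤ condAvg D a (fun U => f (run U (ask b k))) := avg_nonneg fun U => h0 _
      have e3 : 0 ≤ fresh (ask b k) f := fresh_nonneg _ h0
      have e4 : fresh (ask b k) f ≤ 1 := fresh_le_one _ h1
      rw [abs_le]; constructor <;> linarith
    · rw [condAvg_split D a _ b hb, fresh_ask, ← avg_sub]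
      refine (abs_avg_le _).trans (avg_mono fun l => ?_)
      have hrun : condAvg (insert b D) (Function.update a b l) (fun U => f (run U (ask b k)))
          = condAvg (insert b D) (Function.update a b l) (fun U => f (run U (k l))) := by
        unfold condAvg
        refine congrArg (avg (B → L)) (funext fun U => ?_)
        simp
      rw [hrun]
      exact ih l (insert b D) (Function.update a b l)

/-- **Coupling lemma**: fresh and real semantics differ by at most the fresh probability that
some element is asked twice. -/
theorem coupling (p : Prog B L A) (f : A → ℝ) (h0 : ∀ a, 0 ≤ f a) (h1 : ∀ a, f a ≤ 1) :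
    |avg (B → L) (fun U => f (run U p)) - fresh p f| ≤ rep p ∅ := by
  have := condAvg_coupling p f h0 h1 ∅ (fun _ => Classical.arbitrary L)
  simpa [condAvg] using this

end coupling

end Prog

/-! ### Equal pairs in a list -/

section pairs
variable {B : Type} [DecidableEq B]

/-- Number of pairs `i < j` with equal entries. -/
def pairs : List B → ℕ
  | [] => 0
  | b :: t => t.count b + pairs t

@[simp] theorem pairs_nil : pairs ([] : List B) = 0 := rfl
@[simp] theorem pairs_cons (b : B) (t : List B) : pairs (b :: t) = t.count b + pairs t := rfl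

theorem pairs_append (l₁ l₂ : List B) :
    pairs (l₁ ++ l₂) = pairs l₁ + pairs l₂ + (l₁.map (fun b => l₂.count b)).sum := by
  induction l₁ with
  | nil => simp
  | cons b t ih => simp only [List.cons_append, pairs_cons, ih, List.count_append,
      List.map_cons, List.sum_cons]; ring

theorem sum_map_count [Fintype B] (l₁ l₂ : List B) :
    (l₁.map (fun b => l₂.count b)).sum = ∑ b, l₁.count b * l₂.count b := by
  induction l₁ with
  | nil => simp
  | cons b t ih =>
    simp only [List.map_cons, List.sum_cons, ih, List.count_cons]
    simp only [add_mul, Finset.sum_add_distrib, beq_iff_eq, ite_mul, one_mul, zero_mul]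
    rw [Finset.sum_ite_eq Finset.univ b]
    simp [add_comm]

theorem pairs_append' [Fintype B] (l₁ l₂ : List B) :
    pairs (l₁ ++ l₂) = pairs l₁ + pairs l₂ + ∑ b, l₁.count b * l₂.count b := by
  rw [pairs_append, sum_map_count]

theorem pairs_eq_zero_of_nodup {l : List B} (h : l.Nodup) : pairs l = 0 := by
  induction l with
  | nil => rfl
  | cons b t ih =>
    rw [List.nodup_cons] at h
    simp [ih h.2, List.count_eq_zero.mpr h.1]

end pairs

namespace Prog

variable {B L A C : Type} [Fintype L] [DecidableEq B]

/-- Expected number of asks of `τ` in the fresh semantics. -/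
noncomputable def cnt (p : Prog B L A) (τ : B) : ℝ := tfresh p (fun _ t => (t.count τ : ℝ))

/-- Expected number of pairs of equal asks in the fresh semantics. -/
noncomputable def prs (p : Prog B L A) : ℝ := tfresh p (fun _ t => (pairs t : ℝ))

theorem rep_le_aux [Nonempty L] (p : Prog B L A) (D : Finset B) :
    rep p D ≤ tfresh p (fun _ t => (pairs t : ℝ) + ∑ d ∈ D, (t.count d : ℝ)) := by
  induction p generalizing D with
  | ret a => simp [rep]
  | ask b k ih =>
    unfold rep
    rw [tfresh_ask]
    split_ifs with hb
    · have : (1:ℝ) = avg L (fun l => tfresh (k l) (fun _ _ => (1:ℝ))) := by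
        simp only [tfresh_const, avg_const]
      rw [this]
      refine avg_mono fun l => tfresh_mono _ fun a t => ?_
      have h1 : (1:ℝ) ≤ ∑ d ∈ D, ((b :: t).count d : ℝ) := by
        calc (1:ℝ) ≤ ((b :: t).count b : ℝ) := by
              rw [List.count_cons_self]; push_cast; linarith [Nat.cast_nonneg (α := ℝ) (t.count b)]
          _ ≤ ∑ d ∈ D, ((b :: t).count d : ℝ) :=
              Finset.single_le_sum (f := fun d => ((b :: t).count d : ℝ))
                (fun d _ => Nat.cast_nonneg _) hb
      have h2 : (0:ℝ) ≤ (pairs (b :: t) : ℝ) := Nat.cast_nonneg _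
      linarith
    · refine avg_mono fun l => (ih l (insert b D)).trans (tfresh_mono _ fun a t => ?_)
      rw [Finset.sum_insert hb, pairs_cons]
      have : ∑ d ∈ D, ((b :: t).count d : ℝ) = ∑ d ∈ D, (t.count d : ℝ) := by
        refine Finset.sum_congr rfl fun d hd => ?_
        rw [List.count_cons_of_ne (by rintro rfl; exact hb hd)]
      rw [this]
      push_cast
      linarith

theorem rep_le_prs [Nonempty L] (p : Prog B L A) : rep p ∅ ≤ prs p := by
  have := rep_le_aux p ∅
  simpa [prs] using this

theorem coupling_prs [Nonempty L] [Fintype B] (p : Prog B L A) (f : A → ℝ)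
    (h0 : ∀ a, 0 ≤ f a) (h1 : ∀ a, f a ≤ 1) :
    |avg (B → L) (fun U => f (run U p)) - fresh p f| ≤ prs p :=
  (coupling p f h0 h1).trans (rep_le_prs p)

theorem cnt_nonneg (p : Prog B L A) (τ : B) : 0 ≤ cnt p τ :=
  tfresh_nonneg p fun _ _ => Nat.cast_nonneg _

theorem prs_nonneg (p : Prog B L A) : 0 ≤ prs p :=
  tfresh_nonneg p fun _ _ => Nat.cast_nonneg _

@[simp] theorem cnt_ret (a : A) (τ : B) : cnt (ret a : Prog B L A) τ = 0 := by
  simp [cnt]

@[simp] theorem prs_ret (a : A) : prs (ret a : Prog B L A) = 0 := by
  simp [prs]

theorem cnt_ask [Nonempty L] (b : B) (k : L → Prog B L A) (τ : B) :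
    cnt (ask b k) τ = (if b = τ then 1 else 0) + avg L (fun l => cnt (k l) τ) := by
  unfold cnt
  rw [tfresh_ask]
  have : ∀ l, tfresh (k l) (fun _ t => ((b :: t).count τ : ℝ))
      = (if b = τ then 1 else 0) + tfresh (k l) (fun _ t => (t.count τ : ℝ)) := by
    intro l
    have h : (fun (_ : A) (t : List B) => ((b :: t).count τ : ℝ))
        = fun _ t => (if b = τ then (1:ℝ) else 0) + (t.count τ : ℝ) := by
      funext _ t
      rw [List.count_cons]
      by_cases hb : b = τ <;> simp [hb, add_comm]
    rw [h, tfresh_add, tfresh_const]
  simp only [this]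
  rw [avg_add, avg_const]

theorem prs_ask (b : B) (k : L → Prog B L A) :
    prs (ask b k) = avg L (fun l => cnt (k l) b + prs (k l)) := by
  unfold prs cnt
  rw [tfresh_ask]
  refine congrArg (avg L) (funext fun l => ?_)
  rw [← tfresh_add]
  simp

/-- Counting rule for `bind`. -/
theorem cnt_bind [Nonempty L] (p : Prog B L A) (f : A → Prog B L C) (τ : B) :
    cnt (bind p f) τ = cnt p τ + fresh p (fun a => cnt (f a) τ) := by
  induction p with
  | ret a => simp
  | ask b k ih =>
    rw [bind_ask, cnt_ask, cnt_ask]
    simp only [ih, avg_add, fresh_ask]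
    ring

theorem tfresh_list_sum {ι : Type*} (s : List ι) (p : Prog B L A) (f : ι → A → List B → ℝ) :
    tfresh p (fun a t => (s.map (fun i => f i a t)).sum)
      = (s.map (fun i => tfresh p (f i))).sum := by
  induction s with
  | nil =>
    simp only [List.map_nil, List.sum_nil]
    have := tfresh_mul_left (0:ℝ) p (fun _ _ => (0:ℝ))
    simpa using this
  | cons i s ih => simp only [List.map_cons, List.sum_cons, tfresh_add, ih]

/-- Pair rule for `bind`: pairs inside, plus the cross pairs. -/
theorem prs_bind [Nonempty L] (p : Prog B L A) (f : A → Prog B L C) :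
    prs (bind p f) = prs p + fresh p (fun a => prs (f a))
      + tfresh p (fun a t => (t.map (fun b => cnt (f a) b)).sum) := by
  unfold prs
  rw [tfresh_bind]
  have h : ∀ (a : A) (t : List B),
      tfresh (f a) (fun _ t' => (pairs (t ++ t') : ℝ))
        = (pairs t : ℝ) + tfresh (f a) (fun _ t' => (pairs t' : ℝ))
          + (t.map (fun b => cnt (f a) b)).sum := by
    intro a t
    have h1 : (fun (_ : C) (t' : List B) => (pairs (t ++ t') : ℝ))
        = fun _ t' => ((pairs t : ℝ) + (pairs t' : ℝ)) + (t.map (fun b => (t'.count b : ℝ))).sum := by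
      funext _ t'
      rw [pairs_append]
      push_cast
      simp [List.map_map, Function.comp_def]
    rw [h1, tfresh_add, tfresh_add, tfresh_const, tfresh_list_sum]
    rfl
  simp only [h, tfresh_add]
  rw [← tfresh_eq_fresh]

/-- Cross pairs bounded through counts, when the second program does not depend on the result. -/
theorem prs_bind_indep [Nonempty L] [Fintype B] (p : Prog B L A) (q : Prog B L C) :
    prs (bind p (fun _ => q)) = prs p + prs q + ∑ b, cnt p b * cnt q b := by
  rw [prs_bind, fresh_const]
  congr 1
  have h : ∀ t : List B, (t.map (fun b => cnt q b)).sum = ∑ b, (t.count b : ℝ) * cnt q b := by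
    intro t
    induction t with
    | nil => simp
    | cons c t ih =>
      simp only [List.map_cons, List.sum_cons, ih, List.count_cons]
      push_cast
      simp only [add_mul, Finset.sum_add_distrib, beq_iff_eq, Nat.cast_ite, Nat.cast_one,
        Nat.cast_zero, ite_mul, one_mul, zero_mul]
      rw [Finset.sum_ite_eq Finset.univ c]
      simp [add_comm]
  simp only [h]
  rw [tfresh_sum]
  refine Finset.sum_congr rfl fun b _ => ?_
  rw [tfresh_mul_right]
  rfl

end Prog

end Crest.Agent.R030
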