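import Mathlib
import Crest.Agent.R030.Prog

/-!
Row 30 (helper148): first and second moment of the number of surviving roots, real semantics
versus fresh semantics.
-/

open Finset

namespace Crest.Agent.R030

/-- Indicator of `true`. -/
def ind (b : Bool) : ℝ := if b then 1 else 0

theorem ind_nonneg (b : Bool) : 0 ≤ ind b := by unfold ind; split_ifs <;> norm_num
theorem ind_le_one (b : Bool) : ind b ≤ 1 := by unfold ind; split_ifs <;> norm_num

namespace Prog

variable {ι B L : Type} [Fintype L] [Nonempty L] [Fintype B] [DecidableEq B]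

/-- First moment. -/
theorem avg_sum_run (A : Finset ι) (p : ι → Prog B L Bool) :
    |avg (B → L) (fun U => ∑ e ∈ A, ind (run U (p e))) - ∑ e ∈ A, fresh (p e) ind|
      ≤ ∑ e ∈ A, prs (p e) := by
  rw [avg_sum, ← Finset.sum_sub_distrib]
  refine (Finset.abs_sum_le_sum_abs _ _).trans (Finset.sum_le_sum fun e _ => ?_)
  exact coupling_prs (p e) ind ind_nonneg ind_le_one

/-- Two roots. -/
theorem avg_two_run (p q : Prog B L Bool) :
    |avg (B → L) (fun U => ind (run U p) * ind (run U q)) - fresh p ind * fresh q ind|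
      ≤ prs p + prs q + ∑ b, cnt p b * cnt q b := by
  have h := coupling_prs (bind p (fun a => bind q (fun c => ret (a, c))))
    (fun x : Bool × Bool => ind x.1 * ind x.2)
    (fun x => mul_nonneg (ind_nonneg _) (ind_nonneg _))
    (fun x => mul_le_one₀ (ind_le_one _) (ind_nonneg _) (ind_le_one _))
  rw [fresh_pair] at h
  simp only [run_pair] at h
  refine h.trans (le_of_eq ?_)
  have hq : ∀ a : Bool, prs (bind q (fun c => ret (a, c)) : Prog B L (Bool × Bool)) = prs q := by
    intro a
    rw [prs_bind]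
    have h1 : fresh q (fun c => prs (ret (a, c) : Prog B L (Bool × Bool))) = 0 := by
      simp only [prs_ret]; exact fresh_const q 0
    have h2 : tfresh q (fun c t =>
        (t.map (fun b => cnt (ret (a, c) : Prog B L (Bool × Bool)) b)).sum) = 0 := by
      simp only [cnt_ret, List.map_const', List.sum_replicate, smul_zero]
      exact tfresh_const q 0
    rw [h1, h2]; ring
  have hc : ∀ (a : Bool) (b : B),
      cnt (bind q (fun c => ret (a, c)) : Prog B L (Bool × Bool)) b = cnt q b := by
    intro a b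
    rw [cnt_bind]
    simp only [cnt_ret, fresh_const, add_zero]
  rw [prs_bind]
  simp only [hq, hc, fresh_const]
  congr 1
  have := prs_bind_indep p q
  rw [prs_bind, fresh_const] at this
  linarith

/-- Second moment. -/
theorem avg_sq_run (A : Finset ι) (p : ι → Prog B L Bool) :
    |avg (B → L) (fun U => (∑ e ∈ A, ind (run U (p e))) ^ 2) - (∑ e ∈ A, fresh (p e) ind) ^ 2|
      ≤ 2 * (A.card : ℝ) * ∑ e ∈ A, prs (p e) + ∑ b, (∑ e ∈ A, cnt (p e) b) ^ 2 := by
  have h1 : ∀ U : B → L, (∑ e ∈ A, ind (run U (p e))) ^ 2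
      = ∑ e ∈ A, ∑ e' ∈ A, ind (run U (p e)) * ind (run U (p e')) := by
    intro U; rw [sq, Finset.sum_mul_sum]
  have h2 : (∑ e ∈ A, fresh (p e) ind) ^ 2
      = ∑ e ∈ A, ∑ e' ∈ A, fresh (p e) ind * fresh (p e') ind := by
    rw [sq, Finset.sum_mul_sum]
  simp only [h1, h2]
  rw [avg_sum]
  simp only [avg_sum]
  rw [← Finset.sum_sub_distrib]
  simp only [← Finset.sum_sub_distrib]
  refine (Finset.abs_sum_le_sum_abs _ _).trans ?_
  refine (Finset.sum_le_sum fun e _ => (Finset.abs_sum_le_sum_abs _ _).trans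
    (Finset.sum_le_sum fun e' _ => avg_two_run (p e) (p e'))).trans (le_of_eq ?_)
  simp only [Finset.sum_add_distrib, Finset.sum_const, nsmul_eq_mul]
  rw [← Finset.mul_sum]
  have h3 : ∑ e ∈ A, ∑ e' ∈ A, ∑ b, cnt (p e) b * cnt (p e') b
      = ∑ b, (∑ e ∈ A, cnt (p e) b) ^ 2 := by
    have : ∀ b, (∑ e ∈ A, cnt (p e) b) ^ 2 = ∑ e ∈ A, ∑ e' ∈ A, cnt (p e) b * cnt (p e') b := by
      intro b; rw [sq, Finset.sum_mul_sum]
    simp only [this]
    rw [Finset.sum_comm (s := Finset.univ) (t := A)]
    refine Finset.sum_congr rfl fun e _ => ?_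
    rw [Finset.sum_comm]
  rw [h3]
  ring

end Prog

end Crest.Agent.R030
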