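import Crest.Agent.R030.ExploreDefs
import Crest.Agent.R030.GreedyDefs
import Crest.Agent.R030.TwoRoot

/-!
Row 30 (S0040), helper9.  Exploration programs: fresh semantics = product formula, real semantics
= survival in the greedy process.

Main results
* `Prog.fresh_free`   : `fresh (free tri ch b lst s) = Fr M ch b lst s` (`s ≤ M`);
* `Fr_chL`            : `Fr M (chL H) b (chL H (T,v)) s = acAcc H M s T v` (`s ≤ b`);
* `fresh_root`        : fresh probability that the root program returns true is `rootQ H M s e`;
* `run_root`          : real run of the root program = `e ∈ greedyU H U A s`.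
-/

set_option autoImplicit false

namespace Crest.Agent.R030

open Finset

namespace Prog

variable {B L A P : Type}

theorem ind_true : ind true = 1 := by simp [ind]
theorem ind_false : ind false = 0 := by simp [ind]

section fresh
variable [Fintype L]

theorem fresh_seqP [Nonempty L] (ps : List (Prog B L Bool)) :
    fresh (seqP ps) ind = (ps.map (fun p => 1 - fresh p ind)).prod := by
  induction ps with
  | nil => simp [seqP, ind_true]
  | cons p ps ih =>
    simp only [seqP, fresh_bind, List.map_cons, List.prod_cons]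
    rw [← ih]
    have h : ∀ r : Bool, fresh (if r then (ret false : Prog B L Bool) else seqP ps) ind
        = fresh (seqP ps) ind - ind r * fresh (seqP ps) ind := by
      intro r; cases r <;> simp [ind_true, ind_false]
    simp only [h]
    have h2 : (fun r : Bool => fresh (seqP ps) ind - ind r * fresh (seqP ps) ind)
        = fun r => fresh (seqP ps) ind + (-(fresh (seqP ps) ind)) * ind r := by
      funext r; ring
    rw [h2, fresh_add, fresh_const, fresh_mul_left]
    ring

/-- Average over lists of `n` labels. -/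
noncomputable def avgN (L : Type) [Fintype L] : ℕ → (List L → ℝ) → ℝ
  | 0, F => F []
  | n + 1, F => avg L (fun l => avgN L n (fun ls => F (l :: ls)))

theorem avgN_zero (F : List L → ℝ) : avgN L 0 F = F [] := rfl
theorem avgN_succ (n : ℕ) (F : List L → ℝ) :
    avgN L (n + 1) F = avg L (fun l => avgN L n (fun ls => F (l :: ls))) := rfl

theorem avgN_mul_left (n : ℕ) (c : ℝ) (F : List L → ℝ) :
    avgN L n (fun ls => c * F ls) = c * avgN L n F := by
  induction n generalizing F with
  | zero => rfl
  | succ n ih => simp only [avgN_succ, ih, avg_mul_left]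

theorem avgN_congr (n : ℕ) {F G : List L → ℝ} (h : ∀ ls, ls.length = n → F ls = G ls) :
    avgN L n F = avgN L n G := by
  induction n generalizing F G with
  | zero => exact h [] rfl
  | succ n ih =>
    simp only [avgN_succ]
    congr 1
    funext l
    exact ih fun ls hls => h (l :: ls) (by simp [hls])

theorem avgN_mono (n : ℕ) {F G : List L → ℝ} (h : ∀ ls, ls.length = n → F ls ≤ G ls) :
    avgN L n F ≤ avgN L n G := by
  induction n generalizing F G with
  | zero => exact h [] rfl
  | succ n ih =>
    simp only [avgN_succ]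
    exact avg_mono fun l => ih fun ls hls => h (l :: ls) (by simp [hls])

theorem fresh_askL (bs : List B) (k : List L → Prog B L A) (f : A → ℝ) :
    fresh (askL bs k) f = avgN L bs.length (fun ls => fresh (k ls) f) := by
  induction bs generalizing k with
  | nil => rfl
  | cons b bs ih => simp only [askL, fresh_ask, ih, List.length_cons, avgN_succ]

theorem avgN_prod (lst : List P) (h : P × L → ℝ) :
    avgN L lst.length (fun ls => ((lst.zip ls).map h).prod)
      = (lst.map (fun c => avg L (fun l => h (c, l)))).prod := by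
  induction lst with
  | nil => simp [avgN_zero]
  | cons c lst ih =>
    simp only [List.length_cons, avgN_succ, List.zip_cons_cons, List.map_cons, List.prod_cons,
      avgN_mul_left, ih, avg_mul_right]

end fresh

theorem prod_range_ite (s j : ℕ) (g : ℕ → ℝ) :
    ((List.range s).map (fun l => if j = l then g l else 1)).prod = if j < s then g j else 1 := by
  induction s with
  | zero => simp
  | succ s ih =>
    rw [List.range_succ, List.map_append, List.prod_append, ih]
    simp only [List.map_cons, List.map_nil, List.prod_cons, List.prod_nil, mul_one]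
    by_cases h1 : j < s
    · have h2 : j < s + 1 := by omega
      have h3 : j ≠ s := by omega
      simp [h1, h2, h3]
    · by_cases h3 : j = s
      · subst h3; simp
      · have h2 : ¬ j < s + 1 := by omega
        simp [h1, h2, h3]

theorem prod_levels {M : ℕ} (s : ℕ) (Z : List (P × Fin M)) (g : P → ℕ → ℝ) :
    ((List.range s).map (fun l =>
        ((Z.filter (fun c => c.2.val = l)).map (fun c => g c.1 l)).prod)).prod
      = (Z.map (fun c => if c.2.val < s then g c.1 c.2.val else 1)).prod := by
  induction Z with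
  | nil => simp
  | cons c Z ih =>
    have h1 : ∀ l : ℕ, (((c :: Z).filter (fun c => c.2.val = l)).map (fun c => g c.1 l)).prod
        = (if c.2.val = l then g c.1 l else 1)
          * ((Z.filter (fun c => c.2.val = l)).map (fun c => g c.1 l)).prod := by
      intro l
      by_cases h : c.2.val = l
      · simp [h]
      · simp [h]
    simp only [h1, List.prod_map_mul, ih, List.map_cons, List.prod_cons]
    rw [prod_range_ite s c.2.val (fun l => g c.1 l)]

theorem evs_map_prod {M : ℕ} (s : ℕ) (lst : List P) (ls : List (Fin M))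
    (q : P → ℕ → Prog B L Bool) (φ : Prog B L Bool → ℝ) :
    ((evs s lst ls q).map φ).prod
      = ((lst.zip ls).map (fun c => if c.2.val < s then φ (q c.1 c.2.val) else 1)).prod := by
  have hfl : ∀ (r : List ℕ) (f : ℕ → List (Prog B L Bool)),
      ((r.flatMap f).map φ).prod = (r.map (fun a => ((f a).map φ).prod)).prod := by
    intro r f
    induction r with
    | nil => simp
    | cons a r ih => simp [List.flatMap_cons, ih]
  unfold evs
  rw [hfl]
  simp only [List.map_map]
  exact prod_levels s (lst.zip ls) (fun c l => φ (q c l))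

theorem avg_ite_lt {M : ℕ} [NeZero M] {s : ℕ} (hs : s ≤ M) (X : ℕ → ℝ) :
    avg (Fin M) (fun l => if l.val < s then 1 - X l.val else 1)
      = 1 - (M : ℝ)⁻¹ * ∑ l ∈ Finset.range s, X l := by
  have h1 : ∀ l : Fin M, (if l.val < s then 1 - X l.val else 1)
      = 1 - (if l.val < s then X l.val else 0) := by
    intro l; split_ifs <;> ring
  simp only [h1]
  rw [avg_sub, avg_const]
  congr 1
  unfold avg
  rw [Fintype.card_fin]
  congr 1
  rw [Finset.sum_fin_eq_sum_range]
  rw [← Finset.sum_subset (Finset.range_subset_range.2 hs)]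
  · apply Finset.sum_congr rfl
    intro l hl
    rw [Finset.mem_range] at hl
    simp [hl, lt_of_lt_of_le hl hs]
  · intro l hl hl'
    rw [Finset.mem_range] at hl hl'
    simp [hl, hl']

/-- **Product formula** for the fresh semantics of `free`. -/
theorem fresh_free {M : ℕ} [NeZero M] (tri : P → B) (ch : P → List P) :
    ∀ (b : ℕ) (lst : List P) (s : ℕ), s ≤ M →
      fresh (free tri ch b lst s : Prog B (Fin M) Bool) ind = Fr M ch b lst s := by
  intro b
  induction b with
  | zero => intro lst s _; rfl
  | succ b ih =>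
    intro lst s hs
    simp only [free, Fr]
    rw [fresh_askL]
    have h1 : ∀ ls : List (Fin M),
        fresh (seqP (evs s lst ls (fun c l => (free tri ch b (ch c) l : Prog B (Fin M) Bool)))) ind
          = ((lst.zip ls).map (fun c : P × Fin M =>
              if c.2.val < s then 1 - Fr M ch b (ch c.1) c.2.val else 1)).prod := by
      intro ls
      rw [fresh_seqP, evs_map_prod s lst ls _ (fun p => 1 - fresh p ind)]
      congr 1
      apply List.map_congr_left
      intro c _
      by_cases hc : c.2.val < s
      · simp only [if_pos hc]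
        rw [ih _ _ (le_trans (le_of_lt hc) hs)]
      · simp only [if_neg hc]
    simp only [h1, List.length_map]
    rw [avgN_prod lst (fun c : P × Fin M =>
      if c.2.val < s then 1 - Fr M ch b (ch c.1) c.2.val else 1)]
    congr 1
    apply List.map_congr_left
    intro c _
    exact avg_ite_lt hs (fun l => Fr M ch b (ch c) l)

section run

theorem run_seqP (U : B → L) (ps : List (Prog B L Bool)) :
    run U (seqP ps) = true ↔ ∀ p ∈ ps, run U p = false := by
  induction ps with
  | nil => simp [seqP]
  | cons p ps ih =>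
    simp only [seqP, run_bind, List.mem_cons, forall_eq_or_imp]
    cases h : run U p with
    | true => simp
    | false => simpa using ih

theorem run_askL (U : B → L) (bs : List B) (k : List L → Prog B L A) :
    run U (askL bs k) = run U (k (bs.map U)) := by
  induction bs generalizing k with
  | nil => rfl
  | cons b bs ih => simp only [askL, run_ask, ih, List.map_cons]

theorem mem_evs {M : ℕ} {s : ℕ} {lst : List P} {ls : List (Fin M)} {q : P → ℕ → Prog B L Bool}
    {p : Prog B L Bool} :
    p ∈ evs s lst ls q ↔ ∃ c ∈ lst.zip ls, c.2.val < s ∧ q c.1 c.2.val = p := by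
  unfold evs
  simp only [List.mem_flatMap, List.mem_range, List.mem_map, List.mem_filter, decide_eq_true_eq]
  constructor
  · rintro ⟨l, hl, c, ⟨hc, rfl⟩, rfl⟩
    exact ⟨c, hc, hl, rfl⟩
  · rintro ⟨c, hc, hl, rfl⟩
    exact ⟨c.2.val, hl, c, ⟨hc, rfl⟩, rfl⟩

theorem mem_zip_map {α β : Type*} (f : α → β) (l : List α) {c : α × β} :
    c ∈ l.zip (l.map f) ↔ c.1 ∈ l ∧ c.2 = f c.1 := by
  induction l with
  | nil => simp
  | cons a l ih =>
    obtain ⟨x, y⟩ := c
    simp only [List.map_cons, List.zip_cons_cons, List.mem_cons, Prod.mk.injEq]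
    simp only at ih
    rw [ih]
    constructor
    · rintro (⟨rfl, rfl⟩ | ⟨h1, h2⟩)
      · exact ⟨Or.inl rfl, rfl⟩
      · exact ⟨Or.inr h1, h2⟩
    · rintro ⟨rfl | h1, h2⟩
      · exact Or.inl ⟨rfl, h2⟩
      · exact Or.inr ⟨h1, h2⟩

/-- Real semantics of `free`, one step. -/
theorem run_free_succ {M : ℕ} (tri : P → B) (ch : P → List P) (U : B → Fin M) (b : ℕ)
    (lst : List P) (s : ℕ) :
    run U (free tri ch (b + 1) lst s) = true ↔
      ∀ c ∈ lst, (U (tri c)).val < s → run U (free tri ch b (ch c) (U (tri c)).val) = false := by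
  simp only [free]
  rw [run_askL, run_seqP]
  constructor
  · intro h c hc hlt
    apply h
    rw [mem_evs]
    refine ⟨(c, U (tri c)), ?_, hlt, rfl⟩
    have : (lst.map tri).map U = lst.map (fun c => U (tri c)) := by rw [List.map_map]; rfl
    rw [this, mem_zip_map]
    exact ⟨hc, rfl⟩
  · intro h p hp
    rw [mem_evs] at hp
    obtain ⟨c, hc, hlt, rfl⟩ := hp
    have : (lst.map tri).map U = lst.map (fun c => U (tri c)) := by rw [List.map_map]; rfl
    rw [this, mem_zip_map] at hc
    rw [hc.2] at hlt ⊢
    exact h c.1 hc.1 hlt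

end run

end Prog

/-! ### Ports of a hypergraph -/

section ports

variable {V : Type} [DecidableEq V]

/-- Product over the other hyperedges through `w`. -/
noncomputable def portQ (H : Finset (Finset V)) (I : Finset V → V → ℝ) (T : Finset V) (w : V) : ℝ :=
  ∏ T' ∈ H.filter (fun T' => w ∈ T' ∧ T' ≠ T), (1 - I T' w)

/-- Cavity integral. -/
noncomputable def cavI (H : Finset (Finset V)) (M : ℕ) : ℕ → Finset V → V → ℝ
  | 0 => fun _ _ => 0
  | s + 1 => fun T v => cavI H M s T v + (M : ℝ)⁻¹ * ∏ w ∈ T.erase v, portQ H (cavI H M s) T w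

/-- Fresh probability that `T`, entered through `v`, is accepted at level `s`. -/
noncomputable def acAcc (H : Finset (Finset V)) (M s : ℕ) (T : Finset V) (v : V) : ℝ :=
  ∏ w ∈ T.erase v, portQ H (cavI H M s) T w

/-- Fresh probability that `e` survives the labels `< s`. -/
noncomputable def rootQ (H : Finset (Finset V)) (M s : ℕ) (e : V) : ℝ :=
  ∏ T ∈ H.filter (fun T => e ∈ T), (1 - cavI H M s T e)

/-- Children ports of a port. -/
def chF (H : Finset (Finset V)) (c : Finset V × V) : Finset (Finset V × V) :=
  (H ×ˢ c.1.erase c.2).filter (fun d => d.2 ∈ d.1 ∧ d.1 ≠ c.1)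

/-- Children ports of a port, as a list. -/
noncomputable def chL (H : Finset (Finset V)) (c : Finset V × V) : List (Finset V × V) :=
  (chF H c).toList

/-- Root ports. -/
def rtF (H : Finset (Finset V)) (e : V) : Finset (Finset V × V) :=
  (H.filter (fun T => e ∈ T)).image (fun T => (T, e))

/-- Root ports, as a list. -/
noncomputable def rtL (H : Finset (Finset V)) (e : V) : List (Finset V × V) := (rtF H e).toList

theorem mem_chF {H : Finset (Finset V)} {c d : Finset V × V} :
    d ∈ chF H c ↔ d.1 ∈ H ∧ d.2 ∈ c.1 ∧ d.2 ≠ c.2 ∧ d.2 ∈ d.1 ∧ d.1 ≠ c.1 := by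
  unfold chF
  rw [Finset.mem_filter, Finset.mem_product, Finset.mem_erase]
  tauto

theorem mem_chL {H : Finset (Finset V)} {c d : Finset V × V} :
    d ∈ chL H c ↔ d.1 ∈ H ∧ d.2 ∈ c.1 ∧ d.2 ≠ c.2 ∧ d.2 ∈ d.1 ∧ d.1 ≠ c.1 := by
  unfold chL; rw [Finset.mem_toList, mem_chF]

theorem mem_rtL {H : Finset (Finset V)} {e : V} {d : Finset V × V} :
    d ∈ rtL H e ↔ d.1 ∈ H ∧ d.2 = e ∧ e ∈ d.1 := by
  unfold rtL rtF
  rw [Finset.mem_toList, Finset.mem_image]
  constructor
  · rintro ⟨T, hT, rfl⟩
    rw [Finset.mem_filter] at hT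
    exact ⟨hT.1, rfl, hT.2⟩
  · rintro ⟨h1, h2, h3⟩
    exact ⟨d.1, Finset.mem_filter.2 ⟨h1, h3⟩, by rw [← h2]⟩

theorem nodup_chL (H : Finset (Finset V)) (c : Finset V × V) : (chL H c).Nodup :=
  Finset.nodup_toList _

theorem nodup_rtL (H : Finset (Finset V)) (e : V) : (rtL H e).Nodup := Finset.nodup_toList _

theorem cavI_eq_sum (H : Finset (Finset V)) (M : ℕ) (s : ℕ) (T : Finset V) (v : V) :
    cavI H M s T v = (M : ℝ)⁻¹ * ∑ l ∈ Finset.range s, acAcc H M l T v := by
  induction s with
  | zero => simp [cavI]
  | succ s ih =>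
    rw [Finset.sum_range_succ, mul_add, ← ih]
    rfl

theorem prod_chF (H : Finset (Finset V)) (c : Finset V × V) (g : Finset V → V → ℝ) :
    ∏ d ∈ chF H c, g d.1 d.2
      = ∏ w ∈ c.1.erase c.2, ∏ T' ∈ H.filter (fun T' => w ∈ T' ∧ T' ≠ c.1), g T' w := by
  unfold chF
  rw [Finset.prod_filter, Finset.prod_product_right]
  apply Finset.prod_congr rfl
  intro w _
  rw [Finset.prod_filter]

/-- `Fr` on children lists is the cavity product. -/
theorem Fr_chL (H : Finset (Finset V)) (M : ℕ) :
    ∀ (b s : ℕ), s ≤ b → ∀ (T : Finset V) (v : V),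
      Fr M (chL H) b (chL H (T, v)) s = acAcc H M s T v := by
  intro b
  induction b with
  | zero =>
    intro s hs T v
    have : s = 0 := by omega
    subst this
    simp [Fr, acAcc, portQ, cavI]
  | succ b ih =>
    intro s hs T v
    simp only [Fr]
    have h1 : ∀ c : Finset V × V, (1 - (M : ℝ)⁻¹ * ∑ l ∈ Finset.range s, Fr M (chL H) b (chL H c) l)
        = 1 - cavI H M s c.1 c.2 := by
      intro c
      rw [cavI_eq_sum]
      congr 2
      apply Finset.sum_congr rfl
      intro l hl
      rw [Finset.mem_range] at hl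
      exact ih l (by omega) c.1 c.2
    simp only [h1]
    unfold chL
    rw [Finset.prod_map_toList, prod_chF H (T, v) (fun T' w => 1 - cavI H M s T' w)]
    rfl

theorem Fr_rtL (H : Finset (Finset V)) (M : ℕ) (b s : ℕ) (hs : s ≤ b) (e : V) :
    Fr M (chL H) b (rtL H e) s = rootQ H M s e := by
  cases b with
  | zero =>
    have : s = 0 := by omega
    subst this
    simp [Fr, rootQ, cavI]
  | succ b =>
    simp only [Fr]
    have h1 : ∀ c : Finset V × V, (1 - (M : ℝ)⁻¹ * ∑ l ∈ Finset.range s, Fr M (chL H) b (chL H c) l)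
        = 1 - cavI H M s c.1 c.2 := by
      intro c
      rw [cavI_eq_sum]
      congr 2
      apply Finset.sum_congr rfl
      intro l hl
      rw [Finset.mem_range] at hl
      exact Fr_chL H M b l (by omega) c.1 c.2
    simp only [h1]
    unfold rtL rtF rootQ
    rw [Finset.prod_map_toList, Finset.prod_image]
    intro T _ T' _ h
    exact (Prod.mk.inj h).1

/-- The root program: does `e` survive the labels `< s`? -/
noncomputable def rootP (H : Finset (Finset V)) (M : ℕ) (s : ℕ) (e : V) :
    Prog (Finset V) (Fin M) Bool :=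
  Prog.free Prod.fst (chL H) s (rtL H e) s

theorem fresh_rootP (H : Finset (Finset V)) {M : ℕ} [NeZero M] {s : ℕ} (hs : s ≤ M) (e : V) :
    Prog.fresh (rootP H M s e) ind = rootQ H M s e := by
  unfold rootP
  rw [Prog.fresh_free _ _ _ _ _ hs, Fr_rtL H M s s le_rfl]

/-- **Real semantics** at a port, at the level of its own label. -/
theorem run_port {H : Finset (Finset V)} {A : Finset V} (hA : ∀ T ∈ H, T ⊆ A) {M : ℕ}
    (U : Finset V → Fin M) :
    ∀ (b : ℕ) (T : Finset V) (v : V), T ∈ H → (U T).val ≤ b →
      (Prog.run U (Prog.free Prod.fst (chL H) b (chL H (T, v)) (U T).val) = true ↔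
        ∀ w ∈ T.erase v, w ∈ greedyU H U A (U T).val) := by
  intro b
  induction b with
  | zero =>
    intro T v hT hb
    have h0 : (U T).val = 0 := by omega
    rw [h0]
    simp only [Prog.free, Prog.run_ret, true_iff]
    intro w hw
    exact hA T hT (Finset.mem_of_mem_erase hw)
  | succ b ih =>
    intro T v hT hb
    rw [Prog.run_free_succ]
    constructor
    · intro h w hw
      by_contra hcon
      rw [notMem_greedyU_iff (hA T hT (Finset.mem_of_mem_erase hw))] at hcon
      obtain ⟨T', hT', hwT', hlt, hall⟩ := hcon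
      have hne : T' ≠ T := by rintro rfl; exact lt_irrefl _ hlt
      have hmem : (T', w) ∈ chL H (T, v) := by
        rw [mem_chL]
        rw [Finset.mem_erase] at hw
        exact ⟨hT', hw.2, hw.1, hwT', hne⟩
      have h1 := h (T', w) hmem hlt
      have h2 := (ih T' w hT' (by omega)).2 hall
      rw [h1] at h2
      exact absurd h2 (by simp)
    · intro h d hd hlt
      rw [mem_chL] at hd
      obtain ⟨hd1, hd2, hd3, hd4, hd5⟩ := hd
      by_contra hcon
      rw [Bool.not_eq_false] at hcon
      have h1 := (ih d.1 d.2 hd1 (by omega)).1 hcon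
      have hw : d.2 ∈ T.erase v := Finset.mem_erase.2 ⟨hd3, hd2⟩
      have h2 := h d.2 hw
      have h3 : d.2 ∉ greedyU H U A (U T).val := by
        rw [notMem_greedyU_iff (hA T hT hd2)]
        exact ⟨d.1, hd1, hd4, hlt, h1⟩
      exact h3 h2

/-- **Real semantics** of the root program = survival in the greedy process. -/
theorem run_rootP {H : Finset (Finset V)} {A : Finset V} (hA : ∀ T ∈ H, T ⊆ A) {M : ℕ}
    (U : Finset V → Fin M) (s : ℕ) {e : V} (he : e ∈ A) :
    Prog.run U (rootP H M s e) = true ↔ e ∈ greedyU H U A s := by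
  unfold rootP
  cases s with
  | zero => simp [Prog.free, greedyU, he]
  | succ s =>
    rw [Prog.run_free_succ]
    rw [← not_iff_not (b := e ∈ greedyU H U A (s + 1)), notMem_greedyU_iff he]
    push Not
    constructor
    · rintro ⟨d, hd, hlt, hrun⟩
      rw [mem_rtL] at hd
      obtain ⟨h1, h2, h3⟩ := hd
      refine ⟨d.1, h1, h3, hlt, ?_⟩
      rw [Bool.ne_false_iff] at hrun
      have := (run_port hA U s d.1 d.2 h1 (by omega)).1 hrun
      rwa [h2] at this
    · rintro ⟨T, hT, heT, hlt, hall⟩
      refine ⟨(T, e), mem_rtL.2 ⟨hT, rfl, heT⟩, hlt, ?_⟩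
      rw [Bool.ne_false_iff]
      exact (run_port hA U s T e hT (by omega)).2 hall

/-- Number of survivors as a sum over root programs. -/
theorem card_greedyU {H : Finset (Finset V)} {A : Finset V} (hA : ∀ T ∈ H, T ⊆ A) {M : ℕ}
    (U : Finset V → Fin M) (s : ℕ) :
    ((greedyU H U A s).card : ℝ) = ∑ e ∈ A, ind (Prog.run U (rootP H M s e)) := by
  have h1 : greedyU H U A s = A.filter (fun e => Prog.run U (rootP H M s e) = true) := by
    ext e
    rw [Finset.mem_filter]
    constructor
    · intro h
      have he := greedyU_subset s h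
      exact ⟨he, (run_rootP hA U s he).2 h⟩
    · rintro ⟨he, h⟩
      exact (run_rootP hA U s he).1 h
  rw [h1, Finset.card_filter]
  push_cast
  rfl

/-- **First moment** of the number of survivors. -/
theorem explore_first [Fintype V] {H : Finset (Finset V)} {A : Finset V} (hA : ∀ T ∈ H, T ⊆ A)
    {M : ℕ} [NeZero M] {s : ℕ} (hs : s ≤ M) :
    |avg (Finset V → Fin M) (fun U => ((greedyU H U A s).card : ℝ)) - ∑ e ∈ A, rootQ H M s e|
      ≤ ∑ e ∈ A, Prog.prs (rootP H M s e) := by
  have h := Prog.avg_sum_run A (fun e => rootP H M s e)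
  simp only [fresh_rootP H hs] at h
  simpa only [card_greedyU hA] using h

/-- **Second moment** of the number of survivors. -/
theorem explore_second [Fintype V] {H : Finset (Finset V)} {A : Finset V} (hA : ∀ T ∈ H, T ⊆ A)
    {M : ℕ} [NeZero M] {s : ℕ} (hs : s ≤ M) :
    |avg (Finset V → Fin M) (fun U => ((greedyU H U A s).card : ℝ) ^ 2)
        - (∑ e ∈ A, rootQ H M s e) ^ 2|
      ≤ 2 * (A.card : ℝ) * ∑ e ∈ A, Prog.prs (rootP H M s e)
        + ∑ b, (∑ e ∈ A, Prog.cnt (rootP H M s e) b) ^ 2 := by
  have h := Prog.avg_sq_run A (fun e => rootP H M s e)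
  simp only [fresh_rootP H hs] at h
  simpa only [card_greedyU hA] using h

end ports

end Crest.Agent.R030
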