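import Crest.Agent.R030.VisitSum
import Crest.Agent.R030.Explore

/-!
Row 30 (S0040), helper196.  Module (V) for the hypergraph ports of `Explore.lean`:
`cnt_rootP_le`, `prs_rootP_le`.
-/

set_option autoImplicit false

open Finset

namespace Crest.Agent.R030

namespace VisitH

open Prog

variable {V : Type} [DecidableEq V]

theorem nodup_fst_chL {H : Finset (Finset V)} (hH : Lin3 H) {c : Finset V × V} (hc : c.1 ∈ H) :
    ((chL H c).map Prod.fst).Nodup := by
  refine List.Nodup.map_on ?_ (nodup_chL H c)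
  intro x hx y hy hxy
  rw [mem_chL] at hx hy
  by_contra hne
  have h2 : x.2 ≠ y.2 := fun h => hne (Prod.ext hxy h)
  have h3 : y.2 ∈ x.1 := by rw [hxy]; exact hy.2.2.2.1
  exact hx.2.2.2.2 (hH.lin x.1 hx.1 c.1 hc x.2 y.2 h2 hx.2.2.2.1 h3 hx.2.1 hy.2.1)

theorem nodup_fst_rtL (H : Finset (Finset V)) (e : V) : ((rtL H e).map Prod.fst).Nodup := by
  refine List.Nodup.map_on ?_ (nodup_rtL H e)
  intro x hx y hy hxy
  rw [mem_rtL] at hx hy
  exact Prod.ext hxy (hx.2.1.trans hy.2.1.symm)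

theorem keep_chL (H : Finset (Finset V)) (M b l : ℕ) (hl : l ≤ b) (d : Finset V × V) :
    keep M (chL H) b l d = 1 - cavI H M l d.1 d.2 := by
  unfold keep
  rw [cavI_eq_sum]
  congr 2
  refine Finset.sum_congr rfl fun i hi => ?_
  rw [Finset.mem_range] at hi
  exact Fr_chL H M b i (by omega) d.1 d.2

theorem prod_keep_chL (H : Finset (Finset V)) (M b l : ℕ) (hl : l ≤ b) (c : Finset V × V) :
    ((chL H c).map (keep M (chL H) b l)).prod = acAcc H M l c.1 c.2 := by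
  have h := Fr_chL H M (b + 1) l (by omega) c.1 c.2
  rw [← h]
  rfl

/-- The standing hypothesis of module (V) for the hypergraph ports. -/
theorem vhyp {H : Finset (Finset V)} (hH : Lin3 H) {M : ℕ} {om : ℕ → ℝ} (hom : ∀ l, 0 ≤ om l)
    {th : ℝ} (hth : 0 < th)
    (h1 : ∀ l < M, ∀ T ∈ H, ∀ v ∈ T, cavI H M l T v ≤ 1 - th)
    (h2 : ∀ l < M, ∀ T ∈ H, ∀ v ∈ T, acAcc H M l T v ≤ th * om l) :
    VHyp M Prod.fst (chL H) (fun P => P.1 ∈ H ∧ P.2 ∈ P.1) om where
  om_nonneg := hom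
  closed := by
    intro c _ c' hc'
    rw [mem_chL] at hc'
    exact ⟨hc'.1, hc'.2.2.2.1⟩
  nodup := fun c hc => nodup_fst_chL hH hc.1
  skip := by
    intro b l hlb hlM c hc
    refine skip_of_le hth (fun d hd => ?_) ?_
    · rw [mem_chL] at hd
      rw [keep_chL H M b l hlb]
      have := h1 l hlM d.1 hd.1 d.2 hd.2.2.2.1
      linarith
    · rw [prod_keep_chL H M b l hlb]
      exact h2 l hlM c.1 hc.1 c.2 hc.2

/-- **Module (V), counts.** -/
theorem cnt_rootP_le {H : Finset (Finset V)} {M : ℕ} [NeZero M] {om : ℕ → ℝ}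
    (h : VHyp M Prod.fst (chL H) (fun P => P.1 ∈ H ∧ P.2 ∈ P.1) om) (e : V) (τ : Finset V) :
    cnt (rootP H M M e) τ
      ≤ Nk Prod.fst (chL H) 0 (rtL H e) τ
        + ∑ k ∈ range (M - 1), Wt M om k M * Nk Prod.fst (chL H) (k + 1) (rtL H e) τ := by
  obtain ⟨b, hb⟩ : ∃ b, M = b + 1 := ⟨M - 1, by have := NeZero.ne M; omega⟩
  have hb' : M - 1 = b := by omega
  rw [hb']
  have hr : rootP H M M e = (free Prod.fst (chL H) (b + 1) (rtL H e) M
      : Prog (Finset V) (Fin M) Bool) := by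
    unfold rootP
    congr 1
  rw [hr]
  refine cnt_root_le h τ b (le_of_eq hb) le_rfl fun c hc => ?_
  rw [mem_rtL] at hc
  exact ⟨hc.1, hc.2.1 ▸ hc.2.2⟩

/-- **Module (V), pairs.** -/
theorem prs_rootP_le [Fintype V] {H : Finset (Finset V)} {M : ℕ} [NeZero M] {om : ℕ → ℝ}
    (h : VHyp M Prod.fst (chL H) (fun P => P.1 ∈ H ∧ P.2 ∈ P.1) om) (e : V) :
    prs (rootP H M M e)
      ≤ (∑ i ∈ range (M - 1), ∑ j ∈ range (M - 1),
          (Wt M om i M * Wt M om j M) * RR Prod.fst (chL H) 0 i j (rtL H e))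
        + ∑ a ∈ range (M - 1), Wt M om a M * ∑ i ∈ range (M - 1), ∑ j ∈ range (M - 1),
            (Wt M om i M * Wt M om j M) * RR Prod.fst (chL H) (a + 1) i j (rtL H e) := by
  obtain ⟨b, hb⟩ : ∃ b, M = b + 1 := ⟨M - 1, by have := NeZero.ne M; omega⟩
  have hb' : M - 1 = b := by omega
  rw [hb']
  have hr : rootP H M M e = (free Prod.fst (chL H) (b + 1) (rtL H e) M
      : Prog (Finset V) (Fin M) Bool) := by
    unfold rootP
    congr 1
  rw [hr]
  refine prs_root_le h b (le_of_eq hb) le_rfl (fun c hc => ?_) (nodup_fst_rtL H e)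
  rw [mem_rtL] at hc
  exact ⟨hc.1, hc.2.1 ▸ hc.2.2⟩

end VisitH

end Crest.Agent.R030
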