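import Crest.Agent.R030.Cavity3
import Crest.Agent.R030.CavParam
import Crest.Agent.R030.Params
import Crest.Agent.R030.VisitH

/-!
Row 30 (S0040), helper30.  From `GoodE` to the hypotheses of block (D) and of module (V).
-/

set_option autoImplicit false

namespace Crest.Agent.R030.GoodCav

open Finset Filter Topology
open Crest.CombinatoricsR.TriangleRemoval

variable {n : ℕ}

theorem mE_nonneg (E : Finset (Sym2 (Fin n))) : 0 ≤ mE E := by
  unfold mE; positivity

theorem mE_pos {E : Finset (Sym2 (Fin n))} {η : ℝ} (hη : η < 1) (hreg : Reg E (mE E) η)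
    (hE : E.Nonempty) : 0 < mE E := by
  rcases (mE_nonneg E).lt_or_eq with h | h
  · exact h
  · exfalso
    obtain ⟨e, he⟩ := hE
    induction e using Sym2.ind with
    | _ u v =>
    have h1 := hreg u v he
    rw [← h] at h1
    simp only [div_zero, zero_sub, abs_neg, abs_one] at h1
    linarith

theorem card_darts_le (E : Finset (Sym2 (Fin n))) : ((darts E).card : ℝ) ≤ (n : ℝ) ^ 2 := by
  have h : (darts E).card ≤ n ^ 2 := by
    calc (darts E).card ≤ (Finset.univ : Finset (Fin n × Fin n)).card :=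
          Finset.card_le_card (Finset.subset_univ _)
      _ = n ^ 2 := by simp [sq]
  exact_mod_cast h

/-- The mean codegree in the last state. -/
theorem mE_window {δ : ℝ} (hn : 1 ≤ n) {E : Finset (Sym2 (Fin n))} (h : PreE δ E)
    (hη : etan δ n < 1) (hX : 30 ≤ Xn δ n) (hcard : (E.card : ℝ) ≤ Xn δ n + 3)
    (hk : Kap.kap n (x0n n) (etan δ n) E.card ≤ 1 / 4) :
    0 < mE E ∧ (n : ℝ) ^ δ / 4 ≤ mE E ∧ mE E ≤ 4 * (n : ℝ) ^ δ := by
  have hn0 : (0 : ℝ) < n := by exact_mod_cast hn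
  have hx : 0 < (E.card : ℝ) := by linarith [h.size]
  have hne : E.Nonempty := Finset.card_pos.1 (by exact_mod_cast hx)
  have hm := mE_pos hη h.reg hne
  have hnδ : 0 < (n : ℝ) ^ δ := Real.rpow_pos_of_pos hn0 _
  have h1 := Kap.mcod_of_window hn0 hx hm h.win hk (by norm_num)
  have h2 : (n : ℝ) ^ δ ≤ Kap.lamx n (E.card) := Iface.lamx_ge hn h.size
  have h3 : Kap.lamx n (E.card) ≤ 2 * (n : ℝ) ^ δ := by
    have h4 : (E.card : ℝ) ≤ 11 / 10 * Xn δ n := by linarith
    have h5 := Iface.lamx_mono hn0 hx.le h4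
    have h6 : Kap.lamx n (11 / 10 * Xn δ n) = (11 / 10) ^ 2 * Kap.lamx n (Xn δ n) := by
      unfold Kap.lamx; ring
    rw [h6, Iface.lamx_Xn hn] at h5
    linarith
  refine ⟨hm, ?_, ?_⟩
  · linarith [h1.1]
  · linarith [h1.2]

/-- **GoodE implies the hypotheses of block (D)** at the end of Stage 1. -/
theorem cavHyp_eventually {δ κ : ℝ} {q : ℕ} (hδ0 : 0 < δ) (hδ1 : δ < 1) (hκ0 : 0 ≤ κ)
    (hκ : κ ≤ 1 / 400400) (hq : 400 / δ ≤ (q : ℝ)) :
    ∀ᶠ n : ℕ in atTop, ∀ M : ℕ, n ^ 2 ≤ M → ∀ E : Finset (Sym2 (Fin n)), GoodE δ q κ E →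
      (E.card : ℝ) ≤ Xn δ n + 3 →
      Cavity.CavHyp E q M (mE E) (etan δ n) κ 1000 (1 / 200)
        (4 * (1 / M + Real.log (1 + 2 * mE E) / (2 * mE E))) ((n : ℝ) ^ (-(δ / 12))) := by
  have hq0 : (0 : ℝ) < q := lt_of_lt_of_le (by positivity) hq
  have hq1 : 1 ≤ q := by exact_mod_cast hq0
  have hsmall : 2 / (q : ℝ) + 1 / 200 * δ ≤ δ / 100 := by
    have : 2 / (q : ℝ) ≤ δ / 200 := by
      rw [div_le_iff₀ hq0]
      rw [div_le_iff₀ hδ0] at hq
      linarith
    linarith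
  have e1 := Cavity.cav_params (Γ := 1000) hδ0 hδ1.le (by norm_num : (0 : ℝ) ≤ 1 / 200)
    (by norm_num) hsmall
  have e2 := Iface.eventually_kap_le δ hδ0 hδ1
  have e3 := Iface.eventually_etan_le δ hδ0 (c := 1 / 1000) (by norm_num)
  have e4 := Iface.eventually_Xn_ge δ hδ0.le 30
  filter_upwards [e1, e2, e3, e4, eventually_ge_atTop 1] with n e1 e2 e3 e4 hn
  intro M hM E hE hcard
  have hn1 : (1 : ℝ) ≤ n := by exact_mod_cast hn
  have hn0 : (0 : ℝ) < n := by linarith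
  have hk : Kap.kap n (x0n n) (etan δ n) E.card ≤ 1 / 4 := by
    refine (e2 _ hE.size (Iface.card_le_x0n hE.sub)).trans ?_
    have : (n : ℝ) ^ (-(δ / 9)) ≤ 1 := Real.rpow_le_one_of_one_le_of_nonpos hn1 (by linarith)
    linarith
  obtain ⟨hm, hm1, hm2⟩ := mE_window hn hE.toPreE (by linarith) e4 hcard hk
  have hη0 : 0 ≤ etan δ n := (Iface.etan_pos hn).le
  obtain ⟨_, a2, a3, a4, a5, a6, a7, a8⟩ := e1 M (mE E) (etan δ n) ((darts E).card) hM hm1 hm2 hη0
    le_rfl (Nat.cast_nonneg _) (card_darts_le E)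
  exact
    { hE := hE.sub
      hq := hq1
      hm := hm
      hη := hη0
      hη1 := a4
      hκ := hκ0
      hΓ := by norm_num
      h1 := by linarith
      h2 := by linarith
      hreg := hE.reg
      hlink := hE.link
      hM := a2
      hmM := a3
      hα := a5
      hα8 := a6
      hθα := a7
      hnum := a8 }

/-- The level weights of module (V). -/
noncomputable def om (m : ℝ) (M l : ℕ) : ℝ := 32 / 7 * (Cavity.RR m M l)⁻¹

theorem om_nonneg {m : ℝ} (hm : 0 ≤ m) (M l : ℕ) : 0 ≤ om m M l := by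
  unfold om
  have := Cavity.RR_pos hm M l
  positivity

/-- **Module (V) hypothesis from block (D).** -/
theorem vhyp_of_cav {E : Finset (Sym2 (Fin n))} {q M : ℕ} {m η κ Γ κ₀ α θ : ℝ}
    (h : Cavity.CavHyp E q M m η κ Γ κ₀ α θ) :
    Prog.VHyp M Prod.fst (chL (act (triHyp n) E))
      (fun P => P.1 ∈ act (triHyp n) E ∧ P.2 ∈ P.1) (om m M) := by
  have hL : Lin3 (act (triHyp n) E) := (lin3_triHyp n).subset (Finset.filter_subset _ _)
  refine VisitH.vhyp hL
    (om_nonneg h.hm.le M) (th := 7 / 8) (by norm_num) ?_ ?_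
  · intro l hl T hT v hv
    have h1 := (h.cavI_bounds hl.le hT hv).2
    linarith [h.hα8]
  · intro l hl T hT v hv
    refine (h.acAcc_bounds hl.le hT hv).2.trans (le_of_eq ?_)
    unfold om
    ring

/-- Total weight. -/
theorem sum_om_le {m : ℝ} (hm : 0 < m) {M : ℕ} (hM : 0 < M) :
    (M : ℝ)⁻¹ * ∑ l ∈ range M, om m M l ≤ 32 / 7 * (1 / M + Real.log (1 + 2 * m) / (2 * m)) := by
  have h := Cavity.JJ_le hm hM
  unfold Cavity.JJ at h
  unfold om
  rw [← Finset.mul_sum]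
  calc (M : ℝ)⁻¹ * (32 / 7 * ∑ l ∈ range M, (Cavity.RR m M l)⁻¹)
      = 32 / 7 * ((M : ℝ)⁻¹ * ∑ l ∈ range M, (Cavity.RR m M l)⁻¹) := by ring
    _ ≤ _ := mul_le_mul_of_nonneg_left h (by norm_num)

/-- Logarithmic form of the root bound at the last level, for `SClose.sum_close`. -/
theorem rootQ_log {E : Finset (Sym2 (Fin n))} {q M : ℕ} {m η κ Γ κ₀ α θ : ℝ}
    (h : Cavity.CavHyp E q M m η κ Γ κ₀ α θ) {e : Sym2 (Fin n)} (he : e ∈ E) :
    0 < rootQ (act (triHyp n) E) M M e ∧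
      |Real.log (rootQ (act (triHyp n) E) M M e) + 1 / 2 * Real.log (1 + 2 * m)| ≤ θ := by
  have h1 := h.dev_le M le_rfl e he
  have h2 := Cavity.surv_pos (H := Cavity.HE E) h.hα8 (h.cav_le le_rfl) e
  rw [← Cavity.rootQ_eq_surv] at h2
  refine ⟨h2, ?_⟩
  unfold Cavity.dev at h1
  rw [← Cavity.rootQ_eq_surv] at h1
  have hM : (M : ℝ) ≠ 0 := by
    have := h.hM
    have h8 : 0 < M := by omega
    exact_mod_cast h8.ne'
  have h3 : Cavity.RR m M M = 1 + 2 * m := by
    unfold Cavity.RR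
    field_simp
  rw [h3] at h1
  exact h1

end Crest.Agent.R030.GoodCav
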