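import Crest.Agent.R030.Influence
import Crest.Prelude.Def_TriangleRemoval

/-!
Row 30 (S0040): the bridge between `expectFinal` and the hypergraph level process `Phi`.
-/

set_option autoImplicit false

namespace Crest.Agent.R030

open Finset Crest.CombinatoricsR.TriangleRemoval

variable {n : ℕ}

/-- The three edges of a vertex triple. -/
def edgesOf (t : Finset (Fin n)) : Finset (Sym2 (Fin n)) := t.sym2.filter (fun z => ¬ z.IsDiag)

/-- The triangle hypergraph of the complete graph. -/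
def triHyp (n : ℕ) : Finset (Finset (Sym2 (Fin n))) :=
  ((Finset.univ : Finset (Fin n)).powersetCard 3).image edgesOf

theorem mem_edgesOf {t : Finset (Fin n)} {e : Sym2 (Fin n)} :
    e ∈ edgesOf t ↔ (∀ v ∈ e, v ∈ t) ∧ ¬ e.IsDiag := by
  simp [edgesOf, Finset.mem_sym2_iff]

theorem mk_mem_edgesOf {t : Finset (Fin n)} {u v : Fin n} :
    s(u, v) ∈ edgesOf t ↔ u ∈ t ∧ v ∈ t ∧ u ≠ v := by
  simp [mem_edgesOf, and_assoc]

theorem edgesOf_explicit {a b c : Fin n} (hab : a ≠ b) (hac : a ≠ c) (hbc : b ≠ c) :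
    edgesOf ({a, b, c} : Finset (Fin n)) = {s(a, b), s(a, c), s(b, c)} := by
  ext e
  induction e using Sym2.ind with
  | _ x y =>
    rw [mk_mem_edgesOf]
    simp only [Finset.mem_insert, Finset.mem_singleton, Sym2.eq_iff]
    constructor
    · rintro ⟨rfl | rfl | rfl, rfl | rfl | rfl, h⟩ <;> simp_all
    · rintro ((⟨rfl, rfl⟩ | ⟨rfl, rfl⟩) | (⟨rfl, rfl⟩ | ⟨rfl, rfl⟩) | (⟨rfl, rfl⟩ | ⟨rfl, rfl⟩)) <;>
        simp_all [eq_comm]

theorem card_edgesOf {t : Finset (Fin n)} (ht : t.card = 3) : (edgesOf t).card = 3 := by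
  obtain ⟨a, b, c, hab, hac, hbc, rfl⟩ := Finset.card_eq_three.1 ht
  rw [edgesOf_explicit hab hac hbc]
  rw [Finset.card_eq_three]
  refine ⟨_, _, _, ?_, ?_, ?_, rfl⟩
  · intro h
    rw [Sym2.eq_iff] at h
    rcases h with ⟨_, h⟩ | ⟨h, _⟩
    · exact hbc h
    · exact hac h
  · intro h
    rw [Sym2.eq_iff] at h
    rcases h with ⟨h, _⟩ | ⟨h, _⟩
    · exact hab h
    · exact hac h
  · intro h
    rw [Sym2.eq_iff] at h
    rcases h with ⟨h, _⟩ | ⟨h, _⟩
    · exact hab h
    · exact hac h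

/-- Two different edges of a triple determine it. -/
theorem eq_of_two_edges {t t' : Finset (Fin n)} (ht : t.card = 3) (ht' : t'.card = 3)
    {e e' : Sym2 (Fin n)} (hne : e ≠ e') (h1 : e ∈ edgesOf t) (h2 : e' ∈ edgesOf t)
    (h3 : e ∈ edgesOf t') (h4 : e' ∈ edgesOf t') : t = t' := by
  induction e using Sym2.ind with
  | _ u v =>
  induction e' using Sym2.ind with
  | _ w z =>
  rw [mk_mem_edgesOf] at h1 h2 h3 h4
  obtain ⟨x, hx, hx', hxu, hxv⟩ : ∃ x, x ∈ t ∧ x ∈ t' ∧ x ≠ u ∧ x ≠ v := by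
    by_contra hcon
    push Not at hcon
    have hw := hcon w h2.1 h4.1
    have hz := hcon z h2.2.1 h4.2.1
    apply hne
    rw [Sym2.eq_iff]
    by_cases hwu : w = u
    · left
      refine ⟨hwu.symm, ?_⟩
      by_cases hzu : z = u
      · exact absurd (hwu.trans hzu.symm) h2.2.2
      · exact (hz hzu).symm
    · right
      have hwv := hw hwu
      refine ⟨?_, hwv.symm⟩
      by_contra hzu
      have := hz (fun h => hzu h.symm)
      exact h2.2.2 (hwv.trans this.symm)
  have hc : ({x, u, v} : Finset (Fin n)).card = 3 := by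
    rw [Finset.card_eq_three]
    exact ⟨x, u, v, hxu, hxv, h1.2.2, rfl⟩
  have s1 : ({x, u, v} : Finset (Fin n)) ⊆ t := by
    intro y hy
    simp only [Finset.mem_insert, Finset.mem_singleton] at hy
    rcases hy with rfl | rfl | rfl
    · exact hx
    · exact h1.1
    · exact h1.2.1
  have s2 : ({x, u, v} : Finset (Fin n)) ⊆ t' := by
    intro y hy
    simp only [Finset.mem_insert, Finset.mem_singleton] at hy
    rcases hy with rfl | rfl | rfl
    · exact hx'
    · exact h3.1
    · exact h3.2.1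
  rw [← Finset.eq_of_subset_of_card_le s1 (by omega), ← Finset.eq_of_subset_of_card_le s2 (by omega)]

theorem edgesOf_injOn {t t' : Finset (Fin n)} (ht : t.card = 3) (ht' : t'.card = 3)
    (h : edgesOf t = edgesOf t') : t = t' := by
  have h3 := card_edgesOf ht
  obtain ⟨a, b, c, hab, _, _, habc⟩ := Finset.card_eq_three.1 h3
  have ha : a ∈ edgesOf t := by rw [habc]; simp
  have hb : b ∈ edgesOf t := by rw [habc]; simp
  exact eq_of_two_edges ht ht' hab ha hb (h ▸ ha) (h ▸ hb)

theorem lin3_triHyp (n : ℕ) : Lin3 (triHyp n) := by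
  constructor
  · intro T hT
    rw [triHyp, Finset.mem_image] at hT
    obtain ⟨t, ht, rfl⟩ := hT
    rw [Finset.mem_powersetCard] at ht
    exact card_edgesOf ht.2
  · intro T hT T' hT' a b hab h1 h2 h3 h4
    rw [triHyp, Finset.mem_image] at hT hT'
    obtain ⟨t, ht, rfl⟩ := hT
    obtain ⟨t', ht', rfl⟩ := hT'
    rw [Finset.mem_powersetCard] at ht ht'
    rw [eq_of_two_edges ht.2 ht'.2 hab h1 h2 h3 h4]

theorem mem_triangles {E : Finset (Sym2 (Fin n))} {t : Finset (Fin n)} :
    t ∈ triangles E ↔ t.card = 3 ∧ edgesOf t ⊆ E := by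
  unfold triangles
  rw [Finset.mem_filter, Finset.mem_powersetCard]
  constructor
  · rintro ⟨⟨_, h3⟩, h⟩
    refine ⟨h3, ?_⟩
    intro e he
    induction e using Sym2.ind with
    | _ u v =>
      rw [mk_mem_edgesOf] at he
      exact h u he.1 v he.2.1 he.2.2
  · rintro ⟨h3, h⟩
    refine ⟨⟨Finset.subset_univ _, h3⟩, ?_⟩
    intro u hu v hv huv
    exact h (mk_mem_edgesOf.2 ⟨hu, hv, huv⟩)

theorem mem_act_triHyp {E : Finset (Sym2 (Fin n))} {T : Finset (Sym2 (Fin n))} :
    T ∈ act (triHyp n) E ↔ ∃ t ∈ triangles E, edgesOf t = T := by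
  rw [mem_act, triHyp, Finset.mem_image]
  constructor
  · rintro ⟨⟨t, ht, rfl⟩, h⟩
    rw [Finset.mem_powersetCard] at ht
    exact ⟨t, mem_triangles.2 ⟨ht.2, h⟩, rfl⟩
  · rintro ⟨t, ht, rfl⟩
    rw [mem_triangles] at ht
    exact ⟨⟨t, Finset.mem_powersetCard.2 ⟨Finset.subset_univ _, ht.1⟩, rfl⟩, ht.2⟩

theorem act_triHyp (E : Finset (Sym2 (Fin n))) :
    act (triHyp n) E = (triangles E).image edgesOf := by
  ext T
  rw [mem_act_triHyp, Finset.mem_image]

theorem edgesOf_injOn_triangles (E : Finset (Sym2 (Fin n))) :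
    Set.InjOn edgesOf (triangles E : Set (Finset (Fin n))) := by
  intro t ht t' ht' h
  rw [Finset.mem_coe, mem_triangles] at ht ht'
  exact edgesOf_injOn ht.1 ht'.1 h

theorem card_act_triHyp (E : Finset (Sym2 (Fin n))) :
    (act (triHyp n) E).card = (triangles E).card := by
  rw [act_triHyp, Finset.card_image_of_injOn (edgesOf_injOn_triangles E)]

theorem sdiff_sym2_eq {E : Finset (Sym2 (Fin n))} (hE : E ⊆ allEdges n) (t : Finset (Fin n)) :
    E \ t.sym2 = E \ edgesOf t := by
  ext e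
  simp only [Finset.mem_sdiff, edgesOf, Finset.mem_filter, not_and, not_not]
  constructor
  · rintro ⟨h1, h2⟩
    exact ⟨h1, fun h => absurd h h2⟩
  · rintro ⟨h1, h2⟩
    refine ⟨h1, fun h => ?_⟩
    have := hE h1
    rw [allEdges, Finset.mem_filter] at this
    exact this.2 (h2 h)

/-- **Bridge.** -/
theorem expectFinal_eq_val (φ : ℕ → ℝ) :
    ∀ (k : ℕ) (E : Finset (Sym2 (Fin n))), E ⊆ allEdges n →
      expectFinal φ k E = val (triHyp n) (fun A => φ A.card) k E := by
  intro k
  induction k with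
  | zero => intro E _; rfl
  | succ k ih =>
    intro E hE
    simp only [expectFinal, val]
    rw [card_act_triHyp]
    split_ifs with h
    · rfl
    · congr 1
      rw [act_triHyp, Finset.sum_image (edgesOf_injOn_triangles E)]
      apply Finset.sum_congr rfl
      intro t _
      rw [sdiff_sym2_eq hE, ih _ (Finset.sdiff_subset.trans hE)]

theorem card_allEdges_le (n : ℕ) : (allEdges n).card ≤ n ^ 2 := by
  have h1 : (allEdges n).card = n.choose 2 := by
    have := Sym2.card_subtype_not_diag (α := Fin n)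
    rw [Fintype.card_fin] at this
    rw [← this, allEdges, Fintype.card_subtype]
  rw [h1]
  calc n.choose 2 ≤ n ^ 2 := Nat.choose_le_pow n 2

theorem expectFinal_eq_Phi (φ : ℕ → ℝ) (n : ℕ) :
    expectFinal φ (n ^ 2) (allEdges n) = Phi (triHyp n) (fun A => φ A.card) (allEdges n) := by
  rw [expectFinal_eq_val φ (n ^ 2) (allEdges n) (Finset.Subset.refl _)]
  exact val_eq_Phi (fun T hT => (lin3_triHyp n).nonempty hT) _ (card_allEdges_le n)

end Crest.Agent.R030
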