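import Crest.Agent.R030.DriftSum
import Crest.Agent.R030.Bridge

/-!
Row 30 (S0040), blueprint 6117 part (C): the stars of the triangle hypergraph.
-/

set_option autoImplicit false

namespace Crest.Agent.R030.Drift

open Finset Crest.CombinatoricsR.TriangleRemoval

variable {n : ℕ}

/-- the star of a vertex -/
def star (u : Fin n) : Finset (Sym2 (Fin n)) := (allEdges n).filter (fun e => u ∈ e)

theorem mem_star {u : Fin n} {e : Sym2 (Fin n)} : e ∈ star u ↔ ¬ e.IsDiag ∧ u ∈ e := by
  simp [star, allEdges]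

theorem mk_mem_star {u a b : Fin n} : s(a, b) ∈ star u ↔ a ≠ b ∧ (u = a ∨ u = b) := by
  rw [mem_star]
  simp

theorem stars_triHyp (n : ℕ) : Stars (triHyp n) (allEdges n) (fun u : Fin n => star u) where
  two := by
    intro e he
    induction e using Sym2.ind with
    | _ a b =>
      have hab : a ≠ b := by simpa [allEdges] using he
      refine ⟨a, b, hab, fun y => ?_⟩
      rw [mk_mem_star]
      simp [hab]
  meet := by
    intro T hT u hu
    rw [triHyp, Finset.mem_image] at hT
    obtain ⟨t, ht, rfl⟩ := hT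
    rw [Finset.mem_powersetCard] at ht
    have ht3 := ht.2
    rw [Finset.not_disjoint_iff] at hu
    obtain ⟨e, he, heu⟩ := hu
    have hut : u ∈ t := by
      rw [mem_edgesOf] at he
      exact he.1 u (mem_star.1 heu).2
    obtain ⟨b, c, hbc, hbct⟩ : ∃ b c, b ≠ c ∧ t.erase u = {b, c} := by
      have : (t.erase u).card = 2 := by rw [Finset.card_erase_of_mem hut, ht3]
      obtain ⟨b, c, hbc, h⟩ := Finset.card_eq_two.1 this
      exact ⟨b, c, hbc, h⟩
    have hb : b ∈ t.erase u := by rw [hbct]; simp
    have hc : c ∈ t.erase u := by rw [hbct]; simp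
    have hub : u ≠ b := fun h => (Finset.mem_erase.1 hb).1 h.symm
    have huc : u ≠ c := fun h => (Finset.mem_erase.1 hc).1 h.symm
    have hteq : t = {u, b, c} := by
      rw [← Finset.insert_erase hut, hbct]
    have hset : edgesOf t ∩ star u = {s(u, b), s(u, c)} := by
      rw [hteq, edgesOf_explicit hub huc hbc]
      ext e
      simp only [Finset.mem_inter, Finset.mem_insert, Finset.mem_singleton]
      constructor
      · rintro ⟨rfl | rfl | rfl, h⟩
        · left; rfl
        · right; rfl
        · rw [mk_mem_star] at h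
          rcases h.2 with h | h
          · exact absurd h hub
          · exact absurd h huc
      · rintro (rfl | rfl)
        · exact ⟨Or.inl rfl, mk_mem_star.2 ⟨hub, Or.inl rfl⟩⟩
        · exact ⟨Or.inr (Or.inl rfl), mk_mem_star.2 ⟨huc, Or.inl rfl⟩⟩
    rw [hset, Finset.card_pair]
    intro h
    rw [Sym2.eq_iff] at h
    rcases h with ⟨_, h⟩ | ⟨h, _⟩
    · exact hbc h
    · exact huc h
  uniq := by
    intro u f hf T hT T' hT' hfT hfT' hTu hT'u
    rw [triHyp, Finset.mem_image] at hT hT'
    obtain ⟨t, ht, rfl⟩ := hT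
    obtain ⟨t', ht', rfl⟩ := hT'
    rw [Finset.mem_powersetCard] at ht ht'
    have hut : u ∈ t := by
      rw [Finset.not_disjoint_iff] at hTu
      obtain ⟨e, he, heu⟩ := hTu
      rw [mem_edgesOf] at he
      exact he.1 u (mem_star.1 heu).2
    have hut' : u ∈ t' := by
      rw [Finset.not_disjoint_iff] at hT'u
      obtain ⟨e, he, heu⟩ := hT'u
      rw [mem_edgesOf] at he
      exact he.1 u (mem_star.1 heu).2
    induction f using Sym2.ind with
    | _ b c =>
      rw [mk_mem_edgesOf] at hfT hfT'
      have hub : u ≠ b := fun h => hf (mk_mem_star.2 ⟨hfT.2.2, Or.inl h⟩)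
      have huc : u ≠ c := fun h => hf (mk_mem_star.2 ⟨hfT.2.2, Or.inr h⟩)
      have hne : s(u, b) ≠ s(b, c) := by
        intro h
        rw [Sym2.eq_iff] at h
        rcases h with ⟨h, _⟩ | ⟨h, _⟩
        · exact hub h
        · exact huc h
      congr 1
      refine eq_of_two_edges ht.2 ht'.2 hne (mk_mem_edgesOf.2 ⟨hut, hfT.1, hub⟩)
        (mk_mem_edgesOf.2 hfT) (mk_mem_edgesOf.2 ⟨hut', hfT'.1, hub⟩) (mk_mem_edgesOf.2 hfT')

end Crest.Agent.R030.Drift
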