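import Crest.Agent.R030.Path
import Crest.Agent.R030.Bridge

/-!
# R030 (S0040): the removal process as a kernel, killed expectations

* `K.kill G f k ω` : expectation of `f (ω_k)` on the event `ω_0, …, ω_{k-1} ∈ G`.
* `baseKer H`      : the hyperedge removal process on `Finset V` (absorbed at dead states).
* `baseKer_E_eq_Phi`, `expectFinal_eq_E` : bridges.
* `law K G ω i S`  : law of the killed process at time `i`.
-/

set_option autoImplicit false

open Finset

namespace Crest.Agent.R030

namespace Ker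

variable {ι Ω : Type*} (K : Ker ι Ω)

open Classical in
/-- killed expectation: `f (ω_k)` on the event `ω_0, …, ω_{k-1} ∈ G`. -/
noncomputable def kill (G : Ω → Prop) (f : Ω → ℝ) : ℕ → Ω → ℝ
  | 0, ω => f ω
  | k + 1, ω => if G ω then K.avg ω (kill G f k) else 0

variable {G : Ω → Prop}

@[simp] lemma kill_zero (f : Ω → ℝ) (ω : Ω) : K.kill G f 0 ω = f ω := rfl

lemma kill_succ (f : Ω → ℝ) (k : ℕ) {ω : Ω} (h : G ω) :
    K.kill G f (k + 1) ω = K.avg ω (K.kill G f k) := by simp [kill, h]

lemma kill_succ_not (f : Ω → ℝ) (k : ℕ) {ω : Ω} (h : ¬ G ω) :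
    K.kill G f (k + 1) ω = 0 := by simp [kill, h]

lemma kill_add (f g : Ω → ℝ) (k : ℕ) (ω : Ω) :
    K.kill G (fun x => f x + g x) k ω = K.kill G f k ω + K.kill G g k ω := by
  induction k generalizing ω with
  | zero => rfl
  | succ k ih =>
    by_cases h : G ω
    · rw [K.kill_succ _ _ h, K.kill_succ _ _ h, K.kill_succ _ _ h, ← K.avg_add]
      exact K.avg_congr (fun x _ => ih x)
    · rw [K.kill_succ_not _ _ h, K.kill_succ_not _ _ h, K.kill_succ_not _ _ h, add_zero]

lemma kill_smul (c : ℝ) (f : Ω → ℝ) (k : ℕ) (ω : Ω) :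
    K.kill G (fun x => c * f x) k ω = c * K.kill G f k ω := by
  induction k generalizing ω with
  | zero => rfl
  | succ k ih =>
    by_cases h : G ω
    · rw [K.kill_succ _ _ h, K.kill_succ _ _ h, ← K.avg_smul]
      exact K.avg_congr (fun x _ => ih x)
    · rw [K.kill_succ_not _ _ h, K.kill_succ_not _ _ h, mul_zero]

lemma kill_sum {κ : Type*} (s : Finset κ) (f : κ → Ω → ℝ) (k : ℕ) (ω : Ω) :
    K.kill G (fun x => ∑ i ∈ s, f i x) k ω = ∑ i ∈ s, K.kill G (f i) k ω := by
  induction k generalizing ω with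
  | zero => rfl
  | succ k ih =>
    by_cases h : G ω
    · rw [K.kill_succ _ _ h, K.avg_congr (fun x _ => ih x), K.avg_sum]
      exact Finset.sum_congr rfl (fun i _ => (K.kill_succ _ _ h).symm)
    · rw [K.kill_succ_not _ _ h]
      exact (Finset.sum_eq_zero (fun i _ => K.kill_succ_not _ _ h)).symm

/-- killed expectations only depend on the values on states reachable inside `G`. -/
lemma kill_mono_of {I : Ω → Prop} (hI : ∀ ω, I ω → G ω → ∀ x ∈ K.supp ω, I x)
    {f g : Ω → ℝ} (h : ∀ ω, I ω → f ω ≤ g ω) (k : ℕ) (ω : Ω) (hω : I ω) :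
    K.kill G f k ω ≤ K.kill G g k ω := by
  induction k generalizing ω with
  | zero => exact h ω hω
  | succ k ih =>
    by_cases hG : G ω
    · rw [K.kill_succ _ _ hG, K.kill_succ _ _ hG]
      exact K.avg_mono _ _ _ (fun x hx => ih x (hI ω hω hG x hx))
    · rw [K.kill_succ_not _ _ hG, K.kill_succ_not _ _ hG]

lemma kill_mono {f g : Ω → ℝ} (h : ∀ ω, f ω ≤ g ω) (k : ℕ) (ω : Ω) :
    K.kill G f k ω ≤ K.kill G g k ω :=
  K.kill_mono_of (I := fun _ => True) (fun _ _ _ _ _ => trivial) (fun ω _ => h ω) k ω trivial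

lemma kill_const_zero (k : ℕ) (ω : Ω) : K.kill G (fun _ => 0) k ω = 0 := by
  have := K.kill_smul (G := G) 0 (fun _ => 0) k ω
  simpa using this

lemma kill_nonneg {f : Ω → ℝ} (h : ∀ ω, 0 ≤ f ω) (k : ℕ) (ω : Ω) : 0 ≤ K.kill G f k ω := by
  have := K.kill_mono (G := G) (f := fun _ => 0) h k ω
  rwa [kill_const_zero] at this

/-- time-dependent supermartingale on the good set -/
lemma kill_le_of_super {I : Ω → Prop} (hI : ∀ ω, I ω → G ω → ∀ x ∈ K.supp ω, I x)
    (f : Ω → ℝ) (h0 : ∀ ω, I ω → 0 ≤ f ω)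
    (h : ∀ ω, I ω → G ω → K.avg ω f ≤ f ω) (k : ℕ) (ω : Ω) (hω : I ω) :
    K.kill G f k ω ≤ f ω := by
  induction k generalizing ω with
  | zero => exact le_rfl
  | succ k ih =>
    by_cases hG : G ω
    · rw [K.kill_succ _ _ hG]
      exact (K.avg_mono _ _ _ (fun x hx => ih x (hI ω hω hG x hx))).trans (h ω hω hG)
    · rw [K.kill_succ_not _ _ hG]; exact h0 ω hω

lemma kill_le_E {f : Ω → ℝ} (h : ∀ ω, 0 ≤ f ω) (k : ℕ) (ω : Ω) :
    K.kill G f k ω ≤ K.E f k ω := by
  induction k generalizing ω with
  | zero => exact le_rfl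
  | succ k ih =>
    by_cases hG : G ω
    · rw [K.kill_succ _ _ hG, E_succ]; exact K.avg_mono _ _ _ (fun x _ => ih x)
    · rw [K.kill_succ_not _ _ hG]; exact K.E_nonneg h _ _

open Classical in
/-- union over time: the hitting probability is at most the sum of the occupation
probabilities of the killed process. -/
lemma hit_le_sum_kill (B : Ω → Prop) (k : ℕ) (ω : Ω) :
    K.hit B G k ω ≤ ∑ i ∈ Finset.range (k + 1), K.kill G (fun x => if B x then 1 else 0) i ω := by
  induction k generalizing ω with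
  | zero =>
    by_cases h : B ω
    · rw [K.hit_of_mem h]; simp [h]
    · rw [K.hit_zero_of_not h]; simp [h]
  | succ k ih =>
    have h01 : ∀ x : Ω, (0:ℝ) ≤ if B x then 1 else 0 := fun x => by split_ifs <;> norm_num
    by_cases h : B ω
    · rw [K.hit_of_mem h, Finset.sum_range_succ']
      simp only [kill_zero, h, if_true]
      have : 0 ≤ ∑ i ∈ Finset.range (k + 1),
          K.kill G (fun x => if B x then (1:ℝ) else 0) (i + 1) ω :=
        Finset.sum_nonneg (fun i _ => K.kill_nonneg h01 _ _)
      linarith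
    · by_cases h2 : G ω
      · rw [K.hit_succ h h2, Finset.sum_range_succ']
        simp only [kill_zero, h, if_false, add_zero]
        calc K.avg ω (K.hit B G k)
            ≤ K.avg ω (fun x => ∑ i ∈ Finset.range (k + 1),
                K.kill G (fun x => if B x then (1:ℝ) else 0) i x) :=
              K.avg_mono _ _ _ (fun x _ => ih x)
          _ = ∑ i ∈ Finset.range (k + 1),
                K.kill G (fun x => if B x then (1:ℝ) else 0) (i + 1) ω := by
              rw [K.avg_sum]
              exact Finset.sum_congr rfl (fun i _ => (K.kill_succ _ _ h2).symm)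
      · rw [K.hit_of_not_good h h2]
        exact Finset.sum_nonneg (fun i _ => K.kill_nonneg h01 _ _)

/-- splitting an expectation according to whether the path leaves `G`. -/
lemma E_le_kill_add {f : Ω → ℝ} {C : ℝ} (hC : ∀ ω, f ω ≤ C) (hC0 : 0 ≤ C) (k : ℕ) (ω : Ω) :
    K.E f k ω ≤ K.kill G f k ω + C * K.hit (fun x => ¬ G x) G k ω := by
  induction k generalizing ω with
  | zero =>
    rw [E_zero, kill_zero]
    have := mul_nonneg hC0 (K.hit_nonneg (B := fun x => ¬ G x) (G := G) 0 ω)
    linarith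
  | succ k ih =>
    by_cases h : G ω
    · rw [E_succ, K.kill_succ _ _ h, K.hit_succ (B := fun x => ¬ G x) (by simpa using h) h,
        ← K.avg_smul, ← K.avg_add]
      exact K.avg_mono _ _ _ (fun x _ => ih x)
    · rw [K.kill_succ_not _ _ h, K.hit_of_mem (B := fun x => ¬ G x) h]
      have := K.E_mono (g := fun _ => C) hC (k+1) ω
      rw [E_const] at this
      linarith

lemma kill_add_time (f : Ω → ℝ) (k l : ℕ) (ω : Ω) :
    K.kill G f (k + l) ω = K.kill G (K.kill G f l) k ω := by
  induction k generalizing ω with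
  | zero => simp
  | succ k ih =>
    by_cases h : G ω
    · rw [Nat.succ_add, K.kill_succ _ _ h, K.kill_succ _ _ h]
      exact K.avg_congr (fun x _ => ih x)
    · rw [Nat.succ_add, K.kill_succ_not _ _ h, K.kill_succ_not _ _ h]

section Law

variable [DecidableEq Ω]

/-- law of the killed process at time `k` -/
noncomputable def law (G : Ω → Prop) (ω : Ω) (k : ℕ) (S : Ω) : ℝ :=
  K.kill G (fun x => if x = S then 1 else 0) k ω

lemma law_nonneg (ω : Ω) (k : ℕ) (S : Ω) : 0 ≤ K.law G ω k S :=
  K.kill_nonneg (fun x => by split_ifs <;> norm_num) k ω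

lemma sum_law [Fintype Ω] (f : Ω → ℝ) (ω : Ω) (k : ℕ) :
    ∑ S : Ω, K.law G ω k S * f S = K.kill G f k ω := by
  have h1 : ∀ S : Ω, K.law G ω k S * f S
      = K.kill G (fun x => f S * (if x = S then 1 else 0)) k ω := by
    intro S
    rw [K.kill_smul, mul_comm]
    rfl
  rw [Finset.sum_congr rfl (fun S _ => h1 S), ← K.kill_sum]
  congr 1
  funext x
  rw [Finset.sum_eq_single x (fun S _ hS => by rw [if_neg (Ne.symm hS)]; ring)
    (fun h => absurd (Finset.mem_univ x) h)]
  simp

lemma sum_ite_law [Fintype Ω] (P : Ω → Prop) [DecidablePred P] (ω : Ω) (k : ℕ) :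
    ∑ S : Ω, (if P S then K.law G ω k S else 0)
      = K.kill G (fun x => if P x then 1 else 0) k ω := by
  rw [← K.sum_law]
  exact Finset.sum_congr rfl (fun S _ => by split_ifs <;> simp)

/-- the killed law only charges states reachable from the start inside `G`. -/
lemma law_eq_zero {I : Ω → Prop} (hI : ∀ ω, I ω → G ω → ∀ x ∈ K.supp ω, I x)
    {ω : Ω} (hω : I ω) (k : ℕ) {S : Ω} (hS : ¬ I S) : K.law G ω k S = 0 := by
  refine le_antisymm ?_ (K.law_nonneg ω k S)
  have := K.kill_mono_of (G := G) hI (f := fun x => if x = S then (1:ℝ) else 0) (g := fun _ => 0)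
    (fun x hx => by
      rw [if_neg]
      rintro rfl
      exact hS hx) k ω hω
  rwa [kill_const_zero] at this

end Law

end Ker

/-! ### The removal process -/

variable {V : Type*} [DecidableEq V]

/-- the hyperedge removal process as a kernel on sets of alive vertices. -/
def baseKer (H : Finset (Finset V)) : Ker (Finset V) (Finset V) where
  idx A := if act H A = ∅ then {∅} else act H A
  ne A := by
    by_cases h : act H A = ∅
    · simp [h]
    · simp only [h, if_false]; exact Finset.nonempty_iff_ne_empty.2 h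
  nxt A T := A \ T

variable {H : Finset (Finset V)}

lemma baseKer_avg_dead {A : Finset V} (h : act H A = ∅) (f : Finset V → ℝ) :
    (baseKer H).avg A f = f A := by
  simp [Ker.avg, baseKer, h]

lemma baseKer_avg {A : Finset V} (h : act H A ≠ ∅) (f : Finset V → ℝ) :
    (baseKer H).avg A f = ((act H A).card : ℝ)⁻¹ * ∑ T ∈ act H A, f (A \ T) := by
  simp [Ker.avg, baseKer, h]

lemma card_mul_avg (A : Finset V) (f : Finset V → ℝ) :
    ((act H A).card : ℝ) * (baseKer H).avg A f = ∑ T ∈ act H A, f (A \ T) := by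
  by_cases h : act H A = ∅
  · simp [h]
  · rw [baseKer_avg h, mul_inv_cancel_left₀]
    exact_mod_cast fun h' => h (Finset.card_eq_zero.1 h')

lemma mem_supp_baseKer {A x : Finset V} :
    x ∈ (baseKer H).supp A ↔ (act H A = ∅ ∧ x = A) ∨ ∃ T ∈ act H A, x = A \ T := by
  by_cases h : act H A = ∅
  · simp [Ker.supp, baseKer, h, eq_comm]
  · have : (baseKer H).idx A = act H A := if_neg h
    simp only [Ker.supp, Set.mem_ofPred_eq, this, h, false_and, false_or]
    constructor
    · rintro ⟨T, hT, rfl⟩; exact ⟨T, hT, rfl⟩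
    · rintro ⟨T, hT, rfl⟩; exact ⟨T, hT, rfl⟩

lemma subset_of_mem_supp {A x : Finset V} (h : x ∈ (baseKer H).supp A) : x ⊆ A := by
  rcases mem_supp_baseKer.1 h with ⟨-, rfl⟩ | ⟨T, -, rfl⟩
  · exact Finset.Subset.refl _
  · exact Finset.sdiff_subset

lemma mem_supp_alive {A x : Finset V} (hA : act H A ≠ ∅) (h : x ∈ (baseKer H).supp A) :
    ∃ T ∈ act H A, x = A \ T := by
  rcases mem_supp_baseKer.1 h with ⟨h1, -⟩ | h1
  · exact absurd h1 hA
  · exact h1

lemma card_sdiff_act (hH : Lin3 H) {A T : Finset V} (hT : T ∈ act H A) :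
    (A \ T).card + 3 = A.card := by
  rw [mem_act] at hT
  have h1 := Finset.card_sdiff_add_card_eq_card hT.2
  rw [hH.card3 T hT.1] at h1
  exact h1

lemma card_of_mem_supp (hH : Lin3 H) {A x : Finset V} (hA : act H A ≠ ∅)
    (h : x ∈ (baseKer H).supp A) : x.card + 3 = A.card := by
  obtain ⟨T, hT, rfl⟩ := mem_supp_alive hA h
  exact card_sdiff_act hH hT

lemma baseKer_E_dead (f : Finset V → ℝ) {A : Finset V} (h : act H A = ∅) (k : ℕ) :
    (baseKer H).E f k A = f A := by
  induction k with
  | zero => rfl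
  | succ k ih => rw [Ker.E_succ, baseKer_avg_dead h, ih]

/-- bridge with 454's `val` -/
theorem baseKer_E_eq_val (f : Finset V → ℝ) (k : ℕ) (A : Finset V) :
    (baseKer H).E f k A = val H f k A := by
  induction k generalizing A with
  | zero => rfl
  | succ k ih =>
    by_cases h : act H A = ∅
    · rw [baseKer_E_dead f h]
      simp [val, h]
    · rw [Ker.E_succ, baseKer_avg h]
      have h0 : (act H A).card ≠ 0 := fun h' => h (Finset.card_eq_zero.1 h')
      simp only [val, if_neg h0]
      congr 1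
      exact Finset.sum_congr rfl (fun T _ => ih _)

theorem baseKer_E_eq_Phi (hne : ∀ T ∈ H, T.Nonempty) (f : Finset V → ℝ) {k : ℕ} {A : Finset V}
    (hk : A.card ≤ k) : (baseKer H).E f k A = Phi H f A := by
  rw [baseKer_E_eq_val, val_eq_Phi hne f hk]

/-- restart at a later time: `Phi` is the average of `Phi` at time `k`. -/
theorem Phi_eq_E_Phi (hne : ∀ T ∈ H, T.Nonempty) (f : Finset V → ℝ) (k : ℕ) (A : Finset V) :
    Phi H f A = (baseKer H).E (Phi H f) k A := by
  induction k generalizing A with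
  | zero => rfl
  | succ k ih =>
    rw [Ker.E_succ, ← Ker.avg_congr _ (fun x _ => ih x)]
    by_cases h : act H A = ∅
    · rw [baseKer_avg_dead h]
    · have h0 : ((act H A).card : ℝ) ≠ 0 := by
        exact_mod_cast fun h' => h (Finset.card_eq_zero.1 h')
      rw [baseKer_avg h, ← Phi_rec hne, inv_mul_cancel_left₀ h0]

open Crest.CombinatoricsR.TriangleRemoval in
/-- bridge to the statement of the result -/
theorem expectFinal_eq_E (φ : ℕ → ℝ) (n k : ℕ) (hk : (allEdges n).card ≤ k) :
    expectFinal φ (n ^ 2) (allEdges n)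
      = (baseKer (triHyp n)).E (fun A => φ A.card) k (allEdges n) := by
  rw [expectFinal_eq_Phi, baseKer_E_eq_Phi (fun T hT => (lin3_triHyp n).nonempty hT) _ hk]

end Crest.Agent.R030
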