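import Mathlib

/-!
Row 30 (S0040), process-free analysis for stage 1 (B) -> (C).

`interp_pow`: elementary Marcinkiewicz-type interpolation between `L^2 → L^2` (norm `δ`) and
`L^∞ → L^∞` (norm `B`) for linear maps between finite-dimensional function spaces, with natural
exponent `q ≥ 3` and no logarithmic loss:
`∑ |T g|^q ≤ (4 q / (q-2)) (2B)^(q-2) δ² ∑ |g|^q`.
-/

set_option autoImplicit false

namespace Crest.Agent.R030

open MeasureTheory intervalIntegral

/-- the layer function `t ↦ (k+1) t^k 1(t < a)`. -/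
noncomputable def layer (k : ℕ) (a t : ℝ) : ℝ := if t < a then ((k : ℝ) + 1) * t ^ k else 0

theorem layer_intervalIntegrable (k : ℕ) (a M : ℝ) (hM : 0 ≤ M) :
    IntervalIntegrable (layer k a) volume 0 M := by
  have hc : Continuous (fun t : ℝ => ((k : ℝ) + 1) * t ^ k) := by fun_prop
  have h1 : IntervalIntegrable (fun t : ℝ => ((k : ℝ) + 1) * t ^ k) volume 0 M :=
    hc.intervalIntegrable 0 M
  rw [intervalIntegrable_iff] at h1 ⊢
  have : layer k a = Set.indicator (Set.Iio a) (fun t : ℝ => ((k : ℝ) + 1) * t ^ k) := by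
    funext t
    simp [layer, Set.indicator]
  rw [this]
  exact h1.indicator measurableSet_Iio

theorem integral_layer (k : ℕ) {a M : ℝ} (ha : 0 ≤ a) (haM : a ≤ M) :
    ∫ t in (0:ℝ)..M, layer k a t = a ^ (k + 1) := by
  have hM : 0 ≤ M := ha.trans haM
  have hi1 := layer_intervalIntegrable k a M hM
  have h0a : IntervalIntegrable (layer k a) volume 0 a :=
    layer_intervalIntegrable k a a ha
  have haM' : IntervalIntegrable (layer k a) volume a M := by
    refine hi1.mono_set ?_
    rw [Set.uIcc_of_le haM, Set.uIcc_of_le hM]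
    exact Set.Icc_subset_Icc_left ha
  rw [← intervalIntegral.integral_add_adjacent_intervals h0a haM']
  have e1 : ∫ t in (0:ℝ)..a, layer k a t = ∫ t in (0:ℝ)..a, ((k : ℝ) + 1) * t ^ k := by
    refine intervalIntegral.integral_congr_ae ?_
    have : ∀ᵐ t : ℝ, t ≠ a := by
      simp [ae_iff]
    filter_upwards [this] with t ht hta
    rw [Set.uIoc_of_le ha] at hta
    have : t < a := lt_of_le_of_ne hta.2 ht
    simp [layer, this]
  have e2 : ∫ t in a..M, layer k a t = 0 := by
    rw [intervalIntegral.integral_of_le haM]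
    refine MeasureTheory.setIntegral_eq_zero_of_forall_eq_zero ?_
    intro t ht
    have : ¬ t < a := not_lt.mpr ht.1.le
    simp [layer, this]
  rw [e1, e2, intervalIntegral.integral_const_mul, integral_pow]
  have hk : ((k : ℝ) + 1) ≠ 0 := by positivity
  field_simp
  simp

theorem integral_layer_le (k : ℕ) {a M : ℝ} (ha : 0 ≤ a) (hM : 0 ≤ M) :
    ∫ t in (0:ℝ)..M, layer k a t ≤ a ^ (k + 1) := by
  rcases le_total a M with h | h
  · exact (integral_layer k ha h).le
  · have : ∫ t in (0:ℝ)..M, layer k a t ≤ ∫ t in (0:ℝ)..a, layer k a t := by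
      have hi : IntervalIntegrable (layer k a) volume 0 a := layer_intervalIntegrable k a a ha
      have h1 : IntervalIntegrable (layer k a) volume 0 M := layer_intervalIntegrable k a M hM
      have h2 : IntervalIntegrable (layer k a) volume M a := by
        refine hi.mono_set ?_
        rw [Set.uIcc_of_le h, Set.uIcc_of_le ha]
        exact Set.Icc_subset_Icc_left hM
      rw [← intervalIntegral.integral_add_adjacent_intervals h1 h2]
      have : 0 ≤ ∫ t in M..a, layer k a t := by
        refine intervalIntegral.integral_nonneg h ?_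
        intro t ht
        have h0 : 0 ≤ t := hM.trans ht.1
        unfold layer
        split_ifs
        · positivity
        · exact le_rfl
      linarith
    exact this.trans (integral_layer k ha le_rfl).le

/-- Elementary interpolation (Marcinkiewicz) on finite index sets, natural exponent. -/
theorem interp_pow {E E' : Type*} [Fintype E] [Fintype E']
    (T : (E → ℝ) →ₗ[ℝ] (E' → ℝ)) {D B : ℝ} (hB : 0 < B)
    (h2 : ∀ g : E → ℝ, ∑ e, (T g e) ^ 2 ≤ D * ∑ e, (g e) ^ 2)
    (hinf : ∀ (g : E → ℝ) (M : ℝ), (∀ e, |g e| ≤ M) → ∀ e, |T g e| ≤ B * M)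
    (k : ℕ) (g : E → ℝ) :
    ∑ e, |T g e| ^ (k + 3) ≤
      4 * (k + 3) / (k + 1) * (2 * B) ^ (k + 1) * D * ∑ e, |g e| ^ (k + 3) := by
  classical
  -- a common upper bound
  set M : ℝ := ∑ e, |T g e| with hMdef
  have hM0 : 0 ≤ M := Finset.sum_nonneg fun _ _ => abs_nonneg _
  have hMle : ∀ e, |T g e| ≤ M := fun e =>
    Finset.single_le_sum (f := fun e => |T g e|) (fun _ _ => abs_nonneg _) (Finset.mem_univ e)
  have hL : ∑ e, |T g e| ^ (k + 3) =
      ∫ t in (0:ℝ)..M, ∑ e, layer (k + 2) (|T g e|) t := by
    rw [intervalIntegral.integral_finsetSum]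
    · refine Finset.sum_congr rfl fun e _ => ?_
      rw [integral_layer (k + 2) (abs_nonneg _) (hMle e)]
    · intro e _
      exact layer_intervalIntegrable _ _ _ hM0
  -- pointwise bound
  have hpt : ∀ t ∈ Set.Ioo (0:ℝ) M, ∑ e, layer (k + 2) (|T g e|) t ≤
      ∑ e, (4 * (k + 3) / (k + 1) * D * (g e) ^ 2) * layer k (2 * B * |g e|) t := by
    intro t ht
    have ht0 : 0 < t := ht.1
    -- truncations
    let gs : E → ℝ := fun e => if t < 2 * B * |g e| then 0 else g e
    let gl : E → ℝ := fun e => if t < 2 * B * |g e| then g e else 0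
    have hsplit : g = gs + gl := by
      funext e
      by_cases h : t < 2 * B * |g e| <;> simp [gs, gl, h]
    have hsmall : ∀ e, |gs e| ≤ t / (2 * B) := by
      intro e
      by_cases h : t < 2 * B * |g e|
      · simp only [gs, h, if_true, abs_zero]
        positivity
      · simp only [gs, h, if_false]
        rw [le_div_iff₀ (by positivity)]
        linarith [not_lt.mp h]
    have hTs : ∀ e, |T gs e| ≤ t / 2 := by
      intro e
      have := hinf gs (t / (2 * B)) hsmall e
      have h' : B * (t / (2 * B)) = t / 2 := by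
        field_simp
      rwa [h'] at this
    have hTg : ∀ e, T g e = T gs e + T gl e := by
      intro e
      conv_lhs => rw [hsplit]
      rw [map_add]
      rfl
    have hind : ∀ e, layer (k + 2) (|T g e|) t ≤
        4 * ((k : ℝ) + 3) * t ^ k * (T gl e) ^ 2 := by
      intro e
      unfold layer
      split_ifs with h
      · have h1 : t / 2 ≤ |T gl e| := by
          have : |T g e| ≤ |T gs e| + |T gl e| := by
            rw [hTg e]; exact abs_add_le _ _
          linarith [hTs e]
        have h2' : (t / 2) ^ 2 ≤ (T gl e) ^ 2 := by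
          rw [← sq_abs (T gl e)]
          exact pow_le_pow_left₀ (by positivity) h1 2
        have h3 : t ^ 2 ≤ 4 * (T gl e) ^ 2 := by nlinarith
        have hk : (0:ℝ) ≤ ((k : ℝ) + 3) * t ^ k := by positivity
        calc (((k + 2 : ℕ) : ℝ) + 1) * t ^ (k + 2)
            = (((k : ℝ) + 3) * t ^ k) * t ^ 2 := by push_cast; ring
          _ ≤ (((k : ℝ) + 3) * t ^ k) * (4 * (T gl e) ^ 2) :=
              mul_le_mul_of_nonneg_left h3 hk
          _ = 4 * ((k : ℝ) + 3) * t ^ k * (T gl e) ^ 2 := by ring
      · positivity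
    calc ∑ e, layer (k + 2) (|T g e|) t
        ≤ ∑ e, 4 * ((k : ℝ) + 3) * t ^ k * (T gl e) ^ 2 := Finset.sum_le_sum fun e _ => hind e
      _ = 4 * ((k : ℝ) + 3) * t ^ k * ∑ e, (T gl e) ^ 2 := by rw [Finset.mul_sum]
      _ ≤ 4 * ((k : ℝ) + 3) * t ^ k * (D * ∑ e, (gl e) ^ 2) := by
          refine mul_le_mul_of_nonneg_left (h2 gl) (by positivity)
      _ = ∑ e, (4 * (k + 3) / (k + 1) * D * (g e) ^ 2) * layer k (2 * B * |g e|) t := by
          rw [Finset.mul_sum, Finset.mul_sum]
          refine Finset.sum_congr rfl fun e _ => ?_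
          by_cases h : t < 2 * B * |g e|
          · simp only [gl, h, if_true, layer]
            have : ((k : ℝ) + 1) ≠ 0 := by positivity
            field_simp
          · simp [gl, h, layer]
  have hintL : IntervalIntegrable (fun t => ∑ e, layer (k + 2) (|T g e|) t) volume 0 M :=
    by
      have := IntervalIntegrable.sum (μ := volume) (a := 0) (b := M) Finset.univ
        (f := fun e => layer (k + 2) (|T g e|))
        (fun e _ => layer_intervalIntegrable (k + 2) (|T g e|) M hM0)
      refine this.congr ?_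
      intro t _
      simp
  have hintR : IntervalIntegrable
      (fun t => ∑ e, (4 * (k + 3) / (k + 1) * D * (g e) ^ 2) * layer k (2 * B * |g e|) t)
      volume 0 M := by
    have := IntervalIntegrable.sum (μ := volume) (a := 0) (b := M) Finset.univ
        (f := fun e t => (4 * (k + 3) / (k + 1) * D * (g e) ^ 2) * layer k (2 * B * |g e|) t)
        (fun e _ => (layer_intervalIntegrable k (2 * B * |g e|) M hM0).const_mul _)
    refine this.congr ?_
    intro t _
    simp
  have hD : ∀ e, 0 ≤ 4 * ((k:ℝ) + 3) / (k + 1) * D * (g e) ^ 2 := by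
    intro e
    have hDe : 0 ≤ D * (g e) ^ 2 := by
      have := h2 (Pi.single e (g e))
      have hs : ∑ e', (Pi.single e (g e) : E → ℝ) e' ^ 2 = (g e) ^ 2 := by
        rw [Finset.sum_eq_single e]
        · simp
        · intro b _ hb
          simp [Pi.single_eq_of_ne hb]
        · simp
      rw [hs] at this
      exact (Finset.sum_nonneg fun _ _ => sq_nonneg _).trans this
    have : 0 ≤ 4 * ((k:ℝ) + 3) / (k + 1) := by positivity
    calc 0 ≤ 4 * ((k:ℝ) + 3) / (k + 1) * (D * (g e) ^ 2) := mul_nonneg this hDe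
      _ = _ := by ring
  calc ∑ e, |T g e| ^ (k + 3)
      = ∫ t in (0:ℝ)..M, ∑ e, layer (k + 2) (|T g e|) t := hL
    _ ≤ ∫ t in (0:ℝ)..M,
          ∑ e, (4 * (k + 3) / (k + 1) * D * (g e) ^ 2) * layer k (2 * B * |g e|) t := by
        refine intervalIntegral.integral_mono_on_of_le_Ioo hM0 hintL hintR hpt
    _ = ∑ e, (4 * (k + 3) / (k + 1) * D * (g e) ^ 2) *
          ∫ t in (0:ℝ)..M, layer k (2 * B * |g e|) t := by
        rw [intervalIntegral.integral_finsetSum]
        · refine Finset.sum_congr rfl fun e _ => ?_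
          rw [intervalIntegral.integral_const_mul]
        · intro e _
          exact (layer_intervalIntegrable k (2 * B * |g e|) M hM0).const_mul _
    _ ≤ ∑ e, (4 * (k + 3) / (k + 1) * D * (g e) ^ 2) * (2 * B * |g e|) ^ (k + 1) := by
        refine Finset.sum_le_sum fun e _ => ?_
        exact mul_le_mul_of_nonneg_left
          (integral_layer_le k (by positivity) hM0) (hD e)
    _ = 4 * (k + 3) / (k + 1) * (2 * B) ^ (k + 1) * D * ∑ e, |g e| ^ (k + 3) := by
        rw [Finset.mul_sum]
        refine Finset.sum_congr rfl fun e _ => ?_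
        rw [mul_pow (2 * B), ← sq_abs (g e)]
        ring

end Crest.Agent.R030
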