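import Mathlib
import Crest.Agent.R030.Interp

/-!
Row 30 (S0040), stage 1 (B): from a trace bound on (the adjacency matrix of) a link graph to an
`L^2` contraction on mean-zero functions, without eigenvectors, and the `L^q` corollary.

* `spec_pow`: `L` symmetric, `k = 2^j`, `g` with `∑ g = 0`:
  `(|L g|²)^k ≤ (tr L^{2k} - s^{2k}) (|g|²)^k`, `s` = average row sum.
* `spec_sq`: if moreover `tr L^{2k} ≤ s^{2k} + K^{2k}` then `|L g|² ≤ K² |g|²`.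
* `spec_lq`: `∑ |L (g - mean g)|^(k+3) ≤ 4(k+3)/(k+1) (4 D)^(k+1) K² ∑ |g|^(k+3)`.
-/

set_option autoImplicit false

namespace Crest.Agent.R030

open Matrix

variable {W : Type*} [Fintype W]

/-- Bessel's inequality for two orthogonal (not normalised) vectors. -/
theorem bessel_two (R a b : W → ℝ) (hab : a ⬝ᵥ b = 0) :
    (R ⬝ᵥ a) ^ 2 * (b ⬝ᵥ b) + (R ⬝ᵥ b) ^ 2 * (a ⬝ᵥ a) ≤ (R ⬝ᵥ R) * (a ⬝ᵥ a) * (b ⬝ᵥ b) := by
  have haa : 0 ≤ a ⬝ᵥ a := by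
    simp only [dotProduct]; exact Finset.sum_nonneg fun i _ => mul_self_nonneg _
  have hbb : 0 ≤ b ⬝ᵥ b := by
    simp only [dotProduct]; exact Finset.sum_nonneg fun i _ => mul_self_nonneg _
  have hRR : 0 ≤ R ⬝ᵥ R := by
    simp only [dotProduct]; exact Finset.sum_nonneg fun i _ => mul_self_nonneg _
  rcases haa.eq_or_lt with ha | ha
  · have ha0 : a = 0 := dotProduct_self_eq_zero.mp ha.symm
    subst ha0; simp
  rcases hbb.eq_or_lt with hb | hb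
  · have hb0 : b = 0 := dotProduct_self_eq_zero.mp hb.symm
    subst hb0; simp
  set α := (R ⬝ᵥ a) / (a ⬝ᵥ a) with hα
  set β := (R ⬝ᵥ b) / (b ⬝ᵥ b) with hβ
  have key : 0 ≤ (R - α • a - β • b) ⬝ᵥ (R - α • a - β • b) := by
    simp only [dotProduct]; exact Finset.sum_nonneg fun i _ => mul_self_nonneg _
  have hba : b ⬝ᵥ a = 0 := by rw [dotProduct_comm]; exact hab
  have expand : (R - α • a - β • b) ⬝ᵥ (R - α • a - β • b)
      = R ⬝ᵥ R - 2 * α * (R ⬝ᵥ a) - 2 * β * (R ⬝ᵥ b) + α ^ 2 * (a ⬝ᵥ a)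
        + β ^ 2 * (b ⬝ᵥ b) := by
    simp only [sub_dotProduct, dotProduct_sub, smul_dotProduct, dotProduct_smul, smul_eq_mul,
      hab, hba, dotProduct_comm a R, dotProduct_comm b R]
    ring
  rw [expand] at key
  have h1 : α * (a ⬝ᵥ a) = R ⬝ᵥ a := by rw [hα]; field_simp
  have h2 : β * (b ⬝ᵥ b) = R ⬝ᵥ b := by rw [hβ]; field_simp
  have key' : 0 ≤ R ⬝ᵥ R - α * (R ⬝ᵥ a) - β * (R ⬝ᵥ b) := by
    have e1 : α ^ 2 * (a ⬝ᵥ a) = α * (R ⬝ᵥ a) := by rw [← h1]; ring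
    have e2 : β ^ 2 * (b ⬝ᵥ b) = β * (R ⬝ᵥ b) := by rw [← h2]; ring
    rw [e1, e2] at key
    linarith
  have hm := mul_nonneg key' (mul_nonneg haa hbb)
  have e3 : α * (R ⬝ᵥ a) * ((a ⬝ᵥ a) * (b ⬝ᵥ b)) = (R ⬝ᵥ a) ^ 2 * (b ⬝ᵥ b) := by
    calc α * (R ⬝ᵥ a) * ((a ⬝ᵥ a) * (b ⬝ᵥ b)) = (α * (a ⬝ᵥ a)) * (R ⬝ᵥ a) * (b ⬝ᵥ b) := by ring
      _ = _ := by rw [h1]; ring
  have e4 : β * (R ⬝ᵥ b) * ((a ⬝ᵥ a) * (b ⬝ᵥ b)) = (R ⬝ᵥ b) ^ 2 * (a ⬝ᵥ a) := by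
    calc β * (R ⬝ᵥ b) * ((a ⬝ᵥ a) * (b ⬝ᵥ b)) = (β * (b ⬝ᵥ b)) * (R ⬝ᵥ b) * (a ⬝ᵥ a) := by ring
      _ = _ := by rw [h2]; ring
  nlinarith [hm, e3, e4]

theorem cs_dot (a b : W → ℝ) : (a ⬝ᵥ b) ^ 2 ≤ (a ⬝ᵥ a) * (b ⬝ᵥ b) := by
  have := Finset.sum_mul_sq_le_sq_mul_sq Finset.univ a b
  simp only [dotProduct]
  calc (∑ i, a i * b i) ^ 2 ≤ (∑ i, a i ^ 2) * ∑ i, b i ^ 2 := this
    _ = _ := by
      congr 1 <;> exact Finset.sum_congr rfl fun i _ => by ring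

theorem dot_self_nonneg (a : W → ℝ) : 0 ≤ a ⬝ᵥ a := by
  simp only [dotProduct]; exact Finset.sum_nonneg fun i _ => mul_self_nonneg _

theorem symm_dot {L : Matrix W W ℝ} (hL : L.transpose = L) (a b : W → ℝ) :
    (L *ᵥ a) ⬝ᵥ b = a ⬝ᵥ (L *ᵥ b) := by
  rw [dotProduct_mulVec, ← mulVec_transpose, hL]

/-- `n2 (L a)^{2^j} ≤ n2 (L^{2^j} a) * n2(a)^{2^j-1}`. -/
theorem pow_norm_le [DecidableEq W] {L : Matrix W W ℝ} (hL : L.transpose = L) (a : W → ℝ) (j : ℕ) :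
    ((L *ᵥ a) ⬝ᵥ (L *ᵥ a)) ^ (2 ^ j) ≤
      (((L ^ (2 ^ j)) *ᵥ a) ⬝ᵥ ((L ^ (2 ^ j)) *ᵥ a)) * (a ⬝ᵥ a) ^ (2 ^ j - 1) := by
  induction j with
  | zero => simp
  | succ j ih =>
    set k := 2 ^ j with hk
    have hk1 : 1 ≤ k := Nat.one_le_two_pow
    have hkk : 2 ^ (j + 1) = 2 * k := by rw [pow_succ]; ring
    rw [hkk]
    have hLk : (L ^ k).transpose = L ^ k := by rw [transpose_pow, hL]
    have h1 : (((L ^ k) *ᵥ a) ⬝ᵥ ((L ^ k) *ᵥ a)) ^ 2 ≤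
        (a ⬝ᵥ a) * (((L ^ (2 * k)) *ᵥ a) ⬝ᵥ ((L ^ (2 * k)) *ᵥ a)) := by
      have : ((L ^ k) *ᵥ a) ⬝ᵥ ((L ^ k) *ᵥ a) = a ⬝ᵥ ((L ^ (2 * k)) *ᵥ a) := by
        rw [symm_dot hLk, mulVec_mulVec, ← pow_add, two_mul]
      rw [this]
      exact cs_dot _ _
    have h2 : ((L *ᵥ a) ⬝ᵥ (L *ᵥ a)) ^ (2 * k) = (((L *ᵥ a) ⬝ᵥ (L *ᵥ a)) ^ k) ^ 2 := by
      rw [← pow_mul, mul_comm]
    rw [h2]
    calc (((L *ᵥ a) ⬝ᵥ (L *ᵥ a)) ^ k) ^ 2
        ≤ ((((L ^ k) *ᵥ a) ⬝ᵥ ((L ^ k) *ᵥ a)) * (a ⬝ᵥ a) ^ (k - 1)) ^ 2 := by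
          refine pow_le_pow_left₀ (pow_nonneg (dot_self_nonneg _) _) ih 2
      _ = (((L ^ k) *ᵥ a) ⬝ᵥ ((L ^ k) *ᵥ a)) ^ 2 * ((a ⬝ᵥ a) ^ (k - 1)) ^ 2 := by ring
      _ ≤ ((a ⬝ᵥ a) * (((L ^ (2 * k)) *ᵥ a) ⬝ᵥ ((L ^ (2 * k)) *ᵥ a))) *
            ((a ⬝ᵥ a) ^ (k - 1)) ^ 2 :=
          mul_le_mul_of_nonneg_right h1 (by positivity)
      _ = (((L ^ (2 * k)) *ᵥ a) ⬝ᵥ ((L ^ (2 * k)) *ᵥ a)) *
            ((a ⬝ᵥ a) * ((a ⬝ᵥ a) ^ (k - 1)) ^ 2) := by ring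
      _ = _ := by
          congr 1
          rw [← pow_mul, ← pow_succ']
          congr 1
          omega

/-- Frobenius norm as a sum over rows. -/
theorem trace_pow_two [DecidableEq W] {L : Matrix W W ℝ} (hL : L.transpose = L) (k : ℕ) :
    (L ^ (2 * k)).trace = ∑ i, ((L ^ k) i) ⬝ᵥ ((L ^ k) i) := by
  have hLk : (L ^ k).transpose = L ^ k := by rw [transpose_pow, hL]
  rw [two_mul, pow_add]
  simp only [trace, diag, mul_apply, dotProduct]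
  refine Finset.sum_congr rfl fun i _ => Finset.sum_congr rfl fun j _ => ?_
  have : (L ^ k) j i = (L ^ k) i j := by
    conv_lhs => rw [← hLk]
    rfl
  rw [this]

/-- **Spectral step** without eigenvectors. -/
theorem spec_pow [DecidableEq W] [Nonempty W] {L : Matrix W W ℝ} (hL : L.transpose = L) (j : ℕ)
    (g : W → ℝ) (hg : ∑ i, g i = 0) :
    ((L *ᵥ g) ⬝ᵥ (L *ᵥ g)) ^ (2 ^ j) ≤
      ((L ^ (2 * 2 ^ j)).trace -
        ((∑ i, ∑ j, L i j) / (Fintype.card W : ℝ)) ^ (2 * 2 ^ j)) * (g ⬝ᵥ g) ^ (2 ^ j) := by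
  set k := 2 ^ j with hk
  have hk1 : 1 ≤ k := Nat.one_le_two_pow
  set w : ℝ := (Fintype.card W : ℝ) with hw
  have hw0 : 0 < w := by
    rw [hw]; exact_mod_cast Fintype.card_pos
  let one : W → ℝ := fun _ => 1
  have hone : one ⬝ᵥ one = w := by
    simp [one, dotProduct, hw]
  have hog : one ⬝ᵥ g = 0 := by
    simp only [one, dotProduct, one_mul]; exact hg
  set S : ℝ := ∑ i, ∑ j, L i j with hS
  have hSL : one ⬝ᵥ (L *ᵥ one) = S := by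
    simp only [one, dotProduct, mulVec, one_mul, mul_one, hS]
  -- lower bound for the constant vector
  have hL1 : S ^ 2 ≤ w * ((L *ᵥ one) ⬝ᵥ (L *ᵥ one)) := by
    rw [← hSL, ← hone]; exact cs_dot _ _
  have hLk1 : w * (S / w) ^ (2 * k) ≤ ((L ^ k) *ᵥ one) ⬝ᵥ ((L ^ k) *ᵥ one) := by
    have h1 := pow_norm_le hL one j
    rw [hone, ← hk] at h1
    have h2 : (S ^ 2 / w) ^ k ≤ ((L *ᵥ one) ⬝ᵥ (L *ᵥ one)) ^ k := by
      refine pow_le_pow_left₀ (by positivity) ?_ k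
      rw [div_le_iff₀ hw0]; linarith
    have h3 : (S ^ 2 / w) ^ k ≤
        (((L ^ k) *ᵥ one) ⬝ᵥ ((L ^ k) *ᵥ one)) * w ^ (k - 1) := h2.trans h1
    have h4 : (S ^ 2 / w) ^ k = (w * (S / w) ^ (2 * k)) * w ^ (k - 1) := by
      have : w * w ^ (k - 1) = w ^ k := by
        rw [← pow_succ']; congr 1; omega
      calc (S ^ 2 / w) ^ k = ((S / w) ^ 2 * w) ^ k := by
            congr 1; field_simp
        _ = (S / w) ^ (2 * k) * w ^ k := by rw [mul_pow, ← pow_mul]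
        _ = _ := by rw [← this]; ring
    rw [h4] at h3
    exact le_of_mul_le_mul_right h3 (by positivity)
  -- Bessel summed over the rows of `L^k`
  have hrow : ∀ v : W → ℝ, ((L ^ k) *ᵥ v) ⬝ᵥ ((L ^ k) *ᵥ v) = ∑ i, (((L ^ k) i) ⬝ᵥ v) ^ 2 := by
    intro v
    simp only [dotProduct, mulVec]
    exact Finset.sum_congr rfl fun i _ => by ring
  have hB : (((L ^ k) *ᵥ one) ⬝ᵥ ((L ^ k) *ᵥ one)) * (g ⬝ᵥ g) +
      (((L ^ k) *ᵥ g) ⬝ᵥ ((L ^ k) *ᵥ g)) * w ≤ (L ^ (2 * k)).trace * w * (g ⬝ᵥ g) := by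
    rw [trace_pow_two hL, hrow, hrow, Finset.sum_mul, Finset.sum_mul, ← Finset.sum_add_distrib,
      Finset.sum_mul, Finset.sum_mul]
    refine Finset.sum_le_sum fun i _ => ?_
    have := bessel_two ((L ^ k) i) one g hog
    rw [hone] at this
    exact this
  have hgg : 0 ≤ g ⬝ᵥ g := dot_self_nonneg g
  have hLkg : ((L ^ k) *ᵥ g) ⬝ᵥ ((L ^ k) *ᵥ g) ≤
      ((L ^ (2 * k)).trace - (S / w) ^ (2 * k)) * (g ⬝ᵥ g) := by
    have h5 : w * (S / w) ^ (2 * k) * (g ⬝ᵥ g) ≤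
        (((L ^ k) *ᵥ one) ⬝ᵥ ((L ^ k) *ᵥ one)) * (g ⬝ᵥ g) :=
      mul_le_mul_of_nonneg_right hLk1 hgg
    have h6 : (((L ^ k) *ᵥ g) ⬝ᵥ ((L ^ k) *ᵥ g)) * w ≤
        (((L ^ (2 * k)).trace - (S / w) ^ (2 * k)) * (g ⬝ᵥ g)) * w := by
      nlinarith [hB, h5]
    exact le_of_mul_le_mul_right h6 hw0
  have h7 := pow_norm_le hL g j
  rw [← hk] at h7
  calc ((L *ᵥ g) ⬝ᵥ (L *ᵥ g)) ^ k
      ≤ (((L ^ k) *ᵥ g) ⬝ᵥ ((L ^ k) *ᵥ g)) * (g ⬝ᵥ g) ^ (k - 1) := h7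
    _ ≤ (((L ^ (2 * k)).trace - (S / w) ^ (2 * k)) * (g ⬝ᵥ g)) * (g ⬝ᵥ g) ^ (k - 1) :=
        mul_le_mul_of_nonneg_right hLkg (pow_nonneg hgg _)
    _ = ((L ^ (2 * k)).trace - (S / w) ^ (2 * k)) * (g ⬝ᵥ g) ^ k := by
        have : (g ⬝ᵥ g) * (g ⬝ᵥ g) ^ (k - 1) = (g ⬝ᵥ g) ^ k := by
          rw [← pow_succ']; congr 1; omega
        rw [mul_assoc, this]

/-- Corollary: contraction on mean-zero functions. -/
theorem spec_sq [DecidableEq W] {L : Matrix W W ℝ} (hL : L.transpose = L) (j : ℕ) {K : ℝ}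
    (hK : 0 ≤ K)
    (htr : (L ^ (2 * 2 ^ j)).trace ≤
      ((∑ i, ∑ j, L i j) / (Fintype.card W : ℝ)) ^ (2 * 2 ^ j) + K ^ (2 * 2 ^ j))
    (g : W → ℝ) (hg : ∑ i, g i = 0) :
    (L *ᵥ g) ⬝ᵥ (L *ᵥ g) ≤ K ^ 2 * (g ⬝ᵥ g) := by
  rcases isEmpty_or_nonempty W with hW | hW
  · simp [dotProduct]
  have h := spec_pow hL j g hg
  have h1 : ((L *ᵥ g) ⬝ᵥ (L *ᵥ g)) ^ (2 ^ j) ≤ (K ^ 2 * (g ⬝ᵥ g)) ^ (2 ^ j) := by
    calc ((L *ᵥ g) ⬝ᵥ (L *ᵥ g)) ^ (2 ^ j) ≤ _ := h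
      _ ≤ K ^ (2 * 2 ^ j) * (g ⬝ᵥ g) ^ (2 ^ j) :=
          mul_le_mul_of_nonneg_right (by linarith) (pow_nonneg (dot_self_nonneg g) _)
      _ = _ := by rw [mul_pow, ← pow_mul]
  exact le_of_pow_le_pow_left₀ (by positivity) (mul_nonneg (sq_nonneg K) (dot_self_nonneg g)) h1

/-- The mean of `g` over `W`. -/
noncomputable def wavg (g : W → ℝ) : ℝ := (∑ i, g i) / (Fintype.card W : ℝ)

/-- The centering map `g ↦ g - wavg g` as a linear map. -/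
noncomputable def center : (W → ℝ) →ₗ[ℝ] (W → ℝ) where
  toFun g := fun i => g i - wavg g
  map_add' g h := by
    funext i
    simp only [wavg, Pi.add_apply, Finset.sum_add_distrib]
    ring
  map_smul' c g := by
    funext i
    simp only [wavg, Pi.smul_apply, smul_eq_mul, ← Finset.mul_sum, RingHom.id_apply]
    ring

theorem sum_center (g : W → ℝ) : ∑ i, center g i = 0 := by
  rcases isEmpty_or_nonempty W with hW | hW
  · simp
  have : ((Fintype.card W : ℕ) : ℝ) ≠ 0 := by exact_mod_cast Fintype.card_ne_zero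
  simp only [center, LinearMap.coe_mk, AddHom.coe_mk, Finset.sum_sub_distrib, Finset.sum_const,
    Finset.card_univ, nsmul_eq_mul, wavg]
  field_simp
  ring

theorem center_sq_le (g : W → ℝ) : (center g) ⬝ᵥ (center g) ≤ g ⬝ᵥ g := by
  rcases isEmpty_or_nonempty W with hW | hW
  · simp [dotProduct]
  have hc : ((Fintype.card W : ℕ) : ℝ) ≠ 0 := by exact_mod_cast Fintype.card_ne_zero
  have h0 := sum_center g
  have : g ⬝ᵥ g = (center g) ⬝ᵥ (center g) + (Fintype.card W : ℝ) * (wavg g) ^ 2 := by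
    have hg : ∀ i, g i = center g i + wavg g := by
      intro i; simp [center]
    simp only [dotProduct]
    calc ∑ i, g i * g i = ∑ i, (center g i * center g i + 2 * wavg g * center g i + wavg g ^ 2) := by
          refine Finset.sum_congr rfl fun i _ => ?_
          rw [show g i = center g i + wavg g from hg i]; ring
      _ = _ := by
          rw [Finset.sum_add_distrib, Finset.sum_add_distrib, ← Finset.mul_sum, h0]
          simp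
  rw [this]
  have : 0 ≤ (Fintype.card W : ℝ) * (wavg g) ^ 2 := by positivity
  linarith

theorem abs_wavg_le (g : W → ℝ) {M : ℝ} (hM0 : 0 ≤ M) (hM : ∀ i, |g i| ≤ M) : |wavg g| ≤ M := by
  rcases isEmpty_or_nonempty W with hW | hW
  · simp [wavg, hM0]
  have hc : (0:ℝ) < ((Fintype.card W : ℕ) : ℝ) := by exact_mod_cast Fintype.card_pos
  unfold wavg
  rw [abs_div, abs_of_pos hc, div_le_iff₀ hc]
  calc |∑ i, g i| ≤ ∑ i, |g i| := Finset.abs_sum_le_sum_abs _ _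
    _ ≤ ∑ _i : W, M := Finset.sum_le_sum fun i _ => hM i
    _ = M * (Fintype.card W : ℝ) := by simp [mul_comm]

/-- **`L^q` contraction** of `g ↦ L (g - wavg g)` for a nonnegative symmetric matrix with row sums
at most `D`, given the trace bound. -/
theorem spec_lq [DecidableEq W] {L : Matrix W W ℝ} (hL : L.transpose = L) (j : ℕ) {K D : ℝ}
    (hK : 0 ≤ K) (hD : 0 < D) (hnn : ∀ i i', 0 ≤ L i i') (hrow : ∀ i, ∑ i', L i i' ≤ D)
    (htr : (L ^ (2 * 2 ^ j)).trace ≤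
      ((∑ i, ∑ j, L i j) / (Fintype.card W : ℝ)) ^ (2 * 2 ^ j) + K ^ (2 * 2 ^ j))
    (k : ℕ) (g : W → ℝ) :
    ∑ i, |(L *ᵥ (fun i => g i - wavg g)) i| ^ (k + 3) ≤
      4 * (k + 3) / (k + 1) * (4 * D) ^ (k + 1) * K ^ 2 * ∑ i, |g i| ^ (k + 3) := by
  have h := interp_pow (T := (Matrix.mulVecLin L).comp center) (D := K ^ 2) (B := 2 * D)
    (by positivity) ?_ ?_ k g
  · have h4 : (2 * (2 * D)) = 4 * D := by ring
    rw [h4] at h
    exact h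
  · intro f
    have h1 := spec_sq hL j hK htr (center f) (sum_center f)
    have h2 := center_sq_le f
    have h3 : (L *ᵥ center f) ⬝ᵥ (L *ᵥ center f) ≤ K ^ 2 * (f ⬝ᵥ f) :=
      h1.trans (mul_le_mul_of_nonneg_left h2 (sq_nonneg K))
    calc ∑ e, (((Matrix.mulVecLin L).comp center) f e) ^ 2
        = (L *ᵥ center f) ⬝ᵥ (L *ᵥ center f) := by
          simp only [dotProduct]
          refine Finset.sum_congr rfl fun i _ => ?_
          simp [Matrix.mulVecLin_apply, sq]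
      _ ≤ K ^ 2 * (f ⬝ᵥ f) := h3
      _ = K ^ 2 * ∑ e, (f e) ^ 2 := by
          simp only [dotProduct]
          congr 1
          exact Finset.sum_congr rfl fun i _ => by ring
  · intro f M hM e
    have hM0 : 0 ≤ M := (abs_nonneg _).trans (hM e)
    have hc : ∀ i, |center f i| ≤ 2 * M := by
      intro i
      have h1 : |wavg f| ≤ M := abs_wavg_le f hM0 hM
      have h2 : |center f i| ≤ |f i| + |wavg f| := by
        simp only [center, LinearMap.coe_mk, AddHom.coe_mk]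
        exact abs_sub _ _
      linarith [hM i]
    have : ((Matrix.mulVecLin L).comp center) f e = ∑ i, L e i * center f i := by
      simp [Matrix.mulVecLin_apply, mulVec, dotProduct]
    rw [this]
    calc |∑ i, L e i * center f i| ≤ ∑ i, |L e i * center f i| := Finset.abs_sum_le_sum_abs _ _
      _ ≤ ∑ i, L e i * (2 * M) := by
          refine Finset.sum_le_sum fun i _ => ?_
          rw [abs_mul, abs_of_nonneg (hnn e i)]
          exact mul_le_mul_of_nonneg_left (hc i) (hnn e i)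
      _ = (∑ i, L e i) * (2 * M) := by rw [Finset.sum_mul]
      _ ≤ D * (2 * M) := mul_le_mul_of_nonneg_right (hrow e) (by positivity)
      _ = 2 * D * M := by ring

end Crest.Agent.R030
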