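import Mathlib
import Crest.Agent.R030.LinkSpec

/-!
Row 30 (S0040).  The triangle adjacency operator of a graph `E` on dart functions, its decomposition
into vertex averages plus link-perpendicular parts, and the norm inequalities used in (C) and (D).

`F : V → V → ℝ` is a function of darts `(u,v)`, `s(u,v) ∈ E` (no symmetry needed).
* `nbr E u`, `cn E u v` (common neighbours), `darts E`
* `tav E F u`    average of `F u ·` over `nbr E u`
* `triA E F u v = ∑_{w ∈ cn u v} (F u w + F v w)`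
* `perp E F u v = ∑_{w ∈ cn u v} (F u w - tav u)`
* `nd q E F`     unnormalised `ℓ^q` norm over darts
* `zn q E F`     normalised, `hn q E F = zn q E (fun u _ => tav E F u)`, `Nn q Γ E F = zn + Γ hn`.
-/

set_option autoImplicit false

namespace Crest.Agent.R030

open Finset

variable {V : Type*} [Fintype V] [DecidableEq V]

/-- Neighbours of `u`. -/
def nbr (E : Finset (Sym2 V)) (u : V) : Finset V := univ.filter fun w => s(u, w) ∈ E

/-- Darts (ordered edges). -/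
def darts (E : Finset (Sym2 V)) : Finset (V × V) := univ.filter fun p => s(p.1, p.2) ∈ E

/-- Common neighbours. -/
def cn (E : Finset (Sym2 V)) (u v : V) : Finset V := nbr E u ∩ nbr E v

/-- Average over the neighbours. -/
noncomputable def tav (E : Finset (Sym2 V)) (F : V → V → ℝ) (u : V) : ℝ :=
  (∑ w ∈ nbr E u, F u w) / ((nbr E u).card : ℝ)

/-- The triangle adjacency operator. -/
noncomputable def triA (E : Finset (Sym2 V)) (F : V → V → ℝ) (u v : V) : ℝ :=
  ∑ w ∈ cn E u v, (F u w + F v w)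

/-- The perpendicular link part `(L_u F_u^⊥)_v`. -/
noncomputable def perp (E : Finset (Sym2 V)) (F : V → V → ℝ) (u v : V) : ℝ :=
  ∑ w ∈ cn E u v, (F u w - tav E F u)

variable {E : Finset (Sym2 V)}

theorem mem_nbr {u w : V} : w ∈ nbr E u ↔ s(u, w) ∈ E := by simp [nbr]

theorem mem_nbr_comm {u w : V} : w ∈ nbr E u ↔ u ∈ nbr E w := by
  rw [mem_nbr, mem_nbr, Sym2.eq_swap]

theorem mem_darts {p : V × V} : p ∈ darts E ↔ s(p.1, p.2) ∈ E := by simp [darts]

theorem mem_cn {u v w : V} : w ∈ cn E u v ↔ s(u, w) ∈ E ∧ s(v, w) ∈ E := by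
  simp [cn, mem_nbr]

theorem cn_comm (u v : V) : cn E u v = cn E v u := by
  unfold cn; rw [inter_comm]

theorem triA_eq (F : V → V → ℝ) (u v : V) :
    triA E F u v = ((cn E u v).card : ℝ) * (tav E F u + tav E F v) + perp E F u v
      + perp E F v u := by
  unfold triA perp
  rw [cn_comm v u, sum_sub_distrib, sum_sub_distrib, sum_add_distrib]
  simp only [sum_const, nsmul_eq_mul]
  ring

theorem sum_darts (g : V → V → ℝ) :
    ∑ p ∈ darts E, g p.1 p.2 = ∑ u, ∑ v ∈ nbr E u, g u v := by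
  unfold darts nbr
  rw [sum_filter, ← univ_product_univ, sum_product]
  refine sum_congr rfl fun u _ => ?_
  rw [sum_filter]

theorem sum_darts_swap (g : V → V → ℝ) :
    ∑ p ∈ darts E, g p.1 p.2 = ∑ p ∈ darts E, g p.2 p.1 := by
  refine sum_nbij' (fun p => (p.2, p.1)) (fun p => (p.2, p.1)) ?_ ?_ ?_ ?_ ?_
  · intro p hp
    rw [mem_darts] at hp ⊢
    simpa [Sym2.eq_swap] using hp
  · intro p hp
    rw [mem_darts] at hp ⊢
    simpa [Sym2.eq_swap] using hp
  · intro p _; rfl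
  · intro p _; rfl
  · intro p _; rfl

/-- Sum over darts of a symmetric function is twice the sum over edges. -/
theorem sum_darts_sym2 (hE : ∀ e ∈ E, ¬ e.IsDiag) (g : Sym2 V → ℝ) :
    ∑ p ∈ darts E, g s(p.1, p.2) = 2 * ∑ e ∈ E, g e := by
  have hmap : ∀ p ∈ darts E, s(p.1, p.2) ∈ E := fun p hp => mem_darts.1 hp
  rw [← sum_fiberwise_of_maps_to (g := fun p : V × V => s(p.1, p.2)) hmap, mul_sum]
  refine sum_congr rfl fun e he => ?_
  induction e using Sym2.ind with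
  | _ a b =>
    have hab : a ≠ b := by
      have := hE _ he
      simpa using this
    have hfil : (darts E).filter (fun p : V × V => s(p.1, p.2) = s(a, b)) = {(a, b), (b, a)} := by
      ext p
      obtain ⟨p1, p2⟩ := p
      simp only [mem_filter, mem_darts, mem_insert, mem_singleton, Prod.mk.injEq, Sym2.eq_iff]
      constructor
      · rintro ⟨_, h⟩; exact h
      · rintro (⟨rfl, rfl⟩ | ⟨rfl, rfl⟩)
        · exact ⟨he, Or.inl ⟨rfl, rfl⟩⟩
        · exact ⟨by rw [Sym2.eq_swap]; exact he, Or.inr ⟨rfl, rfl⟩⟩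
    rw [hfil, sum_pair]
    · simp only [Sym2.eq_swap (a := b) (b := a)]; ring
    · intro h
      exact hab (Prod.mk.inj h).1

theorem card_darts (hE : ∀ e ∈ E, ¬ e.IsDiag) : ((darts E).card : ℝ) = 2 * (E.card : ℝ) := by
  have := sum_darts_sym2 hE (fun _ => (1:ℝ))
  simpa using this

/-- Unnormalised `ℓ^q` norm over darts. -/
noncomputable def nd (q : ℕ) (E : Finset (Sym2 V)) (F : V → V → ℝ) : ℝ :=
  (∑ p ∈ darts E, |F p.1 p.2| ^ q) ^ ((1 : ℝ) / (q : ℝ))

theorem nd_sum_nonneg (q : ℕ) (F : V → V → ℝ) : 0 ≤ ∑ p ∈ darts E, |F p.1 p.2| ^ q :=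
  sum_nonneg fun _ _ => by positivity

theorem nd_nonneg (q : ℕ) (F : V → V → ℝ) : 0 ≤ nd q E F :=
  Real.rpow_nonneg (nd_sum_nonneg q F) _

theorem nd_pow {q : ℕ} (hq : q ≠ 0) (F : V → V → ℝ) :
    nd q E F ^ q = ∑ p ∈ darts E, |F p.1 p.2| ^ q := by
  unfold nd
  rw [← Real.rpow_natCast, ← Real.rpow_mul (nd_sum_nonneg q F)]
  have : (1 : ℝ) / (q : ℝ) * (q : ℝ) = 1 := by
    have : (q : ℝ) ≠ 0 := by exact_mod_cast hq
    field_simp
  rw [this, Real.rpow_one]

theorem nd_le_of_pow_le {q : ℕ} (hq : q ≠ 0) {F : V → V → ℝ} {c : ℝ} (hc : 0 ≤ c)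
    (h : ∑ p ∈ darts E, |F p.1 p.2| ^ q ≤ c ^ q) : nd q E F ≤ c := by
  rw [← nd_pow hq] at h
  exact le_of_pow_le_pow_left₀ hq hc h

theorem nd_mono {q : ℕ} {F G : V → V → ℝ}
    (h : ∀ u v, s(u, v) ∈ E → |F u v| ≤ |G u v|) : nd q E F ≤ nd q E G := by
  unfold nd
  refine Real.rpow_le_rpow (nd_sum_nonneg q F) ?_ (by positivity)
  refine sum_le_sum fun p hp => ?_
  exact pow_le_pow_left₀ (abs_nonneg _) (h _ _ (mem_darts.1 hp)) q

theorem nd_add_le {q : ℕ} (hq : 1 ≤ q) (F G : V → V → ℝ) :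
    nd q E (fun u v => F u v + G u v) ≤ nd q E F + nd q E G := by
  have h := Real.Lp_add_le (darts E) (fun p => F p.1 p.2) (fun p => G p.1 p.2)
    (p := (q : ℝ)) (by exact_mod_cast hq)
  simp only [Real.rpow_natCast] at h
  exact h

theorem nd_const_mul {q : ℕ} (hq : q ≠ 0) (c : ℝ) (F : V → V → ℝ) :
    nd q E (fun u v => c * F u v) = |c| * nd q E F := by
  unfold nd
  have : ∑ p ∈ darts E, |c * F p.1 p.2| ^ q = |c| ^ q * ∑ p ∈ darts E, |F p.1 p.2| ^ q := by
    rw [mul_sum]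
    refine sum_congr rfl fun p _ => ?_
    rw [abs_mul, mul_pow]
  rw [this, Real.mul_rpow (by positivity) (nd_sum_nonneg q F), ← Real.rpow_natCast,
    ← Real.rpow_mul (abs_nonneg c)]
  have : (q : ℝ) * ((1 : ℝ) / (q : ℝ)) = 1 := by
    have : (q : ℝ) ≠ 0 := by exact_mod_cast hq
    field_simp
  rw [this, Real.rpow_one]

theorem nd_abs (q : ℕ) (F : V → V → ℝ) : nd q E (fun u v => |F u v|) = nd q E F := by
  unfold nd; simp only [abs_abs]

theorem nd_swap (q : ℕ) (F : V → V → ℝ) : nd q E (fun u v => F v u) = nd q E F := by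
  unfold nd
  rw [sum_darts_swap (E := E) (fun u v => |F u v| ^ q)]

theorem nd_congr {q : ℕ} {F G : V → V → ℝ} (h : ∀ u v, s(u, v) ∈ E → F u v = G u v) :
    nd q E F = nd q E G :=
  le_antisymm (nd_mono fun u v huv => by rw [h u v huv])
    (nd_mono fun u v huv => by rw [h u v huv])

/-- Jensen: averaging over the second argument is a contraction. -/
theorem sum_avg_pow_le (q : ℕ) (F : V → V → ℝ) (u : V) :
    ((nbr E u).card : ℝ) * |tav E F u| ^ q ≤ ∑ w ∈ nbr E u, |F u w| ^ q := by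
  rcases (nbr E u).eq_empty_or_nonempty with h | h
  · rw [h]; simp
  have hc : (0:ℝ) < ((nbr E u).card : ℝ) := by exact_mod_cast h.card_pos
  have h1 : |tav E F u| ≤ ∑ w ∈ nbr E u, (((nbr E u).card : ℝ))⁻¹ * |F u w| := by
    unfold tav
    rw [abs_div, abs_of_pos hc, ← mul_sum, div_eq_inv_mul]
    exact mul_le_mul_of_nonneg_left (abs_sum_le_sum_abs _ _) (by positivity)
  have h2 := Real.pow_arith_mean_le_arith_mean_pow (nbr E u)
    (fun _ => (((nbr E u).card : ℝ))⁻¹) (fun w => |F u w|) (fun _ _ => by positivity)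
    (by rw [sum_const, nsmul_eq_mul]; field_simp) (fun _ _ => abs_nonneg _) q
  have h3 : |tav E F u| ^ q ≤ ∑ w ∈ nbr E u, (((nbr E u).card : ℝ))⁻¹ * |F u w| ^ q :=
    (pow_le_pow_left₀ (abs_nonneg _) h1 q).trans h2
  rw [← mul_sum] at h3
  calc ((nbr E u).card : ℝ) * |tav E F u| ^ q
      ≤ ((nbr E u).card : ℝ) * ((((nbr E u).card : ℝ))⁻¹ * ∑ w ∈ nbr E u, |F u w| ^ q) :=
        mul_le_mul_of_nonneg_left h3 hc.le
    _ = _ := by field_simp

theorem nd_tav_le {q : ℕ} (F : V → V → ℝ) :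
    nd q E (fun u _ => tav E F u) ≤ nd q E F := by
  unfold nd
  refine Real.rpow_le_rpow (nd_sum_nonneg q (fun u _ => tav E F u)) ?_ (by positivity)
  rw [sum_darts (E := E) (fun u _ => |tav E F u| ^ q), sum_darts (E := E) (fun u v => |F u v| ^ q)]
  refine sum_le_sum fun u _ => ?_
  rw [sum_const, nsmul_eq_mul]
  exact sum_avg_pow_le q F u

/-- The random walk operator is a contraction of `ℓ^q(deg)`. -/
theorem nd_walk_le {q : ℕ} (t : V → ℝ) :
    nd q E (fun u _ => tav E (fun _ w => t w) u) ≤ nd q E (fun u _ => t u) := by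
  refine (nd_tav_le (q := q) (fun _ w => t w)).trans (le_of_eq ?_)
  exact nd_swap q (fun u _ => t u)

theorem tav_add (F G : V → V → ℝ) (u : V) :
    tav E (fun u v => F u v + G u v) u = tav E F u + tav E G u := by
  unfold tav; rw [sum_add_distrib, add_div]

theorem tav_const_mul (c : ℝ) (F : V → V → ℝ) (u : V) :
    tav E (fun u v => c * F u v) u = c * tav E F u := by
  unfold tav; rw [← mul_sum, mul_div_assoc]

theorem tav_fst (t : V → ℝ) {u : V} (hu : (nbr E u).Nonempty) :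
    tav E (fun u _ => t u) u = t u := by
  unfold tav
  have hc : ((nbr E u).card : ℝ) ≠ 0 := by
    have := hu.card_pos
    positivity
  rw [sum_const, nsmul_eq_mul]
  field_simp

theorem tav_congr {F G : V → V → ℝ} {u : V} (h : ∀ v, s(u, v) ∈ E → F u v = G u v) :
    tav E F u = tav E G u := by
  unfold tav
  rw [sum_congr rfl fun w hw => h w (mem_nbr.1 hw)]

theorem abs_tav_le {F G : V → V → ℝ} {u : V} (h : ∀ v, s(u, v) ∈ E → |F u v| ≤ G u v) :
    |tav E F u| ≤ tav E G u := by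
  unfold tav
  have hc : |((nbr E u).card : ℝ)| = ((nbr E u).card : ℝ) := abs_of_nonneg (Nat.cast_nonneg _)
  rw [abs_div, hc]
  refine div_le_div_of_nonneg_right ?_ (Nat.cast_nonneg _)
  exact (abs_sum_le_sum_abs _ _).trans (sum_le_sum fun w hw => h w (mem_nbr.1 hw))

/-- The `ℓ^q` link condition at every vertex: `κ m` bounds the perpendicular parts. -/
def LinkLq (q : ℕ) (E : Finset (Sym2 V)) (c : ℝ) : Prop :=
  ∀ (u : V) (g : V → ℝ),
    ∑ v ∈ nbr E u, |∑ w ∈ cn E u v, (g w - (∑ w ∈ nbr E u, g w) / ((nbr E u).card : ℝ))| ^ q ≤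
      c ^ q * ∑ w ∈ nbr E u, |g w| ^ q

theorem nd_perp_le {q : ℕ} (hq : q ≠ 0) {c : ℝ} (hc : 0 ≤ c) (h : LinkLq q E c)
    (F : V → V → ℝ) : nd q E (fun u v => perp E F u v) ≤ c * nd q E F := by
  refine nd_le_of_pow_le hq (mul_nonneg hc (nd_nonneg q F)) ?_
  rw [mul_pow, nd_pow hq, sum_darts (E := E) (fun u v => |perp E F u v| ^ q),
    sum_darts (E := E) (fun u v => |F u v| ^ q), mul_sum]
  refine sum_le_sum fun u _ => ?_
  exact h u (F u)

/-- Regularity of the codegrees. -/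
def Reg (E : Finset (Sym2 V)) (m η : ℝ) : Prop :=
  ∀ u v, s(u, v) ∈ E → |((cn E u v).card : ℝ) / m - 1| ≤ η

/-- `(1/m) (L_u F_u^⊥)_v + (1/m) (L_v F_v^⊥)_u`. -/
noncomputable def rho (E : Finset (Sym2 V)) (m : ℝ) (F : V → V → ℝ) (u v : V) : ℝ :=
  m⁻¹ * (perp E F u v + perp E F v u)

theorem triA_div_eq (m : ℝ) (F : V → V → ℝ) (u v : V) :
    m⁻¹ * triA E F u v = (tav E F u + tav E F v)
      + (((cn E u v).card : ℝ) / m - 1) * (tav E F u + tav E F v) + rho E m F u v := by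
  rw [triA_eq, rho]; ring

theorem nd_rho_le {q : ℕ} (hq : 1 ≤ q) {m κ : ℝ} (hm : 0 < m) (hκ : 0 ≤ κ)
    (h : LinkLq q E (κ * m)) (F : V → V → ℝ) :
    nd q E (rho E m F) ≤ 2 * κ * nd q E F := by
  have hq0 : q ≠ 0 := by omega
  have h1 := nd_perp_le hq0 (by positivity) h F
  have h2 : nd q E (fun u v => perp E F v u) ≤ κ * m * nd q E F := by
    rw [nd_swap q (fun u v => perp E F u v)]; exact h1
  calc nd q E (rho E m F) = |m⁻¹| * nd q E (fun u v => perp E F u v + perp E F v u) := by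
        unfold rho
        exact nd_const_mul hq0 _ _
    _ ≤ |m⁻¹| * (κ * m * nd q E F + κ * m * nd q E F) := by
        refine mul_le_mul_of_nonneg_left ?_ (abs_nonneg _)
        exact (nd_add_le hq _ _).trans (add_le_add h1 h2)
    _ = 2 * κ * nd q E F := by
        rw [abs_of_pos (inv_pos.2 hm)]
        field_simp
        ring

theorem nd_tsum_le {q : ℕ} (hq : 1 ≤ q) (t : V → ℝ) :
    nd q E (fun u v => t u + t v) ≤ 2 * nd q E (fun u _ => t u) := by
  refine (nd_add_le hq (fun u _ => t u) (fun _ v => t v)).trans ?_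
  have : nd q E (fun _ v => t v) = nd q E (fun u _ => t u) := nd_swap q (fun u _ => t u)
  rw [this]; linarith

theorem nd_ztsum_le {q : ℕ} (hq : 1 ≤ q) {m η : ℝ} (hη : 0 ≤ η) (hreg : Reg E m η) (t : V → ℝ) :
    nd q E (fun u v => (((cn E u v).card : ℝ) / m - 1) * (t u + t v)) ≤
      η * (2 * nd q E (fun u _ => t u)) := by
  have hq0 : q ≠ 0 := by omega
  calc nd q E (fun u v => (((cn E u v).card : ℝ) / m - 1) * (t u + t v))
      ≤ nd q E (fun u v => η * (t u + t v)) := by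
        refine nd_mono fun u v huv => ?_
        rw [abs_mul, abs_mul, abs_of_nonneg hη]
        exact mul_le_mul_of_nonneg_right (hreg u v huv) (abs_nonneg _)
    _ = η * nd q E (fun u v => t u + t v) := by rw [nd_const_mul hq0, abs_of_nonneg hη]
    _ ≤ _ := mul_le_mul_of_nonneg_left (nd_tsum_le hq t) hη

/-- `z`-part of the norm step. -/
theorem nd_step_le {q : ℕ} (hq : 1 ≤ q) {m η κ θ : ℝ} (hm : 0 < m) (hη : 0 ≤ η) (hκ : 0 ≤ κ)
    (hθ : 0 ≤ θ) (hreg : Reg E m η) (h : LinkLq q E (κ * m)) (F : V → V → ℝ) :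
    nd q E (fun u v => F u v - θ * (m⁻¹ * triA E F u v)) ≤
      nd q E F + θ * (2 * (1 + η) * nd q E (fun u _ => tav E F u) + 2 * κ * nd q E F) := by
  have hq0 : q ≠ 0 := by omega
  set t := tav E F with ht
  have e : ∀ u v, F u v - θ * (m⁻¹ * triA E F u v) =
      F u v + (-θ) * (((t u + t v) + (((cn E u v).card : ℝ) / m - 1) * (t u + t v))
        + rho E m F u v) := by
    intro u v; rw [triA_div_eq]; ring
  simp only [e]
  refine (nd_add_le hq _ _).trans ?_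
  rw [nd_const_mul hq0, abs_neg, abs_of_nonneg hθ]
  have h1 := nd_tsum_le (E := E) hq t
  have h2 := nd_ztsum_le (E := E) hq hη hreg t
  have h3 := nd_rho_le (E := E) hq hm hκ h F
  have h4 := nd_add_le (E := E) hq
    (fun u v => (t u + t v) + (((cn E u v).card : ℝ) / m - 1) * (t u + t v)) (rho E m F)
  have h5 := nd_add_le (E := E) hq
    (fun u v => t u + t v) (fun u v => (((cn E u v).card : ℝ) / m - 1) * (t u + t v))
  have h6 : nd q E (fun u v => ((t u + t v) + (((cn E u v).card : ℝ) / m - 1) * (t u + t v))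
        + rho E m F u v) ≤ 2 * (1 + η) * nd q E (fun u _ => t u) + 2 * κ * nd q E F := by
    linarith
  have := mul_le_mul_of_nonneg_left h6 hθ
  linarith

/-- `h`-part of the norm step. -/
theorem nd_tav_step_le {q : ℕ} (hq : 1 ≤ q) {m η κ θ : ℝ} (hm : 0 < m) (hη : 0 ≤ η) (hκ : 0 ≤ κ)
    (hθ : 0 ≤ θ) (hθ1 : θ ≤ 1) (hreg : Reg E m η) (h : LinkLq q E (κ * m)) (F : V → V → ℝ) :
    nd q E (fun u _ => tav E (fun u v => F u v - θ * (m⁻¹ * triA E F u v)) u) ≤
      nd q E (fun u _ => tav E F u) +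
        θ * (2 * η * nd q E (fun u _ => tav E F u) + 2 * κ * nd q E F) := by
  have hq0 : q ≠ 0 := by omega
  set t := tav E F with ht
  have e : ∀ u v, s(u, v) ∈ E → tav E (fun u v => F u v - θ * (m⁻¹ * triA E F u v)) u =
      (1 - θ) * t u + (-θ) * ((tav E (fun _ w => t w) u
        + tav E (fun u v => (((cn E u v).card : ℝ) / m - 1) * (t u + t v)) u)
        + tav E (rho E m F) u) := by
    intro u v huv
    have hne : (nbr E u).Nonempty := ⟨v, mem_nbr.2 huv⟩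
    have e1 : tav E (fun u v => F u v - θ * (m⁻¹ * triA E F u v)) u =
        tav E (fun u v => F u v + (-θ) * ((((fun u _ => t u) u v + (fun _ w => t w) u v)
          + (((cn E u v).card : ℝ) / m - 1) * (t u + t v)) + rho E m F u v)) u := by
      refine tav_congr fun v _ => ?_
      rw [triA_div_eq]; ring
    rw [e1, tav_add, tav_const_mul, tav_add, tav_add, tav_add, tav_fst t hne]
    ring
  have e2 : nd q E (fun u _ => tav E (fun u v => F u v - θ * (m⁻¹ * triA E F u v)) u) =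
      nd q E (fun u _ => (1 - θ) * t u + (-θ) * ((tav E (fun _ w => t w) u
        + tav E (fun u v => (((cn E u v).card : ℝ) / m - 1) * (t u + t v)) u)
        + tav E (rho E m F) u)) := nd_congr fun u v huv => e u v huv
  rw [e2]
  have a1 := nd_add_le (E := E) hq (fun u _ => (1 - θ) * t u)
    (fun u _ => (-θ) * ((tav E (fun _ w => t w) u
        + tav E (fun u v => (((cn E u v).card : ℝ) / m - 1) * (t u + t v)) u)
        + tav E (rho E m F) u))
  refine a1.trans ?_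
  rw [nd_const_mul hq0, nd_const_mul hq0, abs_neg, abs_of_nonneg hθ,
    abs_of_nonneg (by linarith : 0 ≤ 1 - θ)]
  have b1 := nd_add_le (E := E) hq
    (fun u _ => tav E (fun _ w => t w) u
        + tav E (fun u v => (((cn E u v).card : ℝ) / m - 1) * (t u + t v)) u)
    (fun u _ => tav E (rho E m F) u)
  have b2 := nd_add_le (E := E) hq
    (fun u _ => tav E (fun _ w => t w) u)
    (fun u _ => tav E (fun u v => (((cn E u v).card : ℝ) / m - 1) * (t u + t v)) u)
  have c1 := nd_walk_le (E := E) (q := q) t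
  have c2 := nd_tav_le (E := E) (q := q)
    (fun u v => (((cn E u v).card : ℝ) / m - 1) * (t u + t v))
  have c3 := nd_tav_le (E := E) (q := q) (rho E m F)
  have d2 := nd_ztsum_le (E := E) hq hη hreg t
  have d3 := nd_rho_le (E := E) hq hm hκ h F
  have f1 : nd q E (fun u _ => (tav E (fun _ w => t w) u
        + tav E (fun u v => (((cn E u v).card : ℝ) / m - 1) * (t u + t v)) u)
        + tav E (rho E m F) u) ≤
      nd q E (fun u _ => t u) + 2 * η * nd q E (fun u _ => t u) + 2 * κ * nd q E F := by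
    linarith
  have := mul_le_mul_of_nonneg_left f1 hθ
  linarith

/-! ### Normalised norms -/

/-- Normalised `ℓ^q` norm over darts. -/
noncomputable def zn (q : ℕ) (E : Finset (Sym2 V)) (F : V → V → ℝ) : ℝ :=
  nd q E F / ((darts E).card : ℝ) ^ ((1 : ℝ) / (q : ℝ))

/-- Vertex part of the norm. -/
noncomputable def hn (q : ℕ) (E : Finset (Sym2 V)) (F : V → V → ℝ) : ℝ :=
  zn q E (fun u _ => tav E F u)

/-- `N = z + Γ h`. -/
noncomputable def Nn (q : ℕ) (Γ : ℝ) (E : Finset (Sym2 V)) (F : V → V → ℝ) : ℝ :=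
  zn q E F + Γ * hn q E F

theorem card_rpow_nonneg (q : ℕ) (E : Finset (Sym2 V)) :
    0 ≤ ((darts E).card : ℝ) ^ ((1 : ℝ) / (q : ℝ)) := by positivity

theorem zn_nonneg (q : ℕ) (F : V → V → ℝ) : 0 ≤ zn q E F :=
  div_nonneg (nd_nonneg q F) (card_rpow_nonneg q E)

theorem hn_nonneg (q : ℕ) (F : V → V → ℝ) : 0 ≤ hn q E F := zn_nonneg q _

theorem Nn_nonneg (q : ℕ) {Γ : ℝ} (hΓ : 0 ≤ Γ) (F : V → V → ℝ) : 0 ≤ Nn q Γ E F :=
  add_nonneg (zn_nonneg q F) (mul_nonneg hΓ (hn_nonneg q F))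

theorem zn_pow {q : ℕ} (hq : q ≠ 0) (F : V → V → ℝ) :
    zn q E F ^ q = (∑ p ∈ darts E, |F p.1 p.2| ^ q) / ((darts E).card : ℝ) := by
  unfold zn
  rw [div_pow, nd_pow hq, ← Real.rpow_natCast (((darts E).card : ℝ) ^ ((1 : ℝ) / (q : ℝ))),
    ← Real.rpow_mul (Nat.cast_nonneg _)]
  have : (1 : ℝ) / (q : ℝ) * (q : ℝ) = 1 := by
    have : (q : ℝ) ≠ 0 := by exact_mod_cast hq
    field_simp
  rw [this, Real.rpow_one]

theorem hn_pow {q : ℕ} (hq : q ≠ 0) (F : V → V → ℝ) :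
    hn q E F ^ q =
      (∑ u, ((nbr E u).card : ℝ) * |tav E F u| ^ q) / ((darts E).card : ℝ) := by
  unfold hn
  rw [zn_pow hq, sum_darts (E := E) (fun u _ => |tav E F u| ^ q)]
  simp only [sum_const, nsmul_eq_mul]

theorem hn_le_zn (q : ℕ) (F : V → V → ℝ) : hn q E F ≤ zn q E F :=
  div_le_div_of_nonneg_right (nd_tav_le F) (card_rpow_nonneg q E)

theorem zn_mono {q : ℕ} {F G : V → V → ℝ}
    (h : ∀ u v, s(u, v) ∈ E → |F u v| ≤ |G u v|) : zn q E F ≤ zn q E G :=
  div_le_div_of_nonneg_right (nd_mono h) (card_rpow_nonneg q E)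

theorem zn_add_le {q : ℕ} (hq : 1 ≤ q) (F G : V → V → ℝ) :
    zn q E (fun u v => F u v + G u v) ≤ zn q E F + zn q E G := by
  unfold zn
  rw [← add_div]
  exact div_le_div_of_nonneg_right (nd_add_le hq F G) (card_rpow_nonneg q E)

theorem zn_const_mul {q : ℕ} (hq : q ≠ 0) (c : ℝ) (F : V → V → ℝ) :
    zn q E (fun u v => c * F u v) = |c| * zn q E F := by
  unfold zn; rw [nd_const_mul hq, mul_div_assoc]

theorem hn_mono_abs {q : ℕ} {F G : V → V → ℝ}
    (h : ∀ u v, s(u, v) ∈ E → |F u v| ≤ G u v) : hn q E F ≤ hn q E G := by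
  refine zn_mono fun u v _ => ?_
  exact (abs_tav_le (h _)).trans (le_abs_self _)

theorem hn_add_le {q : ℕ} (hq : 1 ≤ q) (F G : V → V → ℝ) :
    hn q E (fun u v => F u v + G u v) ≤ hn q E F + hn q E G := by
  unfold hn
  simp only [tav_add]
  exact zn_add_le hq _ _

theorem hn_const_mul {q : ℕ} (hq : q ≠ 0) (c : ℝ) (F : V → V → ℝ) :
    hn q E (fun u v => c * F u v) = |c| * hn q E F := by
  unfold hn
  simp only [tav_const_mul]
  exact zn_const_mul hq _ _

theorem Nn_mono {q : ℕ} {Γ : ℝ} (hΓ : 0 ≤ Γ) {F G : V → V → ℝ}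
    (h : ∀ u v, s(u, v) ∈ E → |F u v| ≤ G u v) : Nn q Γ E F ≤ Nn q Γ E G := by
  unfold Nn
  have h1 : zn q E F ≤ zn q E G := zn_mono fun u v huv => (h u v huv).trans (le_abs_self _)
  have h2 : hn q E F ≤ hn q E G := hn_mono_abs h
  exact add_le_add h1 (mul_le_mul_of_nonneg_left h2 hΓ)

theorem Nn_add_le {q : ℕ} (hq : 1 ≤ q) {Γ : ℝ} (hΓ : 0 ≤ Γ) (F G : V → V → ℝ) :
    Nn q Γ E (fun u v => F u v + G u v) ≤ Nn q Γ E F + Nn q Γ E G := by
  unfold Nn
  have h1 := zn_add_le (E := E) hq F G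
  have h2 := mul_le_mul_of_nonneg_left (hn_add_le (E := E) hq F G) hΓ
  linarith

theorem Nn_const_mul {q : ℕ} (hq : q ≠ 0) {Γ : ℝ} (c : ℝ) (F : V → V → ℝ) :
    Nn q Γ E (fun u v => c * F u v) = |c| * Nn q Γ E F := by
  unfold Nn
  rw [zn_const_mul hq, hn_const_mul hq]; ring

theorem Nn_le_zn {q : ℕ} {Γ : ℝ} (hΓ : 0 ≤ Γ) (F : V → V → ℝ) :
    Nn q Γ E F ≤ (1 + Γ) * zn q E F := by
  unfold Nn
  have := mul_le_mul_of_nonneg_left (hn_le_zn (E := E) q F) hΓ
  linarith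

theorem zn_le_Nn {q : ℕ} {Γ : ℝ} (hΓ : 0 ≤ Γ) (F : V → V → ℝ) : zn q E F ≤ Nn q Γ E F := by
  unfold Nn
  have := mul_nonneg hΓ (hn_nonneg (E := E) q F)
  linarith

theorem zn_const {q : ℕ} (hq : q ≠ 0) (hE : (darts E).Nonempty) (c : ℝ) :
    zn q E (fun _ _ => c) = |c| := by
  have hc : (0:ℝ) < ((darts E).card : ℝ) := by exact_mod_cast hE.card_pos
  unfold zn nd
  rw [sum_const, nsmul_eq_mul, Real.mul_rpow hc.le (by positivity), ← Real.rpow_natCast,
    ← Real.rpow_mul (abs_nonneg c)]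
  have : (q : ℝ) * ((1 : ℝ) / (q : ℝ)) = 1 := by
    have : (q : ℝ) ≠ 0 := by exact_mod_cast hq
    field_simp
  rw [this, Real.rpow_one, mul_comm, mul_div_assoc, div_self (by positivity), mul_one]

theorem zn_const_le {q : ℕ} (hq : q ≠ 0) (c : ℝ) : zn q E (fun _ _ => c) ≤ |c| := by
  rcases (darts E).eq_empty_or_nonempty with h | h
  · unfold zn nd
    rw [h]
    have : (1 : ℝ) / (q : ℝ) ≠ 0 := by
      have : (q : ℝ) ≠ 0 := by exact_mod_cast hq
      positivity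
    rw [sum_empty, card_empty, Nat.cast_zero, Real.zero_rpow this, div_zero]
    exact abs_nonneg c
  · exact (zn_const hq h c).le

theorem Nn_const_le {q : ℕ} (hq : q ≠ 0) {Γ : ℝ} (hΓ : 0 ≤ Γ) (c : ℝ) :
    Nn q Γ E (fun _ _ => c) ≤ (1 + Γ) * |c| :=
  (Nn_le_zn hΓ _).trans (mul_le_mul_of_nonneg_left (zn_const_le hq c) (by linarith))

/-- `sup |F| ≤ (#darts)^{1/q} z(F)`. -/
theorem abs_le_zn {q : ℕ} (hq : q ≠ 0) (F : V → V → ℝ) {u v : V} (huv : s(u, v) ∈ E) :
    |F u v| ≤ ((darts E).card : ℝ) ^ ((1 : ℝ) / (q : ℝ)) * zn q E F := by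
  have hmem : (u, v) ∈ darts E := mem_darts.2 huv
  have hc : (0:ℝ) < ((darts E).card : ℝ) := by exact_mod_cast (card_pos.2 ⟨_, hmem⟩)
  have h1 : |F u v| ^ q ≤ ∑ p ∈ darts E, |F p.1 p.2| ^ q :=
    single_le_sum (f := fun p : V × V => |F p.1 p.2| ^ q) (fun _ _ => by positivity) hmem
  have h2 : |F u v| ≤ nd q E F := by
    rw [← nd_pow hq] at h1
    exact le_of_pow_le_pow_left₀ hq (nd_nonneg q F) h1
  unfold zn
  have : ((darts E).card : ℝ) ^ ((1 : ℝ) / (q : ℝ)) ≠ 0 := by positivity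
  field_simp
  exact h2

/-- One step of the linear recursion almost preserves `N`. -/
theorem Nn_step {q : ℕ} (hq : 1 ≤ q) {m η κ θ Γ κ₀ : ℝ} (hm : 0 < m) (hη : 0 ≤ η) (hκ : 0 ≤ κ)
    (hθ : 0 ≤ θ) (hθ1 : θ ≤ 1) (hΓ : 0 ≤ Γ)
    (h1 : 2 * κ * (1 + Γ) ≤ κ₀) (h2 : 2 * (1 + η) + 2 * η * Γ ≤ κ₀ * Γ)
    (hreg : Reg E m η) (h : LinkLq q E (κ * m)) (F : V → V → ℝ) :
    Nn q Γ E (fun u v => F u v - θ * (m⁻¹ * triA E F u v)) ≤ (1 + κ₀ * θ) * Nn q Γ E F := by
  have a1 := nd_step_le hq hm hη hκ hθ hreg h F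
  have a2 := nd_tav_step_le hq hm hη hκ hθ hθ1 hreg h F
  set c := ((darts E).card : ℝ) ^ ((1 : ℝ) / (q : ℝ)) with hc
  have hc0 : 0 ≤ c := card_rpow_nonneg q E
  have b1 : zn q E (fun u v => F u v - θ * (m⁻¹ * triA E F u v)) ≤
      zn q E F + θ * (2 * (1 + η) * hn q E F + 2 * κ * zn q E F) := by
    unfold hn zn
    rw [← hc]
    calc nd q E (fun u v => F u v - θ * (m⁻¹ * triA E F u v)) / c
        ≤ (nd q E F + θ * (2 * (1 + η) * nd q E (fun u _ => tav E F u)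
            + 2 * κ * nd q E F)) / c := div_le_div_of_nonneg_right a1 hc0
      _ = _ := by ring
  have b2 : hn q E (fun u v => F u v - θ * (m⁻¹ * triA E F u v)) ≤
      hn q E F + θ * (2 * η * hn q E F + 2 * κ * zn q E F) := by
    unfold hn zn
    rw [← hc]
    calc nd q E (fun u _ => tav E (fun u v => F u v - θ * (m⁻¹ * triA E F u v)) u) / c
        ≤ (nd q E (fun u _ => tav E F u) + θ * (2 * η * nd q E (fun u _ => tav E F u)
            + 2 * κ * nd q E F)) / c := div_le_div_of_nonneg_right a2 hc0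
      _ = _ := by ring
  have hz := zn_nonneg (E := E) q F
  have hh := hn_nonneg (E := E) q F
  unfold Nn
  have b3 := mul_le_mul_of_nonneg_left b2 hΓ
  have e1 : θ * (2 * κ * (1 + Γ)) * zn q E F ≤ θ * κ₀ * zn q E F :=
    mul_le_mul_of_nonneg_right (mul_le_mul_of_nonneg_left h1 hθ) hz
  have e2 : θ * (2 * (1 + η) + 2 * η * Γ) * hn q E F ≤ θ * (κ₀ * Γ) * hn q E F :=
    mul_le_mul_of_nonneg_right (mul_le_mul_of_nonneg_left h2 hθ) hh
  nlinarith [b1, b3, e1, e2]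

/-- Crude bound for `z (m⁻¹ A F)`. -/
theorem zn_triA_le {q : ℕ} (hq : 1 ≤ q) {m η κ : ℝ} (hm : 0 < m) (hη : 0 ≤ η) (hκ : 0 ≤ κ)
    (hreg : Reg E m η) (h : LinkLq q E (κ * m)) (F : V → V → ℝ) :
    zn q E (fun u v => m⁻¹ * triA E F u v) ≤ 2 * (1 + η) * hn q E F + 2 * κ * zn q E F := by
  have hq0 : q ≠ 0 := by omega
  have h1 := nd_tsum_le (E := E) hq (tav E F)
  have h2 := nd_ztsum_le (E := E) hq hη hreg (tav E F)
  have h3 := nd_rho_le (E := E) hq hm hκ h F
  have h4 := nd_add_le (E := E) hq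
    (fun u v => (tav E F u + tav E F v)
      + (((cn E u v).card : ℝ) / m - 1) * (tav E F u + tav E F v)) (rho E m F)
  have h5 := nd_add_le (E := E) hq
    (fun u v => tav E F u + tav E F v)
    (fun u v => (((cn E u v).card : ℝ) / m - 1) * (tav E F u + tav E F v))
  have h6 : nd q E (fun u v => m⁻¹ * triA E F u v) ≤
      2 * (1 + η) * nd q E (fun u _ => tav E F u) + 2 * κ * nd q E F := by
    simp only [triA_div_eq]
    linarith
  unfold hn zn
  calc nd q E (fun u v => m⁻¹ * triA E F u v) / ((darts E).card : ℝ) ^ ((1 : ℝ) / (q : ℝ))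
      ≤ (2 * (1 + η) * nd q E (fun u _ => tav E F u) + 2 * κ * nd q E F)
          / ((darts E).card : ℝ) ^ ((1 : ℝ) / (q : ℝ)) :=
        div_le_div_of_nonneg_right h6 (card_rpow_nonneg q E)
    _ = _ := by ring

/-- `N (m⁻¹ A |F|) ≤ 3 (1+Γ) N F`. -/
theorem Nn_triA_abs_le {q : ℕ} (hq : 1 ≤ q) {m η κ Γ : ℝ} (hm : 0 < m) (hη : 0 ≤ η) (hκ : 0 ≤ κ)
    (hΓ : 0 ≤ Γ) (hηκ : 2 * η + 2 * κ ≤ 1)
    (hreg : Reg E m η) (h : LinkLq q E (κ * m)) (F : V → V → ℝ) :
    Nn q Γ E (fun u v => m⁻¹ * triA E (fun u v => |F u v|) u v) ≤ 3 * (1 + Γ) * Nn q Γ E F := by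
  have h1 := zn_triA_le hq hm hη hκ hreg h (fun u v => |F u v|)
  have h2 : hn q E (fun u v => |F u v|) ≤ zn q E (fun u v => |F u v|) := hn_le_zn q _
  have h3 : zn q E (fun u v => |F u v|) = zn q E F := by
    unfold zn; rw [nd_abs]
  have hz := zn_nonneg (E := E) q F
  rw [h3] at h1 h2
  have h4 : zn q E (fun u v => m⁻¹ * triA E (fun u v => |F u v|) u v) ≤ 3 * zn q E F := by
    have : 2 * (1 + η) * hn q E (fun u v => |F u v|) ≤ 2 * (1 + η) * zn q E F :=
      mul_le_mul_of_nonneg_left h2 (by linarith)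
    nlinarith
  have h5 := Nn_le_zn (E := E) (q := q) hΓ
    (fun u v => m⁻¹ * triA E (fun u v => |F u v|) u v)
  have h6 := zn_le_Nn (E := E) (q := q) hΓ F
  calc _ ≤ (1 + Γ) * zn q E (fun u v => m⁻¹ * triA E (fun u v => |F u v|) u v) := h5
    _ ≤ (1 + Γ) * (3 * zn q E F) := mul_le_mul_of_nonneg_left h4 (by linarith)
    _ ≤ (1 + Γ) * (3 * Nn q Γ E F) :=
        mul_le_mul_of_nonneg_left (by linarith) (by linarith)
    _ = _ := by ring

/-! ### From the trace bound on link graphs to `LinkLq` -/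

/-- Adjacency matrix of the link graph of `u`. -/
noncomputable def linkMat (E : Finset (Sym2 V)) (u : V) :
    Matrix {w // w ∈ nbr E u} {w // w ∈ nbr E u} ℝ :=
  fun w w' => if s((w : V), (w' : V)) ∈ E then 1 else 0

theorem linkMat_symm (u : V) : (linkMat E u).transpose = linkMat E u := by
  ext w w'
  simp only [linkMat, Matrix.transpose_apply]
  rw [Sym2.eq_swap]

theorem sum_linkMat (u : V) (v : {w // w ∈ nbr E u}) (g : V → ℝ) :
    ∑ w : {w // w ∈ nbr E u}, linkMat E u v w * g w = ∑ w ∈ cn E u v, g w := by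
  simp only [linkMat, ite_mul, one_mul, zero_mul]
  have h1 : ∑ w : {w // w ∈ nbr E u}, (if s((v : V), (w : V)) ∈ E then g w else 0)
      = ∑ w ∈ nbr E u, (if s((v : V), w) ∈ E then g w else 0) :=
    (sum_coe_sort (nbr E u) (fun w => if s((v : V), w) ∈ E then g w else 0))
  rw [h1, ← sum_filter]
  refine sum_congr ?_ fun _ _ => rfl
  ext w
  simp [cn, mem_nbr]

theorem linkLq_of_trace {u : V} (j : ℕ) {K D : ℝ} (hK : 0 ≤ K) (hD : 0 < D)
    (hrow : ∀ v, s(u, v) ∈ E → ((cn E u v).card : ℝ) ≤ D)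
    (htr : ((linkMat E u) ^ (2 * 2 ^ j)).trace ≤
      ((∑ v ∈ nbr E u, ((cn E u v).card : ℝ)) / ((nbr E u).card : ℝ)) ^ (2 * 2 ^ j)
        + K ^ (2 * 2 ^ j))
    (k : ℕ) (g : V → ℝ) :
    ∑ v ∈ nbr E u,
        |∑ w ∈ cn E u v, (g w - (∑ w ∈ nbr E u, g w) / ((nbr E u).card : ℝ))| ^ (k + 3) ≤
      4 * (k + 3) / (k + 1) * (4 * D) ^ (k + 1) * K ^ 2 * ∑ w ∈ nbr E u, |g w| ^ (k + 3) := by
  classical
  have hrow1 : ∀ v : {w // w ∈ nbr E u}, ∑ w, linkMat E u v w = ((cn E u v).card : ℝ) := by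
    intro v
    have := sum_linkMat u v (fun _ => (1:ℝ))
    simpa using this
  have h := spec_lq (linkMat_symm (E := E) u) j hK hD
    (fun i i' => by unfold linkMat; split_ifs <;> norm_num)
    (fun i => by rw [hrow1 i]; exact hrow i (mem_nbr.1 i.2))
    (by
      simp only [hrow1]
      rw [Fintype.card_coe, sum_coe_sort (nbr E u) (fun v => ((cn E u v).card : ℝ))]
      exact htr) k (fun w => g w)
  have hav : wavg (W := {w // w ∈ nbr E u}) (fun w => g w) =
      (∑ w ∈ nbr E u, g w) / ((nbr E u).card : ℝ) := by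
    unfold wavg
    rw [Fintype.card_coe, sum_coe_sort (nbr E u) g]
  rw [hav] at h
  have hl : ∀ v : {w // w ∈ nbr E u},
      ((linkMat E u).mulVec (fun i => g i - (∑ w ∈ nbr E u, g w) / ((nbr E u).card : ℝ))) v =
      ∑ w ∈ cn E u v, (g w - (∑ w ∈ nbr E u, g w) / ((nbr E u).card : ℝ)) := by
    intro v
    rw [← sum_linkMat u v (fun w => g w - (∑ w ∈ nbr E u, g w) / ((nbr E u).card : ℝ))]
    rfl
  simp only [hl] at h
  rw [sum_coe_sort (nbr E u)
      (fun v => |∑ w ∈ cn E u v, (g w - (∑ w ∈ nbr E u, g w) / ((nbr E u).card : ℝ))| ^ (k + 3)),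
    sum_coe_sort (nbr E u) (fun v => |g v| ^ (k + 3))] at h
  exact h

/-- `LinkLq` with an explicit constant from trace bounds at every vertex. -/
theorem LinkLq_of_trace (j : ℕ) {m η κ₂ κ : ℝ} (hm : 0 < m) (hη : 0 ≤ η) (hκ₂ : 0 ≤ κ₂)
    (hreg : Reg E m η)
    (htr : ∀ u, ((linkMat E u) ^ (2 * 2 ^ j)).trace ≤
      ((∑ v ∈ nbr E u, ((cn E u v).card : ℝ)) / ((nbr E u).card : ℝ)) ^ (2 * 2 ^ j)
        + (κ₂ * m) ^ (2 * 2 ^ j))
    (k : ℕ)
    (hκ : 4 * (k + 3) / (k + 1) * (4 * (1 + η)) ^ (k + 1) * κ₂ ^ 2 ≤ κ ^ (k + 3)) :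
    LinkLq (k + 3) E (κ * m) := by
  intro u g
  have hrow : ∀ v, s(u, v) ∈ E → ((cn E u v).card : ℝ) ≤ (1 + η) * m := by
    intro v huv
    have := (abs_le.1 (hreg u v huv)).2
    have h2 : ((cn E u v).card : ℝ) / m ≤ 1 + η := by linarith
    rwa [div_le_iff₀ hm] at h2
  refine (linkLq_of_trace j (by positivity : 0 ≤ κ₂ * m) (by positivity : 0 < (1 + η) * m)
    hrow (htr u) k g).trans ?_
  have hs : 0 ≤ ∑ w ∈ nbr E u, |g w| ^ (k + 3) := sum_nonneg fun _ _ => by positivity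
  refine mul_le_mul_of_nonneg_right ?_ hs
  calc 4 * ((k:ℝ) + 3) / (k + 1) * (4 * ((1 + η) * m)) ^ (k + 1) * (κ₂ * m) ^ 2
      = (4 * (k + 3) / (k + 1) * (4 * (1 + η)) ^ (k + 1) * κ₂ ^ 2) * m ^ (k + 3) := by
        rw [show 4 * ((1 + η) * m) = (4 * (1 + η)) * m by ring, mul_pow (4 * (1 + η)) m,
          mul_pow κ₂ m]
        ring
    _ ≤ κ ^ (k + 3) * m ^ (k + 3) := mul_le_mul_of_nonneg_right hκ (by positivity)
    _ = (κ * m) ^ (k + 3) := by rw [mul_pow]

end Crest.Agent.R030
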