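import Mathlib
import Crest.Agent.R030.TriOp
import Crest.Agent.R030.Bridge

/-!
Row 30 (S0040): definitions for part (C): the Lyapunov function `V = Z + Γ H`.
-/

set_option autoImplicit false

namespace Crest.Agent.R030

open Finset

variable {n : ℕ}

/-- Mean codegree `3Q/x`. -/
noncomputable def mE (E : Finset (Sym2 (Fin n))) : ℝ :=
  3 * ((act (triHyp n) E).card : ℝ) / (E.card : ℝ)

/-- Relative codegree error, as a dart function. -/
noncomputable def zeta (E : Finset (Sym2 (Fin n))) (u v : Fin n) : ℝ :=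
  ((cn E u v).card : ℝ) / mE E - 1

/-- Vertex averages. -/
noncomputable def tt (E : Finset (Sym2 (Fin n))) (u : Fin n) : ℝ := tav E (zeta E) u

/-- `(1/x) ∑_e ζ_e^q`. -/
noncomputable def ZZ (q : ℕ) (E : Finset (Sym2 (Fin n))) : ℝ :=
  (∑ p ∈ darts E, (zeta E p.1 p.2) ^ q) / ((darts E).card : ℝ)

/-- `(1/2x) ∑_u d_u t_u^q`. -/
noncomputable def HH (q : ℕ) (E : Finset (Sym2 (Fin n))) : ℝ :=
  (∑ u, ((nbr E u).card : ℝ) * (tt E u) ^ q) / ((darts E).card : ℝ)

/-- Average over the next step. -/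
noncomputable def avT (E : Finset (Sym2 (Fin n))) (f : Finset (Sym2 (Fin n)) → ℝ) : ℝ :=
  ((act (triHyp n) E).card : ℝ)⁻¹ * ∑ T ∈ act (triHyp n) E, f (E \ T)

end Crest.Agent.R030
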