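import Mathlib
import Crest.Agent.R030.VStep
import Crest.Agent.R030.Chain

/-!
Row 30 (S0040), part (C3), dynamic half: from the two drift inequalities to
`avT E V ≤ (1 + 3 c₀/x) V(E) + 3 (1+Γ) C μ / x` and to the bound for the probability that the
codegree regularity is the first thing to fail.
-/

set_option autoImplicit false

namespace Crest.Agent.R030

open Finset Crest.CombinatoricsR.TriangleRemoval

variable {n : ℕ}

/-- The Lyapunov function. -/
noncomputable def VV (q : ℕ) (Γ : ℝ) (E : Finset (Sym2 (Fin n))) : ℝ := ZZ q E + Γ * HH q E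

/-- (C1): the `Z`-drift inequality at `E`. -/
def DriftZ (q : ℕ) (cZ Cμ : ℝ) (E : Finset (Sym2 (Fin n))) : Prop :=
  avT E (ZZ q) ≤ ZZ q E + (3 / (E.card : ℝ)) *
    (-(q * ((∑ p ∈ darts E, (zeta E p.1 p.2) ^ (q - 1) *
        ((mE E)⁻¹ * triA E (zeta E) p.1 p.2)) / ((darts E).card : ℝ)))
      + cZ * zn q E (zeta E) ^ q + Cμ)

/-- (C2): the `H`-drift inequality at `E`. -/
def DriftH (q : ℕ) (a b c Cμ : ℝ) (E : Finset (Sym2 (Fin n))) : Prop :=
  avT E (HH q) ≤ HH q E + (3 / (E.card : ℝ)) *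
    (-q * hn q E (zeta E) ^ q
      + q * (hn q E (zeta E) ^ (q - 1) * (hn q E (zeta E) * (1 + a) + b * zn q E (zeta E)))
      + c * (hn q E (zeta E) ^ q + zn q E (zeta E) ^ q) + Cμ)

theorem avT_add (E : Finset (Sym2 (Fin n))) (f g : Finset (Sym2 (Fin n)) → ℝ) :
    avT E (fun A => f A + g A) = avT E f + avT E g := by
  unfold avT; rw [sum_add_distrib, mul_add]

theorem avT_const_mul (E : Finset (Sym2 (Fin n))) (c : ℝ) (f : Finset (Sym2 (Fin n)) → ℝ) :
    avT E (fun A => c * f A) = c * avT E f := by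
  unfold avT; rw [← mul_sum]; ring

/-- (C3): the drift of `V`. -/
theorem VV_drift {q : ℕ} (hq : Even q) (hq2 : 2 ≤ q) {η κ a b c cZ ε Γ c₀ Cμ : ℝ}
    (hη : 0 ≤ η) (hκ : 0 ≤ κ) (hb : 0 ≤ b) (hε : 0 < ε) (hΓ : 0 ≤ Γ)
    (h1 : q * (2 * (1 + η) * ε + 2 * κ) + cZ + Γ * (q * b + c) ≤ c₀)
    (h2 : q * (2 * (1 + η) * (ε⁻¹) ^ (q - 1)) + Γ * (q * (a + b) + c) ≤ c₀ * Γ)
    {E : Finset (Sym2 (Fin n))} (hm : 0 < mE E)
    (hreg : Reg E (mE E) η) (hlink : LinkLq q E (κ * mE E))
    (hZ : DriftZ q cZ Cμ E) (hH : DriftH q a b c Cμ E) :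
    avT E (VV q Γ) ≤ (1 + 3 * c₀ / (E.card : ℝ)) * VV q Γ E
      + 3 * (1 + Γ) * Cμ / (E.card : ℝ) := by
  have hx : 0 < (E.card : ℝ) := by
    by_contra hcon
    have h0 : (E.card : ℝ) = 0 := le_antisymm (not_lt.mp hcon) (Nat.cast_nonneg _)
    unfold mE at hm
    rw [h0, div_zero] at hm
    exact lt_irrefl _ hm
  have hq0 : q ≠ 0 := by omega
  have hZe : ZZ q E = zn q E (zeta E) ^ q := ZZ_eq hq hq0 E
  have hHe : HH q E = hn q E (zeta E) ^ q := HH_eq hq hq0 E
  have hin := neg_inner_le hq2 hm hη hκ hreg hlink (zeta E)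
  have hz0 : 0 ≤ zn q E (zeta E) := zn_nonneg q _
  have hh0 : 0 ≤ hn q E (zeta E) := hn_nonneg q _
  unfold DriftZ at hZ
  unfold DriftH at hH
  generalize zn q E (zeta E) = z at *
  generalize hn q E (zeta E) = h at *
  generalize (∑ p ∈ darts E, (zeta E p.1 p.2) ^ (q - 1) *
          ((mE E)⁻¹ * triA E (zeta E) p.1 p.2)) / ((darts E).card : ℝ) = S at *
  have e1 : avT E (VV q Γ) = avT E (ZZ q) + Γ * avT E (HH q) := by
    unfold VV
    rw [avT_add E (ZZ q) (fun A => Γ * HH q A), avT_const_mul]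
  rw [e1]
  unfold VV
  generalize avT E (ZZ q) = aZ at *
  generalize avT E (HH q) = aH at *
  generalize (E.card : ℝ) = x at *
  rw [hZe] at hZ ⊢
  rw [hHe] at hH ⊢
  obtain ⟨dZ, hdZ⟩ : ∃ d, d = x / 3 * (aZ - z ^ q) := ⟨_, rfl⟩
  obtain ⟨dH, hdH⟩ : ∃ d, d = x / 3 * (aH - h ^ q) := ⟨_, rfl⟩
  have hx3 : x / 3 * (3 / x) = 1 := by field_simp
  have b1 : dZ ≤ q * (z ^ (q - 1) * (2 * (1 + η) * h + 2 * κ * z)) + cZ * z ^ q + Cμ * 1 := by
    have hin' := mul_le_mul_of_nonneg_left hin (Nat.cast_nonneg (α := ℝ) q)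
    have h5 := mul_le_mul_of_nonneg_left (sub_le_iff_le_add'.2 hZ)
      (by positivity : 0 ≤ x / 3)
    rw [← mul_assoc, hx3, one_mul, ← hdZ] at h5
    linarith
  have b2 : dH ≤ -q * h ^ q + q * (h ^ (q - 1) * (h * (1 + a) + b * z)) + c * (h ^ q + z ^ q)
      + Cμ * 1 := by
    have h5 := mul_le_mul_of_nonneg_left (sub_le_iff_le_add'.2 hH)
      (by positivity : 0 ≤ x / 3)
    rw [← mul_assoc, hx3, one_mul, ← hdH] at h5
    linarith
  have key := combine_real (by omega : 1 ≤ q) hz0 hh0 hη hb hε hΓ b1 b2 h1 h2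
  have e2 : aZ = z ^ q + 3 / x * dZ := by
    rw [hdZ]; field_simp; ring
  have e3 : aH = h ^ q + 3 / x * dH := by
    rw [hdH]; field_simp; ring
  have key' := mul_le_mul_of_nonneg_left key (by positivity : 0 ≤ 3 / x)
  rw [e2, e3]
  calc z ^ q + 3 / x * dZ + Γ * (h ^ q + 3 / x * dH)
      = (z ^ q + Γ * h ^ q) + 3 / x * (dZ + Γ * dH) := by ring
    _ ≤ (z ^ q + Γ * h ^ q) + 3 / x *
        (c₀ * (z ^ q + Γ * h ^ q) + (1 + Γ) * (Cμ * 1)) := by linarith
    _ = _ := by ring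

/-! ### The complete graph -/

theorem card_allEdges (n : ℕ) : (allEdges n).card = n.choose 2 := by
  have h := Sym2.card_subtype_not_diag (α := Fin n)
  rw [Fintype.card_fin] at h
  rw [← h, Fintype.card_subtype]
  rfl

theorem mem_allEdges {u v : Fin n} : s(u, v) ∈ allEdges n ↔ u ≠ v := by
  simp [allEdges]

theorem edgesOf_subset_allEdges (t : Finset (Fin n)) : edgesOf t ⊆ allEdges n := by
  intro e he
  rw [mem_edgesOf] at he
  simp [allEdges, he.2]

theorem card_act_allEdges (n : ℕ) : (act (triHyp n) (allEdges n)).card = n.choose 3 := by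
  have h1 : act (triHyp n) (allEdges n) = triHyp n := by
    unfold act
    refine filter_true_of_mem fun T hT => ?_
    rw [triHyp, mem_image] at hT
    obtain ⟨t, _, rfl⟩ := hT
    exact edgesOf_subset_allEdges t
  rw [h1, triHyp, card_image_of_injOn]
  · rw [card_powersetCard, card_univ, Fintype.card_fin]
  · intro t ht t' ht' h
    rw [mem_coe, mem_powersetCard] at ht ht'
    exact edgesOf_injOn ht.2 ht'.2 h

theorem card_cn_allEdges {u v : Fin n} (huv : u ≠ v) :
    ((cn (allEdges n) u v).card : ℝ) = (n : ℝ) - 2 := by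
  have h1 : cn (allEdges n) u v = univ \ {u, v} := by
    ext w
    simp only [mem_cn, mem_allEdges, mem_sdiff, mem_univ, true_and, mem_insert, mem_singleton,
      not_or]
    constructor
    · rintro ⟨a, b⟩; exact ⟨fun h => a h.symm, fun h => b h.symm⟩
    · rintro ⟨a, b⟩; exact ⟨fun h => a h.symm, fun h => b h.symm⟩
  rw [h1, card_sdiff_of_subset (subset_univ _), card_univ, Fintype.card_fin, card_pair huv]
  have : 2 ≤ n := by
    have := card_pair huv
    have h2 : ({u, v} : Finset (Fin n)).card ≤ (univ : Finset (Fin n)).card :=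
      card_le_card (subset_univ _)
    rw [this, card_univ, Fintype.card_fin] at h2
    exact h2
  push_cast [Nat.cast_sub this]
  ring

theorem mE_allEdges (hn : 2 ≤ n) : mE (allEdges n) = (n : ℝ) - 2 := by
  unfold mE
  rw [card_act_allEdges, card_allEdges]
  have h := Nat.choose_succ_right_eq n 2
  have h2 : (n.choose 3 : ℝ) * 3 = (n.choose 2 : ℝ) * ((n : ℝ) - 2) := by
    have : ((n.choose (2 + 1) * (2 + 1) : ℕ) : ℝ) = ((n.choose 2 * (n - 2) : ℕ) : ℝ) := by
      exact_mod_cast h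
    push_cast [Nat.cast_sub hn] at this
    linarith
  have h3 : (0:ℝ) < (n.choose 2 : ℝ) := by
    exact_mod_cast Nat.choose_pos hn
  rw [div_eq_iff h3.ne']
  linarith

theorem zeta_allEdges {u v : Fin n} (huv : s(u, v) ∈ allEdges n) (hn : 3 ≤ n) :
    zeta (allEdges n) u v = 0 := by
  unfold zeta
  rw [card_cn_allEdges (mem_allEdges.1 huv), mE_allEdges (by omega)]
  have : (n : ℝ) - 2 ≠ 0 := by
    have : (3:ℝ) ≤ (n:ℝ) := by exact_mod_cast hn
    linarith
  rw [div_self this, sub_self]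

theorem VV_allEdges {q : ℕ} (hq : q ≠ 0) (Γ : ℝ) (hn : 3 ≤ n) : VV q Γ (allEdges n) = 0 := by
  have h1 : ZZ q (allEdges n) = 0 := by
    unfold ZZ
    rw [sum_eq_zero, zero_div]
    intro p hp
    rw [zeta_allEdges (mem_darts.1 hp) hn, zero_pow hq]
  have h2 : HH q (allEdges n) = 0 := by
    unfold HH tt
    rw [sum_eq_zero, zero_div]
    intro u _
    have : tav (allEdges n) (zeta (allEdges n)) u = 0 := by
      unfold tav
      rw [sum_eq_zero, zero_div]
      intro w hw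
      exact zeta_allEdges (mem_nbr.1 hw) hn
    rw [this, zero_pow hq, mul_zero]
  unfold VV
  rw [h1, h2]; ring

/-! ### Exit bound -/

theorem not_diag_of_subset {E : Finset (Sym2 (Fin n))} (hE : E ⊆ allEdges n) :
    ∀ e ∈ E, ¬ e.IsDiag := fun e he => by
  have := hE he
  simpa [allEdges] using this

theorem single_dart_le {q : ℕ} (hq : Even q) {E : Finset (Sym2 (Fin n))}
    (F : Fin n → Fin n → ℝ) {u v : Fin n} (h : s(u, v) ∈ E) :
    (F u v) ^ q ≤ ∑ p ∈ darts E, (F p.1 p.2) ^ q := by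
  have hmem : (u, v) ∈ darts E := mem_darts.2 h
  exact single_le_sum (f := fun p : Fin n × Fin n => (F p.1 p.2) ^ q)
    (fun _ _ => hq.pow_nonneg _) hmem

theorem exit_real {x V β w r : ℝ} (hx : 3 ≤ x) (hV : 0 ≤ V) (hβ : 0 ≤ β) (hr : 0 ≤ r)
    (h : w ≤ (1 + 3 / x) * V + β / x) :
    r * ((x - 3) * (w + β / 3)) ≤ r * (x * (V + β / 3)) := by
  have hx0 : 0 < x := by linarith
  refine mul_le_mul_of_nonneg_left ?_ hr
  have h3 : (x - 3) * (w + β / 3) ≤ (x - 3) * ((1 + 3 / x) * V + β / x + β / 3) :=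
    mul_le_mul_of_nonneg_left (by linarith) (by linarith)
  refine h3.trans ?_
  have e3 : (x - 3) * ((1 + 3 / x) * V + β / x + β / 3) =
      x * (V + β / 3) - (9 / x) * V - 3 * β / x := by
    field_simp
    ring
  rw [e3]
  have h4 : 0 ≤ (9 / x) * V := by positivity
  have h5 : 0 ≤ 3 * β / x := by positivity
  linarith

theorem exit_real' {x V β e : ℝ} (hx : 0 ≤ x) (hβ : 0 ≤ β) (he : 0 < e)
    (h : e / 2 ≤ x * V) : 1 ≤ (2 / e) * (x * (V + β / 3)) := by
  have h9 : 0 ≤ x * (β / 3) := by positivity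
  calc (1:ℝ) = (2 / e) * (e / 2) := by field_simp
    _ ≤ (2 / e) * (x * (V + β / 3)) := by
        refine mul_le_mul_of_nonneg_left ?_ (by positivity)
        linarith

/-- **Exit bound.** The probability that regularity of the codegrees fails while all earlier states
satisfied the drift inequality. -/
theorem hit_reg_le {q : ℕ} (hq : Even q) (hq0 : q ≠ 0) {Γ η β : ℝ} (hΓ : 0 ≤ Γ) (hη : 0 < η)
    (hβ : 0 ≤ β) (hn : 3 ≤ n) (Good : Finset (Sym2 (Fin n)) → Prop)
    (hG : ∀ E : Finset (Sym2 (Fin n)), E ⊆ allEdges n → Good E → Reg E (mE E) η →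
      0 < (act (triHyp n) E).card ∧
      avT E (VV q Γ) ≤ (1 + 3 / (E.card : ℝ)) * VV q Γ E + β / (E.card : ℝ)) (k : ℕ) :
    (baseKer (triHyp n)).hit (fun E => ¬ Reg E (mE E) η) Good k (allEdges n) ≤
      2 * ((allEdges n).card : ℝ) * (β / 3) / η ^ q := by
  set Zf : Finset (Sym2 (Fin n)) → ℝ :=
    fun E => (2 / η ^ q) * ((E.card : ℝ) * (VV q Γ E + β / 3)) with hZf
  have hVnn : ∀ E : Finset (Sym2 (Fin n)), 0 ≤ VV q Γ E := fun E =>
    add_nonneg (ZZ_nonneg hq E) (mul_nonneg hΓ (HH_nonneg hq E))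
  have hstart : Zf (allEdges n) = 2 * ((allEdges n).card : ℝ) * (β / 3) / η ^ q := by
    rw [hZf]
    simp only [VV_allEdges hq0 Γ hn]
    ring
  rw [← hstart]
  refine (baseKer (triHyp n)).hit_le_of_super (I := fun E => E ⊆ allEdges n) ?_ ?_ ?_ ?_ k
    (allEdges n) (Subset.refl _)
  · intro E hE _ _ A hA
    exact (subset_of_mem_supp hA).trans hE
  · intro E _
    have h := hVnn E
    rw [hZf]
    exact mul_nonneg (by positivity) (mul_nonneg (Nat.cast_nonneg _) (by linarith))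
  · intro E hE hB
    have hex : ∃ u v, s(u, v) ∈ E ∧ η < |zeta E u v| := by
      by_contra hcon
      push Not at hcon
      exact hB fun u v huv => hcon u v huv
    obtain ⟨u, v, huv, hlt⟩ := hex
    have hmem : (u, v) ∈ darts E := mem_darts.2 huv
    have hpos : (0:ℝ) < ((darts E).card : ℝ) := by exact_mod_cast card_pos.2 ⟨_, hmem⟩
    have h1 : η ^ q ≤ ∑ p ∈ darts E, (zeta E p.1 p.2) ^ q := by
      have h2 := single_dart_le hq (zeta E) huv
      have h3 : η ^ q ≤ |zeta E u v| ^ q := pow_le_pow_left₀ hη.le hlt.le q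
      rw [hq.pow_abs] at h3
      exact h3.trans h2
    have h4 : η ^ q / 2 ≤ (E.card : ℝ) * VV q Γ E := by
      have h5 : η ^ q / ((darts E).card : ℝ) ≤ ZZ q E := by
        unfold ZZ
        exact div_le_div_of_nonneg_right h1 hpos.le
      have h6 : ZZ q E ≤ VV q Γ E := by
        unfold VV
        have := mul_nonneg hΓ (HH_nonneg hq E)
        linarith
      have h7 : ((darts E).card : ℝ) = 2 * (E.card : ℝ) := card_darts (not_diag_of_subset hE)
      have h8 : 0 < (E.card : ℝ) := by linarith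
      calc η ^ q / 2 = (E.card : ℝ) * (η ^ q / ((darts E).card : ℝ)) := by
            rw [h7]; field_simp
        _ ≤ (E.card : ℝ) * VV q Γ E := mul_le_mul_of_nonneg_left (h5.trans h6) h8.le
    exact exit_real' (Nat.cast_nonneg _) hβ (pow_pos hη q) h4
  · intro E hE hB hgood
    rw [not_not] at hB
    obtain ⟨hact, hdr⟩ := hG E hE hgood hB
    have hne : act (triHyp n) E ≠ ∅ := card_pos.1 hact |>.ne_empty
    rw [baseKer_avg hne]
    have hQ : (0:ℝ) < ((act (triHyp n) E).card : ℝ) := by exact_mod_cast hact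
    have hcard3 : 3 ≤ E.card := by
      obtain ⟨T, hT⟩ := card_pos.1 hact
      have := card_sdiff_act (lin3_triHyp n) hT
      omega
    have hx3 : (3:ℝ) ≤ (E.card : ℝ) := by exact_mod_cast hcard3
    have hx : (0:ℝ) < (E.card : ℝ) := by linarith
    have e1 : ∀ T ∈ act (triHyp n) E, Zf (E \ T) =
        (2 / η ^ q) * (((E.card : ℝ) - 3) * (VV q Γ (E \ T) + β / 3)) := by
      intro T hT
      have := card_sdiff_act (lin3_triHyp n) hT
      have h2 : ((E \ T).card : ℝ) = (E.card : ℝ) - 3 := by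
        have : (((E \ T).card + 3 : ℕ) : ℝ) = (E.card : ℝ) := by exact_mod_cast this
        push_cast at this
        linarith
      rw [hZf]
      simp only [h2]
    rw [sum_congr rfl e1]
    have e2 : ((act (triHyp n) E).card : ℝ)⁻¹ * ∑ T ∈ act (triHyp n) E,
        (2 / η ^ q) * (((E.card : ℝ) - 3) * (VV q Γ (E \ T) + β / 3)) =
        (2 / η ^ q) * (((E.card : ℝ) - 3) * (avT E (VV q Γ) + β / 3)) := by
      unfold avT
      rw [← mul_sum, ← mul_sum, sum_add_distrib, sum_const, nsmul_eq_mul]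
      field_simp
    rw [e2, hZf]
    exact exit_real hx3 (hVnn E) hβ (by positivity) hdr

end Crest.Agent.R030
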