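import Crest.Agent.R030.HComb
import Crest.Agent.R030.DriftTri
import Crest.Agent.R030.VSuper

/-!
Row 30 (S0040), part (C): translation of helper600's block drift inequality (`Nice.block_step2`)
into helper656's `DriftZ` and `DriftH` (helper725).
-/

set_option autoImplicit false

namespace Crest.Agent.R030.HD

open Finset Crest.CombinatoricsR.TriangleRemoval Crest.Agent.R030.Drift

variable {n : ℕ} {E : Finset (Sym2 (Fin n))} {T : Finset (Sym2 (Fin n))}

theorem mc_eq (E : Finset (Sym2 (Fin n))) : mc (triHyp n) E = mE E := rfl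

theorem zt_eq (hE : ∀ e ∈ E, ¬ e.IsDiag) {u v : Fin n} (h : s(u, v) ∈ E) :
    zt (triHyp n) E s(u, v) = zeta E u v := by
  unfold zt zeta
  rw [codeg_eq_cn hE h, mc_eq]

/-- Sums over the star block. -/
theorem sum_star {A : Finset (Sym2 (Fin n))} (hA : ∀ e ∈ A, ¬ e.IsDiag) (u : Fin n)
    (f : Sym2 (Fin n) → ℝ) :
    ∑ e ∈ A ∩ star u, f e = ∑ w ∈ nbr A u, f s(u, w) := by
  symm
  refine Finset.sum_bij (fun w _ => s(u, w)) ?_ ?_ ?_ ?_
  · intro w hw
    rw [mem_nbr] at hw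
    rw [mem_inter, mem_star]
    exact ⟨hw, hA _ hw, by simp⟩
  · intro w _ w' _ h
    simp only [Sym2.eq_iff] at h
    rcases h with ⟨_, h⟩ | ⟨h1, h2⟩
    · exact h
    · rw [h2, h1]
  · intro e he
    rw [mem_inter, mem_star] at he
    obtain ⟨w, rfl⟩ := Sym2.mem_iff_exists.1 he.2.2
    exact ⟨w, mem_nbr.2 he.1, rfl⟩
  · intro w _; rfl

theorem dB_star {A : Finset (Sym2 (Fin n))} (hA : ∀ e ∈ A, ¬ e.IsDiag) (u : Fin n) :
    dB A (star u) = ((nbr A u).card : ℝ) := by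
  have := sum_star hA u (fun _ => (1:ℝ))
  simpa [dB] using this

theorem SB_star (hE : ∀ e ∈ E, ¬ e.IsDiag) (u : Fin n) :
    SB (triHyp n) E (star u) = ∑ w ∈ nbr E u, zeta E u w := by
  unfold SB
  rw [sum_star hE]
  exact sum_congr rfl fun w hw => zt_eq hE (mem_nbr.1 hw)

theorem tB_star (hE : ∀ e ∈ E, ¬ e.IsDiag) (u : Fin n) :
    tB (triHyp n) E (star u) = tt E u := by
  unfold tB tt tav
  rw [SB_star hE, dB_star hE]

theorem PsiB_star (hE : ∀ e ∈ E, ¬ e.IsDiag) (p : ℕ) (u : Fin n) :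
    PsiB p (triHyp n) E (star u) = ((nbr E u).card : ℝ) * tt E u ^ (p + 2) := by
  unfold PsiB
  rw [dB_star hE, tB_star hE]

theorem inter_single_mem {e : Sym2 (Fin n)} (he : e ∈ E) : E ∩ {e} = {e} :=
  Finset.inter_eq_right.2 (by simpa using he)

theorem inter_single_notMem {e : Sym2 (Fin n)} (he : e ∉ E) : E ∩ {e} = ∅ := by
  ext x
  simp only [mem_inter, mem_singleton, notMem_empty, iff_false, not_and]
  rintro hx rfl
  exact he hx

theorem PsiB_single_mem {e : Sym2 (Fin n)} (he : e ∈ E) (p : ℕ) :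
    PsiB p (triHyp n) E {e} = zt (triHyp n) E e ^ (p + 2) := by
  unfold PsiB tB SB dB
  rw [inter_single_mem he]
  simp

theorem tB_single_mem {e : Sym2 (Fin n)} (he : e ∈ E) :
    tB (triHyp n) E {e} = zt (triHyp n) E e := by
  unfold tB SB dB
  rw [inter_single_mem he]
  simp

theorem PsiB_single_notMem {e : Sym2 (Fin n)} (he : e ∉ E) (p : ℕ) :
    PsiB p (triHyp n) E {e} = 0 := by
  unfold PsiB dB
  rw [inter_single_notMem he]
  simp

/-- Sum of the singleton blocks after a step. -/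
theorem sum_PsiB_single (A : Finset (Sym2 (Fin n))) (hA : A ⊆ E) (p : ℕ) :
    ∑ e ∈ E, PsiB p (triHyp n) A {e} = ∑ e ∈ A, zt (triHyp n) A e ^ (p + 2) := by
  rw [← Finset.sum_subset hA (fun e _ he => PsiB_single_notMem he p)]
  exact sum_congr rfl fun e he => PsiB_single_mem he p

/-- The adjacency operators agree. -/
theorem adjO_eq (hE : ∀ e ∈ E, ¬ e.IsDiag) (f : Sym2 (Fin n) → ℝ) {u v : Fin n}
    (huv : s(u, v) ∈ E) :
    adjO (triHyp n) E f s(u, v) = ∑ w ∈ cn E u v, (f s(u, w) + f s(v, w)) := by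
  have h1 := ne_of_mem hE huv
  unfold adjO
  symm
  refine Finset.sum_bij (fun w _ => edgesOf ({u, v, w} : Finset (Fin n))) ?_ ?_ ?_ ?_
  · intro w hw
    rw [mem_cn] at hw
    rw [mem_filter]
    refine ⟨edgesOf_mem_act hE huv hw.1 hw.2, ?_⟩
    rw [mk_mem_edgesOf]
    simp [h1]
  · intro w hw w' hw' h
    rw [mem_cn] at hw hw'
    have a1 := ne_of_mem hE hw.1
    have a2 := ne_of_mem hE hw.2
    have a3 := ne_of_mem hE hw'.1
    have a4 := ne_of_mem hE hw'.2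
    have c1 : ({u, v, w} : Finset (Fin n)).card = 3 :=
      Finset.card_eq_three.2 ⟨u, v, w, h1, a1, a2, rfl⟩
    have c2 : ({u, v, w'} : Finset (Fin n)).card = 3 :=
      Finset.card_eq_three.2 ⟨u, v, w', h1, a3, a4, rfl⟩
    have h5 := edgesOf_injOn c1 c2 h
    have h6 : w ∈ ({u, v, w'} : Finset (Fin n)) := by rw [← h5]; simp
    simp only [mem_insert, mem_singleton] at h6
    rcases h6 with h6 | h6 | h6
    · exact absurd h6.symm a1
    · exact absurd h6.symm a2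
    · exact h6
  · intro T hT
    rw [mem_filter, mem_act_triHyp] at hT
    obtain ⟨⟨t, ht, rfl⟩, huvT⟩ := hT
    rw [mem_triangles] at ht
    rw [mk_mem_edgesOf] at huvT
    have hcard : (t \ {u, v}).card = 1 := by
      rw [Finset.card_sdiff_of_subset, ht.1, Finset.card_pair h1]
      intro x hx
      simp only [mem_insert, mem_singleton] at hx
      rcases hx with rfl | rfl
      · exact huvT.1
      · exact huvT.2.1
    obtain ⟨w, hw⟩ := Finset.card_eq_one.1 hcard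
    have hwt : w ∈ t \ {u, v} := by rw [hw]; simp
    simp only [mem_sdiff, mem_insert, mem_singleton, not_or] at hwt
    have hsub : ({u, v, w} : Finset (Fin n)) ⊆ t := by
      intro x hx
      simp only [mem_insert, mem_singleton] at hx
      rcases hx with rfl | rfl | rfl
      · exact huvT.1
      · exact huvT.2.1
      · exact hwt.1
    have hc3 : ({u, v, w} : Finset (Fin n)).card = 3 :=
      Finset.card_eq_three.2 ⟨u, v, w, h1, fun h => hwt.2.1 h.symm, fun h => hwt.2.2 h.symm, rfl⟩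
    have hteq : ({u, v, w} : Finset (Fin n)) = t :=
      Finset.eq_of_subset_of_card_le hsub (by rw [hc3, ht.1])
    refine ⟨w, ?_, by rw [hteq]⟩
    rw [mem_cn]
    refine ⟨ht.2 (mk_mem_edgesOf.2 ⟨huvT.1, hwt.1, fun h => hwt.2.1 h.symm⟩),
      ht.2 (mk_mem_edgesOf.2 ⟨huvT.2.1, hwt.1, fun h => hwt.2.2 h.symm⟩)⟩
  · intro w hw
    rw [mem_cn] at hw
    have a1 := ne_of_mem hE hw.1
    have a2 := ne_of_mem hE hw.2
    have hne1 : s(u, v) ≠ s(u, w) := by
      intro h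
      rw [Sym2.eq_iff] at h
      rcases h with ⟨_, h⟩ | ⟨h, _⟩
      · exact a2 h
      · exact a1 h
    have hne2 : s(u, v) ≠ s(v, w) := by
      intro h
      rw [Sym2.eq_iff] at h
      rcases h with ⟨h, _⟩ | ⟨h, _⟩
      · exact h1 h
      · exact a1 h
    have hne3 : s(u, w) ≠ s(v, w) := by
      intro h
      rw [Sym2.eq_iff] at h
      rcases h with ⟨h, _⟩ | ⟨h, _⟩
      · exact h1 h
      · exact a1 h
    rw [edgesOf_explicit h1 a1 a2]
    have e1 : ({s(u, v), s(u, w), s(v, w)} : Finset (Sym2 (Fin n))).erase s(u, v) =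
        {s(u, w), s(v, w)} := by
      rw [Finset.erase_insert]
      simp [hne1, hne2]
    rw [e1, Finset.sum_pair hne3]

theorem adjO_zt (hE : ∀ e ∈ E, ¬ e.IsDiag) {u v : Fin n} (huv : s(u, v) ∈ E) :
    adjO (triHyp n) E (zt (triHyp n) E) s(u, v) = triA E (zeta E) u v := by
  rw [adjO_eq hE _ huv]
  unfold triA
  refine sum_congr rfl fun w hw => ?_
  rw [mem_cn] at hw
  rw [zt_eq hE hw.1, zt_eq hE hw.2]

theorem not_diag_sdiff (hE : ∀ e ∈ E, ¬ e.IsDiag) (T : Finset (Sym2 (Fin n))) :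
    ∀ e ∈ E \ T, ¬ e.IsDiag := fun e he => hE e (mem_sdiff.1 he).1

/-- `Z` as a sum over edges. -/
theorem ZZ_eq_sum (hE : ∀ e ∈ E, ¬ e.IsDiag) (q : ℕ) :
    ZZ q E = (∑ e ∈ E, zt (triHyp n) E e ^ q) / (E.card : ℝ) := by
  unfold ZZ
  have h1 := sum_darts_sym2 hE (fun e => zt (triHyp n) E e ^ q)
  have h2 : ∑ p ∈ darts E, zeta E p.1 p.2 ^ q = ∑ p ∈ darts E, zt (triHyp n) E s(p.1, p.2) ^ q :=
    sum_congr rfl fun p hp => by rw [zt_eq hE (mem_darts.1 hp)]
  rw [h2, h1, card_darts hE, mul_div_mul_left _ _ (two_ne_zero)]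

/-- `H` as a sum over star blocks. -/
theorem HH_eq_sum (hE : ∀ e ∈ E, ¬ e.IsDiag) (p : ℕ) :
    HH (p + 2) E = (∑ u, PsiB p (triHyp n) E (star u)) / (2 * (E.card : ℝ)) := by
  unfold HH
  rw [card_darts hE]
  congr 1
  exact sum_congr rfl fun u _ => (PsiB_star hE p u).symm

theorem th1_nonneg {p : ℕ} {K η ε : ℝ} (hK : 0 ≤ K) (hη : 0 ≤ η) (hε : 0 ≤ ε) :
    0 ≤ th1 p K η ε := by
  unfold th1; positivity

theorem Kc_nonneg {p : ℕ} {K ε : ℝ} (hK : 0 ≤ K) (hε : 0 < ε) : 0 ≤ Kc p K ε := by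
  unfold Kc; positivity

/-- The noise term. -/
noncomputable def mu (p : ℕ) (E : Finset (Sym2 (Fin n))) : ℝ := (1 / mE E) ^ (p / 2 + 1)

/-- Sum over all singleton blocks. -/
theorem sum_single_le (hE : ∀ e ∈ E, ¬ e.IsDiag) {η : ℝ} (h : Nice (triHyp n) E η)
    {p : ℕ} (hp : Even p) {K ε : ℝ} (hε : 0 < ε)
    (hB : ∀ e ∈ E, RegB (triHyp n) E {e} K) :
    avT E (ZZ (p + 2)) ≤ ZZ (p + 2) E + 3 / ((E.card : ℝ) - 3) *
      (-((p + 2) * ((∑ q ∈ darts E, (zeta E q.1 q.2) ^ (p + 1) *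
        ((mE E)⁻¹ * triA E (zeta E) q.1 q.2)) / ((darts E).card : ℝ)))
       + 3 * th1 p K η ε * ZZ (p + 2) E + Kc p K ε * mu p E) := by
  have hm : 0 < mE E := h.mpos
  have hx := h.xpos
  have hx3 : (0:ℝ) < (E.card : ℝ) - 3 := by linarith [h.hx]
  have hQ : ((act (triHyp n) E).card : ℝ) = mE E * (E.card : ℝ) / 3 := h.Qeq
  have hQ0 := h.Qpos
  -- left-hand side
  have e1 : avT E (ZZ (p + 2)) =
      (∑ e ∈ E, ∑ T ∈ act (triHyp n) E, PsiB p (triHyp n) (E \ T) {e}) /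
        (((act (triHyp n) E).card : ℝ) * ((E.card : ℝ) - 3)) := by
    unfold avT
    rw [Finset.sum_comm]
    have : ∀ T ∈ act (triHyp n) E, ZZ (p + 2) (E \ T) =
        (∑ e ∈ E, PsiB p (triHyp n) (E \ T) {e}) / ((E.card : ℝ) - 3) := by
      intro T hT
      rw [ZZ_eq_sum (not_diag_sdiff hE T), sum_PsiB_single (E \ T) sdiff_subset,
        card_E_sdiff hT]
    rw [Finset.sum_congr rfl this, ← Finset.sum_div, ← div_eq_inv_mul, div_div, mul_comm]
  have hX : ∑ e ∈ E, zt (triHyp n) E e ^ (p + 2) = (E.card : ℝ) * ZZ (p + 2) E := by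
    rw [ZZ_eq_sum hE]; field_simp
  have hZf : Zf p (triHyp n) E = ZZ (p + 2) E := by
    rw [ZZ_eq_sum hE]; rfl
  set I := (∑ q ∈ darts E, (zeta E q.1 q.2) ^ (p + 1) *
        ((mE E)⁻¹ * triA E (zeta E) q.1 q.2)) / ((darts E).card : ℝ) with hI
  have hIs : ∑ e ∈ E, zt (triHyp n) E e ^ (p + 1) *
      (adjO (triHyp n) E (zt (triHyp n) E) e / mE E) = (E.card : ℝ) * I := by
    have h1 := sum_darts_sym2 hE (fun e => zt (triHyp n) E e ^ (p + 1) *
      (adjO (triHyp n) E (zt (triHyp n) E) e / mE E))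
    have h2 : ∑ q ∈ darts E, zt (triHyp n) E s(q.1, q.2) ^ (p + 1) *
        (adjO (triHyp n) E (zt (triHyp n) E) s(q.1, q.2) / mE E) =
        ∑ q ∈ darts E, (zeta E q.1 q.2) ^ (p + 1) *
        ((mE E)⁻¹ * triA E (zeta E) q.1 q.2) := by
      refine sum_congr rfl fun q hq => ?_
      rw [zt_eq hE (mem_darts.1 hq), adjO_zt hE (mem_darts.1 hq), div_eq_inv_mul]
    rw [h2] at h1
    rw [hI, h1, card_darts hE]
    field_simp
  have key : ∑ e ∈ E, ∑ T ∈ act (triHyp n) E, PsiB p (triHyp n) (E \ T) {e} ≤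
      ∑ e ∈ E, (((act (triHyp n) E).card : ℝ) * zt (triHyp n) E e ^ (p + 2)
      + mE E * (- zt (triHyp n) E e ^ (p + 2)
          - (p + 2) * (zt (triHyp n) E e ^ (p + 1) *
            (adjO (triHyp n) E (zt (triHyp n) E) e / mE E))
          + th1 p K η ε * (zt (triHyp n) E e ^ (p + 2) + zt (triHyp n) E e ^ (p + 2)
            + ZZ (p + 2) E)
          + Kc p K ε * mu p E)) := by
    refine Finset.sum_le_sum fun e he => ?_
    have h1 := h.block_step2 hp hε (hB e he)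
    rw [PsiB_single_mem he, tB_single_mem he, inter_single_mem he, Finset.sum_singleton,
      Finset.sum_singleton, hZf, mc_eq] at h1
    have hd : dB E ({e} : Finset (Sym2 (Fin n))) = 1 := by
      unfold dB; rw [inter_single_mem he]; simp
    rw [hd, one_mul, mul_one] at h1
    exact h1
  have key2 : ∑ e ∈ E, (((act (triHyp n) E).card : ℝ) * zt (triHyp n) E e ^ (p + 2)
      + mE E * (- zt (triHyp n) E e ^ (p + 2)
          - (p + 2) * (zt (triHyp n) E e ^ (p + 1) *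
            (adjO (triHyp n) E (zt (triHyp n) E) e / mE E))
          + th1 p K η ε * (zt (triHyp n) E e ^ (p + 2) + zt (triHyp n) E e ^ (p + 2)
            + ZZ (p + 2) E)
          + Kc p K ε * mu p E)) =
      (((act (triHyp n) E).card : ℝ) * ((E.card : ℝ) - 3)) * (ZZ (p + 2) E
        + 3 / ((E.card : ℝ) - 3) *
      (-((p + 2) * I) + 3 * th1 p K η ε * ZZ (p + 2) E + Kc p K ε * mu p E)) := by
    simp only [Finset.sum_add_distrib, Finset.sum_sub_distrib, ← Finset.mul_sum, hX, hIs,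
      Finset.sum_neg_distrib, Finset.sum_const, nsmul_eq_mul]
    rw [hQ]
    field_simp
    ring
  rw [e1, div_le_iff₀ (by positivity)]
  calc _ ≤ _ := key
    _ = _ := key2
    _ = _ := by ring

theorem eq_mul_div {S x : ℝ} (hx : x ≠ 0) : S = x * (S / x) := by field_simp

theorem sum_comb {ι : Type*} (s : Finset ι) (Q m c1 c2 c3 z : ℝ) (P J S d : ι → ℝ) :
    ∑ u ∈ s, (Q * P u + m * (- P u - c1 * J u + c2 * (P u + S u + d u * z) + d u * c3)) =
      Q * (∑ u ∈ s, P u) + m * (- (∑ u ∈ s, P u) - c1 * (∑ u ∈ s, J u)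
        + c2 * ((∑ u ∈ s, P u) + (∑ u ∈ s, S u) + (∑ u ∈ s, d u) * z)
        + (∑ u ∈ s, d u) * c3) := by
  simp only [Finset.sum_add_distrib, Finset.sum_sub_distrib, ← Finset.mul_sum,
    Finset.sum_neg_distrib, ← Finset.sum_mul]

theorem star_algebra {m x p J a1 a2 a3 a4 : ℝ} (_hm : m ≠ 0) (hx : x - 3 ≠ 0) :
    m * x / 3 * (2 * x * a1) + m * (-(2 * x * a1) - (p + 2) * (2 * x * J)
      + a3 * (2 * x * a1 + 2 * x * a2 + 2 * x * a2) + 2 * x * a4) =
    m * x / 3 * (2 * (x - 3)) * (a1 + 3 / (x - 3) * (-((p + 2) * J) + a3 * (a1 + 2 * a2) + a4)) := by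
  field_simp
  ring

/-- Sum over all star blocks. -/
theorem sum_star_le (hE : ∀ e ∈ E, ¬ e.IsDiag) {η : ℝ} (h : Nice (triHyp n) E η)
    {p : ℕ} (hp : Even p) {K ε : ℝ} (hε : 0 < ε)
    (hB : ∀ u, RegB (triHyp n) E (star u) K) :
    avT E (HH (p + 2)) ≤ HH (p + 2) E + 3 / ((E.card : ℝ) - 3) *
      (-((p + 2) * ((∑ u, ((nbr E u).card : ℝ) * (tt E u ^ (p + 1) *
        tav E (fun u w => (mE E)⁻¹ * triA E (zeta E) u w) u)) / ((darts E).card : ℝ)))
       + th1 p K η ε * (HH (p + 2) E + 2 * ZZ (p + 2) E) + Kc p K ε * mu p E) := by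
  have hm : 0 < mE E := h.mpos
  have hx := h.xpos
  have hx3 : (0:ℝ) < (E.card : ℝ) - 3 := by linarith [h.hx]
  have hQ : ((act (triHyp n) E).card : ℝ) = mE E * (E.card : ℝ) / 3 := h.Qeq
  have hQ0 := h.Qpos
  have e1 : avT E (HH (p + 2)) =
      (∑ u, ∑ T ∈ act (triHyp n) E, PsiB p (triHyp n) (E \ T) (star u)) /
        (((act (triHyp n) E).card : ℝ) * (2 * ((E.card : ℝ) - 3))) := by
    unfold avT
    rw [Finset.sum_comm]
    have : ∀ T ∈ act (triHyp n) E, HH (p + 2) (E \ T) =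
        (∑ u, PsiB p (triHyp n) (E \ T) (star u)) / (2 * ((E.card : ℝ) - 3)) := by
      intro T hT
      rw [HH_eq_sum (not_diag_sdiff hE T), card_E_sdiff hT]
    rw [Finset.sum_congr rfl this, ← Finset.sum_div, ← div_eq_inv_mul, div_div]
    congr 1
    ring
  have hP : ∑ u, ((nbr E u).card : ℝ) * tt E u ^ (p + 2) = 2 * (E.card : ℝ) * HH (p + 2) E := by
    unfold HH
    rw [card_darts hE]
    exact eq_mul_div (by positivity)
  have hd : ∑ u, ((nbr E u).card : ℝ) = 2 * (E.card : ℝ) := by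
    have h1 := sum_darts (E := E) (fun _ _ => (1:ℝ))
    have h2 := card_darts hE
    simp only [sum_const, nsmul_eq_mul, mul_one] at h1
    rw [← h1, h2]
  have hZs : ∑ u, ∑ w ∈ nbr E u, zeta E u w ^ (p + 2) = 2 * (E.card : ℝ) * ZZ (p + 2) E := by
    rw [← sum_darts (E := E) (fun u w => zeta E u w ^ (p + 2))]
    unfold ZZ
    rw [card_darts hE]
    exact eq_mul_div (by positivity)
  have hZf : Zf p (triHyp n) E = ZZ (p + 2) E := by
    rw [ZZ_eq_sum hE]; rfl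
  set J := (∑ u, ((nbr E u).card : ℝ) * (tt E u ^ (p + 1) *
        tav E (fun u w => (mE E)⁻¹ * triA E (zeta E) u w) u)) / ((darts E).card : ℝ) with hJ
  have hJs : ∑ u, ((nbr E u).card : ℝ) * (tt E u ^ (p + 1) *
        tav E (fun u w => (mE E)⁻¹ * triA E (zeta E) u w) u) = 2 * (E.card : ℝ) * J := by
    rw [hJ, card_darts hE]
    exact eq_mul_div (by positivity)
  have key : ∑ u, ∑ T ∈ act (triHyp n) E, PsiB p (triHyp n) (E \ T) (star u) ≤
      ∑ u, (((act (triHyp n) E).card : ℝ) * (((nbr E u).card : ℝ) * tt E u ^ (p + 2))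
      + mE E * (- (((nbr E u).card : ℝ) * tt E u ^ (p + 2))
          - (p + 2) * (((nbr E u).card : ℝ) * (tt E u ^ (p + 1) *
            tav E (fun u w => (mE E)⁻¹ * triA E (zeta E) u w) u))
          + th1 p K η ε * (((nbr E u).card : ℝ) * tt E u ^ (p + 2)
            + ∑ w ∈ nbr E u, zeta E u w ^ (p + 2) + ((nbr E u).card : ℝ) * ZZ (p + 2) E)
          + ((nbr E u).card : ℝ) * (Kc p K ε * mu p E))) := by
    refine Finset.sum_le_sum fun u _ => ?_
    have h1 := h.block_step2 hp hε (hB u)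
    rw [PsiB_star hE, tB_star hE, sum_star hE u (fun e => zt (triHyp n) E e ^ (p + 2)),
      sum_star hE u (adjO (triHyp n) E (zt (triHyp n) E)), hZf, mc_eq, dB_star hE] at h1
    have a1 : ∑ w ∈ nbr E u, zt (triHyp n) E s(u, w) ^ (p + 2) =
        ∑ w ∈ nbr E u, zeta E u w ^ (p + 2) :=
      sum_congr rfl fun w hw => by rw [zt_eq hE (mem_nbr.1 hw)]
    have a2 : (∑ w ∈ nbr E u, adjO (triHyp n) E (zt (triHyp n) E) s(u, w)) / mE E =
        ((nbr E u).card : ℝ) * tav E (fun u w => (mE E)⁻¹ * triA E (zeta E) u w) u := by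
      rw [card_mul_tav, Finset.sum_div]
      refine sum_congr rfl fun w hw => ?_
      rw [adjO_zt hE (mem_nbr.1 hw), div_eq_inv_mul]
    rw [a1, a2] at h1
    refine h1.trans (le_of_eq ?_)
    unfold mu
    ring
  have key2 : ∑ u, (((act (triHyp n) E).card : ℝ) * (((nbr E u).card : ℝ) * tt E u ^ (p + 2))
      + mE E * (- (((nbr E u).card : ℝ) * tt E u ^ (p + 2))
          - (p + 2) * (((nbr E u).card : ℝ) * (tt E u ^ (p + 1) *
            tav E (fun u w => (mE E)⁻¹ * triA E (zeta E) u w) u))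
          + th1 p K η ε * (((nbr E u).card : ℝ) * tt E u ^ (p + 2)
            + ∑ w ∈ nbr E u, zeta E u w ^ (p + 2) + ((nbr E u).card : ℝ) * ZZ (p + 2) E)
          + ((nbr E u).card : ℝ) * (Kc p K ε * mu p E))) =
      (((act (triHyp n) E).card : ℝ) * (2 * ((E.card : ℝ) - 3))) * (HH (p + 2) E
        + 3 / ((E.card : ℝ) - 3) *
      (-((p + 2) * J) + th1 p K η ε * (HH (p + 2) E + 2 * ZZ (p + 2) E)
        + Kc p K ε * mu p E)) := by
    rw [sum_comb univ _ _ _ _ _ _ (fun u => ((nbr E u).card : ℝ) * tt E u ^ (p + 2))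
      (fun u => ((nbr E u).card : ℝ) * (tt E u ^ (p + 1) *
            tav E (fun u w => (mE E)⁻¹ * triA E (zeta E) u w) u))
      (fun u => ∑ w ∈ nbr E u, zeta E u w ^ (p + 2)) (fun u => ((nbr E u).card : ℝ)),
      hP, hJs, hZs, hd, hQ]
    exact star_algebra hm.ne' hx3.ne'
  have hden : 0 < ((act (triHyp n) E).card : ℝ) * (2 * ((E.card : ℝ) - 3)) :=
    mul_pos hQ0 (mul_pos two_pos hx3)
  rw [e1, div_le_iff₀ hden]
  calc _ ≤ _ := key
    _ = _ := key2
    _ = _ := by ring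

/-! ### The inner products -/

/-- Decomposition of the vertex average of the triangle operator. -/
theorem tav_triA {u : Fin n} (hu : (nbr E u).Nonempty) :
    tav E (fun u w => (mE E)⁻¹ * triA E (zeta E) u w) u =
      tt E u + tav E (fun u w => (tt E w + zeta E u w * (tt E u + tt E w))
        + rho E (mE E) (zeta E) u w) u := by
  have h1 : tav E (fun u w => (mE E)⁻¹ * triA E (zeta E) u w) u =
      tav E (fun u w => tt E u + ((tt E w + zeta E u w * (tt E u + tt E w))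
        + rho E (mE E) (zeta E) u w)) u := by
    refine tav_congr fun w _ => ?_
    rw [triA_div_eq]
    unfold tt zeta
    ring
  rw [h1, tav_add (fun u _ => tt E u) (fun u w => (tt E w + zeta E u w * (tt E u + tt E w))
        + rho E (mE E) (zeta E) u w), tav_fst (tt E) hu]

theorem reg_of_nice (hE : ∀ e ∈ E, ¬ e.IsDiag) {η : ℝ} (h : Nice (triHyp n) E η) :
    Reg E (mE E) η := by
  intro u v huv
  have := h.hz _ huv
  rw [zt_eq hE huv] at this
  exact this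

theorem zn_le_of_nd {q : ℕ} {F : Fin n → Fin n → ℝ} {a b c : ℝ} {G1 G2 : Fin n → Fin n → ℝ}
    (h : nd q E F ≤ a * nd q E G1 + b * nd q E G2) (_hc : c = 0) :
    zn q E F ≤ a * zn q E G1 + b * zn q E G2 := by
  unfold zn
  have hc := card_rpow_nonneg q E
  calc nd q E F / ((darts E).card : ℝ) ^ ((1 : ℝ) / (q : ℝ))
      ≤ (a * nd q E G1 + b * nd q E G2) / ((darts E).card : ℝ) ^ ((1 : ℝ) / (q : ℝ)) :=
        div_le_div_of_nonneg_right h hc
    _ = _ := by ring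

/-- The vertex inner product. -/
theorem neg_J_le (p : ℕ) (hp : Even p) {η κ : ℝ} (hm : 0 < mE E) (hη : 0 ≤ η) (hκ : 0 ≤ κ)
    (hreg : Reg E (mE E) η) (hlink : LinkLq (p + 2) E (κ * mE E)) :
    -((∑ u, ((nbr E u).card : ℝ) * (tt E u ^ (p + 1) *
        tav E (fun u w => (mE E)⁻¹ * triA E (zeta E) u w) u)) / ((darts E).card : ℝ)) ≤
      -hn (p + 2) E (zeta E) ^ (p + 2) + hn (p + 2) E (zeta E) ^ (p + 1) *
        ((1 + 2 * η) * hn (p + 2) E (zeta E) + 2 * κ * zn (p + 2) E (zeta E)) := by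
  have hp2 : Even (p + 2) := by rw [Nat.even_add]; simp [hp]
  set G : Fin n → Fin n → ℝ := fun u w => (tt E w + zeta E u w * (tt E u + tt E w))
        + rho E (mE E) (zeta E) u w with hG
  have hsplit : ∑ u, ((nbr E u).card : ℝ) * (tt E u ^ (p + 1) *
        tav E (fun u w => (mE E)⁻¹ * triA E (zeta E) u w) u) =
      ∑ u, ((nbr E u).card : ℝ) * tt E u ^ (p + 2) +
      ∑ u, ((nbr E u).card : ℝ) * (tt E u ^ (p + 1) * tav E G u) := by
    rw [← Finset.sum_add_distrib]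
    refine sum_congr rfl fun u _ => ?_
    rcases (nbr E u).eq_empty_or_nonempty with h0 | h0
    · rw [h0]; simp
    · rw [tav_triA h0]
      ring
  have hHH : (∑ u, ((nbr E u).card : ℝ) * tt E u ^ (p + 2)) / ((darts E).card : ℝ) =
      hn (p + 2) E (zeta E) ^ (p + 2) := by
    rw [← HH_eq hp2 (by omega) E]; rfl
  have hG2 : -((∑ u, ((nbr E u).card : ℝ) * (tt E u ^ (p + 1) * tav E G u)) /
      ((darts E).card : ℝ)) ≤ hn (p + 2) E (zeta E) ^ (p + 1) * hn (p + 2) E G := by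
    have h1 := holder_zn (E := E) (by omega : 2 ≤ p + 2) (fun u _ => tt E u)
      (fun u _ => tav E G u)
    have h2 : -((∑ u, ((nbr E u).card : ℝ) * (tt E u ^ (p + 1) * tav E G u)) /
        ((darts E).card : ℝ)) ≤
        (∑ q ∈ darts E, |tt E q.1| ^ (p + 2 - 1) * |tav E G q.1|) / ((darts E).card : ℝ) := by
      rw [← neg_div, ← sum_neg_distrib,
        sum_darts (E := E) (fun u _ => |tt E u| ^ (p + 2 - 1) * |tav E G u|)]
      refine div_le_div_of_nonneg_right (sum_le_sum fun u _ => ?_) (Nat.cast_nonneg _)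
      rw [Finset.sum_const, nsmul_eq_mul, ← mul_neg]
      refine mul_le_mul_of_nonneg_left ?_ (Nat.cast_nonneg _)
      have h3 : |tt E u| ^ (p + 2 - 1) * |tav E G u| = |tt E u ^ (p + 1) * tav E G u| := by
        rw [abs_mul, abs_pow]; rfl
      rw [h3]
      exact neg_le_abs _
    exact h2.trans h1
  have hGn : hn (p + 2) E G ≤
      (1 + 2 * η) * hn (p + 2) E (zeta E) + 2 * κ * zn (p + 2) E (zeta E) := by
    refine (hn_le_zn (p + 2) G).trans ?_
    have hq1 : 1 ≤ p + 2 := by omega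
    have a1 := nd_add_le (E := E) hq1 (fun u w => tt E w + zeta E u w * (tt E u + tt E w))
      (rho E (mE E) (zeta E))
    have a2 := nd_add_le (E := E) hq1 (fun _ w => tt E w)
      (fun u w => zeta E u w * (tt E u + tt E w))
    have a3 : nd (p + 2) E (fun _ w => tt E w) = nd (p + 2) E (fun u _ => tt E u) :=
      nd_swap (p + 2) (fun u _ => tt E u)
    have a4 := nd_ztsum_le (E := E) hq1 hη hreg (tt E)
    have a5 := nd_rho_le (E := E) hq1 hm hκ hlink (zeta E)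
    have a6 : nd (p + 2) E G ≤ (1 + 2 * η) * nd (p + 2) E (fun u _ => tt E u)
        + 2 * κ * nd (p + 2) E (zeta E) := by
      have a4' : nd (p + 2) E (fun u w => zeta E u w * (tt E u + tt E w)) ≤
        η * (2 * nd (p + 2) E (fun u _ => tt E u)) := a4
      have a1' : nd (p + 2) E G ≤ nd (p + 2) E (fun u w => tt E w + zeta E u w *
        (tt E u + tt E w)) + nd (p + 2) E (rho E (mE E) (zeta E)) := a1
      linarith
    exact zn_le_of_nd (c := 0) a6 rfl
  have hh0 : 0 ≤ hn (p + 2) E (zeta E) := hn_nonneg _ _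
  calc -((∑ u, ((nbr E u).card : ℝ) * (tt E u ^ (p + 1) *
        tav E (fun u w => (mE E)⁻¹ * triA E (zeta E) u w) u)) / ((darts E).card : ℝ))
      = -hn (p + 2) E (zeta E) ^ (p + 2)
        + -((∑ u, ((nbr E u).card : ℝ) * (tt E u ^ (p + 1) * tav E G u)) /
          ((darts E).card : ℝ)) := by
        rw [hsplit, add_div, hHH]; ring
    _ ≤ -hn (p + 2) E (zeta E) ^ (p + 2)
        + hn (p + 2) E (zeta E) ^ (p + 1) * hn (p + 2) E G := by linarith
    _ ≤ _ := by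
        have := mul_le_mul_of_nonneg_left hGn (pow_nonneg hh0 (p + 1))
        linarith

/-! ### Final statements -/

theorem ratio_bound {x Y S : ℝ} (hx : 1000 ≤ x) (hY : Y ≤ S) (hS : 0 ≤ S) :
    3 / (x - 3) * Y ≤ 3 / x * (Y + 4 / x * S) := by
  have hx0 : 0 < x := by linarith
  have hx3 : 0 < x - 3 := by linarith
  have e1 : 3 / (x - 3) * Y = 3 / x * (Y + 3 / (x - 3) * Y) := by
    field_simp
    ring
  rw [e1]
  refine mul_le_mul_of_nonneg_left ?_ (by positivity)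
  have h1 : 3 / (x - 3) * Y ≤ 3 / (x - 3) * S := mul_le_mul_of_nonneg_left hY (by positivity)
  have h2 : 3 / (x - 3) ≤ 4 / x := by
    rw [div_le_div_iff₀ hx3 hx0]; linarith
  have h3 : 3 / (x - 3) * S ≤ 4 / x * S := mul_le_mul_of_nonneg_right h2 hS
  linarith

/-- **(C1)**, final form. -/
theorem driftZ (hE : ∀ e ∈ E, ¬ e.IsDiag) {η κ ε : ℝ} (h : Nice (triHyp n) E η)
    {p : ℕ} (hp : Even p) (hε : 0 < ε) (hκ : 0 ≤ κ) (hκ1 : κ ≤ 1)
    (hlink : LinkLq (p + 2) E (κ * mE E)) :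
    DriftZ (p + 2) (5 * th1 p 400 η ε + 20 * ((p : ℝ) + 2) / (E.card : ℝ))
      (2 * (Kc p 400 ε * (1 / mE E) ^ (p / 2 + 1))) E := by
  have hp2 : Even (p + 2) := by rw [Nat.even_add]; simp [hp]
  have hm : 0 < mE E := h.mpos
  have hreg := reg_of_nice hE h
  have hs := sum_single_le hE h hp hε (fun e he => h.regB_single he)
  have hI := neg_inner_le (by omega : 2 ≤ p + 2) hm h.hη0 hκ hreg hlink (zeta E)
  have hz0 : 0 ≤ zn (p + 2) E (zeta E) := zn_nonneg _ _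
  have hhz : hn (p + 2) E (zeta E) ≤ zn (p + 2) E (zeta E) := hn_le_zn _ _
  have hZ : ZZ (p + 2) E = zn (p + 2) E (zeta E) ^ (p + 2) := ZZ_eq hp2 (by omega) E
  have ht0 : 0 ≤ th1 p 400 η ε := th1_nonneg (by norm_num) h.hη0 hε.le
  have hK0 : 0 ≤ Kc p 400 ε := Kc_nonneg (by norm_num) hε
  have hμ0 : 0 ≤ mu p E := by unfold mu; positivity
  have hx := h.hx
  have hη := h.hη
  unfold DriftZ
  have hmu : mu p E = (1 / mE E) ^ (p / 2 + 1) := rfl
  rw [← hmu]
  have hI' : -((∑ q ∈ darts E, (zeta E q.1 q.2) ^ (p + 1) *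
        ((mE E)⁻¹ * triA E (zeta E) q.1 q.2)) / ((darts E).card : ℝ)) ≤
      5 * zn (p + 2) E (zeta E) ^ (p + 2) := by
    refine hI.trans ?_
    have e0 : zn (p + 2) E (zeta E) ^ (p + 2 - 1) * zn (p + 2) E (zeta E) =
        zn (p + 2) E (zeta E) ^ (p + 2) := by
      rw [← pow_succ]; rfl
    have h1 : 2 * (1 + η) * hn (p + 2) E (zeta E) + 2 * κ * zn (p + 2) E (zeta E) ≤
        5 * zn (p + 2) E (zeta E) := by
      have h2 : 2 * (1 + η) * hn (p + 2) E (zeta E) ≤ 2 * (1 + η) * zn (p + 2) E (zeta E) :=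
        mul_le_mul_of_nonneg_left hhz (by linarith [h.hη0])
      have h3 : 2 * (1 + η) * zn (p + 2) E (zeta E) ≤ 3 * zn (p + 2) E (zeta E) :=
        mul_le_mul_of_nonneg_right (by linarith) hz0
      have h4 : 2 * κ * zn (p + 2) E (zeta E) ≤ 2 * zn (p + 2) E (zeta E) :=
        mul_le_mul_of_nonneg_right (by linarith) hz0
      linarith
    calc _ ≤ zn (p + 2) E (zeta E) ^ (p + 2 - 1) * (5 * zn (p + 2) E (zeta E)) :=
          mul_le_mul_of_nonneg_left h1 (pow_nonneg hz0 _)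
      _ = 5 * (zn (p + 2) E (zeta E) ^ (p + 2 - 1) * zn (p + 2) E (zeta E)) := by ring
      _ = _ := by rw [e0]
  set I := (∑ q ∈ darts E, (zeta E q.1 q.2) ^ (p + 1) *
        ((mE E)⁻¹ * triA E (zeta E) q.1 q.2)) / ((darts E).card : ℝ) with hIdef
  have hIdef' : (∑ q ∈ darts E, (zeta E q.1 q.2) ^ (p + 2 - 1) *
        ((mE E)⁻¹ * triA E (zeta E) q.1 q.2)) / ((darts E).card : ℝ) = I := rfl
  rw [hIdef']
  rw [← hZ] at hI' ⊢
  have hZ0 : 0 ≤ ZZ (p + 2) E := ZZ_nonneg hp2 E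
  generalize ZZ (p + 2) E = Z at *
  generalize th1 p 400 η ε = t1 at *
  generalize Kc p 400 ε = K1 at *
  generalize mu p E = μ at *
  clear_value I
  have hpc : (0:ℝ) ≤ (p:ℝ) := Nat.cast_nonneg p
  have hcast : (((p + 2 : ℕ) : ℝ)) = (p:ℝ) + 2 := by push_cast; ring
  rw [hcast]
  generalize (E.card : ℝ) = x at *
  have hx0 : 0 < x := by linarith
  have hY : -((p + 2) * I) + 3 * t1 * Z + K1 * μ ≤ 5 * ((p:ℝ) + 2) * Z + 3 * t1 * Z + K1 * μ := by
    have : ((p:ℝ) + 2) * (-I) ≤ ((p:ℝ) + 2) * (5 * Z) :=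
      mul_le_mul_of_nonneg_left hI' (by linarith)
    linarith
  have hS : 0 ≤ 5 * ((p:ℝ) + 2) * Z + 3 * t1 * Z + K1 * μ := by positivity
  have hr := ratio_bound hx hY hS
  refine hs.trans ?_
  have h4x : 4 / x ≤ 1 / 2 := by rw [div_le_iff₀ hx0]; linarith
  have hfin : -((p + 2) * I) + 3 * t1 * Z + K1 * μ
      + 4 / x * (5 * ((p:ℝ) + 2) * Z + 3 * t1 * Z + K1 * μ) ≤
      -(((p:ℝ) + 2) * I) + (5 * t1 + 20 * ((p:ℝ) + 2) / x) * Z + 2 * (K1 * μ) := by
    have a1 : 4 / x * (3 * t1 * Z) ≤ 1 / 2 * (3 * t1 * Z) :=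
      mul_le_mul_of_nonneg_right h4x (by positivity)
    have a2 : 4 / x * (K1 * μ) ≤ 1 / 2 * (K1 * μ) :=
      mul_le_mul_of_nonneg_right h4x (by positivity)
    have a3 : 4 / x * (5 * ((p:ℝ) + 2) * Z) = 20 * ((p:ℝ) + 2) / x * Z := by ring
    have a4 : 0 ≤ t1 * Z := by positivity
    have a5 : 0 ≤ K1 * μ := by positivity
    have a6 : 4 / x * (5 * ((p:ℝ) + 2) * Z + 3 * t1 * Z + K1 * μ) =
        4 / x * (5 * ((p:ℝ) + 2) * Z) + 4 / x * (3 * t1 * Z) + 4 / x * (K1 * μ) := by ring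
    rw [a6, a3]
    linarith
  have hfin2 := mul_le_mul_of_nonneg_left hfin (by positivity : 0 ≤ 3 / x)
  linarith

/-- **(C2)**, final form. -/
theorem driftH (hE : ∀ e ∈ E, ¬ e.IsDiag) {η κ ε : ℝ} (h : Nice (triHyp n) E η)
    {p : ℕ} (hp : Even p) (hε : 0 < ε) (hκ : 0 ≤ κ)
    (hlink : LinkLq (p + 2) E (κ * mE E)) :
    DriftH (p + 2) (3 * η) (3 * κ) (3 * th1 p 400 η ε)
      (2 * (Kc p 400 ε * (1 / mE E) ^ (p / 2 + 1))) E := by
  have hp2 : Even (p + 2) := by rw [Nat.even_add]; simp [hp]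
  have hm : 0 < mE E := h.mpos
  have hreg := reg_of_nice hE h
  have hs := sum_star_le hE h hp hε (fun u => h.regB_star (stars_triHyp n) u)
  have hJ := neg_J_le p hp hm h.hη0 hκ hreg hlink
  have hz0 : 0 ≤ zn (p + 2) E (zeta E) := zn_nonneg _ _
  have hh0 : 0 ≤ hn (p + 2) E (zeta E) := hn_nonneg _ _
  have hZ : ZZ (p + 2) E = zn (p + 2) E (zeta E) ^ (p + 2) := ZZ_eq hp2 (by omega) E
  have hH : HH (p + 2) E = hn (p + 2) E (zeta E) ^ (p + 2) := HH_eq hp2 (by omega) E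
  have ht0 : 0 ≤ th1 p 400 η ε := th1_nonneg (by norm_num) h.hη0 hε.le
  have hK0 : 0 ≤ Kc p 400 ε := Kc_nonneg (by norm_num) hε
  have hμ0 : 0 ≤ mu p E := by unfold mu; positivity
  have hx := h.hx
  have hη0 := h.hη0
  unfold DriftH
  have hmu : mu p E = (1 / mE E) ^ (p / 2 + 1) := rfl
  rw [← hmu]
  have e0 : hn (p + 2) E (zeta E) ^ (p + 2) =
      hn (p + 2) E (zeta E) ^ (p + 1) * hn (p + 2) E (zeta E) := by rw [← pow_succ]
  have hexp : p + 2 - 1 = p + 1 := rfl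
  rw [hexp]
  set J := (∑ u, ((nbr E u).card : ℝ) * (tt E u ^ (p + 1) *
        tav E (fun u w => (mE E)⁻¹ * triA E (zeta E) u w) u)) / ((darts E).card : ℝ) with hJdef
  have hZ0 : 0 ≤ ZZ (p + 2) E := ZZ_nonneg hp2 E
  have hH0 : 0 ≤ HH (p + 2) E := HH_nonneg hp2 E
  rw [← hH, ← hZ]
  rw [← hH] at hJ e0
  generalize ZZ (p + 2) E = Z at *
  generalize HH (p + 2) E = Hh at *
  generalize th1 p 400 η ε = t1 at *
  generalize Kc p 400 ε = K1 at *
  generalize mu p E = μ at *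
  generalize zn (p + 2) E (zeta E) = z at *
  generalize hn (p + 2) E (zeta E) = hh at *
  clear_value J
  have hpc : (0:ℝ) ≤ (p:ℝ) := Nat.cast_nonneg p
  have hcast : (((p + 2 : ℕ) : ℝ)) = (p:ℝ) + 2 := by push_cast; ring
  rw [hcast]
  generalize (E.card : ℝ) = x at *
  have hx0 : 0 < x := by linarith
  have hw0 : 0 ≤ hh ^ (p + 1) := pow_nonneg hh0 _
  set B := hh ^ (p + 1) * (2 * η * hh + 2 * κ * z) with hB
  have hB0 : 0 ≤ B := by positivity
  have hJB : -J ≤ B := by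
    have : -Hh + hh ^ (p + 1) * ((1 + 2 * η) * hh + 2 * κ * z) = B := by
      rw [hB, e0]; ring
    linarith
  have hY : -((p + 2) * J) + t1 * (Hh + 2 * Z) + K1 * μ ≤
      ((p:ℝ) + 2) * B + t1 * (Hh + 2 * Z) + K1 * μ := by
    have : ((p:ℝ) + 2) * (-J) ≤ ((p:ℝ) + 2) * B :=
      mul_le_mul_of_nonneg_left hJB (by linarith)
    linarith
  have hS : 0 ≤ ((p:ℝ) + 2) * B + t1 * (Hh + 2 * Z) + K1 * μ := by positivity
  have hr := ratio_bound hx hY hS
  refine hs.trans ?_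
  have h4x : 4 / x ≤ 1 / 3 := by rw [div_le_iff₀ hx0]; linarith
  have hfin : -((p + 2) * J) + t1 * (Hh + 2 * Z) + K1 * μ
      + 4 / x * (((p:ℝ) + 2) * B + t1 * (Hh + 2 * Z) + K1 * μ) ≤
      -((p:ℝ) + 2) * Hh + ((p:ℝ) + 2) * (hh ^ (p + 1) * (hh * (1 + 3 * η) + 3 * κ * z))
        + 3 * t1 * (Hh + Z) + 2 * (K1 * μ) := by
    have a0 : ((p:ℝ) + 2) * B + t1 * (Hh + 2 * Z) + K1 * μ
        + 4 / x * (((p:ℝ) + 2) * B + t1 * (Hh + 2 * Z) + K1 * μ) ≤
        4 / 3 * (((p:ℝ) + 2) * B + t1 * (Hh + 2 * Z) + K1 * μ) := by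
      have := mul_le_mul_of_nonneg_right h4x hS
      linarith
    have a1 : ((p:ℝ) + 2) * (hh ^ (p + 1) * (hh * (1 + 3 * η) + 3 * κ * z)) =
        ((p:ℝ) + 2) * Hh + 3 / 2 * (((p:ℝ) + 2) * B) := by
      rw [hB, e0]; ring
    rw [a1]
    have a2 : 0 ≤ ((p:ℝ) + 2) * B := by positivity
    have a3 : 0 ≤ t1 * Hh := by positivity
    have a4 : 0 ≤ t1 * Z := by positivity
    have a5 : 0 ≤ K1 * μ := by positivity
    linarith
  have hfin2 := mul_le_mul_of_nonneg_left hfin (by positivity : 0 ≤ 3 / x)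
  linarith

/-- **(C1)+(C2)** in the form used by `Stage1Reg`. -/
theorem drift_final {q : ℕ} (hq : Even q) (hq2 : 2 ≤ q) (hE : E ⊆ allEdges n) {η κ ε : ℝ}
    (h : Nice (triHyp n) E η) (hε : 0 < ε) (hκ : 0 ≤ κ) (hκ1 : κ ≤ 1)
    (hlink : LinkLq q E (κ * mE E)) :
    DriftZ q (5 * th1 (q - 2) 400 η ε + 20 * (q : ℝ) / (E.card : ℝ))
      (2 * Kc (q - 2) 400 ε * (1 / mE E) ^ (q / 2)) E ∧
    DriftH q (3 * η) (3 * κ) (3 * th1 (q - 2) 400 η ε)
      (2 * Kc (q - 2) 400 ε * (1 / mE E) ^ (q / 2)) E := by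
  obtain ⟨p, rfl⟩ : ∃ p, q = p + 2 := ⟨q - 2, by omega⟩
  have hp : Even p := by
    rw [Nat.even_add] at hq
    simpa using hq
  have hE' := not_diag_of_subset hE
  have h1 := driftZ hE' h hp hε hκ hκ1 hlink
  have h2 := driftH hE' h hp hε hκ hlink
  have e1 : p + 2 - 2 = p := by omega
  have e2 : (p + 2) / 2 = p / 2 + 1 := by omega
  have e3 : (((p + 2 : ℕ) : ℝ)) = (p:ℝ) + 2 := by push_cast; ring
  rw [e1, e2, e3, mul_assoc 2]
  exact ⟨h1, h2⟩

end Crest.Agent.R030.HD
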