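import Crest.Agent.R030.Stage1Exit

/-!
# R030 (S0040): the hypothesis `hhit` of the final assembly
-/

set_option autoImplicit false

open Finset Filter Topology
open Crest.CombinatoricsR.TriangleRemoval

namespace Crest.Agent.R030

namespace Stage1

/-- exit probability from the two failure probabilities -/
theorem hhit_eventually {δ κ A : ℝ} {q : ℕ} (hδ0 : 0 < δ) (hδ1 : δ < 1)
    (hreg : ∀ᶠ n : ℕ in atTop, ∀ G : Finset (Sym2 (Fin n)) → Prop,
      (∀ E, G E → GoodE δ q κ E) → ∀ k : ℕ,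
      (baseKer (triHyp n)).hit (fun E => ¬ Reg E (mE E) (etan δ n)) G k (allEdges n)
        ≤ (n : ℝ) ^ (-A))
    (hlink : ∀ᶠ n : ℕ in atTop, ∀ G : Finset (Sym2 (Fin n)) → Prop,
      (∀ E, G E → PreE δ E) → ∀ K ≤ kn δ n,
      (baseKer (triHyp n)).hit (BadLink δ q κ) G K (allEdges n) ≤ (n : ℝ) ^ (-A)) :
    ∀ᶠ n : ℕ in atTop,
      (baseKer (triHyp n)).hit (fun E => ¬ GoodE δ q κ E) (GoodE δ q κ) (kn δ n) (allEdges n)
        ≤ 2 * (n : ℝ) ^ (-A) := by
  filter_upwards [hreg, hlink, Iface.eventually_Xn_ge δ hδ0.le 300, Iface.eventually_Xn_le δ hδ1,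
    Iface.eventually_etan_le δ hδ0 (c := 1 / 9) (by norm_num),
    Iface.eventually_kap_le δ hδ0 hδ1, eventually_ge_atTop 10]
    with n h1 h2 h4 h5 h6 h7 h8
  have hn1' : (1:ℝ) ≤ n := by
    have : 1 ≤ n := by omega
    exact_mod_cast this
  have hkap : ∀ x, Xn δ n ≤ x → x ≤ x0n n → Kap.kap n (x0n n) (etan δ n) x ≤ 1 / 2 := by
    intro x hx hx'
    refine (h7 x hx hx').trans ?_
    have : (n:ℝ) ^ (-(δ / 9)) ≤ 1 := Real.rpow_le_one_of_one_le_of_nonpos hn1' (by linarith)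
    linarith
  have hs := exit_split (q := q) (κ := κ) h8 h6 h4 (by linarith) hkap
  have h9 := h1 (GoodE δ q κ) (fun E hE => hE) (kn δ n)
  have h10 := h2 (GoodE δ q κ) (fun E hE => hE.toPreE) (kn δ n) le_rfl
  linarith

end Stage1

end Crest.Agent.R030
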