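import Crest.Agent.R030.DriftBlock

/-!
Row 30 (S0040), blueprint 6117 part (C): regular blocks: singletons and stars.
-/

set_option autoImplicit false

namespace Crest.Agent.R030.Drift

open Finset

variable {V : Type*} [DecidableEq V]

namespace Nice

variable {H : Finset (Finset V)} {A : Finset V} {η : ℝ}

theorem abs_disp_le (h : Nice H A η) {T : Finset V} (hT : T ∈ act H A) (B : Finset V) :
    |(SB H (A \ T) B - SB H A B) - tB H A B * (dB (A \ T) B - dB A B)|
      ≤ 1 / 5 * ((T ∩ B).card : ℝ) + 8 / A.card * dB A B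
        + 101 / 100 * (LB H A T B / mc H A) := by
  have hx := h.xpos
  have hm := h.mpos
  have hTA := (mem_act.1 hT).2
  have hth0 := h.th_nonneg hT
  have hth := h.th_le hT
  have hS := abs_le.1 (h.abs_SB_le B)
  have hd := dB_nonneg A B
  have hη := h.hη
  have hη0 := h.hη0
  have ht := h.abs_tB_le B
  set t := tB H A B with htdef
  have e0 : ∑ e ∈ T ∩ B, zt H A e - t * ((T ∩ B).card : ℝ) = ∑ e ∈ T ∩ B, (zt H A e - t) := by
    rw [Finset.sum_sub_distrib, Finset.sum_const, nsmul_eq_mul]; ring
  have e1 : (SB H (A \ T) B - SB H A B) - t * (dB (A \ T) B - dB A B)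
      = - (∑ e ∈ T ∩ B, (zt H A e - t))
        + th H A T * (dB A B + SB H A B - ∑ e ∈ T ∩ B, (1 + zt H A e))
        - (1 + th H A T) * (LB H A T B / mc H A) := by
    rw [h.SB_sdiff hT B, dB_sdiff hTA, ← e0]
    ring
  have b1 : |∑ e ∈ T ∩ B, (zt H A e - t)| ≤ 1 / 5 * ((T ∩ B).card : ℝ) := by
    calc |∑ e ∈ T ∩ B, (zt H A e - t)| ≤ ∑ e ∈ T ∩ B, |zt H A e - t| :=
          Finset.abs_sum_le_sum_abs _ _
      _ ≤ ∑ e ∈ T ∩ B, (1 / 5 : ℝ) := by
          apply Finset.sum_le_sum
          intro e he
          have h1 := h.hz e (hTA (Finset.mem_inter.1 he).1)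
          calc |zt H A e - t| ≤ |zt H A e| + |t| := abs_sub _ _
            _ ≤ η + η := add_le_add h1 ht
            _ ≤ 1 / 5 := by linarith
      _ = _ := by rw [Finset.sum_const, nsmul_eq_mul]; ring
  have hrest : dB A B + SB H A B - ∑ e ∈ T ∩ B, (1 + zt H A e)
      = ∑ e ∈ (A \ T) ∩ B, (1 + zt H A e) := by
    rw [sum_sdiff_inter hTA]
    have : ∑ e ∈ A ∩ B, (1 + zt H A e) = dB A B + SB H A B := by
      rw [Finset.sum_add_distrib]; simp [dB, SB]
    rw [this]
  have b2 : 0 ≤ dB A B + SB H A B - ∑ e ∈ T ∩ B, (1 + zt H A e) := by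
    rw [hrest]
    apply Finset.sum_nonneg
    intro e he
    exact (h.one_add_zt_pos (Finset.mem_sdiff.1 (Finset.mem_inter.1 he).1).1).le
  have b3 : dB A B + SB H A B - ∑ e ∈ T ∩ B, (1 + zt H A e) ≤ 11 / 10 * dB A B := by
    have : 0 ≤ ∑ e ∈ T ∩ B, (1 + zt H A e) := by
      apply Finset.sum_nonneg
      intro e he
      exact (h.one_add_zt_pos (hTA (Finset.mem_inter.1 he).1)).le
    nlinarith
  have hL : 0 ≤ LB H A T B / mc H A := div_nonneg (LB_nonneg _ _ _ _) hm.le
  have hth1 : 1 + th H A T ≤ 101 / 100 := by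
    have : 7 / (A.card : ℝ) ≤ 7 / 1000 := by
      apply div_le_div_of_nonneg_left (by norm_num) (by norm_num) h.hx
    linarith
  rw [e1]
  calc |- (∑ e ∈ T ∩ B, (zt H A e - t))
        + th H A T * (dB A B + SB H A B - ∑ e ∈ T ∩ B, (1 + zt H A e))
        - (1 + th H A T) * (LB H A T B / mc H A)|
      ≤ |- (∑ e ∈ T ∩ B, (zt H A e - t))|
        + |th H A T * (dB A B + SB H A B - ∑ e ∈ T ∩ B, (1 + zt H A e))|
        + |(1 + th H A T) * (LB H A T B / mc H A)| := by
        apply (abs_sub _ _).trans
        gcongr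
        exact abs_add_le _ _
    _ ≤ 1 / 5 * ((T ∩ B).card : ℝ) + 7 / A.card * (11 / 10 * dB A B)
        + 101 / 100 * (LB H A T B / mc H A) := by
        rw [abs_neg, abs_of_nonneg (mul_nonneg hth0 b2),
          abs_of_nonneg (mul_nonneg (by linarith) hL)]
        gcongr
    _ ≤ _ := by
        have : 7 / (A.card : ℝ) * (11 / 10 * dB A B) = 77 / 10 * (dB A B / A.card) := by ring
        rw [this]
        have h2 : 8 / (A.card : ℝ) * dB A B = 8 * (dB A B / A.card) := by ring
        rw [h2]
        have h3 : 0 ≤ dB A B / A.card := by positivity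
        linarith

theorem dB_one_le {A B : Finset V} (hd : dB A B ≠ 0) : 1 ≤ dB A B := by
  unfold dB at *
  have : (A ∩ B).card ≠ 0 := by exact_mod_cast hd
  exact_mod_cast Nat.one_le_iff_ne_zero.2 this

/-- Criterion for regular blocks. -/
theorem regB_of (h : Nice H A η) {B : Finset V}
    (ha : ∀ T ∈ act H A, Disjoint T B → LB H A T B ≤ 6)
    (hb : ∀ T ∈ act H A, ¬ Disjoint T B → |del H A T B| ≤ 400 / mc H A ∧
      dB (A \ T) B * del H A T B ^ 2 ≤ 260 / mc H A * ((T ∩ B).card : ℝ)) :
    RegB H A B 400 := by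
  have hx := h.xpos
  have hm := h.mpos
  have hmx := h.hmx
  have hd := dB_nonneg A B
  -- disjoint case
  have hdis : ∀ T ∈ act H A, Disjoint T B → |del H A T B| ≤ 400 / mc H A ∧
      dB (A \ T) B * del H A T B ^ 2
        ≤ 128 / (A.card : ℝ) ^ 2 * dB A B + 13 / mc H A ^ 2 * LB H A T B := by
    intro T hT hTB
    have hi : T ∩ B = ∅ := Finset.disjoint_iff_inter_eq_empty.1 hTB
    have hdd : dB (A \ T) B = dB A B := by
      rw [dB_sdiff (mem_act.1 hT).2, hi]; simp
    rcases eq_or_ne (dB A B) 0 with h0 | h0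
    · have : del H A T B = 0 := by unfold del; rw [hdd, h0, div_zero]
      rw [this, hdd, h0]
      have := LB_nonneg H A T B
      constructor
      · simp; positivity
      · simp; positivity
    · have h1 := dB_one_le h0
      have hdisp := h.abs_disp_le hT B
      rw [hi] at hdisp
      simp only [Finset.card_empty, Nat.cast_zero, mul_zero, zero_add] at hdisp
      have hL := ha T hT hTB
      have hL0 := LB_nonneg H A T B
      set D := (SB H (A \ T) B - SB H A B) - tB H A B * (dB (A \ T) B - dB A B) with hD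
      have hdel : del H A T B = D / dB A B := by
        show D / dB (A \ T) B = D / dB A B
        rw [hdd]
      constructor
      · rw [hdel, abs_div, abs_of_nonneg hd, div_le_div_iff₀ (by linarith) hm]
        have h2 : 8 / (A.card : ℝ) ≤ 8 / mc H A := by gcongr
        have h3 : LB H A T B / mc H A ≤ 6 / mc H A := by gcongr
        calc |D| * mc H A ≤ (8 / mc H A * dB A B + 101 / 100 * (6 / mc H A)) * mc H A := by
              gcongr
              refine hdisp.trans ?_
              gcongr
          _ = 8 * dB A B + 606 / 100 := by field_simp; norm_num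
          _ ≤ 400 * dB A B := by linarith
      · rw [hdd, hdel]
        have e1 : dB A B * (D / dB A B) ^ 2 = |D| ^ 2 / dB A B := by
          rw [sq_abs]; field_simp
        rw [e1]
        have hDsq : |D| ^ 2 ≤ 2 * (8 / A.card * dB A B) ^ 2
            + 2 * (101 / 100 * (LB H A T B / mc H A)) ^ 2 := by
          have h5 : |D| ^ 2 ≤ (8 / A.card * dB A B + 101 / 100 * (LB H A T B / mc H A)) ^ 2 :=
            pow_le_pow_left₀ (abs_nonneg _) hdisp 2
          nlinarith [sq_nonneg (8 / A.card * dB A B - 101 / 100 * (LB H A T B / mc H A))]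
        have hLsq : LB H A T B ^ 2 ≤ 6 * LB H A T B := by nlinarith
        calc |D| ^ 2 / dB A B ≤ (2 * (8 / A.card * dB A B) ^ 2
            + 2 * (101 / 100 * (LB H A T B / mc H A)) ^ 2) / dB A B := by gcongr
          _ = 128 / (A.card : ℝ) ^ 2 * dB A B
              + (20402 / 10000) / mc H A ^ 2 * LB H A T B ^ 2 / dB A B := by
              field_simp
              ring
          _ ≤ 128 / (A.card : ℝ) ^ 2 * dB A B
              + (20402 / 10000) / mc H A ^ 2 * LB H A T B ^ 2 / 1 := by gcongr
          _ ≤ 128 / (A.card : ℝ) ^ 2 * dB A B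
              + (20402 / 10000) / mc H A ^ 2 * (6 * LB H A T B) / 1 := by gcongr
          _ = 128 / (A.card : ℝ) ^ 2 * dB A B
              + (122412 / 10000) * (LB H A T B / mc H A ^ 2) := by ring
          _ ≤ 128 / (A.card : ℝ) ^ 2 * dB A B + 13 * (LB H A T B / mc H A ^ 2) := by
              have : 0 ≤ LB H A T B / mc H A ^ 2 := by positivity
              linarith
          _ = _ := by ring
  refine ⟨by norm_num, ?_, ?_⟩
  · intro T hT
    by_cases hTB : Disjoint T B
    · exact (hdis T hT hTB).1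
    · exact (hb T hT hTB).1
  · have hS := abs_le.1 (h.abs_SB_le B)
    have hη := h.hη
    have hη0 := h.hη0
    calc ∑ T ∈ act H A, dB (A \ T) B * del H A T B ^ 2
        ≤ ∑ T ∈ act H A, (128 / (A.card : ℝ) ^ 2 * dB A B + 13 / mc H A ^ 2 * LB H A T B
          + 260 / mc H A * ((T ∩ B).card : ℝ)) := by
          apply Finset.sum_le_sum
          intro T hT
          have hL0 := LB_nonneg H A T B
          by_cases hTB : Disjoint T B
          · have h1 := (hdis T hT hTB).2
            have h2 : 0 ≤ 260 / mc H A * ((T ∩ B).card : ℝ) := by positivity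
            linarith
          · have h1 := (hb T hT hTB).2
            have h2 : 0 ≤ 128 / (A.card : ℝ) ^ 2 * dB A B + 13 / mc H A ^ 2 * LB H A T B := by
              positivity
            linarith
      _ = ((act H A).card : ℝ) * (128 / (A.card : ℝ) ^ 2 * dB A B)
          + 13 / mc H A ^ 2 * (∑ T ∈ act H A, LB H A T B)
          + 260 / mc H A * (mc H A * (dB A B + SB H A B)) := by
          rw [Finset.sum_add_distrib, Finset.sum_add_distrib, Finset.sum_const, nsmul_eq_mul,
            ← Finset.mul_sum, ← Finset.mul_sum, h.sum_card_inter B]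
      _ ≤ (mc H A * A.card / 3) * (128 / (A.card : ℝ) ^ 2 * dB A B)
          + 13 / mc H A ^ 2 * (121 / 50 * mc H A ^ 2 * dB A B)
          + 260 / mc H A * (mc H A * (11 / 10 * dB A B)) := by
          rw [h.Qeq]
          gcongr
          · exact h.sum_LB_le B
          · nlinarith
      _ = 128 / 3 * (mc H A / A.card) * dB A B + 13 * 121 / 50 * dB A B
          + 286 * dB A B := by
          field_simp
          ring
      _ ≤ 128 / 3 * 1 * dB A B + 13 * 121 / 50 * dB A B + 286 * dB A B := by
          gcongr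
          rw [div_le_one hx]; exact hmx
      _ ≤ 400 * dB A B := by linarith

theorem LB_eq (H : Finset (Finset V)) (A T B : Finset V) :
    LB H A T B = ∑ T' ∈ (act H A).filter (fun T' => ¬ Disjoint T' T),
      ((((A \ T) ∩ B) ∩ T').card : ℝ) := by
  unfold LB loss
  have h1 : ∀ e ∈ (A \ T) ∩ B, (((act H A).filter (fun T' => e ∈ T' ∧ ¬ Disjoint T' T)).card : ℝ)
      = ∑ T' ∈ (act H A).filter (fun T' => ¬ Disjoint T' T), if e ∈ T' then (1 : ℝ) else 0 := by
    intro e _
    rw [← Finset.sum_filter, Finset.filter_filter, Finset.sum_const, nsmul_eq_mul, mul_one]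
    congr 2
    ext T'
    simp only [Finset.mem_filter]
    tauto
  rw [Finset.sum_congr rfl h1, Finset.sum_comm]
  apply Finset.sum_congr rfl
  intro T' _
  rw [← Finset.sum_filter, Finset.sum_const, nsmul_eq_mul, mul_one, Finset.filter_mem_eq_inter]

/-- Singletons are regular blocks. -/
theorem regB_single (h : Nice H A η) {e : V} (he : e ∈ A) : RegB H A {e} 400 := by
  have hm := h.mpos
  apply h.regB_of
  · intro T hT hTB
    rw [Finset.disjoint_singleton_right] at hTB
    unfold LB
    have : (A \ T) ∩ {e} = {e} := by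
      ext y
      simp only [Finset.mem_inter, Finset.mem_sdiff, Finset.mem_singleton]
      constructor
      · exact fun hy => hy.2
      · rintro rfl; exact ⟨⟨he, hTB⟩, rfl⟩
    rw [this, Finset.sum_singleton]
    have := loss_le_three h.lin hT hTB
    have h3 : (loss H A T e : ℝ) ≤ 3 := by exact_mod_cast this
    linarith
  · intro T hT hTB
    rw [Finset.disjoint_singleton_right, not_not] at hTB
    have hd0 : dB (A \ T) {e} = 0 := by
      unfold dB
      have : (A \ T) ∩ {e} = ∅ := by
        ext y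
        simp only [Finset.mem_inter, Finset.mem_sdiff, Finset.mem_singleton,
          Finset.notMem_empty, iff_false]
        rintro ⟨h1, rfl⟩
        exact h1.2 hTB
      rw [this]; simp
    have hdel : del H A T {e} = 0 := by unfold del; rw [hd0, div_zero]
    rw [hdel, hd0]
    constructor
    · simp; positivity
    · simp; positivity

end Nice

/-- A star system: every alive element lies in two stars, every hyperedge meets a star in no or in
two elements, and an element outside a star lies in at most one hyperedge meeting it. -/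
structure Stars {W : Type*} [Fintype W] (H : Finset (Finset V)) (A0 : Finset V)
    (σ : W → Finset V) : Prop where
  two : ∀ e ∈ A0, ∃ u w : W, u ≠ w ∧ ∀ y, e ∈ σ y ↔ y = u ∨ y = w
  meet : ∀ T ∈ H, ∀ u, ¬ Disjoint T (σ u) → (T ∩ σ u).card = 2
  uniq : ∀ u, ∀ f, f ∉ σ u → ∀ T ∈ H, ∀ T' ∈ H, f ∈ T → f ∈ T' → ¬ Disjoint T (σ u) →
    ¬ Disjoint T' (σ u) → T = T'

namespace Nice

variable {H : Finset (Finset V)} {A : Finset V} {η : ℝ} {W : Type*} [Fintype W]

/-- a star touched by an active hyperedge has many alive elements -/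
theorem dB_star_ge (h : Nice H A η) {A0 : Finset V} {σ : W → Finset V}
    (hσ : Stars H A0 σ) {T : Finset V} (hT : T ∈ act H A) {u : W} (hu : ¬ Disjoint T (σ u)) :
    9 / 10 * mc H A + 1 ≤ dB A (σ u) := by
  rw [Finset.not_disjoint_iff] at hu
  obtain ⟨e, heT, heσ⟩ := hu
  have heA := (mem_act.1 hT).2 heT
  have h1 := h.le_codeg heA
  have h2 : codeg H A e + 1 ≤ (A ∩ σ u).card := by
    have hex : ∀ T' ∈ (act H A).filter (fun T => e ∈ T), ∃ g, g ∈ (T' ∩ σ u).erase e := by
      intro T' hT'
      rw [Finset.mem_filter] at hT'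
      have hc := hσ.meet T' (mem_act.1 hT'.1).1 u
        (Finset.not_disjoint_iff.2 ⟨e, hT'.2, heσ⟩)
      have hc2 : ((T' ∩ σ u).erase e).card = 1 := by
        rw [Finset.card_erase_of_mem (Finset.mem_inter.2 ⟨hT'.2, heσ⟩), hc]
      obtain ⟨g, hg⟩ := Finset.card_eq_one.1 hc2
      exact ⟨g, by rw [hg]; exact Finset.mem_singleton_self g⟩
    have : Nonempty V := ⟨e⟩
    choose! g hg using hex
    have hcard : ((act H A).filter (fun T => e ∈ T)).card ≤ ((A ∩ σ u).erase e).card := by
      apply Finset.card_le_card_of_injOn g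
      · intro T' hT'
        have hT'2 := hT'
        rw [Finset.mem_coe, Finset.mem_filter] at hT'2
        have := hg T' hT'
        rw [Finset.mem_erase, Finset.mem_inter] at this
        rw [Finset.mem_coe, Finset.mem_erase, Finset.mem_inter]
        exact ⟨this.1, (mem_act.1 hT'2.1).2 this.2.1, this.2.2⟩
      · intro T1 hT1 T2 hT2 heq
        have g1 := hg T1 hT1
        have g2 := hg T2 hT2
        rw [Finset.mem_coe, Finset.mem_filter] at hT1 hT2
        rw [Finset.mem_erase, Finset.mem_inter] at g1 g2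
        refine h.lin.lin T1 (mem_act.1 hT1.1).1 T2 (mem_act.1 hT2.1).1 (g T1) e g1.1 g1.2.1 hT1.2
          ?_ hT2.2
        rw [heq]; exact g2.2.1
    have hmem : e ∈ A ∩ σ u := Finset.mem_inter.2 ⟨heA, heσ⟩
    rw [Finset.card_erase_of_mem hmem] at hcard
    have hpos : 0 < (A ∩ σ u).card := Finset.card_pos.2 ⟨e, hmem⟩
    unfold codeg
    omega
  have h3 : (codeg H A e : ℝ) + 1 ≤ ((A ∩ σ u).card : ℝ) := by exact_mod_cast h2
  unfold dB
  linarith

/-- total loss -/
theorem LB_le (h : Nice H A η) {T : Finset V} (hT : T ∈ act H A) (B : Finset V) :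
    LB H A T B ≤ 33 / 5 * mc H A := by
  rw [LB_eq]
  have h1 : ∀ T' ∈ (act H A).filter (fun T' => ¬ Disjoint T' T),
      ((((A \ T) ∩ B) ∩ T').card : ℝ) ≤ 2 := by
    intro T' hT'
    rw [Finset.mem_filter] at hT'
    have hsub : ((A \ T) ∩ B) ∩ T' ⊆ T' \ T := by
      intro y hy
      simp only [Finset.mem_inter, Finset.mem_sdiff] at hy ⊢
      exact ⟨hy.2, hy.1.1.2⟩
    have hlt : (T' \ T).card < T'.card := by
      apply Finset.card_lt_card
      rw [Finset.ssubset_iff_subset_ne]
      refine ⟨Finset.sdiff_subset, fun heq => hT'.2 ?_⟩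
      rw [← heq]
      exact Finset.sdiff_disjoint
    rw [h.lin.card3 T' (mem_act.1 hT'.1).1] at hlt
    have := Finset.card_le_card hsub
    have h3 : (((A \ T) ∩ B) ∩ T').card ≤ 2 := by omega
    exact_mod_cast h3
  have h2 : ((act H A).filter (fun T' => ¬ Disjoint T' T)).card ≤ ∑ f ∈ T, codeg H A f := by
    have hsub : (act H A).filter (fun T' => ¬ Disjoint T' T)
        ⊆ T.biUnion (fun f => (act H A).filter (fun T' => f ∈ T')) := by
      intro T' hT'
      rw [Finset.mem_filter, Finset.not_disjoint_iff] at hT'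
      obtain ⟨hT'1, f, hf1, hf2⟩ := hT'
      rw [Finset.mem_biUnion]
      exact ⟨f, hf2, Finset.mem_filter.2 ⟨hT'1, hf1⟩⟩
    exact (Finset.card_le_card hsub).trans Finset.card_biUnion_le
  have h3 : ((((act H A).filter (fun T' => ¬ Disjoint T' T)).card : ℕ) : ℝ)
      ≤ 3 * (11 / 10 * mc H A) := by
    calc ((((act H A).filter (fun T' => ¬ Disjoint T' T)).card : ℕ) : ℝ)
        ≤ ((∑ f ∈ T, codeg H A f : ℕ) : ℝ) := by exact_mod_cast h2
      _ = ∑ f ∈ T, (codeg H A f : ℝ) := by push_cast; rfl
      _ ≤ ∑ f ∈ T, (11 / 10 * mc H A) :=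
          Finset.sum_le_sum (fun f hf => h.codeg_le ((mem_act.1 hT).2 hf))
      _ = _ := by
          rw [Finset.sum_const, h.lin.card3 T (mem_act.1 hT).1, nsmul_eq_mul]; norm_num
  calc ∑ T' ∈ (act H A).filter (fun T' => ¬ Disjoint T' T), ((((A \ T) ∩ B) ∩ T').card : ℝ)
      ≤ ∑ T' ∈ (act H A).filter (fun T' => ¬ Disjoint T' T), (2 : ℝ) := Finset.sum_le_sum h1
    _ = ((((act H A).filter (fun T' => ¬ Disjoint T' T)).card : ℕ) : ℝ) * 2 := by
        rw [Finset.sum_const, nsmul_eq_mul]
    _ ≤ 3 * (11 / 10 * mc H A) * 2 := by gcongr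
    _ = _ := by ring

/-- Stars are regular blocks. -/
theorem regB_star (h : Nice H A η) {A0 : Finset V} {σ : W → Finset V}
    (hσ : Stars H A0 σ) (u : W) : RegB H A (σ u) 400 := by
  have hm := h.mpos
  have hm100 := h.hm
  have hx := h.xpos
  apply h.regB_of
  · intro T hT hTB
    rw [LB_eq]
    -- only hyperedges meeting the star count, one for each element of T
    have h1 : ∀ T' ∈ (act H A).filter (fun T' => ¬ Disjoint T' T),
        ((((A \ T) ∩ σ u) ∩ T').card : ℝ)
          ≤ if ¬ Disjoint T' (σ u) then (2 : ℝ) else 0 := by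
      intro T' hT'
      rw [Finset.mem_filter] at hT'
      have hsub : ((A \ T) ∩ σ u) ∩ T' ⊆ T' ∩ σ u := by
        intro y hy
        simp only [Finset.mem_inter, Finset.mem_sdiff] at hy ⊢
        exact ⟨hy.2, hy.1.2⟩
      have hle := Finset.card_le_card hsub
      by_cases hd : Disjoint T' (σ u)
      · rw [if_neg (not_not.2 hd)]
        rw [Finset.disjoint_iff_inter_eq_empty.1 hd] at hle
        have hle0 : (((A \ T) ∩ σ u) ∩ T').card ≤ 0 := by simpa using hle
        exact_mod_cast hle0
      · rw [if_pos hd]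
        have := hσ.meet T' (mem_act.1 hT'.1).1 u hd
        rw [this] at hle
        exact_mod_cast hle
    refine (Finset.sum_le_sum h1).trans ?_
    rw [← Finset.sum_filter, Finset.sum_const, nsmul_eq_mul]
    have h2 : (((act H A).filter (fun T' => ¬ Disjoint T' T)).filter
        (fun T' => ¬ Disjoint T' (σ u))).card ≤ 3 := by
      rw [← h.lin.card3 T (mem_act.1 hT).1]
      have hsub : ((act H A).filter (fun T' => ¬ Disjoint T' T)).filter
          (fun T' => ¬ Disjoint T' (σ u))
          ⊆ T.biUnion (fun f => (act H A).filter (fun T' => f ∈ T' ∧ ¬ Disjoint T' (σ u))) := by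
        intro T' hT'
        simp only [Finset.mem_filter] at hT'
        obtain ⟨⟨hT'1, hd⟩, hd2⟩ := hT'
        rw [Finset.not_disjoint_iff] at hd
        obtain ⟨f, hf1, hf2⟩ := hd
        rw [Finset.mem_biUnion]
        exact ⟨f, hf2, Finset.mem_filter.2 ⟨hT'1, hf1, hd2⟩⟩
      refine (Finset.card_le_card hsub).trans (Finset.card_biUnion_le.trans ?_)
      rw [Finset.card_eq_sum_ones T]
      apply Finset.sum_le_sum
      intro f hf
      rw [Finset.card_le_one]
      intro a ha b hb
      rw [Finset.mem_filter] at ha hb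
      have hfσ : f ∉ σ u := fun h' => (Finset.disjoint_left.1 hTB hf) h'
      exact hσ.uniq u f hfσ a (mem_act.1 ha.1).1 b (mem_act.1 hb.1).1 ha.2.1 hb.2.1 ha.2.2 hb.2.2
    have h3 : (((((act H A).filter (fun T' => ¬ Disjoint T' T)).filter
        (fun T' => ¬ Disjoint T' (σ u))).card : ℕ) : ℝ) ≤ 3 := by exact_mod_cast h2
    linarith
  · intro T hT hTB
    have hd := h.dB_star_ge hσ hT hTB
    have hcard : ((T ∩ σ u).card : ℝ) = 2 := by
      have := hσ.meet T (mem_act.1 hT).1 u hTB
      exact_mod_cast this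
    have hd' : dB (A \ T) (σ u) = dB A (σ u) - 2 := by
      rw [dB_sdiff (mem_act.1 hT).2, hcard]
    have hd'' : 88 / 100 * mc H A ≤ dB (A \ T) (σ u) := by rw [hd']; linarith
    have hdpos : 0 < dB (A \ T) (σ u) := by linarith
    have hdx : dB A (σ u) ≤ A.card := by
      unfold dB
      exact_mod_cast Finset.card_le_card Finset.inter_subset_left
    have hdisp := h.abs_disp_le hT (σ u)
    have hL := h.LB_le hT (σ u)
    set D := (SB H (A \ T) (σ u) - SB H A (σ u))
      - tB H A (σ u) * (dB (A \ T) (σ u) - dB A (σ u)) with hD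
    have hDle : |D| ≤ 151 / 10 := by
      rw [hcard] at hdisp
      have h1 : 8 / (A.card : ℝ) * dB A (σ u) ≤ 8 := by
        rw [div_mul_eq_mul_div, div_le_iff₀ hx]; linarith
      have h2 : LB H A T (σ u) / mc H A ≤ 33 / 5 := by
        rw [div_le_iff₀ hm]; exact hL
      linarith
    have hdel : del H A T (σ u) = D / dB (A \ T) (σ u) := rfl
    constructor
    · rw [hdel, abs_div, abs_of_pos hdpos, div_le_div_iff₀ hdpos hm]
      calc |D| * mc H A ≤ 151 / 10 * mc H A := by gcongr
        _ ≤ 400 * (88 / 100 * mc H A) := by linarith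
        _ ≤ 400 * dB (A \ T) (σ u) := by gcongr
    · rw [hdel, hcard]
      have e1 : dB (A \ T) (σ u) * (D / dB (A \ T) (σ u)) ^ 2 = |D| ^ 2 / dB (A \ T) (σ u) := by
        rw [sq_abs]; field_simp
      rw [e1]
      calc |D| ^ 2 / dB (A \ T) (σ u) ≤ (151 / 10) ^ 2 / (88 / 100 * mc H A) := by gcongr
        _ = ((151 / 10) ^ 2 / (88 / 100)) / mc H A := by field_simp
        _ ≤ 520 / mc H A := by gcongr; norm_num
        _ = _ := by ring

end Nice

end Crest.Agent.R030.Drift
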