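import Mathlib
import Crest.Agent.R030.VSuper

/-!
Row 30 (S0040), part (C3), final form with explicit constants.
-/

set_option autoImplicit false

namespace Crest.Agent.R030

open Finset Crest.CombinatoricsR.TriangleRemoval

variable {n : ℕ}

/-- The weight of the vertex part. -/
noncomputable def Gam (q : ℕ) : ℝ := 6 * (q : ℝ) * (32 * (q : ℝ)) ^ (q - 1)

/-- Smallness threshold for `κ, a, b, c`. -/
noncomputable def tauq (q : ℕ) : ℝ := 1 / (16 * (q : ℝ) * Gam q)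

theorem Gam_ge {q : ℕ} (hq : 1 ≤ q) : 6 ≤ Gam q := by
  have h1 : (1:ℝ) ≤ (q:ℝ) := by exact_mod_cast hq
  have h2 : (1:ℝ) ≤ (32 * (q : ℝ)) ^ (q - 1) := one_le_pow₀ (by linarith)
  unfold Gam
  nlinarith

theorem Gam_pos {q : ℕ} (hq : 1 ≤ q) : 0 < Gam q := by linarith [Gam_ge hq]

theorem tauq_pos {q : ℕ} (hq : 1 ≤ q) : 0 < tauq q := by
  have h1 : (1:ℝ) ≤ (q:ℝ) := by exact_mod_cast hq
  have := Gam_pos hq
  unfold tauq
  positivity

theorem params_one {q : ℕ} (hq : 1 ≤ q) {η κ b c cZ : ℝ} (hη1 : η ≤ 1 / 2)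
    (hκ : κ ≤ tauq q) (hb : b ≤ tauq q) (hc : c ≤ tauq q) (hcZ : cZ ≤ 1 / 8) :
    q * (2 * (1 + η) * (1 / (32 * (q : ℝ))) + 2 * κ) + cZ + Gam q * (q * b + c) ≤ 1 := by
  have h1 : (1:ℝ) ≤ (q:ℝ) := by exact_mod_cast hq
  have hG := Gam_ge hq
  have e1 : q * (2 * (1 + η) * (1 / (32 * (q : ℝ)))) = (1 + η) / 16 := by
    have : (q:ℝ) ≠ 0 := by linarith
    field_simp
    ring
  have e2 : (q:ℝ) * (2 * κ) ≤ q * (2 * tauq q) :=
    mul_le_mul_of_nonneg_left (by linarith) (by linarith)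
  have e3 : Gam q * (q * b + c) ≤ Gam q * (q * tauq q + tauq q) := by
    refine mul_le_mul_of_nonneg_left ?_ (by linarith)
    have := mul_le_mul_of_nonneg_left hb (by linarith : (0:ℝ) ≤ q)
    linarith
  have e4 : Gam q * tauq q * q = 1 / 16 := by
    unfold tauq
    have : (q:ℝ) ≠ 0 := by linarith
    have : Gam q ≠ 0 := by linarith
    field_simp
  have e5 : q * tauq q ≤ 1 / 96 := by
    have : 6 * (q * tauq q) ≤ Gam q * (q * tauq q) :=
      mul_le_mul_of_nonneg_right hG (mul_nonneg (by linarith) (tauq_pos hq).le)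
    have e : Gam q * (q * tauq q) = 1 / 16 := by rw [← e4]; ring
    linarith
  have e6 : Gam q * tauq q ≤ 1 / 16 := by
    have : Gam q * tauq q * 1 ≤ Gam q * tauq q * q :=
      mul_le_mul_of_nonneg_left h1 (mul_nonneg (by linarith) (tauq_pos hq).le)
    linarith
  have e7 : Gam q * (q * tauq q + tauq q) = Gam q * tauq q * q + Gam q * tauq q := by ring
  have e8 : q * (2 * (1 + η) * (1 / (32 * (q : ℝ))) + 2 * κ) =
      q * (2 * (1 + η) * (1 / (32 * (q : ℝ)))) + q * (2 * κ) := by ring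
  rw [e8, e1]
  linarith

theorem params_two {q : ℕ} (hq : 1 ≤ q) {η a b c : ℝ} (hη1 : η ≤ 1 / 2)
    (ha : a ≤ tauq q) (hb : b ≤ tauq q) (hc : c ≤ tauq q) :
    q * (2 * (1 + η) * ((1 / (32 * (q : ℝ)))⁻¹) ^ (q - 1)) + Gam q * (q * (a + b) + c) ≤
      1 * Gam q := by
  have h1 : (1:ℝ) ≤ (q:ℝ) := by exact_mod_cast hq
  have hG := Gam_ge hq
  have e1 : (1 / (32 * (q : ℝ)))⁻¹ = 32 * (q:ℝ) := by rw [one_div, inv_inv]
  have hP : 0 ≤ (32 * (q : ℝ)) ^ (q - 1) := by positivity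
  have e2 : q * (2 * (1 + η) * ((1 / (32 * (q : ℝ)))⁻¹) ^ (q - 1)) ≤ Gam q / 2 := by
    rw [e1]
    unfold Gam
    have : q * (2 * (1 + η) * (32 * (q : ℝ)) ^ (q - 1)) =
        (q * (32 * (q : ℝ)) ^ (q - 1)) * (2 * (1 + η)) := by ring
    rw [this]
    have h2 : (q * (32 * (q : ℝ)) ^ (q - 1)) * (2 * (1 + η)) ≤
        (q * (32 * (q : ℝ)) ^ (q - 1)) * 3 :=
      mul_le_mul_of_nonneg_left (by linarith) (by positivity)
    linarith
  have e3 : Gam q * (q * (a + b) + c) ≤ Gam q * (q * (tauq q + tauq q) + tauq q) := by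
    refine mul_le_mul_of_nonneg_left ?_ (by linarith)
    have := mul_le_mul_of_nonneg_left (add_le_add ha hb) (by linarith : (0:ℝ) ≤ q)
    linarith
  have e4 : Gam q * tauq q * q = 1 / 16 := by
    unfold tauq
    have : (q:ℝ) ≠ 0 := by linarith
    have : Gam q ≠ 0 := by linarith
    field_simp
  have e6 : Gam q * tauq q ≤ 1 / 16 := by
    have : Gam q * tauq q * 1 ≤ Gam q * tauq q * q :=
      mul_le_mul_of_nonneg_left h1 (mul_nonneg (by linarith) (tauq_pos hq).le)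
    linarith
  have e7 : Gam q * (q * (tauq q + tauq q) + tauq q) =
      2 * (Gam q * tauq q * q) + Gam q * tauq q := by ring
  linarith

/-- **(C3), final form.** If at every good state (which is still regular) the link condition and the
two drift inequalities hold, then the probability that the regularity of the codegrees is violated
at a state all of whose predecessors were good is at most `2 x₀ (1+Γ) Cμ / η^q`. -/
theorem hit_reg_final {q : ℕ} (hq : Even q) (hq2 : 2 ≤ q) {η κ a b c cZ Cμ : ℝ}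
    (hη : 0 < η) (hη1 : η ≤ 1 / 2) (hκ0 : 0 ≤ κ) (hκ : κ ≤ tauq q) (ha : a ≤ tauq q)
    (hb0 : 0 ≤ b) (hb : b ≤ tauq q) (hc : c ≤ tauq q) (hcZ : cZ ≤ 1 / 8) (hCμ : 0 ≤ Cμ)
    (hn : 3 ≤ n) (Good : Finset (Sym2 (Fin n)) → Prop)
    (hG : ∀ E : Finset (Sym2 (Fin n)), E ⊆ allEdges n → Good E → Reg E (mE E) η →
      0 < mE E ∧ LinkLq q E (κ * mE E) ∧ DriftZ q cZ Cμ E ∧ DriftH q a b c Cμ E) (k : ℕ) :
    (baseKer (triHyp n)).hit (fun E => ¬ Reg E (mE E) η) Good k (allEdges n) ≤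
      2 * ((allEdges n).card : ℝ) * ((1 + Gam q) * Cμ) / η ^ q := by
  have hq1 : 1 ≤ q := by omega
  have hG0 := Gam_pos hq1
  have h := hit_reg_le hq (by omega : q ≠ 0) hG0.le hη
    (β := 3 * (1 + Gam q) * Cμ) (by positivity) hn Good ?_ k
  · have e : 3 * (1 + Gam q) * Cμ / 3 = (1 + Gam q) * Cμ := by ring
    rw [e] at h
    exact h
  · intro E hE hgood hreg
    obtain ⟨hm, hlink, hZ, hH⟩ := hG E hE hgood hreg
    refine ⟨?_, ?_⟩
    · by_contra hcon
      have h0 : (act (triHyp n) E).card = 0 := by omega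
      unfold mE at hm
      rw [h0] at hm
      simp at hm
    · have hq' : (0:ℝ) < (q:ℝ) := by exact_mod_cast (by omega : 0 < q)
      have := VV_drift hq hq2 hη.le hκ0 hb0 (by positivity : 0 < 1 / (32 * (q : ℝ))) hG0.le
        (params_one hq1 hη1 hκ hb hc hcZ) (params_two hq1 hη1 ha hb hc) hm hreg hlink hZ hH
      rw [mul_one] at this
      exact this

end Crest.Agent.R030
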