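import Mathlib
import Crest.Agent.R030.VFinal
import Crest.Agent.R030.Params
import Crest.Agent.R030.DriftStar

/-!
Row 30 (S0040), Stage 1: choice of the parameters in part (C) and the eventual bound for the
probability that the codegree regularity is the first thing to fail.
-/

set_option autoImplicit false

open Finset Filter Topology
open Crest.CombinatoricsR.TriangleRemoval

namespace Crest.Agent.R030.StageC

variable {n : ℕ}

/-! ### Monotonicity of the drift conditions in the constants -/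

theorem driftZ_mono {q : ℕ} {cZ cZ' Cμ Cμ' : ℝ} {E : Finset (Sym2 (Fin n))}
    (hc : cZ ≤ cZ') (hC : Cμ ≤ Cμ') (h : DriftZ q cZ Cμ E) : DriftZ q cZ' Cμ' E := by
  unfold DriftZ at h ⊢
  refine h.trans ?_
  have hz : 0 ≤ zn q E (zeta E) ^ q := pow_nonneg (zn_nonneg q _) q
  have h1 := mul_le_mul_of_nonneg_right hc hz
  have h2 : (0:ℝ) ≤ 3 / (E.card : ℝ) := by positivity
  have := mul_le_mul_of_nonneg_left (add_le_add (add_le_add_right h1
    (-(q * ((∑ p ∈ darts E, (zeta E p.1 p.2) ^ (q - 1) *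
        ((mE E)⁻¹ * triA E (zeta E) p.1 p.2)) / ((darts E).card : ℝ))))) hC) h2
  linarith

theorem driftH_mono {q : ℕ} {a a' b b' c c' Cμ Cμ' : ℝ} {E : Finset (Sym2 (Fin n))}
    (ha : a ≤ a') (hb : b ≤ b') (hc : c ≤ c') (hC : Cμ ≤ Cμ')
    (h : DriftH q a b c Cμ E) : DriftH q a' b' c' Cμ' E := by
  unfold DriftH at h ⊢
  refine h.trans ?_
  generalize hh : hn q E (zeta E) = y at *
  generalize hz : zn q E (zeta E) = z at *
  have hy0 : 0 ≤ y := by rw [← hh]; exact hn_nonneg q _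
  have hz0 : 0 ≤ z := by rw [← hz]; exact zn_nonneg q _
  have h2 : (0:ℝ) ≤ 3 / (E.card : ℝ) := by positivity
  have hq : (0:ℝ) ≤ q := Nat.cast_nonneg q
  have h3 : y ^ (q - 1) * (y * (1 + a) + b * z) ≤ y ^ (q - 1) * (y * (1 + a') + b' * z) := by
    refine mul_le_mul_of_nonneg_left ?_ (by positivity)
    have e1 := mul_le_mul_of_nonneg_left ha hy0
    have e2 := mul_le_mul_of_nonneg_right hb hz0
    linarith
  have h4 := mul_le_mul_of_nonneg_left h3 hq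
  have h5 : c * (y ^ q + z ^ q) ≤ c' * (y ^ q + z ^ q) :=
    mul_le_mul_of_nonneg_right hc (by positivity)
  have h6 : -(q:ℝ) * y ^ q + q * (y ^ (q - 1) * (y * (1 + a) + b * z)) + c * (y ^ q + z ^ q) + Cμ
      ≤ -(q:ℝ) * y ^ q + q * (y ^ (q - 1) * (y * (1 + a') + b' * z)) + c' * (y ^ q + z ^ q)
        + Cμ' := by linarith
  have := mul_le_mul_of_nonneg_left h6 h2
  linarith

/-- The input expected from the block drift computation. -/
def DriftInput (q : ℕ) : Prop :=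
  ∀ (n : ℕ) (E : Finset (Sym2 (Fin n))) (η κ ε : ℝ), E ⊆ allEdges n →
    Drift.Nice (triHyp n) E η → 0 ≤ κ → κ ≤ 1 → LinkLq q E (κ * mE E) → 0 < ε →
    DriftZ q (5 * Drift.th1 (q - 2) 400 η ε + 20 * q / (E.card : ℝ))
      (2 * Drift.Kc (q - 2) 400 ε * (1 / mE E) ^ (q / 2)) E ∧
    DriftH q (3 * η) (3 * κ) (3 * Drift.th1 (q - 2) 400 η ε)
      (2 * Drift.Kc (q - 2) 400 ε * (1 / mE E) ^ (q / 2)) E

/-! ### Facts about the pre-good states -/

theorem mE_pos_of_reg {E : Finset (Sym2 (Fin n))} {η : ℝ} (hη : η < 1) (hE : 0 < E.card)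
    (hreg : Reg E (mE E) η) : 0 < mE E := by
  obtain ⟨e, he⟩ := card_pos.1 hE
  induction e using Sym2.ind with
  | _ u v =>
    have h := hreg u v he
    have hnn : 0 ≤ mE E := by unfold mE; positivity
    rcases hnn.eq_or_lt with h0 | h0
    · rw [← h0, div_zero] at h
      norm_num at h
      linarith
    · exact h0

theorem window_bounds {δ : ℝ} {E : Finset (Sym2 (Fin n))} (hn : 1 ≤ n) (hη : etan δ n < 1)
    (hk : ∀ x : ℝ, Xn δ n ≤ x → x ≤ x0n n → Kap.kap n (x0n n) (etan δ n) x ≤ 1 / 2)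
    (h : PreE δ E) :
    0 < mE E ∧ (n : ℝ) ^ δ / 2 ≤ mE E ∧ mE E ≤ 2 * Kap.lamx n E.card := by
  have hX := Iface.Xn_pos (δ := δ) hn
  have hx : (0:ℝ) < (E.card : ℝ) := lt_of_lt_of_le hX h.size
  have hxc : 0 < E.card := by exact_mod_cast hx
  have hm := mE_pos_of_reg hη hxc h.reg
  have hx0 : (E.card : ℝ) ≤ x0n n := Iface.card_le_x0n h.sub
  have hk' := hk _ h.size hx0
  have hn0 : (0:ℝ) < (n:ℝ) := by exact_mod_cast hn
  have := Kap.mcod_of_window (N := (n:ℝ)) (x0 := x0n n) (η := etan δ n) hn0 hx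
    (m := mcod (triHyp n) E) hm h.win hk' le_rfl
  have hl := Iface.lamx_ge (n := n) (δ := δ) hn h.size
  refine ⟨hm, ?_, ?_⟩
  · have h1 := this.1
    rw [← mE_eq_mcod] at h1
    linarith
  · have h2 := this.2
    rw [← mE_eq_mcod] at h2
    have hl0 := Kap.lamx_pos hn0 hx
    linarith

theorem zt_of_reg {E : Finset (Sym2 (Fin n))} (hE : E ⊆ allEdges n) {η : ℝ}
    (hreg : Reg E (mE E) η) : ∀ e ∈ E, |Drift.zt (triHyp n) E e| ≤ η := by
  intro e he
  induction e using Sym2.ind with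
  | _ u v =>
    unfold Drift.zt
    rw [Iface.codeg_eq_cn hE he]
    exact hreg u v he

/-- constants -/
noncomputable def cS (q : ℕ) : ℝ := 54 * (((q - 2 : ℕ) : ℝ) + 2) + 2 * 4 ^ (q - 2) * 400

theorem cS_pos (q : ℕ) : 0 < cS q := by unfold cS; positivity

/-- The choice of `ε`. -/
noncomputable def eps0 (q : ℕ) : ℝ := tauq q / (6 * cS q)

theorem eps0_pos {q : ℕ} (hq : 1 ≤ q) : 0 < eps0 q := by
  unfold eps0
  have := tauq_pos hq
  have := cS_pos q
  positivity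

theorem th1_le {q : ℕ} (hq : 2 ≤ q) {η : ℝ} (hη : 36 * (q : ℝ) * η ≤ tauq q) :
    3 * Drift.th1 (q - 2) 400 η (eps0 q) ≤ tauq q := by
  have hc := cS_pos q
  have e1 : Drift.th1 (q - 2) 400 η (eps0 q) =
      6 * (((q - 2 : ℕ) : ℝ) + 2) * η + cS q * eps0 q := rfl
  have e2 : ((q - 2 : ℕ) : ℝ) + 2 = (q : ℝ) := by
    rw [Nat.cast_sub hq]; push_cast; ring
  have e3 : cS q * eps0 q = tauq q / 6 := by
    unfold eps0; field_simp
  rw [e1, e2, e3]
  linarith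

theorem tauq_le {q : ℕ} (hq : 1 ≤ q) : tauq q ≤ 1 / 96 := by
  have h1 : (1:ℝ) ≤ (q:ℝ) := by exact_mod_cast hq
  have hG := Gam_ge hq
  unfold tauq
  refine one_div_le_one_div_of_le (by norm_num) ?_
  have : 16 * 6 ≤ 16 * (q:ℝ) * Gam q := by
    have : 1 * 6 ≤ (q:ℝ) * Gam q := mul_le_mul h1 hG (by norm_num) (by linarith)
    linarith
  linarith

/-- the final power count -/
theorem final_count {n r : ℕ} {δ A C x0 : ℝ} (hn : 1 ≤ n) (hC : 0 ≤ C)
    (hx0 : x0 ≤ (n:ℝ) ^ 2 / 2)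
    (hA : A + 3 ≤ 3 * δ * r / 4) (hCn : C * 2 ^ r ≤ n) :
    2 * x0 * (C * (2 / (n:ℝ) ^ δ) ^ r) / (etan δ n) ^ (2 * r) ≤ (n : ℝ) ^ (-A) := by
  have hn0 : (0:ℝ) < (n:ℝ) := by exact_mod_cast hn
  have hn1 : (1:ℝ) ≤ (n:ℝ) := by exact_mod_cast hn
  have e1 : (etan δ n) ^ (2 * r) = (n : ℝ) ^ (-(δ * r / 4)) := by
    unfold etan
    rw [← Real.rpow_natCast, ← Real.rpow_mul hn0.le]
    congr 1
    push_cast
    ring
  have e2 : (2 / (n:ℝ) ^ δ) ^ r = 2 ^ r * (n:ℝ) ^ (-(δ * r)) := by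
    rw [div_pow, ← Real.rpow_natCast ((n:ℝ) ^ δ) r, ← Real.rpow_mul hn0.le, Real.rpow_neg hn0.le,
      div_eq_mul_inv]
  rw [e1, e2, Real.rpow_neg hn0.le (δ * r / 4), div_inv_eq_mul]
  have h1 : 2 * x0 * (C * (2 ^ r * (n:ℝ) ^ (-(δ * r)))) * (n : ℝ) ^ (δ * r / 4) ≤
      (n:ℝ) ^ (2:ℝ) * (C * (2 ^ r * (n:ℝ) ^ (-(δ * r)))) * (n : ℝ) ^ (δ * r / 4) := by
    refine mul_le_mul_of_nonneg_right (mul_le_mul_of_nonneg_right ?_ (by positivity))
      (by positivity)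
    rw [show ((2:ℝ)) = ((2:ℕ):ℝ) by norm_num, Real.rpow_natCast]
    push_cast
    linarith
  refine h1.trans ?_
  have e3 : (n:ℝ) ^ (2:ℝ) * (C * (2 ^ r * (n:ℝ) ^ (-(δ * r)))) * (n : ℝ) ^ (δ * r / 4) =
      (C * 2 ^ r) * (n:ℝ) ^ (2 + -(δ * r) + δ * r / 4) := by
    rw [Real.rpow_add hn0, Real.rpow_add hn0]
    ring
  rw [e3]
  calc (C * 2 ^ r) * (n:ℝ) ^ (2 + -(δ * r) + δ * r / 4)
      ≤ (n:ℝ) * (n:ℝ) ^ (2 + -(δ * r) + δ * r / 4) :=
        mul_le_mul_of_nonneg_right hCn (by positivity)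
    _ = (n:ℝ) ^ (1 + (2 + -(δ * r) + δ * r / 4)) := by
        rw [Real.rpow_add hn0 1, Real.rpow_one]
    _ ≤ (n:ℝ) ^ (-A) := by
        refine Real.rpow_le_rpow_of_exponent_le hn1 ?_
        linarith

/-- **Stage 1, part (C), eventual form.** -/
theorem hit_reg_eventually {δ : ℝ} (hδ0 : 0 < δ) (hδ1 : δ < 1) {q : ℕ} (hq : Even q)
    (hq2 : 2 ≤ q) {A : ℝ} (hA : 8 * (A + 3) ≤ 3 * δ * q) {κ : ℝ} (hκ0 : 0 ≤ κ)
    (hκ : 3 * κ ≤ tauq q) (hin : DriftInput q) :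
    ∀ᶠ n : ℕ in atTop, ∀ G : Finset (Sym2 (Fin n)) → Prop, (∀ E, G E → GoodE δ q κ E) →
      ∀ k : ℕ, (baseKer (triHyp n)).hit (fun E => ¬ Reg E (mE E) (etan δ n)) G k (allEdges n) ≤
        (n : ℝ) ^ (-A) := by
  obtain ⟨r, hr⟩ := hq
  have hqr : q = 2 * r := by omega
  have hq1 : 1 ≤ q := by omega
  have hτ := tauq_pos hq1
  have hqpos : (0:ℝ) < (q:ℝ) := by exact_mod_cast (by omega : 0 < q)
  set K0 : ℝ := 2 * Drift.Kc (q - 2) 400 (eps0 q) with hK0
  have hK0n : 0 ≤ K0 := by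
    have := eps0_pos hq1
    rw [hK0]
    unfold Drift.Kc
    positivity
  have hev1 := Iface.eventually_etan_le δ hδ0 (c := min (1 / 10) (tauq q / (36 * q)))
    (lt_min (by norm_num) (by positivity))
  have hev2 := Iface.eventually_kap_le δ hδ0 hδ1
  have hev3 : ∀ᶠ n : ℕ in atTop, (200:ℝ) ≤ (n:ℝ) ^ δ :=
    ((tendsto_rpow_atTop hδ0).comp tendsto_natCast_atTop_atTop).eventually_ge_atTop 200
  have hev4 := Iface.eventually_Xn_ge δ hδ0.le (1000 + 320 * q)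
  have hev5 : ∀ᶠ n : ℕ in atTop, ((1 + Gam q) * K0) * 2 ^ r ≤ (n:ℝ) :=
    tendsto_natCast_atTop_atTop.eventually_ge_atTop _
  filter_upwards [hev1, hev2, hev3, hev4, hev5, eventually_ge_atTop 4] with n h1 h2 h3 h4 h5 h6
  intro G hG k
  have hn1 : 1 ≤ n := by omega
  have hn0 : (0:ℝ) < (n:ℝ) := by exact_mod_cast hn1
  have hη0 : 0 < etan δ n := Iface.etan_pos hn1
  have hη1 : etan δ n ≤ 1 / 10 := h1.trans (min_le_left _ _)
  have hη2 : etan δ n ≤ tauq q / (36 * q) := h1.trans (min_le_right _ _)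
  have hη3 : 36 * (q:ℝ) * etan δ n ≤ tauq q := by
    have := (le_div_iff₀ (by positivity : 0 < 36 * (q:ℝ))).1 hη2
    linarith
  have hk2 : ∀ x : ℝ, Xn δ n ≤ x → x ≤ x0n n → Kap.kap n (x0n n) (etan δ n) x ≤ 1 / 2 := by
    intro x hx hx'
    have h7 := h2 x hx hx'
    have h8 : (n:ℝ) ^ (-(δ / 9)) ≤ 1 :=
      Real.rpow_le_one_of_one_le_of_nonpos (by exact_mod_cast hn1) (by linarith)
    linarith
  have hth := th1_le hq2 hη3
  have hτ96 := tauq_le hq1
  have hG0 := Gam_pos hq1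
  -- constant noise bound
  set Cμ : ℝ := K0 * (2 / (n:ℝ) ^ δ) ^ r with hCμ
  have hCμ0 : 0 ≤ Cμ := by positivity
  have hfin := hit_reg_final (n := n) (q := q) ⟨r, hr⟩ hq2 (η := etan δ n) (κ := κ)
    (a := 3 * etan δ n) (b := 3 * κ) (c := 3 * Drift.th1 (q - 2) 400 (etan δ n) (eps0 q))
    (cZ := 1 / 8) (Cμ := Cμ) hη0 (by linarith) hκ0 (by linarith)
    (by
      have h9 : (1:ℝ) ≤ q := by exact_mod_cast hq1
      have : 3 * etan δ n ≤ 36 * q * etan δ n := by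
        refine mul_le_mul_of_nonneg_right ?_ hη0.le
        linarith
      linarith)
    (by linarith) hκ hth le_rfl hCμ0 (by omega) G ?_ k
  · refine hfin.trans ?_
    have hc := final_count (n := n) (r := r) (δ := δ) (A := A) (C := (1 + Gam q) * K0)
      (x0 := x0n n) hn1 (by positivity) (Iface.x0n_le n)
      (by
        rw [hqr] at hA
        push_cast at hA
        linarith) h5
    have e : 2 * ((allEdges n).card : ℝ) * ((1 + Gam q) * Cμ) / etan δ n ^ q =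
        2 * x0n n * ((1 + Gam q) * K0 * (2 / (n:ℝ) ^ δ) ^ r) / etan δ n ^ (2 * r) := by
      rw [hCμ, hqr]
      unfold x0n
      ring
    rw [e]
    exact hc
  · intro E hE hgood _
    have hge := hG E hgood
    obtain ⟨hm0, hm1, hm2⟩ := window_bounds hn1 (by linarith) hk2 hge.toPreE
    have hXx : 1000 + 320 * (q:ℝ) ≤ (E.card : ℝ) := h4.trans hge.size
    have hx0 : (0:ℝ) < (E.card:ℝ) := by linarith
    have hxx : (E.card : ℝ) ≤ (n:ℝ) ^ 2 / 2 :=
      (Iface.card_le_x0n hE).trans (Iface.x0n_le n)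
    have hnice : Drift.Nice (triHyp n) E (etan δ n) := by
      refine ⟨lin3_triHyp n, by linarith, ?_, ?_, hη0.le, hη1, zt_of_reg hE hge.reg⟩
      · have : Drift.mc (triHyp n) E = mE E := rfl
        rw [this]
        linarith
      · have : Drift.mc (triHyp n) E = mE E := rfl
        rw [this]
        refine hm2.trans ?_
        unfold Kap.lamx
        have h4n : (4:ℝ) ≤ (n:ℝ) := by exact_mod_cast h6
        rw [← mul_div_assoc, div_le_iff₀ (by positivity)]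
        have h8 : 8 * (E.card:ℝ) ≤ (n:ℝ) ^ 3 := by
          have : 4 * (n:ℝ) ^ 2 ≤ (n:ℝ) * (n:ℝ) ^ 2 :=
            mul_le_mul_of_nonneg_right h4n (by positivity)
          nlinarith
        nlinarith
    obtain ⟨hZ, hH⟩ := hin n E (etan δ n) κ (eps0 q) hE hnice hκ0 (by linarith) hge.link
      (eps0_pos hq1)
    have hpow : (1 / mE E) ^ (q / 2) ≤ (2 / (n:ℝ) ^ δ) ^ r := by
      have hq' : q / 2 = r := by omega
      rw [hq']
      refine pow_le_pow_left₀ (by positivity) ?_ r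
      rw [div_le_div_iff₀ hm0 (by positivity)]
      linarith
    have hC1 : 2 * Drift.Kc (q - 2) 400 (eps0 q) * (1 / mE E) ^ (q / 2) ≤ Cμ := by
      rw [← hK0, hCμ]
      exact mul_le_mul_of_nonneg_left hpow hK0n
    refine ⟨hm0, hge.link, driftZ_mono ?_ hC1 hZ, driftH_mono le_rfl le_rfl le_rfl hC1 hH⟩
    have h9 : 20 * (q:ℝ) / (E.card:ℝ) ≤ 1 / 16 := by
      rw [div_le_iff₀ hx0]
      linarith
    linarith

end Crest.Agent.R030.StageC
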