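import Crest.Agent.R030.Main
import Crest.Agent.R030.Stage1Hit
import Crest.Agent.R030.StageC
import Crest.Agent.R030.HTrans
import Crest.Agent.R030.GoodCav

/-!
Row 30 (S0040), helper745: all inputs except the error estimates of the last window.
-/

set_option autoImplicit false

open Finset Filter Topology
open Crest.CombinatoricsR.TriangleRemoval

namespace Crest.Agent.R030.Main

open Crest.Agent.R030.LW Crest.Agent.R030.Iface

theorem driftInput {q : ℕ} (hq : Even q) (hq2 : 2 ≤ q) : StageC.DriftInput q := by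
  intro n E η κ ε hE hN hκ hκ1 hlink hε
  exact HD.drift_final hq hq2 hE hN hε hκ hκ1 hlink

theorem of_err {δ : ℝ} (hδ0 : 0 < δ) (hδ1 : δ ≤ 1 / 100) {k : ℕ} (hq : Even (k + 3))
    (hqδ : 400 / δ ≤ ((k + 3 : ℕ) : ℝ)) {κ : ℝ} (hκ0 : 0 < κ) (hκ1 : κ ≤ 1 / 400400)
    (hκ : 3 * κ ≤ tauq (k + 3))
    (hE1 : ∀ᶠ n : ℕ in atTop,
      (baseKer (triHyp n)).kill (GoodE δ (k + 3) κ) (gprs δ (k + 3) κ n) (kn δ n) (allEdges n)
        ≤ (n : ℝ) ^ ((7:ℝ) / 5))
    (hE2 : ∀ᶠ n : ℕ in atTop,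
      (baseKer (triHyp n)).kill (GoodE δ (k + 3) κ) (gcnt δ (k + 3) κ n) (kn δ n) (allEdges n)
        ≤ (n : ℝ) ^ ((29:ℝ) / 10)) :
    Tendsto (fun n : ℕ =>
      expectFinal
        (fun e : ℕ => ((e : ℝ) / (n : ℝ) ^ ((3 : ℝ) / 2) - 1 / (2 * Real.sqrt 2)) ^ 2)
        (n ^ 2) (allEdges n)) atTop (nhds 0) := by
  have hδ1' : δ < 1 := by linarith
  have h400 : 400 ≤ δ * ((k + 3 : ℕ) : ℝ) := by
    rw [div_le_iff₀ hδ0] at hqδ
    linarith
  refine main_of_inputs hδ0 hδ1 (q := k + 3) (κ := κ) ?_ ?_ ?_ hE1 hE2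
  · have h := StageC.hit_reg_eventually hδ0 hδ1' (q := k + 3) hq (by omega) (A := 3)
      (by nlinarith) hκ0.le hκ (driftInput hq (by omega))
    filter_upwards [h] with n hn
    exact hn (GoodE δ (k + 3) κ) (fun E hE => hE) (kn δ n)
  · have h := Good2.badLink_hit hδ0 hδ1' k hκ0 3
    filter_upwards [h] with n hn
    exact hn (GoodE δ (k + 3) κ) (fun E hE => hE.toPreE) (kn δ n) le_rfl
  · have h := GoodCav.cavHyp_eventually (q := k + 3) hδ0 hδ1' hκ0.le hκ1 hqδ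
    filter_upwards [h, eventually_ge_atTop 1] with n hn h1 Γ hΓ hcard e he
    have hM : n ^ 2 ≤ MM n := by
      unfold MM
      exact Nat.pow_le_pow_right h1 (by norm_num)
    exact GoodCav.rootQ_log (hn (MM n) hM Γ hΓ hcard.le) he

end Crest.Agent.R030.Main
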