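import Mathlib

/-!
Row 30 (S0040), triangle removal, block (D) of the last window: the discrete cavity recursion.

`H` is the set of live hyperedges.  `cav H M s T v` is the probability (all labels fresh, uniform in
`{0,..,M-1}`) that `T` is accepted before time `s` as seen from `v` (hyperedges through `v` ignored);
`liv` is the probability that `T` is not blocked; `surv H M s e` is the cavity survival probability of
the vertex `e` up to time `s`.

Main result `cavity_step`: the one-step equation of `log (surv) + (1/2) log (1 + 2 m s / M)`.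
-/

set_option autoImplicit false

namespace Crest.Agent.R030.Cavity

open Finset

variable {V : Type*} [DecidableEq V]

/-- Hyperedges through `v`. -/
def at' (H : Finset (Finset V)) (v : V) : Finset (Finset V) := H.filter (fun T => v ∈ T)

/-- `∏_{T' ∋ w, T' ≠ T} (1 - a T' w)`. -/
noncomputable def msg (H : Finset (Finset V)) (a : Finset V → V → ℝ) (T : Finset V) (w : V) : ℝ :=
  ∏ T' ∈ (at' H w).erase T, (1 - a T' w)

/-- Probability that `T` is not blocked through the vertices `≠ v`. -/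
noncomputable def liv (H : Finset (Finset V)) (a : Finset V → V → ℝ) (T : Finset V) (v : V) : ℝ :=
  ∏ w ∈ T.erase v, msg H a T w

/-- The cavity recursion: `cav H M s T v = (1/M) ∑_{l < s} liv H (cav H M l) T v`. -/
noncomputable def cav (H : Finset (Finset V)) (M : ℕ) : ℕ → Finset V → V → ℝ
  | 0 => fun _ _ => 0
  | s + 1 => fun T v => cav H M s T v + (M : ℝ)⁻¹ * liv H (cav H M s) T v

/-- Cavity survival probability of the vertex `e` up to time `s`. -/
noncomputable def surv (H : Finset (Finset V)) (M s : ℕ) (e : V) : ℝ :=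
  ∏ T ∈ at' H e, (1 - cav H M s T e)

theorem cav_zero (H : Finset (Finset V)) (M : ℕ) (T : Finset V) (v : V) : cav H M 0 T v = 0 := rfl

theorem cav_succ (H : Finset (Finset V)) (M s : ℕ) (T : Finset V) (v : V) :
    cav H M (s + 1) T v = cav H M s T v + (M : ℝ)⁻¹ * liv H (cav H M s) T v := rfl

theorem cav_eq_sum (H : Finset (Finset V)) (M s : ℕ) (T : Finset V) (v : V) :
    cav H M s T v = (M : ℝ)⁻¹ * ∑ l ∈ range s, liv H (cav H M l) T v := by
  induction s with
  | zero => simp [cav_zero]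
  | succ s ih => rw [cav_succ, Finset.sum_range_succ, mul_add, ih]

theorem msg_mem {H : Finset (Finset V)} {a : Finset V → V → ℝ}
    (ha : ∀ T v, 0 ≤ a T v ∧ a T v ≤ 1) (T : Finset V) (w : V) :
    0 ≤ msg H a T w ∧ msg H a T w ≤ 1 := by
  constructor
  · exact Finset.prod_nonneg fun T' _ => by linarith [(ha T' w).2]
  · exact Finset.prod_le_one (fun T' _ => by linarith [(ha T' w).2])
      (fun T' _ => by linarith [(ha T' w).1])

theorem liv_mem {H : Finset (Finset V)} {a : Finset V → V → ℝ}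
    (ha : ∀ T v, 0 ≤ a T v ∧ a T v ≤ 1) (T : Finset V) (v : V) :
    0 ≤ liv H a T v ∧ liv H a T v ≤ 1 :=
  ⟨Finset.prod_nonneg fun w _ => (msg_mem ha T w).1,
    Finset.prod_le_one (fun w _ => (msg_mem ha T w).1) (fun w _ => (msg_mem ha T w).2)⟩

theorem cav_mem (H : Finset (Finset V)) {M : ℕ} (hM : 0 < M) :
    ∀ s : ℕ, s ≤ M → ∀ T v, 0 ≤ cav H M s T v ∧ cav H M s T v ≤ (s : ℝ) / M := by
  have hM' : (0 : ℝ) < M := by exact_mod_cast hM
  intro s
  induction s with
  | zero => intro _ T v; simp [cav_zero]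
  | succ s ih =>
    intro hs T v
    have h1 := ih (by omega)
    have h2 : ∀ T v, 0 ≤ cav H M s T v ∧ cav H M s T v ≤ 1 := fun T v =>
      ⟨(h1 T v).1, (h1 T v).2.trans (by
        rw [div_le_one hM']; exact_mod_cast (by omega : s ≤ M))⟩
    have h3 := liv_mem (H := H) h2 T v
    rw [cav_succ]
    have h4 : 0 ≤ (M : ℝ)⁻¹ := by positivity
    constructor
    · have := mul_nonneg h4 h3.1
      linarith [(h1 T v).1]
    · have h5 := mul_le_mul_of_nonneg_left h3.2 h4
      have h6 : ((s + 1 : ℕ) : ℝ) / M = (s : ℝ) / M + (M : ℝ)⁻¹ := by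
        push_cast; field_simp
      rw [h6]
      linarith [(h1 T v).2]

/-- `msg * (1 - a) = full product`. -/
theorem msg_mul {H : Finset (Finset V)} {M s : ℕ} {T : Finset V} (hT : T ∈ H) {w : V}
    (hw : w ∈ T) :
    msg H (cav H M s) T w * (1 - cav H M s T w) = surv H M s w := by
  have h : T ∈ at' H w := by simp [at', hT, hw]
  unfold msg surv
  rw [mul_comm, Finset.mul_prod_erase (at' H w) (fun T' => 1 - cav H M s T' w) h]

/-- The reference density `1 + 2 m s / M`. -/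
noncomputable def RR (m : ℝ) (M s : ℕ) : ℝ := 1 + 2 * m * s / M

/-- The logarithmic deviation of the survival probability. -/
noncomputable def dev (H : Finset (Finset V)) (m : ℝ) (M s : ℕ) (e : V) : ℝ :=
  Real.log (surv H M s e) + (1 / 2) * Real.log (RR m M s)

/-- Step of the logarithmic time. -/
noncomputable def dt (m : ℝ) (M s : ℕ) : ℝ := m / M / RR m M s

theorem RR_ge_one {m : ℝ} (hm : 0 ≤ m) (M s : ℕ) : 1 ≤ RR m M s := by
  unfold RR
  have : 0 ≤ 2 * m * s / M := by positivity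
  linarith

theorem RR_pos {m : ℝ} (hm : 0 ≤ m) (M s : ℕ) : 0 < RR m M s :=
  lt_of_lt_of_le one_pos (RR_ge_one hm M s)

theorem RR_succ {m : ℝ} (hm : 0 ≤ m) {M : ℕ} (hM : 0 < M) (s : ℕ) :
    RR m M (s + 1) = RR m M s * (1 + 2 * dt m M s) := by
  have h := RR_pos hm M s
  have hM' : (0 : ℝ) < M := by exact_mod_cast hM
  have h1 : RR m M s * (1 + 2 * dt m M s) = RR m M s + 2 * (m / M) := by
    unfold dt
    field_simp
  rw [h1]
  unfold RR
  push_cast
  field_simp
  ring

theorem dt_nonneg {m : ℝ} (hm : 0 ≤ m) (M s : ℕ) : 0 ≤ dt m M s := by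
  unfold dt
  have := RR_pos hm M s
  positivity

theorem dt_le {m : ℝ} (hm : 0 ≤ m) (M s : ℕ) : dt m M s ≤ m / M := by
  unfold dt
  exact div_le_self (by positivity) (RR_ge_one hm M s)

theorem abs_log_one_sub_add {x : ℝ} (h0 : 0 ≤ x) (h1 : x ≤ 1 / 2) :
    |Real.log (1 - x) + x| ≤ 2 * x ^ 2 := by
  have hp : 0 < 1 - x := by linarith
  have a1 : Real.log (1 - x) ≤ -x := by
    have := Real.log_le_sub_one_of_pos hp
    linarith
  have a2 : 1 - (1 - x)⁻¹ ≤ Real.log (1 - x) := Real.one_sub_inv_le_log_of_pos hp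
  have a3 : (1 - x)⁻¹ ≤ 1 + x + 2 * x ^ 2 := by
    rw [inv_le_iff_one_le_mul₀ hp]
    nlinarith [mul_nonneg (mul_nonneg h0 h0) (by linarith : (0 : ℝ) ≤ 1 - 2 * x)]
  rw [abs_le]
  constructor
  · linarith
  · nlinarith [sq_nonneg x]

theorem abs_half_log_sub {y : ℝ} (h0 : 0 ≤ y) :
    |(1 / 2) * Real.log (1 + 2 * y) - y| ≤ 2 * y ^ 2 := by
  have hp : 0 < 1 + 2 * y := by linarith
  have a1 : Real.log (1 + 2 * y) ≤ 2 * y := by
    have := Real.log_le_sub_one_of_pos hp
    linarith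
  have a2 : 1 - (1 + 2 * y)⁻¹ ≤ Real.log (1 + 2 * y) := Real.one_sub_inv_le_log_of_pos hp
  have a3 : (1 + 2 * y)⁻¹ ≤ 1 - 2 * y + 4 * y ^ 2 := by
    rw [inv_le_iff_one_le_mul₀ hp]
    nlinarith [mul_nonneg (mul_nonneg h0 h0) h0]
  rw [abs_le]
  constructor <;> nlinarith [sq_nonneg y]

/-- `J s = (1/M) ∑_{l<s} 1 / RR l`. -/
noncomputable def JJ (m : ℝ) (M s : ℕ) : ℝ := (M : ℝ)⁻¹ * ∑ l ∈ range s, (RR m M l)⁻¹

theorem JJ_mono {m : ℝ} (hm : 0 ≤ m) (M : ℕ) {s t : ℕ} (h : s ≤ t) : JJ m M s ≤ JJ m M t := by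
  unfold JJ
  apply mul_le_mul_of_nonneg_left _ (by positivity)
  apply Finset.sum_le_sum_of_subset_of_nonneg
  · intro x hx
    rw [Finset.mem_range] at *
    omega
  · intro x _ _
    have := RR_pos hm M x
    positivity

/-- The exponent in `liv / (1 - a) = (1/RR) exp (expo)`. -/
noncomputable def expo (H : Finset (Finset V)) (m : ℝ) (M s : ℕ) (T : Finset V) (v : V) : ℝ :=
  ∑ w ∈ T.erase v, dev H m M s w - ∑ w ∈ T, Real.log (1 - cav H M s T w)

theorem surv_pos {H : Finset (Finset V)} {M s : ℕ} {α : ℝ} (hα : α ≤ 1 / 8)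
    (hc : ∀ T ∈ H, ∀ v ∈ T, 0 ≤ cav H M s T v ∧ cav H M s T v ≤ α) (e : V) :
    0 < surv H M s e := by
  apply Finset.prod_pos
  intro T hT
  simp only [at', Finset.mem_filter] at hT
  have := (hc T hT.1 e hT.2).2
  linarith

theorem liv_eq {H : Finset (Finset V)} {m : ℝ} (hm : 0 ≤ m) {M s : ℕ} {α : ℝ} (hα : α ≤ 1 / 8)
    (hc : ∀ T ∈ H, ∀ v ∈ T, 0 ≤ cav H M s T v ∧ cav H M s T v ≤ α)
    {T : Finset V} (hT : T ∈ H) (h3 : T.card = 3) {v : V} (hv : v ∈ T) :
    liv H (cav H M s) T v = (1 - cav H M s T v) * ((RR m M s)⁻¹ * Real.exp (expo H m M s T v)) := by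
  have hR := RR_pos hm M s
  have hpos : ∀ w ∈ T, 0 < 1 - cav H M s T w := fun w hw => by
    have := (hc T hT w hw).2
    linarith
  have h1 : liv H (cav H M s) T v =
      ∏ w ∈ T.erase v, Real.exp (Real.log (surv H M s w) - Real.log (1 - cav H M s T w)) := by
    unfold liv
    apply Finset.prod_congr rfl
    intro w hw
    have hw' := Finset.mem_of_mem_erase hw
    have h2 := msg_mul (M := M) (s := s) hT hw'
    rw [Real.exp_sub, Real.exp_log (surv_pos hα hc w), Real.exp_log (hpos w hw'), ← h2]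
    field_simp [(hpos w hw').ne']
  rw [h1, ← Real.exp_sum, Finset.sum_sub_distrib]
  have h3' : (T.erase v).card = 2 := by rw [Finset.card_erase_of_mem hv, h3]
  have h4 : ∑ w ∈ T.erase v, Real.log (surv H M s w) =
      ∑ w ∈ T.erase v, dev H m M s w - Real.log (RR m M s) := by
    unfold dev
    rw [Finset.sum_add_distrib, Finset.sum_const, h3']
    simp only [nsmul_eq_mul]
    push_cast
    ring
  have h5 : ∑ w ∈ T, Real.log (1 - cav H M s T w) =
      Real.log (1 - cav H M s T v) + ∑ w ∈ T.erase v, Real.log (1 - cav H M s T w) :=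
    (Finset.add_sum_erase T _ hv).symm
  have h6 : ∑ w ∈ T.erase v, Real.log (surv H M s w) -
      ∑ w ∈ T.erase v, Real.log (1 - cav H M s T w) =
      Real.log (1 - cav H M s T v) + (-Real.log (RR m M s) + expo H m M s T v) := by
    rw [h4]
    unfold expo
    rw [h5]
    ring
  rw [h6, Real.exp_add, Real.exp_log (hpos v hv), Real.exp_add, Real.exp_neg, Real.exp_log hR]

/-- Bounds on the exponent. -/
theorem expo_bound {H : Finset (Finset V)} {m : ℝ} {M s : ℕ} {α η₁ : ℝ} (hα0 : 0 ≤ α)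
    (hα : α ≤ 1 / 8)
    (hc : ∀ T ∈ H, ∀ v ∈ T, 0 ≤ cav H M s T v ∧ cav H M s T v ≤ α)
    (hd : ∀ T ∈ H, ∀ v ∈ T, |dev H m M s v| ≤ η₁)
    {T : Finset V} (hT : T ∈ H) (h3 : T.card = 3) {v : V} (hv : v ∈ T) :
    |expo H m M s T v| ≤ 2 * η₁ + 4 * α ∧
    |expo H m M s T v - ∑ w ∈ T.erase v, dev H m M s w| ≤ 4 * α := by
  have h3' : (T.erase v).card = 2 := by rw [Finset.card_erase_of_mem hv, h3]
  have h1 : |∑ w ∈ T.erase v, dev H m M s w| ≤ 2 * η₁ := by
    calc |∑ w ∈ T.erase v, dev H m M s w| ≤ ∑ w ∈ T.erase v, |dev H m M s w| :=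
          Finset.abs_sum_le_sum_abs _ _
      _ ≤ ∑ w ∈ T.erase v, η₁ := Finset.sum_le_sum fun w hw =>
          hd T hT w (Finset.mem_of_mem_erase hw)
      _ = 2 * η₁ := by rw [Finset.sum_const, h3']; simp
  have h2 : |∑ w ∈ T, Real.log (1 - cav H M s T w)| ≤ 4 * α := by
    calc |∑ w ∈ T, Real.log (1 - cav H M s T w)| ≤ ∑ w ∈ T, |Real.log (1 - cav H M s T w)| :=
          Finset.abs_sum_le_sum_abs _ _
      _ ≤ ∑ w ∈ T, (4 / 3 * α) := Finset.sum_le_sum fun w hw => by
          have h := hc T hT w hw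
          have h4 := abs_log_one_sub_add h.1 (by linarith)
          have h5 : 2 * cav H M s T w ^ 2 ≤ 1 / 3 * α := by nlinarith [h.1, h.2]
          have h6 : |Real.log (1 - cav H M s T w)| ≤
              |Real.log (1 - cav H M s T w) + cav H M s T w| + |cav H M s T w| := by
            have := abs_sub (Real.log (1 - cav H M s T w) + cav H M s T w) (cav H M s T w)
            simpa using this
          rw [abs_of_nonneg h.1] at h6
          linarith [h.2]
      _ = 4 * α := by rw [Finset.sum_const, h3]; simp; ring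
  unfold expo
  constructor
  · calc |∑ w ∈ T.erase v, dev H m M s w - ∑ w ∈ T, Real.log (1 - cav H M s T w)|
        ≤ |∑ w ∈ T.erase v, dev H m M s w| + |∑ w ∈ T, Real.log (1 - cav H M s T w)| :=
          abs_sub _ _
      _ ≤ 2 * η₁ + 4 * α := add_le_add h1 h2
  · have : ∑ w ∈ T.erase v, dev H m M s w - ∑ w ∈ T, Real.log (1 - cav H M s T w) -
        ∑ w ∈ T.erase v, dev H m M s w = -∑ w ∈ T, Real.log (1 - cav H M s T w) := by ring
    rw [this, abs_neg]
    exact h2

theorem liv_le {H : Finset (Finset V)} {m : ℝ} (hm : 0 ≤ m) {M s : ℕ} {α η₁ : ℝ} (hα0 : 0 ≤ α)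
    (hα : α ≤ 1 / 8) (hη : 2 * η₁ + 4 * α ≤ 1)
    (hc : ∀ T ∈ H, ∀ v ∈ T, 0 ≤ cav H M s T v ∧ cav H M s T v ≤ α)
    (hd : ∀ T ∈ H, ∀ v ∈ T, |dev H m M s v| ≤ η₁)
    {T : Finset V} (hT : T ∈ H) (h3 : T.card = 3) {v : V} (hv : v ∈ T) :
    0 ≤ liv H (cav H M s) T v ∧ liv H (cav H M s) T v ≤ 4 * (RR m M s)⁻¹ := by
  have hR : 0 < (RR m M s)⁻¹ := inv_pos.2 (RR_pos hm M s)
  rw [liv_eq hm hα hc hT h3 hv]
  have h := hc T hT v hv
  have he : Real.exp (expo H m M s T v) ≤ 4 := by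
    have h1 := (expo_bound hα0 hα hc hd hT h3 hv).1
    have h2 : expo H m M s T v ≤ 1 := (le_abs_self _).trans (h1.trans hη)
    calc Real.exp (expo H m M s T v) ≤ Real.exp 1 := Real.exp_le_exp.2 h2
      _ ≤ 4 := by linarith [Real.exp_one_lt_d9]
  have he0 := Real.exp_pos (expo H m M s T v)
  constructor
  · apply mul_nonneg (by linarith) (by positivity)
  · calc (1 - cav H M s T v) * ((RR m M s)⁻¹ * Real.exp (expo H m M s T v))
        ≤ 1 * ((RR m M s)⁻¹ * Real.exp (expo H m M s T v)) :=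
          mul_le_mul_of_nonneg_right (by linarith) (by positivity)
      _ ≤ 4 * (RR m M s)⁻¹ := by
          rw [one_mul, mul_comm]
          exact mul_le_mul_of_nonneg_right he hR.le

/-- All cavity probabilities are small as long as the deviations are. -/
theorem cav_small {H : Finset (Finset V)} (h3 : ∀ T ∈ H, T.card = 3) {m : ℝ} (hm : 0 ≤ m)
    {M : ℕ} {η₁ α : ℝ} (hα : 4 * JJ m M M ≤ α) (hα8 : α ≤ 1 / 8) (hη : 2 * η₁ + 4 * α ≤ 1) :
    ∀ s : ℕ, s ≤ M → (∀ l < s, ∀ T ∈ H, ∀ v ∈ T, |dev H m M l v| ≤ η₁) →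
      ∀ T ∈ H, ∀ v ∈ T, 0 ≤ cav H M s T v ∧ cav H M s T v ≤ 4 * JJ m M s := by
  have hJ0 : 0 ≤ JJ m M M := by
    unfold JJ
    apply mul_nonneg (by positivity)
    exact Finset.sum_nonneg fun l _ => (inv_pos.2 (RR_pos hm M l)).le
  have hα0 : 0 ≤ α := by linarith
  intro s
  induction s with
  | zero =>
    intro _ _ T _ v _
    simp [cav_zero, JJ]
  | succ s ih =>
    intro hs hd T hT v hv
    have h1 := ih (by omega) (fun l hl => hd l (by omega))
    have h2 : ∀ T ∈ H, ∀ v ∈ T, 0 ≤ cav H M s T v ∧ cav H M s T v ≤ α := fun T hT v hv =>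
      ⟨(h1 T hT v hv).1, (h1 T hT v hv).2.trans (by
        have := JJ_mono hm M (by omega : s ≤ M)
        linarith)⟩
    have h4 := liv_le hm hα0 hα8 hη h2 (hd s (by omega)) hT (h3 T hT) hv
    have h5 : 0 ≤ (M : ℝ)⁻¹ := by positivity
    rw [cav_succ]
    constructor
    · have := mul_nonneg h5 h4.1
      linarith [(h1 T hT v hv).1]
    · have h6 := mul_le_mul_of_nonneg_left h4.2 h5
      have h7 : 4 * JJ m M (s + 1) = 4 * JJ m M s + (M : ℝ)⁻¹ * (4 * (RR m M s)⁻¹) := by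
        unfold JJ
        rw [Finset.sum_range_succ]
        ring
      rw [h7]
      linarith [(h1 T hT v hv).2]

/-- **One-step equation** for the logarithmic deviation. -/
theorem cavity_step {H : Finset (Finset V)} (h3 : ∀ T ∈ H, T.card = 3) {m : ℝ} (hm : 0 < m)
    {M s : ℕ} (hM : 8 ≤ M) {α η₁ : ℝ} (hα0 : 0 ≤ α) (hα : α ≤ 1 / 8)
    (hη : 2 * η₁ + 4 * α ≤ 1)
    (hc : ∀ T ∈ H, ∀ v ∈ T, 0 ≤ cav H M s T v ∧ cav H M s T v ≤ α)
    (hd : ∀ T ∈ H, ∀ v ∈ T, |dev H m M s v| ≤ η₁)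
    {e : V} (hY : ((at' H e).card : ℝ) ≤ 2 * m) :
    ∃ r : ℝ, |r| ≤ 8 * α + 2 * (2 * η₁ + 4 * α) ^ 2 + (64 + 2 * m) / M ∧
      dev H m M (s + 1) e = dev H m M s e - dt m M s *
        ((((at' H e).card : ℝ) / m - 1) +
          (∑ T ∈ at' H e, ∑ w ∈ T.erase e, dev H m M s w) / m + r) := by
  have hMr : (8 : ℝ) ≤ M := by exact_mod_cast hM
  have hM0 : (0 : ℝ) < M := by linarith
  have hM0' : 0 < M := by omega
  have hR := RR_pos hm.le M s
  have hR1 := RR_ge_one hm.le M s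
  set δ := dt m M s with hδ
  have hδ0 : 0 < δ := by
    rw [hδ]; unfold dt; positivity
  have hδle : δ ≤ m / M := dt_le hm.le M s
  have hκ : (M : ℝ)⁻¹ * (RR m M s)⁻¹ = δ / m := by
    rw [hδ]; unfold dt; field_simp
  -- the jump probabilities
  set x : Finset V → ℝ := fun T => δ / m * Real.exp (expo H m M s T e) with hx
  have hmemH : ∀ T ∈ at' H e, T ∈ H ∧ e ∈ T := fun T hT => by
    simpa [at', Finset.mem_filter] using hT
  have hx0 : ∀ T, 0 ≤ x T := fun T => by
    rw [hx]; positivity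
  have hexp4 : ∀ T ∈ at' H e, Real.exp (expo H m M s T e) ≤ 4 := fun T hT => by
    obtain ⟨hTH, heT⟩ := hmemH T hT
    have h1 := (expo_bound hα0 hα hc hd hTH (h3 T hTH) heT).1
    have h2 : expo H m M s T e ≤ 1 := (le_abs_self _).trans (h1.trans hη)
    calc Real.exp (expo H m M s T e) ≤ Real.exp 1 := Real.exp_le_exp.2 h2
      _ ≤ 4 := by linarith [Real.exp_one_lt_d9]
  have hδm : δ / m ≤ 1 / M := by
    rw [div_le_div_iff₀ hm hM0]
    rw [le_div_iff₀ hM0] at hδle
    linarith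
  have hx4 : ∀ T ∈ at' H e, x T ≤ 4 * (δ / m) := fun T hT => by
    have := mul_le_mul_of_nonneg_left (hexp4 T hT) (by positivity : 0 ≤ δ / m)
    rw [hx]
    simp only
    linarith
  have hxhalf : ∀ T ∈ at' H e, x T ≤ 1 / 2 := fun T hT => by
    have h1 := hx4 T hT
    have h2 : (1 : ℝ) / M ≤ 1 / 8 := one_div_le_one_div_of_le (by norm_num) hMr
    linarith
  have hsurv : surv H M (s + 1) e = surv H M s e * ∏ T ∈ at' H e, (1 - x T) := by
    unfold surv
    rw [← Finset.prod_mul_distrib]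
    apply Finset.prod_congr rfl
    intro T hT
    obtain ⟨hTH, heT⟩ := hmemH T hT
    rw [cav_succ, liv_eq hm.le hα hc hTH (h3 T hTH) heT, hx]
    simp only
    rw [← hκ]
    ring
  have hlog : Real.log (surv H M (s + 1) e) =
      Real.log (surv H M s e) + ∑ T ∈ at' H e, Real.log (1 - x T) := by
    rw [hsurv, Real.log_mul (surv_pos hα hc e).ne', Real.log_prod]
    · intro T hT
      have := hxhalf T hT
      linarith
    · apply Finset.prod_ne_zero_iff.2
      intro T hT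
      have := hxhalf T hT
      linarith
  have hlogR : Real.log (RR m M (s + 1)) = Real.log (RR m M s) + Real.log (1 + 2 * δ) := by
    rw [RR_succ hm.le hM0', Real.log_mul hR.ne' (by positivity)]
  -- error terms
  set e1 : ℝ := ∑ T ∈ at' H e, (Real.log (1 - x T) + x T) with he1
  set e2 : ℝ := (1 / 2) * Real.log (1 + 2 * δ) - δ with he2
  set e3 : ℝ := ∑ T ∈ at' H e, (Real.exp (expo H m M s T e) - 1 -
    ∑ w ∈ T.erase e, dev H m M s w) with he3
  have hb1 : |e1| ≤ 64 * (δ * (δ / m)) := by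
    calc |e1| ≤ ∑ T ∈ at' H e, |Real.log (1 - x T) + x T| := Finset.abs_sum_le_sum_abs _ _
      _ ≤ ∑ T ∈ at' H e, 32 * (δ / m) ^ 2 := Finset.sum_le_sum fun T hT => by
          have h1 := abs_log_one_sub_add (hx0 T) (hxhalf T hT)
          have h2 : x T ^ 2 ≤ (4 * (δ / m)) ^ 2 := pow_le_pow_left₀ (hx0 T) (hx4 T hT) 2
          linarith [h1, h2]
      _ = (at' H e).card * (32 * (δ / m) ^ 2) := by rw [Finset.sum_const, nsmul_eq_mul]
      _ ≤ (2 * m) * (32 * (δ / m) ^ 2) :=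
          mul_le_mul_of_nonneg_right hY (by positivity)
      _ = 64 * (δ * (δ / m)) := by field_simp; ring
  have hb2 : |e2| ≤ 2 * δ ^ 2 := abs_half_log_sub hδ0.le
  have hb3 : |e3| ≤ 2 * m * (4 * α + (2 * η₁ + 4 * α) ^ 2) := by
    calc |e3| ≤ ∑ T ∈ at' H e, |Real.exp (expo H m M s T e) - 1 -
          ∑ w ∈ T.erase e, dev H m M s w| := Finset.abs_sum_le_sum_abs _ _
      _ ≤ ∑ T ∈ at' H e, (4 * α + (2 * η₁ + 4 * α) ^ 2) := Finset.sum_le_sum fun T hT => by
          obtain ⟨hTH, heT⟩ := hmemH T hT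
          obtain ⟨h1, h2⟩ := expo_bound hα0 hα hc hd hTH (h3 T hTH) heT
          have h4 := Real.abs_exp_sub_one_sub_id_le (h1.trans hη)
          have h5 : expo H m M s T e ^ 2 ≤ (2 * η₁ + 4 * α) ^ 2 := by
            rw [← sq_abs (expo H m M s T e)]
            exact pow_le_pow_left₀ (abs_nonneg _) h1 2
          calc |Real.exp (expo H m M s T e) - 1 - ∑ w ∈ T.erase e, dev H m M s w|
              = |(Real.exp (expo H m M s T e) - 1 - expo H m M s T e) +
                (expo H m M s T e - ∑ w ∈ T.erase e, dev H m M s w)| := by ring_nf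
            _ ≤ |Real.exp (expo H m M s T e) - 1 - expo H m M s T e| +
                |expo H m M s T e - ∑ w ∈ T.erase e, dev H m M s w| := abs_add_le _ _
            _ ≤ 4 * α + (2 * η₁ + 4 * α) ^ 2 := by linarith
      _ = (at' H e).card * (4 * α + (2 * η₁ + 4 * α) ^ 2) := by
          rw [Finset.sum_const, nsmul_eq_mul]
      _ ≤ 2 * m * (4 * α + (2 * η₁ + 4 * α) ^ 2) :=
          mul_le_mul_of_nonneg_right hY (by positivity)
  have hsumx : ∑ T ∈ at' H e, x T = δ / m * ((at' H e).card +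
      ∑ T ∈ at' H e, ∑ w ∈ T.erase e, dev H m M s w + e3) := by
    rw [he3, hx, ← Finset.mul_sum]
    congr 1
    rw [Finset.sum_sub_distrib, Finset.sum_sub_distrib, Finset.sum_const, nsmul_eq_mul]
    ring
  have hsumlog : ∑ T ∈ at' H e, Real.log (1 - x T) = e1 - ∑ T ∈ at' H e, x T := by
    rw [he1, Finset.sum_add_distrib]; ring
  have hhalf : (1 / 2) * Real.log (1 + 2 * δ) = e2 + δ := by rw [he2]; ring
  refine ⟨e3 / m - e1 / δ - e2 / δ, ?_, ?_⟩
  · have a1 : |e3 / m| ≤ 2 * (4 * α + (2 * η₁ + 4 * α) ^ 2) := by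
      rw [abs_div, abs_of_pos hm, div_le_iff₀ hm]
      linarith
    have a2 : |e1 / δ| ≤ 64 / M := by
      rw [abs_div, abs_of_pos hδ0, div_le_iff₀ hδ0]
      calc |e1| ≤ 64 * (δ * (δ / m)) := hb1
        _ ≤ 64 * (δ * (1 / M)) := by
            apply mul_le_mul_of_nonneg_left _ (by norm_num)
            exact mul_le_mul_of_nonneg_left hδm hδ0.le
        _ = 64 / M * δ := by ring
    have a3 : |e2 / δ| ≤ 2 * m / M := by
      rw [abs_div, abs_of_pos hδ0, div_le_iff₀ hδ0]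
      calc |e2| ≤ 2 * δ ^ 2 := hb2
        _ = 2 * δ * δ := by ring
        _ ≤ 2 * (m / M) * δ := by
            apply mul_le_mul_of_nonneg_right _ hδ0.le
            linarith
        _ = 2 * m / M * δ := by ring
    calc |e3 / m - e1 / δ - e2 / δ| ≤ |e3 / m - e1 / δ| + |e2 / δ| := abs_sub _ _
      _ ≤ |e3 / m| + |e1 / δ| + |e2 / δ| := by linarith [abs_sub (e3 / m) (e1 / δ)]
      _ ≤ 2 * (4 * α + (2 * η₁ + 4 * α) ^ 2) + 64 / M + 2 * m / M := by linarith
      _ = 8 * α + 2 * (2 * η₁ + 4 * α) ^ 2 + (64 + 2 * m) / M := by ring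
  · clear_value e3
    generalize hS : ∑ T ∈ at' H e, ∑ w ∈ T.erase e, dev H m M s w = S at hsumx ⊢
    unfold dev
    rw [hlog, hlogR, hsumlog, hsumx]
    have h7 : (1 / 2) * (Real.log (RR m M s) + Real.log (1 + 2 * δ)) =
        (1 / 2) * Real.log (RR m M s) + (e2 + δ) := by rw [← hhalf]; ring
    rw [h7]
    field_simp
    ring

end Crest.Agent.R030.Cavity
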