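import Crest.Agent.R030.Cavity1
import Crest.Agent.R030.TriOp
import Crest.Agent.R030.Bridge

/-!
Row 30 (S0040), block (D): the cavity recursion on a fixed good graph, sup-norm bound of the
logarithmic deviations by the discrete `L^q` Gronwall argument (helper656's `Nn_step`).
-/

set_option autoImplicit false

namespace Crest.Agent.R030.Cavity

open Finset Crest.CombinatoricsR.TriangleRemoval

section Graph

variable {n : ℕ}

theorem ne_of_mem {E : Finset (Sym2 (Fin n))} (hE : E ⊆ allEdges n) {u v : Fin n}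
    (h : s(u, v) ∈ E) : u ≠ v := by
  have := hE h
  rw [allEdges, Finset.mem_filter] at this
  intro huv
  exact this.2 (by rw [huv]; exact Sym2.mk_isDiag_iff.2 rfl)

theorem at_triHyp {E : Finset (Sym2 (Fin n))} (hE : E ⊆ allEdges n) {u v : Fin n}
    (huv : s(u, v) ∈ E) :
    at' (act (triHyp n) E) s(u, v) = (cn E u v).image (fun w => edgesOf ({u, v, w} : Finset (Fin n))) := by
  have huv' := ne_of_mem hE huv
  ext T
  rw [at', Finset.mem_filter, mem_act_triHyp, Finset.mem_image]
  constructor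
  · rintro ⟨⟨t, ht, rfl⟩, hT⟩
    rw [mem_triangles] at ht
    rw [mk_mem_edgesOf] at hT
    obtain ⟨hu, hv, _⟩ := hT
    have h2 : ((t.erase u).erase v).card = 1 := by
      rw [Finset.card_erase_of_mem (Finset.mem_erase.2 ⟨huv'.symm, hv⟩),
        Finset.card_erase_of_mem hu, ht.1]
    obtain ⟨w, hw⟩ := Finset.card_eq_one.1 h2
    have hwt : w ∈ (t.erase u).erase v := by rw [hw]; simp
    rw [Finset.mem_erase, Finset.mem_erase] at hwt
    have ht3 : t = {u, v, w} := by
      have e1 : t = insert u (insert v ((t.erase u).erase v)) := by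
        rw [Finset.insert_erase (Finset.mem_erase.2 ⟨huv'.symm, hv⟩), Finset.insert_erase hu]
      rw [e1, hw]
    refine ⟨w, ?_, by rw [← ht3]⟩
    rw [mem_cn]
    exact ⟨ht.2 (mk_mem_edgesOf.2 ⟨hu, hwt.2.2, hwt.2.1.symm⟩),
      ht.2 (mk_mem_edgesOf.2 ⟨hv, hwt.2.2, hwt.1.symm⟩)⟩
  · rintro ⟨w, hw, rfl⟩
    rw [mem_cn] at hw
    have huw := ne_of_mem hE hw.1
    have hvw := ne_of_mem hE hw.2
    refine ⟨⟨{u, v, w}, ?_, rfl⟩, ?_⟩
    · rw [mem_triangles]
      refine ⟨Finset.card_eq_three.2 ⟨u, v, w, huv', huw, hvw, rfl⟩, ?_⟩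
      rw [edgesOf_explicit huv' huw hvw]
      intro e he
      simp only [Finset.mem_insert, Finset.mem_singleton] at he
      rcases he with rfl | rfl | rfl
      · exact huv
      · exact hw.1
      · exact hw.2
    · rw [mk_mem_edgesOf]
      exact ⟨by simp, by simp, huv'⟩

theorem edgesOf_inj_cn {E : Finset (Sym2 (Fin n))} (hE : E ⊆ allEdges n) {u v : Fin n}
    (huv : s(u, v) ∈ E) :
    Set.InjOn (fun w => edgesOf ({u, v, w} : Finset (Fin n))) (cn E u v : Set (Fin n)) := by
  have huv' := ne_of_mem hE huv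
  intro w hw w' hw' h
  rw [Finset.mem_coe, mem_cn] at hw hw'
  have huw := ne_of_mem hE hw.1
  have hvw := ne_of_mem hE hw.2
  have huw' := ne_of_mem hE hw'.1
  have hvw' := ne_of_mem hE hw'.2
  have h2 := edgesOf_injOn (Finset.card_eq_three.2 ⟨u, v, w, huv', huw, hvw, rfl⟩)
    (Finset.card_eq_three.2 ⟨u, v, w', huv', huw', hvw', rfl⟩) h
  have h3 : w ∈ ({u, v, w'} : Finset (Fin n)) := by rw [← h2]; simp
  simp only [Finset.mem_insert, Finset.mem_singleton] at h3
  rcases h3 with h3 | h3 | h3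
  · exact absurd h3.symm huw
  · exact absurd h3.symm hvw
  · exact h3

theorem card_at_triHyp {E : Finset (Sym2 (Fin n))} (hE : E ⊆ allEdges n) {u v : Fin n}
    (huv : s(u, v) ∈ E) :
    (at' (act (triHyp n) E) s(u, v)).card = (cn E u v).card := by
  rw [at_triHyp hE huv, Finset.card_image_of_injOn (edgesOf_inj_cn hE huv)]

theorem sum_at_triHyp {E : Finset (Sym2 (Fin n))} (hE : E ⊆ allEdges n) {u v : Fin n}
    (huv : s(u, v) ∈ E) (g : Sym2 (Fin n) → ℝ) :
    ∑ T ∈ at' (act (triHyp n) E) s(u, v), ∑ f ∈ T.erase s(u, v), g f =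
      triA E (fun a b => g s(a, b)) u v := by
  have huv' := ne_of_mem hE huv
  rw [at_triHyp hE huv, Finset.sum_image (edgesOf_inj_cn hE huv)]
  unfold triA
  apply Finset.sum_congr rfl
  intro w hw
  rw [mem_cn] at hw
  have huw := ne_of_mem hE hw.1
  have hvw := ne_of_mem hE hw.2
  rw [edgesOf_explicit huv' huw hvw]
  have h1 : s(u, v) ∉ ({s(u, w), s(v, w)} : Finset (Sym2 (Fin n))) := by
    simp only [Finset.mem_insert, Finset.mem_singleton, Sym2.eq_iff]
    rintro ((⟨_, h⟩ | ⟨h, _⟩) | (⟨h, _⟩ | ⟨h, _⟩))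
    · exact hvw h
    · exact huw h
    · exact huv' h
    · exact huw h
  rw [Finset.erase_insert h1, Finset.sum_pair]
  intro h
  rw [Sym2.eq_iff] at h
  rcases h with ⟨h, _⟩ | ⟨h, _⟩
  · exact huv' h
  · exact huw h

end Graph

/-- Bound of the Riemann sum. -/
theorem JJ_le {m : ℝ} (hm : 0 < m) {M : ℕ} (hM : 0 < M) :
    JJ m M M ≤ 1 / M + Real.log (1 + 2 * m) / (2 * m) := by
  have hM' : (0 : ℝ) < M := by exact_mod_cast hM
  have key : ∀ s : ℕ, (M : ℝ)⁻¹ * ∑ l ∈ range (s + 1), (RR m M l)⁻¹ ≤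
      1 / M + Real.log (RR m M s) / (2 * m) := by
    intro s
    induction s with
    | zero =>
      simp [RR]
    | succ s ih =>
      rw [Finset.sum_range_succ, mul_add]
      have h0 := RR_pos hm.le M s
      have h1 := RR_pos hm.le M (s + 1)
      have h2 : Real.log (RR m M (s + 1)) - Real.log (RR m M s) ≥
          (2 * m / M) * (RR m M (s + 1))⁻¹ := by
        rw [← Real.log_div h1.ne' h0.ne']
        have h3 := Real.one_sub_inv_le_log_of_pos (div_pos h1 h0)
        refine le_trans (le_of_eq ?_) h3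
        rw [inv_div]
        have h4 : RR m M (s + 1) = RR m M s + 2 * m / M := by
          unfold RR; push_cast; ring
        field_simp
        rw [h4]
        field_simp
        ring
      have h5 : (M : ℝ)⁻¹ * (RR m M (s + 1))⁻¹ ≤
          (Real.log (RR m M (s + 1)) - Real.log (RR m M s)) / (2 * m) := by
        rw [le_div_iff₀ (by positivity)]
        refine le_trans (le_of_eq ?_) h2
        field_simp
      have h6 : Real.log (RR m M (s + 1)) / (2 * m) = Real.log (RR m M s) / (2 * m) +
        (Real.log (RR m M (s + 1)) - Real.log (RR m M s)) / (2 * m) := by ring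
      rw [h6]
      linarith
  obtain ⟨k, rfl⟩ : ∃ k, M = k + 1 := ⟨M - 1, by omega⟩
  have h := key k
  unfold JJ
  refine h.trans ?_
  have h7 : RR m (k + 1) k ≤ 1 + 2 * m := by
    unfold RR
    have : 2 * m * (k : ℝ) / ((k + 1 : ℕ) : ℝ) ≤ 2 * m := by
      rw [div_le_iff₀ hM']
      push_cast
      nlinarith
    linarith
  have h8 : Real.log (RR m (k + 1) k) ≤ Real.log (1 + 2 * m) :=
    Real.log_le_log (RR_pos hm.le _ _) h7
  have h9 : Real.log (RR m (k + 1) k) / (2 * m) ≤ Real.log (1 + 2 * m) / (2 * m) :=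
    div_le_div_of_nonneg_right h8 (by positivity)
  linarith

/-- Total logarithmic time. -/
theorem sum_dt (m : ℝ) (M s : ℕ) : ∑ l ∈ range s, dt m M l = m * JJ m M s := by
  unfold dt JJ
  rw [Finset.mul_sum, Finset.mul_sum]
  apply Finset.sum_congr rfl
  intro l _
  rw [div_eq_mul_inv, div_eq_mul_inv]
  ring

section Main

variable {n : ℕ}

/-- The hypergraph of live triangles. -/
abbrev HE (E : Finset (Sym2 (Fin n))) : Finset (Finset (Sym2 (Fin n))) := act (triHyp n) E

/-- Numerical size of the remainder in the one-step equation. -/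
noncomputable def bb (m : ℝ) (M : ℕ) (α η₁ : ℝ) : ℝ :=
  8 * α + 2 * (2 * η₁ + 4 * α) ^ 2 + (64 + 2 * m) / M

/-- **(D), abstract numerical form.**  On a fixed graph all whose codegrees are `m (1 ± η)` and whose
links satisfy the `L^q` bound, every cavity survival probability stays within `exp (± η₁)` of
`(1 + 2 m s / M)^{-1/2}`. -/
theorem cavity_dev {E : Finset (Sym2 (Fin n))} (hE : E ⊆ allEdges n) {q : ℕ} (hq : 1 ≤ q)
    {m η κ Γ κ₀ : ℝ} (hm : 0 < m) (hη : 0 ≤ η) (hη1 : η ≤ 1) (hκ : 0 ≤ κ) (hΓ : 0 ≤ Γ)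
    (h1 : 2 * κ * (1 + Γ) ≤ κ₀) (h2 : 2 * (1 + η) + 2 * η * Γ ≤ κ₀ * Γ)
    (hreg : Reg E m η) (hlink : LinkLq q E (κ * m))
    {M : ℕ} (hM : 8 ≤ M) (hmM : m ≤ M) {α η₁ : ℝ}
    (hα : 4 * JJ m M M ≤ α) (hα8 : α ≤ 1 / 8) (hηα : 2 * η₁ + 4 * α ≤ 1)
    (hnum : ((darts E).card : ℝ) ^ ((1 : ℝ) / (q : ℝ)) * ((1 + Γ) * (η + bb m M α η₁) *
      (m * JJ m M M) * Real.exp (κ₀ * (m * JJ m M M))) ≤ η₁) :
    ∀ s : ℕ, s ≤ M → ∀ e ∈ E, |dev (HE E) m M s e| ≤ η₁ := by
  have hq0 : q ≠ 0 := by omega
  have hM0 : 0 < M := by omega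
  have hMr : (0 : ℝ) < M := by exact_mod_cast hM0
  have hκ₀ : 0 ≤ κ₀ := by
    have : 0 ≤ 2 * κ * (1 + Γ) := by positivity
    linarith
  have hJ0 : ∀ s, 0 ≤ JJ m M s := fun s => by
    unfold JJ
    apply mul_nonneg (by positivity)
    exact Finset.sum_nonneg fun l _ => (inv_pos.2 (RR_pos hm.le M l)).le
  have hα0 : 0 ≤ α := by linarith [hJ0 M]
  have hb0 : 0 ≤ bb m M α η₁ := by
    unfold bb; positivity
  have hc3 : ∀ T ∈ HE E, T.card = 3 := fun T hT =>
    (lin3_triHyp n).card3 T (mem_act.1 hT).1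
  have hTE : ∀ T ∈ HE E, ∀ e ∈ T, e ∈ E := fun T hT e he => (mem_act.1 hT).2 he
  -- the strong induction
  have main : ∀ s : ℕ, s ≤ M →
      ((∀ e ∈ E, |dev (HE E) m M s e| ≤ η₁) ∧
        Nn q Γ E (fun u v => dev (HE E) m M s s(u, v)) ≤
          (1 + Γ) * (η + bb m M α η₁) * (m * JJ m M s) * Real.exp (κ₀ * (m * JJ m M s))) := by
    intro s
    induction s using Nat.strong_induction_on with
    | _ s ih =>
    intro hs
    have hN : Nn q Γ E (fun u v => dev (HE E) m M s s(u, v)) ≤
          (1 + Γ) * (η + bb m M α η₁) * (m * JJ m M s) * Real.exp (κ₀ * (m * JJ m M s)) := by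
      cases s with
      | zero =>
        have h0 : ∀ u v, s(u, v) ∈ E → |dev (HE E) m M 0 s(u, v)| ≤ 0 := by
          intro u v _
          simp [dev, surv, cav_zero, RR]
        have := Nn_mono (q := q) hΓ (F := fun u v => dev (HE E) m M 0 s(u, v))
          (G := fun _ _ => 0) h0
        refine this.trans ?_
        have h3 := Nn_const_le (E := E) hq0 hΓ 0
        simp only [abs_zero, mul_zero] at h3
        refine h3.trans ?_
        simp [JJ]
      | succ s =>
        obtain ⟨_, ihN⟩ := ih s (Nat.lt_succ_self s) (by omega)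
        have hdev : ∀ l < s + 1, ∀ T ∈ HE E, ∀ v ∈ T, |dev (HE E) m M l v| ≤ η₁ :=
          fun l hl T hT v hv => (ih l hl (by omega)).1 v (hTE T hT v hv)
        have hcav : ∀ T ∈ HE E, ∀ v ∈ T, 0 ≤ cav (HE E) M s T v ∧ cav (HE E) M s T v ≤ α := by
          intro T hT v hv
          have h3 := cav_small hc3 hm.le hα hα8 hηα s (by omega)
            (fun l hl => hdev l (by omega)) T hT v hv
          refine ⟨h3.1, h3.2.trans ?_⟩
          have := JJ_mono hm.le M (by omega : s ≤ M)
          linarith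
        set X : Fin n → Fin n → ℝ := fun u v => dev (HE E) m M s s(u, v) - dt m M s *
              (m⁻¹ * triA E (fun a b => dev (HE E) m M s s(a, b)) u v) with hX
        have hdt := dt_nonneg hm.le M s
        have hstep : ∀ u v, s(u, v) ∈ E → |dev (HE E) m M (s + 1) s(u, v) - X u v| ≤
            dt m M s * (η + bb m M α η₁) := by
          intro u v huv
          have hcn := hreg u v huv
          have hY : ((at' (HE E) s(u, v)).card : ℝ) ≤ 2 * m := by
            rw [card_at_triHyp hE huv]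
            have h4 := (abs_le.1 hcn).2
            have h5 : ((cn E u v).card : ℝ) / m ≤ 2 := by linarith
            rw [div_le_iff₀ hm] at h5
            exact h5
          obtain ⟨r, hr, heq⟩ := cavity_step hc3 hm hM hα0 hα8 hηα hcav
            (hdev s (Nat.lt_succ_self s)) hY
          rw [heq, sum_at_triHyp hE huv (fun f => dev (HE E) m M s f), card_at_triHyp hE huv]
          have e1 : dev (HE E) m M s s(u, v) - dt m M s * ((((cn E u v).card : ℝ) / m - 1) +
              triA E (fun a b => dev (HE E) m M s s(a, b)) u v / m + r) - X u v =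
              - (dt m M s * ((((cn E u v).card : ℝ) / m - 1) + r)) := by
            rw [hX, div_eq_inv_mul]; ring
          rw [e1, abs_neg, abs_mul, abs_of_nonneg hdt]
          apply mul_le_mul_of_nonneg_left _ hdt
          refine (abs_add_le _ _).trans ?_
          exact add_le_add hcn hr
        have hdt1 : dt m M s ≤ 1 := (dt_le hm.le M s).trans (by
          rw [div_le_one hMr]; exact hmM)
        have a1 := Nn_mono (q := q) hΓ hstep
        have a2 := Nn_add_le (E := E) hq hΓ X
          (fun u v => dev (HE E) m M (s + 1) s(u, v) - X u v)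
        have a3 := Nn_const_le (E := E) hq0 hΓ (dt m M s * (η + bb m M α η₁))
        rw [abs_of_nonneg (by positivity)] at a3
        have a4 := Nn_step hq hm hη hκ hdt hdt1 hΓ h1 h2 hreg hlink
          (fun u v => dev (HE E) m M s s(u, v))
        rw [← hX] at a4
        have a5 : (fun u v => X u v + (dev (HE E) m M (s + 1) s(u, v) - X u v)) =
            fun u v => dev (HE E) m M (s + 1) s(u, v) := by
          funext u v; ring
        rw [a5] at a2
        set G := (1 + Γ) * (η + bb m M α η₁) with hG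
        have hG0 : 0 ≤ G := by positivity
        have hJs := hJ0 s
        have hJ1 : m * JJ m M (s + 1) = m * JJ m M s + dt m M s := by
          rw [← sum_dt, ← sum_dt, Finset.sum_range_succ]
        have hexp : 1 + κ₀ * dt m M s ≤ Real.exp (κ₀ * dt m M s) := by
          have := Real.add_one_le_exp (κ₀ * dt m M s)
          linarith
        have hE1 : 1 ≤ Real.exp (κ₀ * (m * JJ m M (s + 1))) :=
          Real.one_le_exp (by have := hJ0 (s + 1); positivity)
        have hE2 : Real.exp (κ₀ * (m * JJ m M (s + 1))) =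
            Real.exp (κ₀ * dt m M s) * Real.exp (κ₀ * (m * JJ m M s)) := by
          rw [← Real.exp_add, hJ1]; ring_nf
        calc Nn q Γ E (fun u v => dev (HE E) m M (s + 1) s(u, v))
            ≤ (1 + κ₀ * dt m M s) * Nn q Γ E (fun u v => dev (HE E) m M s s(u, v)) +
              (1 + Γ) * (dt m M s * (η + bb m M α η₁)) := by linarith
          _ ≤ Real.exp (κ₀ * dt m M s) * (G * (m * JJ m M s) *
                Real.exp (κ₀ * (m * JJ m M s))) + G * dt m M s * 1 := by
              apply add_le_add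
              · exact mul_le_mul hexp ihN (Nn_nonneg q hΓ _) (Real.exp_pos _).le
              · rw [hG]; apply le_of_eq; ring
          _ ≤ Real.exp (κ₀ * dt m M s) * (G * (m * JJ m M s) *
                Real.exp (κ₀ * (m * JJ m M s))) +
                G * dt m M s * Real.exp (κ₀ * (m * JJ m M (s + 1))) := by
              have := mul_le_mul_of_nonneg_left hE1 (mul_nonneg hG0 hdt)
              linarith
          _ = G * (m * JJ m M (s + 1)) * Real.exp (κ₀ * (m * JJ m M (s + 1))) := by
              rw [hJ1, ← hJ1, hE2, hJ1]; ring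
    refine ⟨?_, hN⟩
    intro e he
    induction e using Sym2.ind with
    | _ u v =>
    have a1 := abs_le_zn (E := E) hq0 (fun u v => dev (HE E) m M s s(u, v)) he
    have a2 := zn_le_Nn (E := E) (q := q) hΓ (fun u v => dev (HE E) m M s s(u, v))
    refine a1.trans (le_trans ?_ hnum)
    apply mul_le_mul_of_nonneg_left _ (card_rpow_nonneg q E)
    refine a2.trans (hN.trans ?_)
    have hJ := JJ_mono hm.le M hs
    have hJs := hJ0 s
    have b1 : m * JJ m M s ≤ m * JJ m M M := mul_le_mul_of_nonneg_left hJ hm.le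
    have b2 : Real.exp (κ₀ * (m * JJ m M s)) ≤ Real.exp (κ₀ * (m * JJ m M M)) :=
      Real.exp_le_exp.2 (mul_le_mul_of_nonneg_left b1 hκ₀)
    have b3 : 0 ≤ (1 + Γ) * (η + bb m M α η₁) := by positivity
    have b4 : 0 ≤ m * JJ m M s := by positivity
    exact mul_le_mul (mul_le_mul_of_nonneg_left b1 b3) b2 (Real.exp_pos _).le
      (mul_nonneg b3 (b4.trans b1))
  exact fun s hs => (main s hs).1

end Main

end Crest.Agent.R030.Cavity
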