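import Crest.Agent.R030.Cavity2
import Crest.Agent.R030.Explore

/-!
Row 30 (S0040), block (D): output in the notation of `Explore` (`cavI`, `portQ`, `acAcc`, `rootQ`).
-/

set_option autoImplicit false

namespace Crest.Agent.R030.Cavity

open Finset Crest.CombinatoricsR.TriangleRemoval

section Conv

variable {V : Type} [DecidableEq V]

theorem portQ_eq_msg (H : Finset (Finset V)) (a : Finset V → V → ℝ) (T : Finset V) (w : V) :
    portQ H a T w = msg H a T w := by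
  unfold portQ msg at'
  apply Finset.prod_congr _ (fun _ _ => rfl)
  ext T'
  simp only [Finset.mem_filter, Finset.mem_erase]
  tauto

theorem cavI_eq_cav (H : Finset (Finset V)) (M s : ℕ) : cavI H M s = cav H M s := by
  induction s with
  | zero => rfl
  | succ s ih =>
    funext T v
    simp only [cavI, cav, liv, portQ_eq_msg, ih]

theorem rootQ_eq_surv (H : Finset (Finset V)) (M s : ℕ) (e : V) :
    rootQ H M s e = surv H M s e := by
  unfold rootQ surv at'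
  rw [cavI_eq_cav]

theorem acAcc_eq_liv (H : Finset (Finset V)) (M s : ℕ) (T : Finset V) (v : V) :
    acAcc H M s T v = liv H (cav H M s) T v := by
  unfold acAcc liv
  rw [cavI_eq_cav]
  exact Finset.prod_congr rfl fun w _ => portQ_eq_msg _ _ _ _

end Conv

section Out

variable {n : ℕ}

/-- The hypotheses of block (D) for the graph `E`, bundled. -/
structure CavHyp (E : Finset (Sym2 (Fin n))) (q M : ℕ) (m η κ Γ κ₀ α θ : ℝ) : Prop where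
  hE : E ⊆ allEdges n
  hq : 1 ≤ q
  hm : 0 < m
  hη : 0 ≤ η
  hη1 : η ≤ 1
  hκ : 0 ≤ κ
  hΓ : 0 ≤ Γ
  h1 : 2 * κ * (1 + Γ) ≤ κ₀
  h2 : 2 * (1 + η) + 2 * η * Γ ≤ κ₀ * Γ
  hreg : Reg E m η
  hlink : LinkLq q E (κ * m)
  hM : 8 ≤ M
  hmM : m ≤ M
  hα : 4 * JJ m M M ≤ α
  hα8 : α ≤ 1 / 8
  hθα : 2 * θ + 4 * α ≤ 1
  hnum : ((darts E).card : ℝ) ^ ((1 : ℝ) / (q : ℝ)) * ((1 + Γ) * (η + bb m M α θ) *
      (m * JJ m M M) * Real.exp (κ₀ * (m * JJ m M M))) ≤ θ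

theorem CavHyp.dev_le {E : Finset (Sym2 (Fin n))} {q M : ℕ} {m η κ Γ κ₀ α θ : ℝ}
    (h : CavHyp E q M m η κ Γ κ₀ α θ) :
    ∀ s : ℕ, s ≤ M → ∀ e ∈ E, |dev (HE E) m M s e| ≤ θ :=
  cavity_dev h.hE h.hq h.hm h.hη h.hη1 h.hκ h.hΓ h.h1 h.h2 h.hreg h.hlink h.hM h.hmM h.hα h.hα8
    h.hθα h.hnum

theorem CavHyp.cav_le {E : Finset (Sym2 (Fin n))} {q M : ℕ} {m η κ Γ κ₀ α θ : ℝ}
    (h : CavHyp E q M m η κ Γ κ₀ α θ) {s : ℕ} (hs : s ≤ M) :
    ∀ T ∈ HE E, ∀ v ∈ T, 0 ≤ cav (HE E) M s T v ∧ cav (HE E) M s T v ≤ α := by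
  intro T hT v hv
  have h3 := cav_small (fun T hT => (lin3_triHyp n).card3 T (mem_act.1 hT).1) h.hm.le h.hα h.hα8
    h.hθα s hs (fun l hl T hT v hv => h.dev_le l (by omega) v ((mem_act.1 hT).2 hv)) T hT v hv
  refine ⟨h3.1, h3.2.trans ?_⟩
  have := JJ_mono h.hm.le M hs
  linarith [h.hα]

/-- `(1 + 2 m s / M)^{-1/2}`. -/
noncomputable def qb (m : ℝ) (M s : ℕ) : ℝ := Real.exp (-(1 / 2) * Real.log (RR m M s))

theorem qb_pos (m : ℝ) (M s : ℕ) : 0 < qb m M s := Real.exp_pos _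

theorem qb_sq {m : ℝ} (hm : 0 ≤ m) (M s : ℕ) : qb m M s ^ 2 = (RR m M s)⁻¹ := by
  unfold qb
  rw [← Real.exp_nat_mul]
  have : ((2 : ℕ) : ℝ) * (-(1 / 2) * Real.log (RR m M s)) = -Real.log (RR m M s) := by
    push_cast; ring
  rw [this, Real.exp_neg, Real.exp_log (RR_pos hm M s)]

theorem qb_eq_rpow {m : ℝ} (hm : 0 ≤ m) (M s : ℕ) :
    qb m M s = (1 + 2 * m * s / M) ^ (-(1 / 2 : ℝ)) := by
  have h := RR_pos hm M s
  have e : (1 + 2 * m * s / M) = RR m M s := rfl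
  rw [e, Real.rpow_def_of_pos h]
  unfold qb
  ring_nf

theorem qb_eq_inv_sqrt {m : ℝ} (hm : 0 ≤ m) (M s : ℕ) :
    qb m M s = (Real.sqrt (1 + 2 * m * s / M))⁻¹ := by
  have h := RR_pos hm M s
  have e : (1 + 2 * m * s / M) = RR m M s := rfl
  rw [qb_eq_rpow hm, e, Real.rpow_neg h.le, Real.sqrt_eq_rpow]

theorem qb_last {m : ℝ} (hm : 0 ≤ m) {M : ℕ} (hM : 0 < M) :
    qb m M M = (Real.sqrt (1 + 2 * m))⁻¹ := by
  rw [qb_eq_inv_sqrt hm]
  have : (M : ℝ) ≠ 0 := by positivity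
  congr 2
  field_simp

/-- **(D), root survival.** -/
theorem CavHyp.rootQ_bounds {E : Finset (Sym2 (Fin n))} {q M : ℕ} {m η κ Γ κ₀ α θ : ℝ}
    (h : CavHyp E q M m η κ Γ κ₀ α θ) {s : ℕ} (hs : s ≤ M) {e : Sym2 (Fin n)} (he : e ∈ E) :
    Real.exp (-θ) * qb m M s ≤ rootQ (HE E) M s e ∧
      rootQ (HE E) M s e ≤ Real.exp θ * qb m M s := by
  have h1 := h.dev_le s hs e he
  have hpos := surv_pos (H := HE E) h.hα8 (h.cav_le hs) e
  rw [rootQ_eq_surv]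
  have h2 : surv (HE E) M s e = Real.exp (dev (HE E) m M s e) * qb m M s := by
    unfold dev qb
    rw [← Real.exp_add]
    have : Real.log (surv (HE E) M s e) + 1 / 2 * Real.log (RR m M s) +
      -(1 / 2) * Real.log (RR m M s) = Real.log (surv (HE E) M s e) := by ring
    rw [this, Real.exp_log hpos]
  rw [h2]
  rw [abs_le] at h1
  constructor
  · exact mul_le_mul_of_nonneg_right (Real.exp_le_exp.2 h1.1) (qb_pos m M s).le
  · exact mul_le_mul_of_nonneg_right (Real.exp_le_exp.2 h1.2) (qb_pos m M s).le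

/-- **(D), ports.** -/
theorem CavHyp.portQ_bounds {E : Finset (Sym2 (Fin n))} {q M : ℕ} {m η κ Γ κ₀ α θ : ℝ}
    (h : CavHyp E q M m η κ Γ κ₀ α θ) {s : ℕ} (hs : s ≤ M) {T : Finset (Sym2 (Fin n))}
    (hT : T ∈ HE E) {w : Sym2 (Fin n)} (hw : w ∈ T) :
    Real.exp (-θ) * qb m M s ≤ portQ (HE E) (cavI (HE E) M s) T w ∧
      portQ (HE E) (cavI (HE E) M s) T w ≤ 8 / 7 * (Real.exp θ * qb m M s) := by
  have h1 := h.rootQ_bounds hs ((mem_act.1 hT).2 hw)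
  have h2 := msg_mul (H := HE E) (M := M) (s := s) hT hw
  have h3 := h.cav_le hs T hT w hw
  rw [rootQ_eq_surv, ← h2] at h1
  rw [portQ_eq_msg, cavI_eq_cav]
  have h8 := h.hα8
  have hp : 0 < 1 - cav (HE E) M s T w := by linarith [h3.2]
  have hm0 : 0 ≤ msg (HE E) (cav (HE E) M s) T w := by
    apply Finset.prod_nonneg
    intro T' hT'
    simp only [at', Finset.mem_erase, Finset.mem_filter] at hT'
    have := (h.cav_le hs T' hT'.2.1 w hT'.2.2).2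
    linarith
  constructor
  · refine h1.1.trans ?_
    exact mul_le_of_le_one_right hm0 (by linarith [h3.1])
  · have h4 : (7 / 8 : ℝ) ≤ 1 - cav (HE E) M s T w := by linarith [h3.2]
    have h5 : msg (HE E) (cav (HE E) M s) T w * (7 / 8) ≤ Real.exp θ * qb m M s :=
      (mul_le_mul_of_nonneg_left h4 hm0).trans h1.2
    linarith

/-- `cavI` lies in `[0, α] ⊆ [0, 1/8]`. -/
theorem CavHyp.cavI_bounds {E : Finset (Sym2 (Fin n))} {q M : ℕ} {m η κ Γ κ₀ α θ : ℝ}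
    (h : CavHyp E q M m η κ Γ κ₀ α θ) {s : ℕ} (hs : s ≤ M) {T : Finset (Sym2 (Fin n))}
    (hT : T ∈ HE E) {w : Sym2 (Fin n)} (hw : w ∈ T) :
    0 ≤ cavI (HE E) M s T w ∧ cavI (HE E) M s T w ≤ α := by
  rw [cavI_eq_cav]; exact h.cav_le hs T hT w hw

/-- **(D), acceptance probability.** -/
theorem CavHyp.acAcc_bounds {E : Finset (Sym2 (Fin n))} {q M : ℕ} {m η κ Γ κ₀ α θ : ℝ}
    (h : CavHyp E q M m η κ Γ κ₀ α θ) {s : ℕ} (hs : s ≤ M) {T : Finset (Sym2 (Fin n))}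
    (hT : T ∈ HE E) {v : Sym2 (Fin n)} (hv : v ∈ T) :
    0 ≤ acAcc (HE E) M s T v ∧ acAcc (HE E) M s T v ≤ 4 * (RR m M s)⁻¹ := by
  have hJ0 : 0 ≤ JJ m M M := by
    unfold JJ
    apply mul_nonneg (by positivity)
    exact Finset.sum_nonneg fun l _ => (inv_pos.2 (RR_pos h.hm.le M l)).le
  have hα0 : 0 ≤ α := by linarith [h.hα]
  rw [acAcc_eq_liv]
  exact liv_le h.hm.le hα0 h.hα8 h.hθα (h.cav_le hs)
    (fun T hT v hv => h.dev_le s hs v ((mem_act.1 hT).2 hv)) hT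
    ((lin3_triHyp n).card3 T (mem_act.1 hT).1) hv

/-- **(D), visit probability**: removing one sibling costs only a factor `8/7`. -/
theorem CavHyp.siblings_le {E : Finset (Sym2 (Fin n))} {q M : ℕ} {m η κ Γ κ₀ α θ : ℝ}
    (h : CavHyp E q M m η κ Γ κ₀ α θ) {s : ℕ} (hs : s ≤ M) {T : Finset (Sym2 (Fin n))}
    (hT : T ∈ HE E) {v : Sym2 (Fin n)} (hv : v ∈ T)
    {d : Finset (Sym2 (Fin n)) × Sym2 (Fin n)} (hd : d ∈ chF (HE E) (T, v)) :
    0 ≤ ∏ c ∈ (chF (HE E) (T, v)).erase d, (1 - cavI (HE E) M s c.1 c.2) ∧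
    ∏ c ∈ (chF (HE E) (T, v)).erase d, (1 - cavI (HE E) M s c.1 c.2) ≤
      32 / 7 * (RR m M s)⁻¹ := by
  have h1 := (h.acAcc_bounds hs hT hv).2
  have h2 : ∏ c ∈ chF (HE E) (T, v), (1 - cavI (HE E) M s c.1 c.2) = acAcc (HE E) M s T v :=
    prod_chF (HE E) (T, v) (fun T' w => 1 - cavI (HE E) M s T' w)
  have h8 := h.hα8
  have hpos : ∀ c ∈ chF (HE E) (T, v), 0 ≤ 1 - cavI (HE E) M s c.1 c.2 ∧
      7 / 8 ≤ 1 - cavI (HE E) M s c.1 c.2 := by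
    intro c hc
    rw [mem_chF] at hc
    have := h.cavI_bounds hs hc.1 hc.2.2.2.1
    constructor <;> linarith [this.2]
  have h3 : 0 ≤ ∏ c ∈ (chF (HE E) (T, v)).erase d, (1 - cavI (HE E) M s c.1 c.2) :=
    Finset.prod_nonneg fun c hc => (hpos c (Finset.mem_of_mem_erase hc)).1
  refine ⟨h3, ?_⟩
  rw [← Finset.mul_prod_erase _ _ hd] at h2
  have h4 := mul_le_mul_of_nonneg_right (hpos d hd).2 h3
  linarith

/-- **(D), visit probability at the root.** -/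
theorem CavHyp.root_siblings_le {E : Finset (Sym2 (Fin n))} {q M : ℕ} {m η κ Γ κ₀ α θ : ℝ}
    (h : CavHyp E q M m η κ Γ κ₀ α θ) {s : ℕ} (hs : s ≤ M) {T : Finset (Sym2 (Fin n))}
    (hT : T ∈ HE E) {e : Sym2 (Fin n)} (he : e ∈ T) :
    0 ≤ ∏ T' ∈ (HE E).filter (fun T' => e ∈ T' ∧ T' ≠ T), (1 - cavI (HE E) M s T' e) ∧
    ∏ T' ∈ (HE E).filter (fun T' => e ∈ T' ∧ T' ≠ T), (1 - cavI (HE E) M s T' e) ≤
      8 / 7 * (Real.exp θ * qb m M s) := by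
  refine ⟨?_, (h.portQ_bounds hs hT he).2⟩
  apply Finset.prod_nonneg
  intro T' hT'
  rw [Finset.mem_filter] at hT'
  have := (h.cavI_bounds hs hT'.1 hT'.2.1).2
  linarith [h.hα8]

/-- Total weight of the visit probabilities. -/
theorem CavHyp.JJ_small {E : Finset (Sym2 (Fin n))} {q M : ℕ} {m η κ Γ κ₀ α θ : ℝ}
    (h : CavHyp E q M m η κ Γ κ₀ α θ) :
    (M : ℝ)⁻¹ * ∑ l ∈ range M, (RR m M l)⁻¹ ≤ 1 / M + Real.log (1 + 2 * m) / (2 * m) :=
  JJ_le h.hm (by have := h.hM; omega)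

end Out

end Crest.Agent.R030.Cavity
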