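import Crest.Agent.R030.Good2Link

/-!
# Row 30: domination of the Stage 1 law by the binomial random graph, for large `n`

`dom_eventually`: the law at step `kn δ n` of the process killed outside `GoodE` is dominated by
`e · G(n,p)`, `p = (x0n n - 3 kn)/x0n n`, on inclusion events of size `≤ Dn n = ⌊(log n)²⌋`.
`halive_eventually`: good states are alive.
-/

set_option autoImplicit false

namespace Crest.Agent.R030

open Finset Filter Topology
open scoped Classical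
open Crest.CombinatoricsR.TriangleRemoval

namespace Good2

/-- the domination constant is at most `e`. -/
lemma domC_eventually {δ c : ℝ} (hδ : 0 < δ) (hc : 0 < c) (η : ℕ → ℝ)
    (hη0 : ∀ᶠ n in atTop, 0 ≤ η n) (hηc : ∀ᶠ n in atTop, η n ≤ (n : ℝ) ^ (-c)) :
    ∀ᶠ n : ℕ in atTop, ∀ K : ℕ, 3 * K < (allEdges n).card →
      (n : ℝ) ^ δ ≤ n * ((((allEdges n).card : ℝ) - 3 * K) / ((allEdges n).card : ℝ)) ^ 2 →
      Real.exp (Dn n * η n * Real.log (((allEdges n).card : ℝ) /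
        (((allEdges n).card : ℝ) - 3 * K)) + 3 * Dn n / (((allEdges n).card : ℝ) - 3 * K) +
        (Dn n : ℝ) ^ 2 / (4 * (1 / (n : ℝ) ^ 3) * (((allEdges n).card : ℝ) - 3 * K) ^ 2)) ≤
      Real.exp 1 := by
  have E4 := eventually_log_pow_le 3 (c := 1 / 6) (r := c) (by norm_num) hc
  have E5 := eventually_log_pow_le 2 (c := 1 / 36) (r := 1) (by norm_num) one_pos
  have E6 := eventually_log_pow_le 4 (c := 1 / 12) (r := δ) (by norm_num) hδ
  filter_upwards [hη0, hηc, E4, E5, E6, eventually_ge_atTop 2] with n h0 h1 e4 e5 e6 hn2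
  intro K hK hKδ
  have hn1 : (1:ℝ) ≤ n := by exact_mod_cast (by omega : 1 ≤ n)
  have hn0 : (0:ℝ) < n := by linarith
  set N : ℝ := ((allEdges n).card : ℝ) with hN
  have hNge := card_allEdges_ge hn2
  have hNle := card_allEdges_le' n
  rw [← hN] at hNge hNle
  have hN0 : 0 < N := lt_of_lt_of_le (by positivity) hNge
  have hL0 : 0 ≤ Real.log n := Real.log_nonneg hn1
  have hD : (Dn n : ℝ) ≤ (Real.log n) ^ 2 := Nat.floor_le (by positivity)
  have hD0 : (0:ℝ) ≤ Dn n := by positivity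
  set y : ℝ := N - 3 * K with hy
  have hy0 : 0 < y := by
    have : ((3 * K : ℕ) : ℝ) < ((allEdges n).card : ℝ) := by exact_mod_cast hK
    push_cast at this
    rw [hy]; linarith
  have hy2 : (n:ℝ) ^ 3 * (n:ℝ) ^ δ / 16 ≤ y ^ 2 := by
    have h3 : (n:ℝ) ^ δ * N ^ 2 ≤ n * y ^ 2 := by
      rw [div_pow] at hKδ
      have := mul_le_mul_of_nonneg_right hKδ (sq_nonneg N)
      calc (n:ℝ) ^ δ * N ^ 2 ≤ n * (y ^ 2 / N ^ 2) * N ^ 2 := this
        _ = n * y ^ 2 := by field_simp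
    have h4 : (n:ℝ) ^ 4 / 16 ≤ N ^ 2 := by
      have : ((n:ℝ) ^ 2 / 4) ^ 2 ≤ N ^ 2 := pow_le_pow_left₀ (by positivity) hNge 2
      calc (n:ℝ) ^ 4 / 16 = ((n:ℝ) ^ 2 / 4) ^ 2 := by ring
        _ ≤ N ^ 2 := this
    have h5 : (n:ℝ) ^ δ * ((n:ℝ) ^ 4 / 16) ≤ n * y ^ 2 :=
      (mul_le_mul_of_nonneg_left h4 (by positivity)).trans h3
    have h6 : n * ((n:ℝ) ^ 3 * (n:ℝ) ^ δ / 16) ≤ n * y ^ 2 := by
      calc n * ((n:ℝ) ^ 3 * (n:ℝ) ^ δ / 16) = (n:ℝ) ^ δ * ((n:ℝ) ^ 4 / 16) := by ring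
        _ ≤ _ := h5
    exact le_of_mul_le_mul_left h6 hn0
  have hyn : (n:ℝ) / 4 ≤ y := by
    have h3 : ((n:ℝ) / 4) ^ 2 ≤ y ^ 2 := by
      refine le_trans ?_ hy2
      have h4 : 1 ≤ (n:ℝ) ^ δ := Real.one_le_rpow hn1 hδ.le
      have h5 : (n:ℝ) ^ 2 ≤ (n:ℝ) ^ 3 := pow_le_pow_right₀ hn1 (by norm_num)
      have h6 : (n:ℝ) ^ 3 * 1 ≤ (n:ℝ) ^ 3 * (n:ℝ) ^ δ :=
        mul_le_mul_of_nonneg_left h4 (by positivity)
      calc ((n:ℝ) / 4) ^ 2 = (n:ℝ) ^ 2 / 16 := by ring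
        _ ≤ _ := by linarith
    exact le_of_sq_le_sq h3 hy0.le
  refine Real.exp_le_exp.2 ?_
  have a1 : (Dn n : ℝ) * η n * Real.log (N / y) ≤ 1 / 3 := by
    have hlog : Real.log (N / y) ≤ 2 * Real.log n := by
      have h1y : 1 ≤ y := by
        have h3i : 3 * K + 1 ≤ (allEdges n).card := by omega
        have : ((3 * K + 1 : ℕ) : ℝ) ≤ N := by rw [hN]; exact_mod_cast h3i
        push_cast at this
        rw [hy]
        linarith
      have h4 : N / y ≤ (n:ℝ) ^ 2 := by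
        rw [div_le_iff₀ hy0]
        calc N ≤ (n:ℝ) ^ 2 * 1 := by linarith
          _ ≤ (n:ℝ) ^ 2 * y := mul_le_mul_of_nonneg_left h1y (by positivity)
      calc Real.log (N / y) ≤ Real.log ((n:ℝ) ^ 2) :=
            Real.log_le_log (by positivity) h4
        _ = 2 * Real.log n := by rw [Real.log_pow]; push_cast; ring
    have hnc : (0:ℝ) < (n:ℝ) ^ c := by positivity
    have hmulc : (n:ℝ) ^ (-c) * (n:ℝ) ^ c = 1 := by
      rw [← Real.rpow_add hn0]; simp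
    calc (Dn n : ℝ) * η n * Real.log (N / y)
        ≤ (Dn n : ℝ) * η n * (2 * Real.log n) :=
          mul_le_mul_of_nonneg_left hlog (by positivity)
      _ ≤ (Real.log n) ^ 2 * (n:ℝ) ^ (-c) * (2 * Real.log n) := by
          refine mul_le_mul_of_nonneg_right ?_ (by positivity)
          exact mul_le_mul hD h1 h0 (by positivity)
      _ = 2 * (Real.log n) ^ 3 * (n:ℝ) ^ (-c) := by ring
      _ ≤ 2 * (1 / 6 * (n:ℝ) ^ c) * (n:ℝ) ^ (-c) := by
          refine mul_le_mul_of_nonneg_right ?_ (by positivity)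
          linarith
      _ = 1 / 3 * ((n:ℝ) ^ (-c) * (n:ℝ) ^ c) := by ring
      _ = 1 / 3 := by rw [hmulc]; ring
  have a2 : 3 * (Dn n : ℝ) / y ≤ 1 / 3 := by
    rw [div_le_iff₀ hy0]
    rw [Real.rpow_one] at e5
    nlinarith
  have a3 : (Dn n : ℝ) ^ 2 / (4 * (1 / (n:ℝ) ^ 3) * y ^ 2) ≤ 1 / 3 := by
    rw [div_le_iff₀ (by positivity)]
    have h4 : (n:ℝ) ^ δ / 4 ≤ 4 * (1 / (n:ℝ) ^ 3) * y ^ 2 := by
      calc (n:ℝ) ^ δ / 4 = 4 * (1 / (n:ℝ) ^ 3) * ((n:ℝ) ^ 3 * (n:ℝ) ^ δ / 16) := by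
            field_simp; ring
        _ ≤ 4 * (1 / (n:ℝ) ^ 3) * y ^ 2 :=
            mul_le_mul_of_nonneg_left hy2 (by positivity)
    have h5 : (Dn n : ℝ) ^ 2 ≤ (Real.log n) ^ 4 := by
      calc (Dn n : ℝ) ^ 2 ≤ ((Real.log n) ^ 2) ^ 2 := pow_le_pow_left₀ hD0 hD 2
        _ = _ := by ring
    linarith
  linarith

/-- `PreE` implies the lower regularity of `Domin.lean` for large `n`. -/
lemma preE_facts_eventually {δ : ℝ} (hδ0 : 0 < δ) (hδ1 : δ < 1) :
    ∀ᶠ n : ℕ in atTop, ∀ E : Finset (Sym2 (Fin n)), PreE δ E →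
      0 < mE E ∧ Kap.lamx n E.card / 2 ≤ mE E ∧ LowGood (triHyp n) (etan δ n) (1 / (n:ℝ) ^ 3) E ∧
      act (triHyp n) E ≠ ∅ := by
  have hδ9 : Tendsto (fun n : ℕ => (n : ℝ) ^ (-(δ / 9))) atTop (nhds 0) :=
    (tendsto_rpow_neg_atTop (by linarith)).comp tendsto_natCast_atTop_atTop
  have E2 := Iface.eventually_kap_le δ hδ0 hδ1
  have E4 := Iface.eventually_etan_le δ hδ0 (c := 1 / 2) (by norm_num)
  filter_upwards [E2, E4, hδ9.eventually_le_const one_pos, eventually_ge_atTop 2] with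
    n e2 e4 e5 hn2
  intro E hE
  have hn1 : 1 ≤ n := by omega
  have hn0 : (0:ℝ) < n := by exact_mod_cast hn1
  have hX0 : 0 < Xn δ n := Iface.Xn_pos hn1
  have hτ : (n : ℝ) ^ (-(δ / 9)) / 4 ≤ 1 / 2 := by linarith
  have hm := mE_pos hE hX0 (by linarith)
  have hx : 0 < (E.card : ℝ) := lt_of_lt_of_le hX0 hE.size
  have hk := e2 E.card hE.size (Iface.card_le_x0n hE.sub)
  have hlam := (Kap.mcod_of_window hn0 hx hm hE.win hk hτ).1
  have hl0 : 0 ≤ Kap.lamx n E.card := by unfold Kap.lamx; positivity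
  have h12 : Kap.lamx n E.card / 2 ≤ mE E := by
    refine le_trans ?_ hlam
    nlinarith
  refine ⟨hm, h12, ⟨?_, ?_⟩, act_ne_of_mcod_pos hm⟩
  · intro e he
    have h1 := Iface.hreg_of_reg hE.sub hm hE.reg e he
    have h2 := (abs_le.1 h1).1
    linarith
  · refine le_trans (le_trans ?_ h12) (le_of_eq (mE_eq_mcod E))
    have h2 : 1 / (n:ℝ) ^ 3 * (E.card : ℝ) ^ 2 = Kap.lamx n E.card / 4 := by
      unfold Kap.lamx; ring
    rw [h2]
    linarith

/-- good states are alive. -/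
theorem halive_eventually {δ : ℝ} (hδ0 : 0 < δ) (hδ1 : δ < 1) (q : ℕ) (κ : ℝ) :
    ∀ᶠ n : ℕ in atTop, ∀ E : Finset (Sym2 (Fin n)), GoodE δ q κ E → act (triHyp n) E ≠ ∅ := by
  filter_upwards [preE_facts_eventually hδ0 hδ1] with n h E hE
  exact (h E hE.toPreE).2.2.2

/-- facts about `kn`. -/
lemma kn_facts_eventually {δ : ℝ} (hδ0 : 0 < δ) (hδ1 : δ < 1) :
    ∀ᶠ n : ℕ in atTop, ∀ K ≤ kn δ n, 3 * K < (allEdges n).card ∧
      (n : ℝ) ^ δ ≤ n * ((((allEdges n).card : ℝ) - 3 * K) / ((allEdges n).card : ℝ)) ^ 2 := by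
  have E3 := Iface.eventually_Xn_le δ hδ1
  filter_upwards [E3, eventually_ge_atTop 2] with n e3 hn2
  intro K hK
  have hn1 : 1 ≤ n := by omega
  have hX0 : 0 < Xn δ n := Iface.Xn_pos hn1
  have hspec := Iface.kn_spec δ (n := n) (by linarith)
  have hKr : (K : ℝ) ≤ kn δ n := by exact_mod_cast hK
  have hNK : Xn δ n ≤ x0n n - 3 * K := by linarith [hspec.1]
  constructor
  · have h1 : (3 * K : ℝ) < x0n n := by linarith
    unfold x0n at h1
    exact_mod_cast h1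
  · have h1 : (n : ℝ) * ((((allEdges n).card : ℝ) - 3 * K) / ((allEdges n).card : ℝ)) ^ 2 =
        Kap.lamx n (x0n n - 3 * K) * ((n : ℝ) / (n - 1)) ^ 2 := ratio_eq hn2 _
    rw [h1]
    have h2 := Iface.lamx_ge (δ := δ) hn1 hNK
    have h3 : (2:ℝ) ≤ n := by exact_mod_cast hn2
    have h4 : (0:ℝ) < n - 1 := by linarith
    have h5 : 1 ≤ ((n : ℝ) / (n - 1)) ^ 2 := by
      refine one_le_pow₀ ?_
      rw [le_div_iff₀ h4]; linarith
    calc (n : ℝ) ^ δ ≤ Kap.lamx n (x0n n - 3 * K) * 1 := by linarith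
      _ ≤ _ := mul_le_mul_of_nonneg_left h5 (le_trans (by positivity) h2)

/-- domination for every `G` contained in `PreE` and every step `K ≤ kn δ n`. -/
theorem dom_eventually' {δ : ℝ} (hδ0 : 0 < δ) (hδ1 : δ < 1) :
    ∀ᶠ n : ℕ in atTop, ∀ G : Finset (Sym2 (Fin n)) → Prop, (∀ E, G E → PreE δ E) →
      ∀ K ≤ kn δ n, Dom ((baseKer (triHyp n)).law G (allEdges n) K) (Real.exp 1)
        ((x0n n - 3 * K) / x0n n) (Dn n) := by
  filter_upwards [preE_facts_eventually hδ0 hδ1, kn_facts_eventually hδ0 hδ1,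
    domC_eventually hδ0 (c := δ / 8) (by positivity) (etan δ)
      (Eventually.of_forall fun n => by unfold etan; positivity)
      (Eventually.of_forall fun n => le_refl _), eventually_ge_atTop 1] with n h1 h2 h3 hn1
  intro G hG K hK
  obtain ⟨h4, h5⟩ := h2 K hK
  have hn0 : (0:ℝ) < n := by exact_mod_cast hn1
  exact dom_law (by unfold etan; positivity) (by positivity)
    (fun E hE => (h1 E (hG E hE)).2.2.1) (allEdges n) K (Dn n) h4 rfl rfl (h3 K h4 h5)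

/-- **Domination of the Stage 1 law.** -/
theorem dom_eventually {δ : ℝ} (hδ0 : 0 < δ) (hδ1 : δ < 1) (q : ℕ) (κ : ℝ) :
    ∀ᶠ n : ℕ in atTop, Dom ((baseKer (triHyp n)).law (GoodE δ q κ) (allEdges n) (kn δ n))
      (Real.exp 1) ((x0n n - 3 * kn δ n) / x0n n) (Dn n) := by
  filter_upwards [dom_eventually' hδ0 hδ1] with n h
  exact h _ (fun E hE => hE.toPreE) _ (le_refl _)

end Good2

end Crest.Agent.R030
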