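import Crest.Agent.R030.LinkTrace

/-!
# Row 30, Stage 1 (B): moments of subgraph sums under a dominated measure

`μ` is any nonnegative weight on edge sets (e.g. the law of the killed process at a fixed time)
with `μ {G ⊇ F} ≤ C p^{|F|}` for all `F` without loops and `|F| ≤ D`.  Then every sum
`T(G) = ∑_w a_w 1[F_w ⊆ G]` whose one-step extension sums are `≤ B` satisfies
`∑_G μ(G) T(G)^m ≤ C B^m`.
-/

set_option autoImplicit false

namespace Crest.Agent.R030

open Finset Matrix
open scoped Classical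

variable {n : ℕ}

/-- `μ` is dominated by `C` times the binomial random graph `G(n,p)` on inclusion events of
size at most `D`. -/
def Dom (μ : Finset (Sym2 (Fin n)) → ℝ) (C p : ℝ) (D : ℕ) : Prop :=
  ∀ F : Finset (Sym2 (Fin n)), F.card ≤ D →
    ∑ G : Finset (Sym2 (Fin n)), (if F ⊆ G then μ G else 0) ≤ C * p ^ F.card

/-- **Moment bound**, general form. -/
theorem moment_bound {Ω : Type*} [Fintype Ω] (Fs : Ω → Finset (Sym2 (Fin n))) (a : Ω → ℝ)
    (ha : ∀ w, 0 ≤ a w) {d D : ℕ} (hd : ∀ w, (Fs w).card ≤ d)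
    {μ : Finset (Sym2 (Fin n)) → ℝ} {C p B : ℝ} (hC : 0 ≤ C) (hp : 0 ≤ p) (hB : 0 ≤ B)
    (hμ : Dom μ C p D) (m : ℕ)
    (hext : ∀ F : Finset (Sym2 (Fin n)), F.card + d ≤ D →
      ∑ w, a w * p ^ (Fs w \ F).card ≤ B) :
    ∀ F : Finset (Sym2 (Fin n)), F.card + d * m ≤ D →
      ∑ G : Finset (Sym2 (Fin n)), (if F ⊆ G then
        μ G * (∑ w, if Fs w ⊆ G then a w else 0) ^ m else 0) ≤ C * p ^ F.card * B ^ m := by
  induction m with
  | zero =>
    intro F hF
    simpa using hμ F (by omega)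
  | succ m ih =>
    intro F hF
    have hF' : F.card + d * m + d ≤ D := by rw [mul_add, mul_one] at hF; omega
    have step : ∑ G : Finset (Sym2 (Fin n)), (if F ⊆ G then
        μ G * (∑ w, if Fs w ⊆ G then a w else 0) ^ (m + 1) else 0) =
        ∑ w, a w * ∑ G : Finset (Sym2 (Fin n)), (if F ∪ Fs w ⊆ G then
        μ G * (∑ w, if Fs w ⊆ G then a w else 0) ^ m else 0) := by
      have : ∀ w : Ω, a w * ∑ G : Finset (Sym2 (Fin n)), (if F ∪ Fs w ⊆ G then
        μ G * (∑ w, if Fs w ⊆ G then a w else 0) ^ m else 0) =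
        ∑ G : Finset (Sym2 (Fin n)), a w * (if F ∪ Fs w ⊆ G then
        μ G * (∑ w, if Fs w ⊆ G then a w else 0) ^ m else 0) := fun w => by rw [mul_sum]
      simp_rw [this]
      rw [Finset.sum_comm]
      refine Finset.sum_congr rfl fun G _ => ?_
      by_cases hFG : F ⊆ G
      · rw [if_pos hFG, pow_succ, ← mul_assoc, mul_sum]
        refine Finset.sum_congr rfl fun w _ => ?_
        by_cases hw : Fs w ⊆ G
        · rw [if_pos hw, if_pos (union_subset hFG hw)]
          ring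
        · rw [if_neg hw, if_neg (fun h => hw (union_subset_iff.1 h).2)]
          ring
      · rw [if_neg hFG]
        symm
        refine Finset.sum_eq_zero fun w _ => ?_
        rw [if_neg (fun h => hFG (union_subset_iff.1 h).1), mul_zero]
    rw [step]
    calc ∑ w, a w * ∑ G : Finset (Sym2 (Fin n)), (if F ∪ Fs w ⊆ G then
          μ G * (∑ w, if Fs w ⊆ G then a w else 0) ^ m else 0)
        ≤ ∑ w, a w * (C * p ^ (F ∪ Fs w).card * B ^ m) := by
          refine Finset.sum_le_sum fun w _ => mul_le_mul_of_nonneg_left (ih _ ?_) (ha w)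
          have h1 := card_union_le F (Fs w)
          have h2 := hd w
          omega
      _ = C * p ^ F.card * B ^ m * ∑ w, a w * p ^ (Fs w \ F).card := by
          rw [mul_sum]
          refine Finset.sum_congr rfl fun w _ => ?_
          have : (F ∪ Fs w).card = F.card + (Fs w \ F).card := by
            rw [← card_union_of_disjoint disjoint_sdiff, union_sdiff_self_eq_union]
          rw [this, pow_add]
          ring
      _ ≤ C * p ^ F.card * B ^ m * B := by
          refine mul_le_mul_of_nonneg_left (hext F ?_) (by positivity)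
          omega
      _ = C * p ^ F.card * B ^ (m + 1) := by rw [pow_succ]; ring

/-- Markov consequence. -/
theorem tail_bound {Ω : Type*} [Fintype Ω] (Fs : Ω → Finset (Sym2 (Fin n))) (a : Ω → ℝ)
    (ha : ∀ w, 0 ≤ a w) {d D : ℕ} (hd : ∀ w, (Fs w).card ≤ d)
    {μ : Finset (Sym2 (Fin n)) → ℝ} (hμ0 : ∀ G, 0 ≤ μ G)
    {C p B θ : ℝ} (hC : 0 ≤ C) (hp : 0 ≤ p) (hB : 0 < B) (hθ : 0 < θ)
    (hμ : Dom μ C p D) (m : ℕ) (hm : d * m ≤ D)
    (hext : ∀ F : Finset (Sym2 (Fin n)), F.card + d ≤ D →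
      ∑ w, a w * p ^ (Fs w \ F).card ≤ B) :
    ∑ G : Finset (Sym2 (Fin n)), (if θ * B ≤ ∑ w, (if Fs w ⊆ G then a w else 0) then μ G else 0)
      ≤ C / θ ^ m := by
  have h := moment_bound Fs a ha hd hC hp hB.le hμ m hext ∅ (by simpa using hm)
  simp only [empty_subset, if_true, card_empty, pow_zero, mul_one] at h
  have hθB : 0 < (θ * B) ^ m := by positivity
  have h2 : (θ * B) ^ m * ∑ G : Finset (Sym2 (Fin n)),
      (if θ * B ≤ ∑ w, (if Fs w ⊆ G then a w else 0) then μ G else 0) ≤ C * B ^ m := by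
    refine le_trans ?_ h
    rw [mul_sum]
    refine Finset.sum_le_sum fun G _ => ?_
    have hT0 : 0 ≤ ∑ w, (if Fs w ⊆ G then a w else 0) := by
      refine Finset.sum_nonneg fun w _ => ?_
      split_ifs
      · exact ha w
      · exact le_refl _
    split_ifs with hG
    · rw [mul_comm]
      exact mul_le_mul_of_nonneg_left (pow_le_pow_left₀ (by positivity) hG m) (hμ0 G)
    · rw [mul_zero]
      exact mul_nonneg (hμ0 G) (pow_nonneg hT0 m)
  rw [mul_pow] at h2
  rw [le_div_iff₀ (by positivity)]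
  have hBm : 0 < B ^ m := by positivity
  nlinarith [h2, hBm]

/-- Extension sums of closed walks, in the shape needed by `moment_bound`. -/
theorem trace_tail {p r : ℝ} (hp : 0 ≤ p) (hp1 : p ≤ 1) (hr : 1 ≤ r)
    (hr2 : r ^ 2 = n * p ^ 2) (u : Fin n) (ℓ D m : ℕ) (K : ℝ)
    (hK : (2 * D + ℓ + 1 : ℝ) ≤ K) (hm : (2 * ℓ + 2) * m ≤ D)
    {μ : Finset (Sym2 (Fin n)) → ℝ} (hμ0 : ∀ G, 0 ≤ μ G)
    (hprop : ∀ G, μ G ≠ 0 → Proper G) {C θ : ℝ} (hC : 0 ≤ C) (hθ : 0 < θ)
    (hμ : Dom μ C p D) :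
    ∑ G : Finset (Sym2 (Fin n)),
      (if θ * ((n * p + K) * (p * (r ^ 2 + K) ^ ℓ + ℓ * K * p * (r ^ 2 + K) ^ (ℓ - 1) +
        ((1 + K) * r) ^ (ℓ + 1))) ≤ (linkM G u ^ (ℓ + 1)).trace then μ G else 0)
      ≤ C / θ ^ m := by
  have hr0 : 0 < r := by linarith
  have hℓ0 : (0:ℝ) ≤ ℓ := by positivity
  have hD0 : (0:ℝ) ≤ D := by positivity
  have hK0 : 0 < K := by linarith
  have hB : 0 < (n * p + K) * (p * (r ^ 2 + K) ^ ℓ + ℓ * K * p * (r ^ 2 + K) ^ (ℓ - 1) +
        ((1 + K) * r) ^ (ℓ + 1)) := by positivity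
  have key := tail_bound (n := n) (Ω := Fin n × (Fin ℓ → Fin n)) (closedE u ℓ)
    (fun w => if Proper (closedE u ℓ w) then 1 else 0)
    (fun w => by split_ifs <;> norm_num) (d := 2 * ℓ + 2) (D := D)
    (card_closedE_le u ℓ) hμ0 hC hp hB hθ hμ m hm ?_
  · refine le_trans (le_of_eq ?_) key
    refine Finset.sum_congr rfl fun G _ => ?_
    by_cases hG : μ G = 0
    · simp [hG]
    · have hGp := hprop G hG
      rw [trace_linkM_pow]
      have : ∀ w : Fin n × (Fin ℓ → Fin n),
          (if closedE u ℓ w ⊆ G then (1:ℝ) else 0) =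
          (if closedE u ℓ w ⊆ G then (if Proper (closedE u ℓ w) then (1:ℝ) else 0) else 0) := by
        intro w
        by_cases hw : closedE u ℓ w ⊆ G
        · have hP : Proper (closedE u ℓ w) := fun e he => hGp e (hw he)
          rw [if_pos hw, if_pos hw, if_pos hP]
        · rw [if_neg hw, if_neg hw]
      simp_rw [this]
  · intro F hF
    refine le_trans (le_of_eq ?_) (closed_ext_bound hp hp1 hr hr2 u ℓ D K hK F (by omega))
    refine Finset.sum_congr rfl fun w _ => ?_
    split_ifs <;> simp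

end Crest.Agent.R030
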