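import Crest.Agent.R030.Chain
import Crest.Agent.R030.MomentBound

/-!
# R030 (S0040), Stage 1 (A): killing-rate domination

`mcod H A = 3 |act H A| / |A|` mean codegree.  For the removal process killed when it leaves a
good set on which `codeg ≥ (1-η) mcod` and `mcod ≥ κ |A|²`, the probability that a fixed set `F` is
still alive after `k` steps is at most
`(y/x)^|F| exp (|F| η log (x/y) + 3 |F| / y + |F|² / (4 κ y²))`, `x = |A|`, `y = x - 3k`.
-/

set_option autoImplicit false

open Finset

namespace Crest.Agent.R030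

variable {V : Type*} [DecidableEq V] {H : Finset (Finset V)}

/-- mean codegree -/
noncomputable def mcod (H : Finset (Finset V)) (A : Finset V) : ℝ :=
  3 * ((act H A).card : ℝ) / (A.card : ℝ)

/-- lower regularity of the codegrees and a lower bound for the mean codegree -/
def LowGood (H : Finset (Finset V)) (η κ : ℝ) (A : Finset V) : Prop :=
  (∀ e ∈ A, (1 - η) * mcod H A ≤ (codeg H A e : ℝ)) ∧ κ * (A.card : ℝ) ^ 2 ≤ mcod H A

lemma sum_codeg_eq (A F : Finset V) :
    ∑ e ∈ F, codeg H A e = ∑ T ∈ act H A, (T ∩ F).card := by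
  simp only [codeg, Finset.card_filter, Finset.card_eq_sum_ones (_ ∩ _)]
  rw [Finset.sum_comm]
  refine Finset.sum_congr rfl (fun T _ => ?_)
  rw [← Finset.sum_filter, Finset.filter_mem_eq_inter, Finset.inter_comm]

/-- Bonferroni: number of active hyperedges meeting `F`. -/
lemma card_meet_ge (hH : Lin3 H) (A F : Finset V) :
    (∑ e ∈ F, (codeg H A e : ℝ)) - (F.card : ℝ) ^ 2 / 2
      ≤ (((act H A).filter (fun T => ¬ Disjoint T F)).card : ℝ) := by
  classical
  have h1 : (∑ e ∈ F, (codeg H A e : ℝ)) = ∑ T ∈ act H A, ((T ∩ F).card : ℝ) := by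
    exact_mod_cast sum_codeg_eq A F
  -- pairs
  have h2 : ∑ T ∈ act H A, ((T ∩ F).card : ℝ) * (((T ∩ F).card : ℝ) - 1) ≤ (F.card : ℝ) ^ 2 := by
    have h3 : ∀ T ∈ act H A, ((T ∩ F).card : ℝ) * (((T ∩ F).card : ℝ) - 1)
        = ((F.offDiag.filter (fun q => q.1 ∈ T ∧ q.2 ∈ T)).card : ℝ) := by
      intro T _
      have h4 : F.offDiag.filter (fun q => q.1 ∈ T ∧ q.2 ∈ T) = (T ∩ F).offDiag := by
        ext ⟨a, b⟩
        simp only [Finset.mem_filter, Finset.mem_offDiag, Finset.mem_inter]
        tauto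
      rw [h4, Finset.offDiag_card]
      have h5 : (T ∩ F).card ≤ (T ∩ F).card * (T ∩ F).card := Nat.le_mul_self _
      push_cast [Nat.cast_sub h5]
      ring
    rw [Finset.sum_congr rfl h3]
    have h6 : ∑ T ∈ act H A, (F.offDiag.filter (fun q => q.1 ∈ T ∧ q.2 ∈ T)).card
        ≤ F.offDiag.card := by
      simp only [Finset.card_filter]
      rw [Finset.sum_comm, Finset.card_eq_sum_ones]
      refine Finset.sum_le_sum (fun q hq => ?_)
      rw [← Finset.card_filter, Finset.card_le_one]
      intro T hT T' hT'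
      rw [Finset.mem_filter, mem_act] at hT hT'
      exact hH.lin T hT.1.1 T' hT'.1.1 q.1 q.2 (Finset.mem_offDiag.1 hq).2.2 hT.2.1 hT.2.2
        hT'.2.1 hT'.2.2
    have h7 : F.offDiag.card ≤ F.card ^ 2 := by
      rw [Finset.offDiag_card, sq]; exact Nat.sub_le _ _
    have h8 := h6.trans h7
    exact_mod_cast h8
  have h9 : (((act H A).filter (fun T => ¬ Disjoint T F)).card : ℝ)
      = ∑ T ∈ act H A, (if ¬ Disjoint T F then (1:ℝ) else 0) := by
    rw [Finset.card_filter]; push_cast; rfl
  have h10 : ∀ T ∈ act H A, ((T ∩ F).card : ℝ) - ((T ∩ F).card : ℝ) * (((T ∩ F).card : ℝ) - 1) / 2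
      ≤ (if ¬ Disjoint T F then (1:ℝ) else 0) := by
    intro T hT
    have h11 : (T ∩ F).card ≤ 3 := by
      rw [← hH.card3 T (mem_act.1 hT).1]; exact Finset.card_le_card Finset.inter_subset_left
    by_cases h12 : Disjoint T F
    · have : (T ∩ F).card = 0 := by
        rw [Finset.card_eq_zero, ← Finset.disjoint_iff_inter_eq_empty]; exact h12
      simp [h12, this]
    · simp only [h12, not_false_iff, if_true]
      interval_cases (T ∩ F).card <;> norm_num
  have h13 := Finset.sum_le_sum h10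
  rw [← h9, Finset.sum_sub_distrib, ← Finset.sum_div] at h13
  rw [h1]
  linarith

/-- probability that a uniformly chosen active hyperedge avoids `F`. -/
lemma card_disj_le (hH : Lin3 H) {η κ : ℝ} (hκ : 0 < κ) {A : Finset V}
    (hG : LowGood H η κ A) {F : Finset V} (hF : F ⊆ A) (hA : 0 < A.card) :
    (((act H A).filter (fun T => Disjoint T F)).card : ℝ)
      ≤ ((act H A).card : ℝ) * (1 - 3 / A.card * ((1 - η) * F.card
          - (F.card : ℝ) ^ 2 / (2 * (κ * (A.card : ℝ) ^ 2)))) := by
  have hx : (0:ℝ) < A.card := by exact_mod_cast hA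
  have h1 := card_meet_ge hH A F
  have h2 : (((act H A).filter (fun T => Disjoint T F)).card : ℝ)
      + (((act H A).filter (fun T => ¬ Disjoint T F)).card : ℝ) = ((act H A).card : ℝ) := by
    exact_mod_cast Finset.card_filter_add_card_filter_not (s := act H A) (fun T => Disjoint T F)
  have h3 : (F.card : ℝ) * ((1 - η) * mcod H A) ≤ ∑ e ∈ F, (codeg H A e : ℝ) := by
    rw [← nsmul_eq_mul]
    exact Finset.card_nsmul_le_sum _ _ _ (fun e he => hG.1 e (hF he))
  have hm : 0 < mcod H A := lt_of_lt_of_le (by positivity) hG.2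
  have hQ : ((act H A).card : ℝ) = mcod H A * A.card / 3 := by
    unfold mcod; field_simp
  have h4 : (F.card : ℝ) ^ 2 / 2 ≤ mcod H A * ((F.card : ℝ) ^ 2 / (2 * (κ * (A.card : ℝ) ^ 2))) := by
    rw [mul_div_assoc', div_le_div_iff₀ (by norm_num) (by positivity)]
    nlinarith [mul_le_mul_of_nonneg_left hG.2 (sq_nonneg (F.card : ℝ))]
  have h5 : ((act H A).card : ℝ) * (1 - 3 / A.card * ((1 - η) * F.card
          - (F.card : ℝ) ^ 2 / (2 * (κ * (A.card : ℝ) ^ 2))))
      = ((act H A).card : ℝ) - (F.card : ℝ) * ((1 - η) * mcod H A)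
        + mcod H A * ((F.card : ℝ) ^ 2 / (2 * (κ * (A.card : ℝ) ^ 2))) := by
    rw [hQ]
    field_simp
    ring
  rw [h5]
  linarith

/-- the domination bound -/
noncomputable def domB (η κ a x y : ℝ) : ℝ :=
  Real.exp (a * Real.log (y / x) + a * η * Real.log (x / y) + 3 * a * (1 / y - 1 / x)
    + a ^ 2 / (4 * κ) * (1 / y ^ 2 - 1 / x ^ 2))

lemma domB_self {η κ a x : ℝ} (hx : 0 < x) : domB η κ a x x = 1 := by
  unfold domB; rw [div_self hx.ne']; simp

lemma domB_step {η κ a x y : ℝ} (hη : 0 ≤ η) (hκ : 0 < κ) (ha : 0 ≤ a) (hx : 3 < x) (hy : 0 < y) :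
    (1 - 3 / x * ((1 - η) * a - a ^ 2 / (2 * (κ * x ^ 2)))) * domB η κ a (x - 3) y
      ≤ domB η κ a x y := by
  have hx0 : 0 < x := by linarith
  have hx3 : 0 < x - 3 := by linarith
  have h1 : 1 - 3 / x * ((1 - η) * a - a ^ 2 / (2 * (κ * x ^ 2)))
      ≤ Real.exp (-(3 / x * ((1 - η) * a - a ^ 2 / (2 * (κ * x ^ 2))))) := by
    have := Real.add_one_le_exp (-(3 / x * ((1 - η) * a - a ^ 2 / (2 * (κ * x ^ 2)))))
    linarith
  refine (mul_le_mul_of_nonneg_right h1 (Real.exp_pos _).le).trans ?_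
  unfold domB
  rw [← Real.exp_add]
  refine Real.exp_le_exp.2 ?_
  -- logs
  have hl1 : Real.log (y / x) = Real.log y - Real.log x := Real.log_div hy.ne' hx0.ne'
  have hl2 : Real.log (x / y) = Real.log x - Real.log y := Real.log_div hx0.ne' hy.ne'
  have hl3 : Real.log (y / (x - 3)) = Real.log y - Real.log (x - 3) :=
    Real.log_div hy.ne' hx3.ne'
  have hl4 : Real.log ((x - 3) / y) = Real.log (x - 3) - Real.log y :=
    Real.log_div hx3.ne' hy.ne'
  rw [hl1, hl2, hl3, hl4]
  -- 3/x ≤ log x - log (x-3) ≤ 3/(x-3)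
  have hu : Real.log x - Real.log (x - 3) ≤ 3 / (x - 3) := by
    rw [← Real.log_div hx0.ne' hx3.ne']
    have := Real.log_le_sub_one_of_pos (show 0 < x / (x - 3) by positivity)
    refine this.trans (le_of_eq ?_)
    field_simp
    ring
  have hlo : 3 / x ≤ Real.log x - Real.log (x - 3) := by
    have := Real.log_le_sub_one_of_pos (show 0 < (x - 3) / x by positivity)
    rw [Real.log_div hx3.ne' hx0.ne'] at this
    have h2 : (x - 3) / x - 1 = - (3 / x) := by field_simp; ring
    linarith
  have e1 : a * (3 / x) ≥ a * (Real.log x - Real.log (x - 3)) - 3 * a * (1 / (x - 3) - 1 / x) := by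
    have h3 : 3 / (x - 3) = 3 / x + 3 * (1 / (x - 3) - 1 / x) := by ring
    rw [h3] at hu
    have := mul_le_mul_of_nonneg_left hu ha
    nlinarith
  have e2 : a * η * (3 / x) ≤ a * η * (Real.log x - Real.log (x - 3)) :=
    mul_le_mul_of_nonneg_left hlo (mul_nonneg ha hη)
  have e3 : 3 / x * (a ^ 2 / (2 * (κ * x ^ 2)))
      ≤ a ^ 2 / (4 * κ) * (1 / (x - 3) ^ 2 - 1 / x ^ 2) := by
    have h4 : 3 / x * (a ^ 2 / (2 * (κ * x ^ 2))) = a ^ 2 / (4 * κ) * (6 / x ^ 3) := by
      field_simp; ring
    rw [h4]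
    refine mul_le_mul_of_nonneg_left ?_ (by positivity)
    rw [div_sub_div _ _ (by positivity) (by positivity), div_le_div_iff₀ (by positivity) (by positivity)]
    have h5 : 0 < x ^ 2 := by positivity
    nlinarith [mul_pos h5 hx0, mul_pos hx0 hx3, mul_pos h5 hx3, sq_nonneg (x * (x - 3))]
  nlinarith [e1, e2, e3]

/-- **Killing-rate domination**, log form. -/
theorem kill_subset_le (hH : Lin3 H) {η κ : ℝ} (hη : 0 ≤ η) (hκ : 0 < κ)
    {G : Finset V → Prop} (hG : ∀ A, G A → LowGood H η κ A) (F : Finset V) (k : ℕ) :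
    ∀ A : Finset V, 3 * k < A.card →
      (baseKer H).kill G (fun S => if F ⊆ S then 1 else 0) k A
        ≤ domB η κ F.card A.card ((A.card : ℝ) - 3 * k) := by
  classical
  induction k with
  | zero =>
    intro A hA
    have hx : (0:ℝ) < A.card := by exact_mod_cast (by omega : 0 < A.card)
    simp only [Nat.cast_zero, mul_zero, sub_zero, domB_self hx, Ker.kill_zero]
    split_ifs <;> norm_num
  | succ k ih =>
    intro A hA
    have hA3 : 3 < A.card := by omega
    have hx : (3:ℝ) < A.card := by exact_mod_cast hA3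
    have hy : (0:ℝ) < (A.card : ℝ) - 3 * ((k + 1 : ℕ) : ℝ) := by
      have : ((3 * (k + 1) : ℕ) : ℝ) < A.card := by exact_mod_cast hA
      push_cast at this ⊢
      linarith
    by_cases hGA : G A
    swap
    · rw [Ker.kill_succ_not _ _ _ hGA]; exact (Real.exp_pos _).le
    by_cases hF : F ⊆ A
    swap
    · -- F is not alive: zero
      have h1 := (baseKer H).kill_mono_of (G := G) (I := fun S => S ⊆ A)
        (fun S hS _ x hx => (subset_of_mem_supp hx).trans hS)
        (f := fun S => if F ⊆ S then (1:ℝ) else 0) (g := fun _ => 0)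
        (fun S hS => by rw [if_neg (fun h => hF (h.trans hS))]) (k + 1) A (Finset.Subset.refl _)
      rw [Ker.kill_const_zero] at h1
      exact h1.trans (Real.exp_pos _).le
    have hgood := hG A hGA
    rw [Ker.kill_succ _ _ _ hGA]
    have hm : 0 < mcod H A :=
      lt_of_lt_of_le (mul_pos hκ (pow_pos (by linarith) 2)) hgood.2
    have hQ : (0:ℝ) < (act H A).card := by
      by_contra hcon
      have h0 : ((act H A).card : ℝ) = 0 := le_antisymm (not_lt.1 hcon) (by positivity)
      unfold mcod at hm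
      rw [h0] at hm
      simp at hm
    have hne : act H A ≠ ∅ := by
      intro h
      rw [h] at hQ
      simp at hQ
    rw [baseKer_avg hne, inv_mul_le_iff₀ hQ]
    set B := domB η κ F.card ((A.card : ℝ) - 3) ((A.card : ℝ) - 3 * ((k + 1 : ℕ) : ℝ)) with hB
    have hBpos : 0 < B := Real.exp_pos _
    have hterm : ∀ T ∈ act H A, (baseKer H).kill G (fun S => if F ⊆ S then 1 else 0) k (A \ T)
        ≤ if Disjoint T F then B else 0 := by
      intro T hT
      by_cases hd : Disjoint T F
      · rw [if_pos hd]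
        have hc := card_sdiff_act hH hT
        have h1 := ih (A \ T) (by omega)
        have hc' : ((A \ T).card : ℝ) = (A.card : ℝ) - 3 := by
          have : ((A \ T).card : ℝ) + 3 = A.card := by exact_mod_cast hc
          linarith
        rw [hc'] at h1
        rw [hB]
        refine h1.trans (le_of_eq ?_)
        congr 1
        push_cast
        ring
      · rw [if_neg hd]
        have hF' : ¬ F ⊆ A \ T := by
          intro h
          apply hd
          rw [Finset.disjoint_left]
          intro z hz hzF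
          exact (Finset.mem_sdiff.1 (h hzF)).2 hz
        have h1 := (baseKer H).kill_mono_of (G := G) (I := fun S => S ⊆ A \ T)
          (fun S hS _ x hx => (subset_of_mem_supp hx).trans hS)
          (f := fun S => if F ⊆ S then (1:ℝ) else 0) (g := fun _ => 0)
          (fun S hS => by rw [if_neg (fun h => hF' (h.trans hS))]) k (A \ T) (Finset.Subset.refl _)
        rwa [Ker.kill_const_zero] at h1
    refine (Finset.sum_le_sum hterm).trans ?_
    rw [← Finset.sum_filter, Finset.sum_const, nsmul_eq_mul]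
    refine (mul_le_mul_of_nonneg_right (card_disj_le hH hκ hgood hF (by omega)) hBpos.le).trans ?_
    rw [mul_assoc]
    refine mul_le_mul_of_nonneg_left ?_ hQ.le
    exact domB_step hη hκ (by positivity) hx hy

/-- **Killing-rate domination**, product form. -/
theorem kill_subset_le' (hH : Lin3 H) {η κ : ℝ} (hη : 0 ≤ η) (hκ : 0 < κ)
    {G : Finset V → Prop} (hG : ∀ A, G A → LowGood H η κ A) (F : Finset V) (k : ℕ)
    (A : Finset V) (hk : 3 * k < A.card) {x y : ℝ} (hx : x = A.card) (hy : y = x - 3 * k) :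
    (baseKer H).kill G (fun S => if F ⊆ S then 1 else 0) k A
      ≤ Real.exp (F.card * η * Real.log (x / y) + 3 * F.card / y
          + (F.card : ℝ) ^ 2 / (4 * κ * y ^ 2)) * (y / x) ^ F.card := by
  have hx0 : 0 < x := by rw [hx]; exact_mod_cast (by omega : 0 < A.card)
  have hy0 : 0 < y := by
    rw [hy, hx]
    have : ((3 * k : ℕ) : ℝ) < A.card := by exact_mod_cast hk
    push_cast at this
    linarith
  have h1 := kill_subset_le hH hη hκ hG F k A hk
  rw [← hx, ← hy] at h1
  refine h1.trans ?_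
  have h2 : (y / x) ^ F.card = Real.exp (F.card * Real.log (y / x)) := by
    rw [← Real.log_pow, Real.exp_log (by positivity)]
  rw [h2, ← Real.exp_add]
  unfold domB
  refine Real.exp_le_exp.2 ?_
  have h3 : 3 * (F.card : ℝ) * (1 / y - 1 / x) ≤ 3 * F.card / y := by
    have : 0 ≤ 3 * (F.card : ℝ) * (1 / x) := by positivity
    have h4 : 3 * (F.card : ℝ) * (1 / y - 1 / x) = 3 * F.card / y - 3 * (F.card : ℝ) * (1 / x) := by
      ring
    linarith
  have h5 : (F.card : ℝ) ^ 2 / (4 * κ) * (1 / y ^ 2 - 1 / x ^ 2)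
      ≤ (F.card : ℝ) ^ 2 / (4 * κ * y ^ 2) := by
    have h6 : 0 ≤ (F.card : ℝ) ^ 2 / (4 * κ) * (1 / x ^ 2) := by positivity
    have h7 : (F.card : ℝ) ^ 2 / (4 * κ) * (1 / y ^ 2 - 1 / x ^ 2)
        = (F.card : ℝ) ^ 2 / (4 * κ * y ^ 2) - (F.card : ℝ) ^ 2 / (4 * κ) * (1 / x ^ 2) := by
      field_simp
    linarith
  linarith

section Graph

variable {n : ℕ}

open Classical in
/-- **(A)**: the killed process started from `A₀` is dominated by a binomial random graph. -/
theorem dom_law {η κ : ℝ} (hη : 0 ≤ η) (hκ : 0 < κ)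
    {G : Finset (Sym2 (Fin n)) → Prop} (hG : ∀ A, G A → LowGood (triHyp n) η κ A)
    (A₀ : Finset (Sym2 (Fin n))) (k D : ℕ) (hk : 3 * k < A₀.card) {x y C : ℝ}
    (hx : x = A₀.card) (hy : y = x - 3 * k)
    (hC : Real.exp (D * η * Real.log (x / y) + 3 * D / y + (D : ℝ) ^ 2 / (4 * κ * y ^ 2)) ≤ C) :
    Dom ((baseKer (triHyp n)).law G A₀ k) C (y / x) D := by
  intro F hF
  have hx0 : 0 < x := by rw [hx]; exact_mod_cast (by omega : 0 < A₀.card)
  have hy0 : 0 < y := by
    rw [hy, hx]
    have : ((3 * k : ℕ) : ℝ) < A₀.card := by exact_mod_cast hk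
    push_cast at this
    linarith
  have hyx : y ≤ x := by
    rw [hy]
    have : (0:ℝ) ≤ 3 * k := by positivity
    linarith
  rw [Ker.sum_ite_law]
  have h1 := kill_subset_le' (lin3_triHyp n) hη hκ hG F k A₀ hk hx hy
  refine le_trans (le_of_eq ?_) (h1.trans (mul_le_mul_of_nonneg_right (le_trans ?_ hC)
    (by positivity)))
  · congr 1
  · refine Real.exp_le_exp.2 ?_
    have hF' : (F.card : ℝ) ≤ D := by exact_mod_cast hF
    have hF0 : (0:ℝ) ≤ F.card := by positivity
    have hl : 0 ≤ Real.log (x / y) := Real.log_nonneg (by rw [le_div_iff₀ hy0]; linarith)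
    have e1 : (F.card : ℝ) * η * Real.log (x / y) ≤ D * η * Real.log (x / y) :=
      mul_le_mul_of_nonneg_right (mul_le_mul_of_nonneg_right hF' hη) hl
    have e2 : 3 * (F.card : ℝ) / y ≤ 3 * D / y := by gcongr
    have e3 : (F.card : ℝ) ^ 2 / (4 * κ * y ^ 2) ≤ (D : ℝ) ^ 2 / (4 * κ * y ^ 2) := by gcongr
    linarith

end Graph

end Crest.Agent.R030
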