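import Crest.Agent.R030.Influence

/-!
Row 30 (S0040), triangle removal, blueprint 6117 part (C): base identities for one step of the
hyperedge removal process (hypergraph level).

`mc H A`      : mean codegree `3 Q / x`
`zt H A e`    : relative deviation `codeg e / mc - 1`
`adjO H A f e`: `∑_{T ∋ e} ∑_{x ∈ T, x ≠ e} f x`
`loss H A T e`: number of hyperedges through `e` destroyed by the removal of `T`
-/

set_option autoImplicit false

namespace Crest.Agent.R030.Drift

open Finset

variable {V : Type*} [DecidableEq V]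

/-- mean codegree of the alive elements -/
noncomputable def mc (H : Finset (Finset V)) (A : Finset V) : ℝ :=
  3 * ((act H A).card : ℝ) / (A.card : ℝ)

/-- relative deviation of the codegree -/
noncomputable def zt (H : Finset (Finset V)) (A : Finset V) (e : V) : ℝ :=
  (codeg H A e : ℝ) / mc H A - 1

/-- adjacency operator (through active hyperedges) -/
noncomputable def adjO (H : Finset (Finset V)) (A : Finset V) (f : V → ℝ) (e : V) : ℝ :=
  ∑ T ∈ (act H A).filter (fun T => e ∈ T), ∑ x ∈ T.erase e, f x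

/-- number of active hyperedges through `e` meeting `T` -/
def loss (H : Finset (Finset V)) (A T : Finset V) (e : V) : ℕ :=
  ((act H A).filter (fun T' => e ∈ T' ∧ ¬ Disjoint T' T)).card

theorem sum_act_sum (H : Finset (Finset V)) (A : Finset V) (f : V → ℝ) :
    ∑ T ∈ act H A, ∑ e ∈ T, f e = ∑ e ∈ A, (codeg H A e : ℝ) * f e := by
  have h1 : ∀ T ∈ act H A, ∑ e ∈ T, f e = ∑ e ∈ A, if e ∈ T then f e else 0 := by
    intro T hT
    rw [← Finset.sum_filter]
    congr 1
    rw [Finset.filter_mem_eq_inter, Finset.inter_eq_right.2 (mem_act.1 hT).2]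
  rw [Finset.sum_congr rfl h1, Finset.sum_comm]
  apply Finset.sum_congr rfl
  intro e _
  rw [← Finset.sum_filter, Finset.sum_const, nsmul_eq_mul]
  rfl

theorem sum_act_sum_inter (H : Finset (Finset V)) (A B : Finset V) (f : V → ℝ) :
    ∑ T ∈ act H A, ∑ e ∈ T ∩ B, f e = ∑ e ∈ A ∩ B, (codeg H A e : ℝ) * f e := by
  have h := sum_act_sum H A (fun e => if e ∈ B then f e else 0)
  rw [← Finset.filter_mem_eq_inter (s := A), Finset.sum_filter]
  rw [show (∑ T ∈ act H A, ∑ e ∈ T ∩ B, f e)
    = ∑ T ∈ act H A, ∑ e ∈ T, if e ∈ B then f e else 0 from ?_, h]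
  · apply Finset.sum_congr rfl
    intro e _
    split_ifs <;> simp
  · apply Finset.sum_congr rfl
    intro T _
    rw [← Finset.filter_mem_eq_inter, Finset.sum_filter]

theorem codeg_add_loss (H : Finset (Finset V)) (A T : Finset V) (e : V) :
    codeg H (A \ T) e + loss H A T e = codeg H A e := codeg_sdiff T e

theorem codeg_erase_add_one {H : Finset (Finset V)} (hH : Lin3 H) {A T' : Finset V} {e x : V}
    (hT' : T' ∈ act H A) (he : e ∈ T') (hx : x ∈ T'.erase e) :
    codeg H (A.erase e) x + 1 = codeg H A x := by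
  rw [codeg_erase]
  unfold codeg
  have hxT : x ∈ T' := Finset.mem_of_mem_erase hx
  have hxe : x ≠ e := Finset.ne_of_mem_erase hx
  have h1 : (act H A).filter (fun T => x ∈ T)
      = insert T' ((act H A).filter (fun T => e ∉ T ∧ x ∈ T)) := by
    ext T
    simp only [Finset.mem_filter, Finset.mem_insert]
    constructor
    · rintro ⟨hT, hx'⟩
      by_cases heT : e ∈ T
      · left
        exact hH.lin T (mem_act.1 hT).1 T' (mem_act.1 hT').1 x e hxe hx' heT hxT he
      · right; exact ⟨hT, heT, hx'⟩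
    · rintro (rfl | ⟨hT, _, hx'⟩)
      · exact ⟨hT', hxT⟩
      · exact ⟨hT, hx'⟩
  rw [h1, Finset.card_insert_of_notMem]
  simp [he]

theorem adjO_codeg_sub (H : Finset (Finset V)) (hH : Lin3 H) (A : Finset V) (e : V) :
    ((∑ T' ∈ (act H A).filter (fun T => e ∈ T), ∑ x ∈ T'.erase e, codeg H (A.erase e) x : ℕ) : ℝ)
      = adjO H A (fun x => (codeg H A x : ℝ)) e - 2 * (codeg H A e : ℝ) := by
  unfold adjO
  push_cast
  have h2 : (2 : ℝ) * (codeg H A e : ℝ) = ∑ T' ∈ (act H A).filter (fun T => e ∈ T), (2 : ℝ) := by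
    rw [Finset.sum_const, nsmul_eq_mul, mul_comm]
    rfl
  rw [h2, ← Finset.sum_sub_distrib]
  apply Finset.sum_congr rfl
  intro T' hT'
  rw [Finset.mem_filter] at hT'
  have hcard : (T'.erase e).card = 2 := by
    rw [Finset.card_erase_of_mem hT'.2, hH.card3 T' (mem_act.1 hT'.1).1]
  have h3 : (2 : ℝ) = ∑ x ∈ T'.erase e, (1 : ℝ) := by
    rw [Finset.sum_const, hcard]; norm_num
  rw [h3, ← Finset.sum_sub_distrib]
  apply Finset.sum_congr rfl
  intro x hx
  have := codeg_erase_add_one hH hT'.1 hT'.2 hx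
  rw [← this]
  push_cast
  ring

theorem sum_act_loss {H : Finset (Finset V)} (hH : Lin3 H) (A B : Finset V) (g : V → ℝ) :
    ∑ T ∈ act H A, ∑ e ∈ (A \ T) ∩ B, g e * (loss H A T e : ℝ)
      = ∑ e ∈ A ∩ B, g e * (adjO H A (fun x => (codeg H A x : ℝ)) e - 2 * (codeg H A e : ℝ)) := by
  have h1 : ∀ T ∈ act H A, ∑ e ∈ (A \ T) ∩ B, g e * (loss H A T e : ℝ)
      = ∑ e ∈ A ∩ B, if e ∉ T then g e * (loss H A T e : ℝ) else 0 := by
    intro T _
    rw [← Finset.sum_filter]
    congr 1
    ext e
    simp only [Finset.mem_inter, Finset.mem_sdiff, Finset.mem_filter]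
    tauto
  rw [Finset.sum_congr rfl h1, Finset.sum_comm]
  apply Finset.sum_congr rfl
  intro e _
  rw [← Finset.sum_filter, ← Finset.mul_sum, ← adjO_codeg_sub H hH A e, ← sum_meeting hH A e]
  push_cast
  rfl

theorem adjO_add (H : Finset (Finset V)) (A : Finset V) (f g : V → ℝ) (e : V) :
    adjO H A (fun x => f x + g x) e = adjO H A f e + adjO H A g e := by
  unfold adjO
  simp only [Finset.sum_add_distrib]

theorem adjO_const_mul (H : Finset (Finset V)) (A : Finset V) (c : ℝ) (f : V → ℝ) (e : V) :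
    adjO H A (fun x => c * f x) e = c * adjO H A f e := by
  unfold adjO
  simp only [Finset.mul_sum]

theorem adjO_congr (H : Finset (Finset V)) (A : Finset V) {f g : V → ℝ} (h : ∀ x, f x = g x)
    (e : V) : adjO H A f e = adjO H A g e := by
  unfold adjO
  simp only [h]

theorem adjO_const {H : Finset (Finset V)} (hH : Lin3 H) (A : Finset V) (c : ℝ) (e : V) :
    adjO H A (fun _ => c) e = 2 * c * (codeg H A e : ℝ) := by
  unfold adjO
  have : ∀ T' ∈ (act H A).filter (fun T => e ∈ T), ∑ x ∈ T'.erase e, c = 2 * c := by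
    intro T' hT'
    rw [Finset.mem_filter] at hT'
    have hcard : (T'.erase e).card = 2 := by
      rw [Finset.card_erase_of_mem hT'.2, hH.card3 T' (mem_act.1 hT'.1).1]
    rw [Finset.sum_const, hcard, nsmul_eq_mul]
    norm_num
  rw [Finset.sum_congr rfl this, Finset.sum_const, nsmul_eq_mul, mul_comm]
  rfl

/-- The number of active hyperedges meeting `T`. -/
theorem card_act_sdiff {H : Finset (Finset V)} (hH : Lin3 H) {A T : Finset V}
    (hT : T ∈ act H A) :
    ((act H (A \ T)).card : ℝ) = ((act H A).card : ℝ) - ∑ e ∈ T, (codeg H A e : ℝ) + 2 := by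
  have h1 : ∑ e ∈ T, (codeg H A e : ℝ) = ∑ T' ∈ act H A, ((T' ∩ T).card : ℝ) := by
    have := sum_act_sum_inter H A T (fun _ => (1 : ℝ))
    simp only [mul_one, Finset.sum_const, nsmul_eq_mul] at this
    rw [this, Finset.inter_eq_right.2 (mem_act.1 hT).2]
  have h2 : ∀ T' ∈ act H A, ((T' ∩ T).card : ℝ)
      = (if Disjoint T' T then 0 else 1) + (if T' = T then 2 else 0) := by
    intro T' hT'
    by_cases h : T' = T
    · subst h
      have hne : ¬ Disjoint T' T' := by
        rw [Finset.disjoint_self_iff_empty]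
        exact (hH.nonempty (mem_act.1 hT).1).ne_empty
      rw [if_neg hne, if_pos rfl, Finset.inter_self, hH.card3 T' (mem_act.1 hT).1]
      norm_num
    · rw [if_neg h]
      by_cases hd : Disjoint T' T
      · rw [if_pos hd, Finset.disjoint_iff_inter_eq_empty.1 hd]; simp
      · rw [if_neg hd]
        have : (T' ∩ T).card = 1 := by
          apply le_antisymm
          · rw [Finset.card_le_one]
            intro a ha b hb
            by_contra hab
            rw [Finset.mem_inter] at ha hb
            exact h (hH.lin T' (mem_act.1 hT').1 T (mem_act.1 hT).1 a b hab ha.1 hb.1 ha.2 hb.2)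
          · rw [Nat.succ_le_iff, Finset.card_pos, ← Finset.not_disjoint_iff_nonempty_inter]
            exact hd
        rw [this]; norm_num
  rw [h1, Finset.sum_congr rfl h2, Finset.sum_add_distrib, Finset.sum_ite_eq' (act H A) T,
    if_pos hT]
  have h3 : ∑ T' ∈ act H A, (if Disjoint T' T then (0 : ℝ) else 1)
      = ((act H A).card : ℝ) - ((act H (A \ T)).card : ℝ) := by
    rw [act_sdiff]
    rw [← Finset.card_filter_add_card_filter_not (s := act H A) (fun T' => Disjoint T' T)]
    push_cast
    rw [add_sub_cancel_left]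
    rw [Finset.card_filter, Nat.cast_sum]
    apply Finset.sum_congr rfl
    intro T' _
    split_ifs <;> simp_all
  rw [h3]
  ring

theorem loss_le_three {H : Finset (Finset V)} (hH : Lin3 H) {A T : Finset V} {e : V}
    (hT : T ∈ act H A) (he : e ∉ T) : loss H A T e ≤ 3 := by
  rw [← hH.card3 T (mem_act.1 hT).1]
  unfold loss
  have hsub : (act H A).filter (fun T' => e ∈ T' ∧ ¬ Disjoint T' T)
      ⊆ T.biUnion (fun x => (act H A).filter (fun T' => e ∈ T' ∧ x ∈ T')) := by
    intro T' hT'
    rw [Finset.mem_filter] at hT'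
    obtain ⟨hT'1, heT', hd⟩ := hT'
    rw [Finset.not_disjoint_iff] at hd
    obtain ⟨x, hx1, hx2⟩ := hd
    rw [Finset.mem_biUnion]
    exact ⟨x, hx2, Finset.mem_filter.2 ⟨hT'1, heT', hx1⟩⟩
  calc ((act H A).filter (fun T' => e ∈ T' ∧ ¬ Disjoint T' T)).card
      ≤ (T.biUnion (fun x => (act H A).filter (fun T' => e ∈ T' ∧ x ∈ T'))).card :=
        Finset.card_le_card hsub
    _ ≤ ∑ x ∈ T, ((act H A).filter (fun T' => e ∈ T' ∧ x ∈ T')).card := Finset.card_biUnion_le
    _ ≤ ∑ x ∈ T, 1 := by
        apply Finset.sum_le_sum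
        intro x hx
        rw [Finset.card_le_one]
        intro a ha b hb
        rw [Finset.mem_filter] at ha hb
        have hne : e ≠ x := fun h => he (h ▸ hx)
        exact hH.lin a (mem_act.1 ha.1).1 b (mem_act.1 hb.1).1 e x hne ha.2.1 ha.2.2 hb.2.1 hb.2.2
    _ = T.card := by simp

end Crest.Agent.R030.Drift
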