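import Mathlib

/-!
Row 30 (S0040), blueprint 6117 part (C): elementary real inequalities.
-/

set_option autoImplicit false

namespace Crest.Agent.R030.Drift

open Finset

/-- `a^i b^j ≤ a^(i+j) + b^(i+j)` for nonnegative reals. -/
theorem pow_mul_pow_le_add {a b : ℝ} (ha : 0 ≤ a) (hb : 0 ≤ b) (i j : ℕ) :
    a ^ i * b ^ j ≤ a ^ (i + j) + b ^ (i + j) := by
  rcases le_total a b with h | h
  · calc a ^ i * b ^ j ≤ b ^ i * b ^ j := by gcongr
      _ = b ^ (i + j) := (pow_add b i j).symm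
      _ ≤ _ := le_add_of_nonneg_left (by positivity)
  · calc a ^ i * b ^ j ≤ a ^ i * a ^ j := by gcongr
      _ = a ^ (i + j) := (pow_add a i j).symm
      _ ≤ _ := le_add_of_nonneg_right (by positivity)

/-- second order Taylor bound for powers -/
theorem abs_pow_taylor (a b : ℝ) (p : ℕ) :
    |(a + b) ^ (p + 2) - a ^ (p + 2) - (p + 2) * a ^ (p + 1) * b|
      ≤ 2 * 4 ^ p * (|a| ^ p * b ^ 2 + |b| ^ (p + 2)) := by
  induction p with
  | zero =>
    have e1 : (a + b) ^ (0 + 2) - a ^ (0 + 2) - ((0 : ℕ) + 2) * a ^ (0 + 1) * b = b ^ 2 := by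
      push_cast; ring
    rw [e1, abs_of_nonneg (sq_nonneg b)]
    simp only [pow_zero, zero_add, sq_abs]
    nlinarith [sq_nonneg b]
  | succ p ih =>
    have e1 : (a + b) ^ (p + 1 + 2) - a ^ (p + 1 + 2) - ((p + 1 : ℕ) + 2) * a ^ (p + 1 + 1) * b
        = (a + b) * ((a + b) ^ (p + 2) - a ^ (p + 2) - (p + 2) * a ^ (p + 1) * b)
          + (p + 2) * a ^ (p + 1) * b ^ 2 := by
      push_cast; ring
    rw [e1]
    have ha := abs_nonneg a
    have hb := abs_nonneg b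
    have hb2 : b ^ 2 = |b| ^ 2 := (sq_abs b).symm
    have h1 : |a| * |b| ^ (p + 2) ≤ |a| ^ (p + 1) * |b| ^ 2 + |b| ^ (p + 1 + 2) := by
      have := pow_mul_pow_le_add ha hb 1 p
      calc |a| * |b| ^ (p + 2) = (|a| ^ 1 * |b| ^ p) * |b| ^ 2 := by ring
        _ ≤ (|a| ^ (1 + p) + |b| ^ (1 + p)) * |b| ^ 2 := by gcongr
        _ = _ := by ring
    have h2 : |a| ^ p * |b| ^ 2 * |b| ≤ |a| ^ (p + 1) * |b| ^ 2 + |b| ^ (p + 1 + 2) := by
      have := pow_mul_pow_le_add ha hb p 1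
      calc |a| ^ p * |b| ^ 2 * |b| = (|a| ^ p * |b| ^ 1) * |b| ^ 2 := by ring
        _ ≤ (|a| ^ (p + 1) + |b| ^ (p + 1)) * |b| ^ 2 := by gcongr
        _ = _ := by ring
    have h4 : ((p : ℝ) + 2) ≤ 2 * 4 ^ p := by
      have h5 : ∀ k : ℕ, k + 2 ≤ 2 * 4 ^ k := by
        intro k
        induction k with
        | zero => norm_num
        | succ k ih => rw [pow_succ]; omega
      exact_mod_cast h5 p
    have hX : 0 ≤ |a| ^ (p + 1) * |b| ^ 2 := by positivity
    have hY : 0 ≤ |b| ^ (p + 1 + 2) := by positivity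
    calc |(a + b) * ((a + b) ^ (p + 2) - a ^ (p + 2) - (p + 2) * a ^ (p + 1) * b)
          + (p + 2) * a ^ (p + 1) * b ^ 2|
        ≤ |a + b| * |(a + b) ^ (p + 2) - a ^ (p + 2) - (p + 2) * a ^ (p + 1) * b|
          + |(p + 2) * a ^ (p + 1) * b ^ 2| := by
          rw [← abs_mul]; exact abs_add_le _ _
      _ ≤ (|a| + |b|) * (2 * 4 ^ p * (|a| ^ p * b ^ 2 + |b| ^ (p + 2)))
          + (p + 2) * (|a| ^ (p + 1) * |b| ^ 2) := by
          apply add_le_add
          · exact mul_le_mul (abs_add_le a b) ih (abs_nonneg _) (by positivity)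
          · apply le_of_eq
            rw [abs_mul, abs_mul, abs_pow, abs_pow, abs_of_nonneg (by positivity : (0:ℝ) ≤ (p:ℝ)+2)]
            ring
      _ = 2 * 4 ^ p * (|a| ^ (p + 1) * |b| ^ 2 + |a| * |b| ^ (p + 2)
            + |a| ^ p * |b| ^ 2 * |b| + |b| ^ (p + 1 + 2))
            + (p + 2) * (|a| ^ (p + 1) * |b| ^ 2) := by
          rw [hb2]; ring
      _ ≤ 2 * 4 ^ p * (|a| ^ (p + 1) * |b| ^ 2 + (|a| ^ (p + 1) * |b| ^ 2 + |b| ^ (p + 1 + 2))
            + (|a| ^ (p + 1) * |b| ^ 2 + |b| ^ (p + 1 + 2)) + |b| ^ (p + 1 + 2))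
            + (2 * 4 ^ p) * (|a| ^ (p + 1) * |b| ^ 2) := by
          gcongr
      _ ≤ 2 * 4 ^ (p + 1) * (|a| ^ (p + 1) * b ^ 2 + |b| ^ (p + 1 + 2)) := by
          rw [hb2, pow_succ (4 : ℝ) p]
          have : (0:ℝ) < 4 ^ p := by positivity
          nlinarith [mul_nonneg this.le hX, mul_nonneg this.le hY]

/-- Young's inequality in a crude form. -/
theorem young_crude {a b ε : ℝ} (ha : 0 ≤ a) (hb : 0 ≤ b) (hε : 0 < ε) (r : ℕ) :
    a ^ r * b ≤ ε * a ^ (r + 1) + (1 / ε) ^ r * b ^ (r + 1) := by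
  rcases le_total b (ε * a) with h | h
  · calc a ^ r * b ≤ a ^ r * (ε * a) := by gcongr
      _ = ε * a ^ (r + 1) := by ring
      _ ≤ _ := le_add_of_nonneg_right (by positivity)
  · have h1 : a ≤ 1 / ε * b := by
      rw [one_div, inv_mul_eq_div, le_div_iff₀ hε]; linarith
    calc a ^ r * b ≤ (1 / ε * b) ^ r * b := by gcongr
      _ = (1 / ε) ^ r * b ^ (r + 1) := by ring
      _ ≤ _ := le_add_of_nonneg_left (by positivity)

/-- The one-step inequality for a block. -/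
theorem block_pure {p : ℕ} (hp : Even p) {d S d' S' : ℝ} (hd' : 0 ≤ d')
    (h0 : d = 0 → S = 0) (h0' : d' = 0 → S' = 0) :
    d' * (S' / d') ^ (p + 2) ≤ d * (S / d) ^ (p + 2) + (p + 2) * (S / d) ^ (p + 1) * (S' - S)
      - (p + 1) * (S / d) ^ (p + 2) * (d' - d)
      + 2 * 4 ^ p * ((S / d) ^ p * (d' * (((S' - S) - (S / d) * (d' - d)) / d') ^ 2)
          + d' * (((S' - S) - (S / d) * (d' - d)) / d') ^ (p + 2)) := by
  set t := S / d with ht
  have hS : S = t * d := by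
    rcases eq_or_ne d 0 with h | h
    · rw [h0 h, h]; simp
    · rw [ht]; field_simp
  rcases eq_or_lt_of_le hd' with h | h
  · have h1 : d' = 0 := h.symm
    have h2 := h0' h1
    rw [h1, h2, hS]
    apply le_of_eq
    ring
  · set δ := ((S' - S) - t * (d' - d)) / d' with hδ
    have hδ' : (S' - S) - t * (d' - d) = δ * d' := by rw [hδ]; field_simp
    have hS' : S' = (t + δ) * d' := by linarith
    have e1 : S' / d' = t + δ := by rw [hS']; field_simp
    rw [e1]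
    have hT := abs_pow_taylor t δ p
    have h3 : (t + δ) ^ (p + 2) ≤ t ^ (p + 2) + (p + 2) * t ^ (p + 1) * δ
        + 2 * 4 ^ p * (|t| ^ p * δ ^ 2 + |δ| ^ (p + 2)) := by
      have := (abs_le.1 hT).2
      linarith
    have hp2 : Even (p + 2) := by
      rw [Nat.even_add]; simp [hp]
    rw [hp.pow_abs, hp2.pow_abs] at h3
    calc d' * (t + δ) ^ (p + 2)
        ≤ d' * (t ^ (p + 2) + (p + 2) * t ^ (p + 1) * δ
          + 2 * 4 ^ p * (t ^ p * δ ^ 2 + δ ^ (p + 2))) := by gcongr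
      _ = d * t ^ (p + 2) + (p + 2) * t ^ (p + 1) * (S' - S)
      - (p + 1) * t ^ (p + 2) * (d' - d)
      + 2 * 4 ^ p * (t ^ p * (d' * δ ^ 2) + d' * δ ^ (p + 2)) := by
        have : S' - S = δ * d' + t * (d' - d) := by linarith
        rw [this]
        ring

end Crest.Agent.R030.Drift
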