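import Crest.Agent.R030.DriftStep
import Crest.Agent.R030.DriftPure

/-!
Row 30 (S0040), blueprint 6117 part (C): one-step inequality for the contribution of a block.
-/

set_option autoImplicit false

namespace Crest.Agent.R030.Drift

open Finset

variable {V : Type*} [DecidableEq V]

/-- relative displacement of the average over a block -/
noncomputable def del (H : Finset (Finset V)) (A T B : Finset V) : ℝ :=
  ((SB H (A \ T) B - SB H A B) - tB H A B * (dB (A \ T) B - dB A B)) / dB (A \ T) B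

/-- regular block: bounds for the displacement -/
structure RegB (H : Finset (Finset V)) (A B : Finset V) (K : ℝ) : Prop where
  K0 : 0 ≤ K
  bd : ∀ T ∈ act H A, |del H A T B| ≤ K / mc H A
  sq : ∑ T ∈ act H A, dB (A \ T) B * del H A T B ^ 2 ≤ K * dB A B

theorem SB_eq_zero_of_dB {H : Finset (Finset V)} {A B : Finset V} (h : dB A B = 0) :
    SB H A B = 0 := by
  unfold dB at h
  have h1 : (A ∩ B).card = 0 := by exact_mod_cast h
  rw [Finset.card_eq_zero] at h1
  unfold SB
  rw [h1, Finset.sum_empty]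

/-- `Z`: the mean of `ζ^(p+2)` -/
noncomputable def Zf (p : ℕ) (H : Finset (Finset V)) (A : Finset V) : ℝ :=
  (∑ e ∈ A, zt H A e ^ (p + 2)) / A.card

namespace Nice

variable {H : Finset (Finset V)} {A : Finset V} {η : ℝ}

theorem SB_eq_tB_mul (_h : Nice H A η) (B : Finset V) : SB H A B = tB H A B * dB A B := by
  rcases eq_or_ne (dB A B) 0 with h0 | h0
  · rw [SB_eq_zero_of_dB h0, h0, mul_zero]
  · unfold tB; field_simp

/-- First form of the one-step inequality of a block. -/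
theorem block_step (h : Nice H A η) {p : ℕ} (hp : Even p) {B : Finset V} {K : ℝ}
    (hB : RegB H A B K) :
    ∑ T ∈ act H A, PsiB p H (A \ T) B ≤ ((act H A).card : ℝ) * PsiB p H A B
      + mc H A * (- PsiB p H A B + (p + 1) * tB H A B ^ (p + 3) * dB A B
          + (p + 2) * tB H A B ^ (p + 1) * (3 * vv H A * (dB A B + SB H A B)
            - (∑ e ∈ A ∩ B, adjO H A (zt H A) e) / mc H A - ∑ e ∈ A ∩ B, zt H A e ^ 2))
      + (p + 2) * |tB H A B| ^ (p + 1) * (54 * mc H A / A.card * dB A B)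
      + 2 * 4 ^ p * (tB H A B ^ p * (K * dB A B) + (K / mc H A) ^ p * (K * dB A B)) := by
  have hm := h.mpos
  have hd := dB_nonneg A B
  set t := tB H A B with ht
  have step1 : ∀ T ∈ act H A, PsiB p H (A \ T) B ≤ PsiB p H A B
      + (p + 2) * t ^ (p + 1) * (SB H (A \ T) B - SB H A B)
      - (p + 1) * t ^ (p + 2) * (dB (A \ T) B - dB A B)
      + 2 * 4 ^ p * (t ^ p * (dB (A \ T) B * del H A T B ^ 2)
          + dB (A \ T) B * del H A T B ^ (p + 2)) := by
    intro T hT
    exact block_pure hp (dB_nonneg _ _) SB_eq_zero_of_dB SB_eq_zero_of_dB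
  have step2 : ∀ T ∈ act H A, dB (A \ T) B * del H A T B ^ (p + 2)
      ≤ (K / mc H A) ^ p * (dB (A \ T) B * del H A T B ^ 2) := by
    intro T hT
    have h1 : del H A T B ^ p ≤ (K / mc H A) ^ p := by
      rw [← hp.pow_abs]
      exact pow_le_pow_left₀ (abs_nonneg _) (hB.bd T hT) p
    have h2 : 0 ≤ dB (A \ T) B * del H A T B ^ 2 := mul_nonneg (dB_nonneg _ _) (sq_nonneg _)
    calc dB (A \ T) B * del H A T B ^ (p + 2)
        = del H A T B ^ p * (dB (A \ T) B * del H A T B ^ 2) := by ring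
      _ ≤ _ := mul_le_mul_of_nonneg_right h1 h2
  have hS : ∑ T ∈ act H A, (SB H (A \ T) B - SB H A B)
      = ∑ T ∈ act H A, linB H A T B
        + ∑ T ∈ act H A, (SB H (A \ T) B - SB H A B - linB H A T B) := by
    rw [← Finset.sum_add_distrib]
    apply Finset.sum_congr rfl
    intro T _
    ring
  have hD : ∑ T ∈ act H A, (dB (A \ T) B - dB A B) = - (mc H A * (dB A B + SB H A B)) := by
    rw [← h.sum_card_inter B, ← Finset.sum_neg_distrib]
    apply Finset.sum_congr rfl
    intro T hT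
    rw [dB_sdiff (mem_act.1 hT).2]
    ring
  have hErr : t ^ (p + 1) * ∑ T ∈ act H A, (SB H (A \ T) B - SB H A B - linB H A T B)
      ≤ |t| ^ (p + 1) * (54 * mc H A / A.card * dB A B) := by
    calc t ^ (p + 1) * ∑ T ∈ act H A, (SB H (A \ T) B - SB H A B - linB H A T B)
        ≤ |t ^ (p + 1) * ∑ T ∈ act H A, (SB H (A \ T) B - SB H A B - linB H A T B)| :=
          le_abs_self _
      _ = |t| ^ (p + 1) * |∑ T ∈ act H A, (SB H (A \ T) B - SB H A B - linB H A T B)| := by
          rw [abs_mul, abs_pow]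
      _ ≤ |t| ^ (p + 1) * ∑ T ∈ act H A, |SB H (A \ T) B - SB H A B - linB H A T B| := by
          gcongr
          exact Finset.abs_sum_le_sum_abs _ _
      _ ≤ _ := by
          gcongr
          exact h.sum_abs_SB_sub_linB_le B
  have htp : 0 ≤ t ^ p := hp.pow_nonneg t
  have hStd : SB H A B = t * dB A B := h.SB_eq_tB_mul B
  have hPsi : PsiB p H A B = dB A B * t ^ (p + 2) := rfl
  calc ∑ T ∈ act H A, PsiB p H (A \ T) B
      ≤ ∑ T ∈ act H A, (PsiB p H A B
          + (p + 2) * t ^ (p + 1) * (SB H (A \ T) B - SB H A B)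
          - (p + 1) * t ^ (p + 2) * (dB (A \ T) B - dB A B)
          + 2 * 4 ^ p * (t ^ p * (dB (A \ T) B * del H A T B ^ 2)
            + (K / mc H A) ^ p * (dB (A \ T) B * del H A T B ^ 2))) := by
        apply Finset.sum_le_sum
        intro T hT
        refine (step1 T hT).trans ?_
        have := step2 T hT
        gcongr
    _ = ((act H A).card : ℝ) * PsiB p H A B
          + (p + 2) * (t ^ (p + 1) * ∑ T ∈ act H A, linB H A T B)
          + (p + 2) * (t ^ (p + 1) *
              ∑ T ∈ act H A, (SB H (A \ T) B - SB H A B - linB H A T B))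
          - (p + 1) * t ^ (p + 2) * (∑ T ∈ act H A, (dB (A \ T) B - dB A B))
          + 2 * 4 ^ p * (t ^ p * (∑ T ∈ act H A, dB (A \ T) B * del H A T B ^ 2)
            + (K / mc H A) ^ p * (∑ T ∈ act H A, dB (A \ T) B * del H A T B ^ 2)) := by
        rw [Finset.sum_add_distrib, Finset.sum_sub_distrib, Finset.sum_add_distrib,
          Finset.sum_const, nsmul_eq_mul, ← Finset.mul_sum, ← Finset.mul_sum, ← Finset.mul_sum,
          Finset.sum_add_distrib, ← Finset.mul_sum, ← Finset.mul_sum, hS]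
        ring
    _ ≤ ((act H A).card : ℝ) * PsiB p H A B
          + (p + 2) * (t ^ (p + 1) * ∑ T ∈ act H A, linB H A T B)
          + (p + 2) * (|t| ^ (p + 1) * (54 * mc H A / A.card * dB A B))
          - (p + 1) * t ^ (p + 2) * (∑ T ∈ act H A, (dB (A \ T) B - dB A B))
          + 2 * 4 ^ p * (t ^ p * (K * dB A B) + (K / mc H A) ^ p * (K * dB A B)) := by
        have h1 := hB.sq
        have h2 : 0 ≤ K / mc H A := div_nonneg hB.K0 hm.le
        gcongr
    _ = _ := by
        rw [hD, h.sum_linB B]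
        have e3 : ∑ e ∈ A ∩ B, zt H A e * (1 + zt H A e)
            = SB H A B + ∑ e ∈ A ∩ B, zt H A e ^ 2 := by
          unfold SB
          rw [← Finset.sum_add_distrib]
          apply Finset.sum_congr rfl
          intro e _
          ring
        rw [e3, hStd, hPsi]
        ring

theorem vv_nonneg (H : Finset (Finset V)) (A : Finset V) : 0 ≤ vv H A := by
  unfold vv
  positivity

/-- mixed moment with the variance -/
theorem pow_mul_vv_le (h : Nice H A η) {p : ℕ} (hp : Even p) (t : ℝ) :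
    |t| ^ (p + 1) * vv H A ≤ η * (t ^ (p + 2) + Zf p H A) := by
  have hx := h.xpos
  have hp2 : Even (p + 2) := by rw [Nat.even_add]; simp [hp]
  unfold vv Zf
  rw [← mul_div_assoc, div_le_iff₀ hx, mul_assoc, add_mul, div_mul_cancel₀ _ hx.ne',
    Finset.mul_sum]
  calc ∑ e ∈ A, |t| ^ (p + 1) * zt H A e ^ 2
      ≤ ∑ e ∈ A, η * (t ^ (p + 2) + zt H A e ^ (p + 2)) := by
        apply Finset.sum_le_sum
        intro e he
        have h1 := h.hz e he
        have h2 := pow_mul_pow_le_add (abs_nonneg t) (abs_nonneg (zt H A e)) (p + 1) 1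
        rw [show p + 1 + 1 = p + 2 from rfl, hp2.pow_abs, hp2.pow_abs, pow_one] at h2
        calc |t| ^ (p + 1) * zt H A e ^ 2
            = |zt H A e| * (|t| ^ (p + 1) * |zt H A e|) := by rw [← sq_abs]; ring
          _ ≤ η * (t ^ (p + 2) + zt H A e ^ (p + 2)) := by
              apply mul_le_mul h1 h2 (by positivity) h.hη0
    _ = η * (t ^ (p + 2) * A.card + ∑ e ∈ A, zt H A e ^ (p + 2)) := by
        rw [← Finset.mul_sum, Finset.sum_add_distrib, Finset.sum_const, nsmul_eq_mul]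
        ring

theorem pow_mul_sum_sq_le (h : Nice H A η) {p : ℕ} (hp : Even p) (t : ℝ) (B : Finset V) :
    |t| ^ (p + 1) * ∑ e ∈ A ∩ B, zt H A e ^ 2
      ≤ η * (t ^ (p + 2) * dB A B + ∑ e ∈ A ∩ B, zt H A e ^ (p + 2)) := by
  have hp2 : Even (p + 2) := by rw [Nat.even_add]; simp [hp]
  rw [Finset.mul_sum]
  calc ∑ e ∈ A ∩ B, |t| ^ (p + 1) * zt H A e ^ 2
      ≤ ∑ e ∈ A ∩ B, η * (t ^ (p + 2) + zt H A e ^ (p + 2)) := by
        apply Finset.sum_le_sum
        intro e he
        have h1 := h.hz e (Finset.mem_inter.1 he).1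
        have h2 := pow_mul_pow_le_add (abs_nonneg t) (abs_nonneg (zt H A e)) (p + 1) 1
        rw [show p + 1 + 1 = p + 2 from rfl, hp2.pow_abs, hp2.pow_abs, pow_one] at h2
        calc |t| ^ (p + 1) * zt H A e ^ 2
            = |zt H A e| * (|t| ^ (p + 1) * |zt H A e|) := by rw [← sq_abs]; ring
          _ ≤ η * (t ^ (p + 2) + zt H A e ^ (p + 2)) := by
              apply mul_le_mul h1 h2 (by positivity) h.hη0
    _ = η * (t ^ (p + 2) * dB A B + ∑ e ∈ A ∩ B, zt H A e ^ (p + 2)) := by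
        rw [← Finset.mul_sum, Finset.sum_add_distrib, Finset.sum_const, nsmul_eq_mul, dB]
        ring

end Nice

/-- noise constant -/
noncomputable def Kc (p : ℕ) (K ε : ℝ) : ℝ :=
  54 * (p + 2) * (1 / ε) ^ (p + 1) + 2 * 4 ^ p * K * (1 / ε) ^ (p / 2) + 2 * 4 ^ p * K ^ (p + 1)

/-- small growth constant -/
noncomputable def th1 (p : ℕ) (K η ε : ℝ) : ℝ :=
  6 * (p + 2) * η + (54 * (p + 2) + 2 * 4 ^ p * K) * ε

set_option maxHeartbeats 1000000 in
/-- **Second form of the one-step inequality of a block.** -/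
theorem Nice.block_step2 {H : Finset (Finset V)} {A : Finset V} {η : ℝ}
    (h : Nice H A η) {p : ℕ} (hp : Even p) {B : Finset V} {K ε : ℝ} (hε : 0 < ε)
    (hB : RegB H A B K) :
    ∑ T ∈ act H A, PsiB p H (A \ T) B ≤ ((act H A).card : ℝ) * PsiB p H A B
      + mc H A * (- PsiB p H A B
          - (p + 2) * (tB H A B ^ (p + 1) * ((∑ e ∈ A ∩ B, adjO H A (zt H A) e) / mc H A))
          + th1 p K η ε * (PsiB p H A B + ∑ e ∈ A ∩ B, zt H A e ^ (p + 2) + dB A B * Zf p H A)
          + Kc p K ε * dB A B * (1 / mc H A) ^ (p / 2 + 1)) := by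
  have hm := h.mpos
  have hm100 := h.hm
  have hx := h.xpos
  have hd := dB_nonneg A B
  have hη0 := h.hη0
  have hη := h.hη
  have hK := hB.K0
  have hp2 : Even (p + 2) := by rw [Nat.even_add]; simp [hp]
  obtain ⟨r, hr⟩ : ∃ r, p = 2 * r := by
    obtain ⟨r, hr⟩ := hp
    exact ⟨r, by omega⟩
  have hr2 : p / 2 = r := by omega
  refine (h.block_step hp hB).trans ?_
  set t := tB H A B with ht
  set m := mc H A with hmdef
  set x : ℝ := (A.card : ℝ) with hxdef
  have htp2 : 0 ≤ t ^ (p + 2) := hp2.pow_nonneg t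
  have hPsi : PsiB p H A B = dB A B * t ^ (p + 2) := rfl
  have hPsi0 : 0 ≤ PsiB p H A B := by rw [hPsi]; positivity
  have hZ0 : 0 ≤ Zf p H A := by
    unfold Zf
    apply div_nonneg _ hx.le
    exact Finset.sum_nonneg (fun e _ => hp2.pow_nonneg _)
  have hZB : 0 ≤ ∑ e ∈ A ∩ B, zt H A e ^ (p + 2) :=
    Finset.sum_nonneg (fun e _ => hp2.pow_nonneg _)
  have htη := h.abs_tB_le B
  have hpc : (0 : ℝ) ≤ p := Nat.cast_nonneg p
  have h1m : 0 ≤ 1 / m := by positivity
  have h1m1 : 1 / m ≤ 1 := by rw [div_le_one hm]; linarith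
  -- (i)
  have i1 : (p + 1) * t ^ (p + 3) * dB A B ≤ (p + 2) * η * PsiB p H A B := by
    have : t ^ (p + 3) ≤ η * t ^ (p + 2) := by
      calc t ^ (p + 3) = t * t ^ (p + 2) := by ring
        _ ≤ η * t ^ (p + 2) := mul_le_mul_of_nonneg_right ((le_abs_self t).trans htη) htp2
    calc (p + 1) * t ^ (p + 3) * dB A B ≤ (p + 1) * (η * t ^ (p + 2)) * dB A B := by gcongr
      _ = (p + 1) * (η * PsiB p H A B) := by rw [hPsi]; ring
      _ ≤ (p + 2) * (η * PsiB p H A B) := by
          apply mul_le_mul_of_nonneg_right (by linarith) (by positivity)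
      _ = _ := by ring
  -- (ii)
  have hS := abs_le.1 (h.abs_SB_le B)
  have hdS0 : 0 ≤ dB A B + SB H A B := by nlinarith
  have hdS : dB A B + SB H A B ≤ 11 / 10 * dB A B := by nlinarith
  have i2 : t ^ (p + 1) * (3 * vv H A * (dB A B + SB H A B))
      ≤ 4 * η * (PsiB p H A B + dB A B * Zf p H A) := by
    have hv := Nice.vv_nonneg H A
    calc t ^ (p + 1) * (3 * vv H A * (dB A B + SB H A B))
        ≤ |t| ^ (p + 1) * (3 * vv H A * (dB A B + SB H A B)) := by
          apply mul_le_mul_of_nonneg_right _ (by positivity)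
          rw [← abs_pow]; exact le_abs_self _
      _ ≤ |t| ^ (p + 1) * (3 * vv H A * (11 / 10 * dB A B)) := by gcongr
      _ = 33 / 10 * dB A B * (|t| ^ (p + 1) * vv H A) := by ring
      _ ≤ 33 / 10 * dB A B * (η * (t ^ (p + 2) + Zf p H A)) :=
          mul_le_mul_of_nonneg_left (h.pow_mul_vv_le hp t) (by positivity)
      _ ≤ 4 * dB A B * (η * (t ^ (p + 2) + Zf p H A)) := by
          apply mul_le_mul_of_nonneg_right _ (by positivity)
          linarith
      _ = _ := by rw [hPsi]; ring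
  -- (iii)
  have i3 : - (t ^ (p + 1) * ∑ e ∈ A ∩ B, zt H A e ^ 2)
      ≤ η * (PsiB p H A B + ∑ e ∈ A ∩ B, zt H A e ^ (p + 2)) := by
    have h0 : 0 ≤ ∑ e ∈ A ∩ B, zt H A e ^ 2 := Finset.sum_nonneg (fun e _ => sq_nonneg _)
    calc - (t ^ (p + 1) * ∑ e ∈ A ∩ B, zt H A e ^ 2)
        ≤ |t| ^ (p + 1) * ∑ e ∈ A ∩ B, zt H A e ^ 2 := by
          rw [← abs_pow, ← neg_mul]
          exact mul_le_mul_of_nonneg_right (neg_le_abs _) h0
      _ ≤ _ := by
          have := h.pow_mul_sum_sq_le hp t B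
          rw [hPsi]
          linarith [this, mul_comm (dB A B) (t ^ (p + 2))]
  -- (iv)
  have hx1 : (1 / x) ^ (p + 2) ≤ (1 / m) ^ (r + 1) := by
    calc (1 / x) ^ (p + 2) ≤ (1 / m) ^ (p + 2) := by
          gcongr
          exact h.hmx
      _ ≤ (1 / m) ^ (r + 1) := pow_le_pow_of_le_one h1m h1m1 (show r + 1 ≤ p + 2 by omega)
  have i4 : |t| ^ (p + 1) * (1 / x) ≤ ε * t ^ (p + 2) + (1 / ε) ^ (p + 1) * (1 / m) ^ (r + 1) := by
    have := young_crude (abs_nonneg t) (by positivity : (0:ℝ) ≤ 1 / x) hε (p + 1)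
    rw [show p + 1 + 1 = p + 2 from rfl, hp2.pow_abs] at this
    refine this.trans ?_
    gcongr
  -- (v)
  have i5 : t ^ p * (1 / m) ≤ ε * t ^ (p + 2) + (1 / ε) ^ r * (1 / m) ^ (r + 1) := by
    have := young_crude (sq_nonneg t) h1m hε r
    have q1 : (t ^ 2) ^ r = t ^ p := by rw [← pow_mul, hr]
    have q2 : (t ^ 2) ^ (r + 1) = t ^ (p + 2) := by
      rw [← pow_mul]; congr 1; omega
    rw [q1, q2] at this
    exact this
  -- (vi)
  have i6 : (K / m) ^ p * (1 / m) ≤ K ^ p * (1 / m) ^ (r + 1) := by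
    calc (K / m) ^ p * (1 / m) = K ^ p * (1 / m) ^ (p + 1) := by
          rw [div_eq_mul_one_div K m, mul_pow]; ring
      _ ≤ K ^ p * (1 / m) ^ (r + 1) := by
          have := pow_le_pow_of_le_one h1m h1m1 (show r + 1 ≤ p + 1 by omega)
          exact mul_le_mul_of_nonneg_left this (pow_nonneg hK p)
  rw [hr2]
  have e4 : (p + 2) * |t| ^ (p + 1) * (54 * m / x * dB A B)
      = m * (54 * (p + 2) * dB A B * (|t| ^ (p + 1) * (1 / x))) := by ring
  have e5 : 2 * 4 ^ p * (t ^ p * (K * dB A B) + (K / m) ^ p * (K * dB A B))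
      = m * (2 * 4 ^ p * K * dB A B * (t ^ p * (1 / m))
          + 2 * 4 ^ p * K * dB A B * ((K / m) ^ p * (1 / m))) := by
    field_simp
  rw [e4, e5]
  set X := (∑ e ∈ A ∩ B, adjO H A (zt H A) e) / m with hX
  set S2 := ∑ e ∈ A ∩ B, zt H A e ^ 2 with hS2
  set SZB := ∑ e ∈ A ∩ B, zt H A e ^ (p + 2) with hSZB
  set μ := (1 / m) ^ (r + 1) with hμ
  have hμ0 : 0 ≤ μ := by positivity
  have main : - PsiB p H A B + (p + 1) * t ^ (p + 3) * dB A B
        + (p + 2) * t ^ (p + 1) * (3 * vv H A * (dB A B + SB H A B) - X - S2)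
        + 54 * (p + 2) * dB A B * (|t| ^ (p + 1) * (1 / x))
        + (2 * 4 ^ p * K * dB A B * (t ^ p * (1 / m))
          + 2 * 4 ^ p * K * dB A B * ((K / m) ^ p * (1 / m)))
      ≤ - PsiB p H A B - (p + 2) * (t ^ (p + 1) * X)
          + th1 p K η ε * (PsiB p H A B + SZB + dB A B * Zf p H A)
          + Kc p K ε * dB A B * μ := by
    have j2 : (p + 2) * (t ^ (p + 1) * (3 * vv H A * (dB A B + SB H A B)))
        ≤ (p + 2) * (4 * η * (PsiB p H A B + dB A B * Zf p H A)) := by gcongr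
    have j3 : (p + 2) * (- (t ^ (p + 1) * S2)) ≤ (p + 2) * (η * (PsiB p H A B + SZB)) := by gcongr
    have j4 : 54 * (p + 2) * dB A B * (|t| ^ (p + 1) * (1 / x))
        ≤ 54 * (p + 2) * dB A B * (ε * t ^ (p + 2) + (1 / ε) ^ (p + 1) * μ) := by gcongr
    have j5 : 2 * 4 ^ p * K * dB A B * (t ^ p * (1 / m))
        ≤ 2 * 4 ^ p * K * dB A B * (ε * t ^ (p + 2) + (1 / ε) ^ r * μ) := by gcongr
    have j6 : 2 * 4 ^ p * K * dB A B * ((K / m) ^ p * (1 / m))
        ≤ 2 * 4 ^ p * K * dB A B * (K ^ p * μ) := by gcongr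
    have j7 : th1 p K η ε * (PsiB p H A B + SZB + dB A B * Zf p H A)
        = 6 * (p + 2) * η * (PsiB p H A B + SZB + dB A B * Zf p H A)
          + (54 * (p + 2) + 2 * 4 ^ p * K) * ε * PsiB p H A B
          + (54 * (p + 2) + 2 * 4 ^ p * K) * ε * (SZB + dB A B * Zf p H A) := by
      unfold th1; ring
    have j8 : Kc p K ε * dB A B * μ = 54 * (p + 2) * dB A B * ((1 / ε) ^ (p + 1) * μ)
        + 2 * 4 ^ p * K * dB A B * ((1 / ε) ^ r * μ) + 2 * 4 ^ p * K * dB A B * (K ^ p * μ) := by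
      unfold Kc
      rw [hr2]; ring
    have j9 : 0 ≤ (54 * (p + 2) + 2 * 4 ^ p * K) * ε * (SZB + dB A B * Zf p H A) := by positivity
    have j10 : 0 ≤ (p + 2) * η * SZB := by positivity
    have j11 : 0 ≤ (p + 2) * η * (dB A B * Zf p H A) := by positivity
    have k1 : (p + 2) * t ^ (p + 1) * (3 * vv H A * (dB A B + SB H A B) - X - S2)
        = (p + 2) * (t ^ (p + 1) * (3 * vv H A * (dB A B + SB H A B)))
          - (p + 2) * (t ^ (p + 1) * X) + (p + 2) * (- (t ^ (p + 1) * S2)) := by ring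
    have k4 : 54 * (p + 2) * dB A B * (ε * t ^ (p + 2) + (1 / ε) ^ (p + 1) * μ)
        = 54 * (p + 2) * ε * PsiB p H A B + 54 * (p + 2) * dB A B * ((1 / ε) ^ (p + 1) * μ) := by
      rw [hPsi]; ring
    have k5 : 2 * 4 ^ p * K * dB A B * (ε * t ^ (p + 2) + (1 / ε) ^ r * μ)
        = 2 * 4 ^ p * K * ε * PsiB p H A B + 2 * 4 ^ p * K * dB A B * ((1 / ε) ^ r * μ) := by
      rw [hPsi]; ring
    have k7 : 6 * (p + 2) * η * (PsiB p H A B + SZB + dB A B * Zf p H A)
        = 6 * ((p + 2) * η * PsiB p H A B) + 6 * ((p + 2) * η * SZB)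
          + 6 * ((p + 2) * η * (dB A B * Zf p H A)) := by ring
    have k8 : (p + 2) * (4 * η * (PsiB p H A B + dB A B * Zf p H A))
        = 4 * ((p + 2) * η * PsiB p H A B) + 4 * ((p + 2) * η * (dB A B * Zf p H A)) := by ring
    have k9 : (p + 2) * (η * (PsiB p H A B + SZB))
        = (p + 2) * η * PsiB p H A B + (p + 2) * η * SZB := by ring
    have k10 : (54 * (p + 2) + 2 * 4 ^ p * K) * ε * PsiB p H A B
        = 54 * (p + 2) * ε * PsiB p H A B + 2 * 4 ^ p * K * ε * PsiB p H A B := by ring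
    rw [j7, j8, k1, k7, k10]
    rw [k4] at j4
    rw [k5] at j5
    rw [k8] at j2
    rw [k9] at j3
    linarith [i1, j2, j3, j4, j5, j6, j9, j10, j11]
  calc _ = ((act H A).card : ℝ) * PsiB p H A B + m * (- PsiB p H A B
          + (p + 1) * t ^ (p + 3) * dB A B
        + (p + 2) * t ^ (p + 1) * (3 * vv H A * (dB A B + SB H A B) - X - S2)
        + 54 * (p + 2) * dB A B * (|t| ^ (p + 1) * (1 / x))
        + (2 * 4 ^ p * K * dB A B * (t ^ p * (1 / m))
          + 2 * 4 ^ p * K * dB A B * ((K / m) ^ p * (1 / m)))) := by ring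
    _ ≤ _ := by gcongr

end Crest.Agent.R030.Drift
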