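import Crest.Agent.R030.DriftStar

/-!
Row 30 (S0040), blueprint 6117 part (C): the averaged one-step inequalities for
`Z = x⁻¹ ∑ ζ^q` and `H = (2x)⁻¹ ∑ d_u t_u^q` (hypergraph level), `q = p + 2`.
-/

set_option autoImplicit false

namespace Crest.Agent.R030.Drift

open Finset

variable {V : Type*} [DecidableEq V]

/-- pairing of `ζ^(p+1)` with the adjacency operator -/
noncomputable def Xf (p : ℕ) (H : Finset (Finset V)) (A : Finset V) : ℝ :=
  (∑ e ∈ A, zt H A e ^ (p + 1) * (adjO H A (zt H A) e / mc H A)) / A.card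

/-- the star functional -/
noncomputable def Hfn {W : Type*} [Fintype W] (p : ℕ) (H : Finset (Finset V)) (σ : W → Finset V)
    (A : Finset V) : ℝ :=
  (∑ u, PsiB p H A (σ u)) / (2 * A.card)

/-- pairing of `t_u^(p+1)` with the adjacency operator -/
noncomputable def Yf {W : Type*} [Fintype W] (p : ℕ) (H : Finset (Finset V)) (σ : W → Finset V)
    (A : Finset V) : ℝ :=
  (∑ u, tB H A (σ u) ^ (p + 1) * ((∑ e ∈ A ∩ σ u, adjO H A (zt H A) e) / mc H A)) / (2 * A.card)

theorem dB_single {A : Finset V} {e : V} (he : e ∈ A) : dB A {e} = 1 := by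
  unfold dB
  rw [Finset.inter_singleton_of_mem he]
  simp

theorem tB_single {H : Finset (Finset V)} {A : Finset V} {e : V} (he : e ∈ A) :
    tB H A {e} = zt H A e := by
  unfold tB
  rw [dB_single he]
  unfold SB
  rw [Finset.inter_singleton_of_mem he]
  simp

theorem PsiB_single {H : Finset (Finset V)} {A : Finset V} {e : V} (p : ℕ) (he : e ∈ A) :
    PsiB p H A {e} = zt H A e ^ (p + 2) := by
  unfold PsiB
  rw [dB_single he, tB_single he, one_mul]

theorem PsiB_single_not {H : Finset (Finset V)} {A : Finset V} {e : V} (p : ℕ) (he : e ∉ A) :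
    PsiB p H A {e} = 0 := by
  unfold PsiB dB
  rw [Finset.inter_singleton_of_notMem he]
  simp

theorem sum_PsiB_single (p : ℕ) (H : Finset (Finset V)) {A A' : Finset V} (hA : A' ⊆ A) :
    ∑ e ∈ A, PsiB p H A' {e} = ∑ e ∈ A', zt H A' e ^ (p + 2) := by
  rw [← Finset.sum_subset hA]
  · exact Finset.sum_congr rfl (fun e he => PsiB_single p he)
  · intro e _ he
    exact PsiB_single_not p he

theorem sum_adjO (H : Finset (Finset V)) (hH : Lin3 H) (A : Finset V) (f : V → ℝ) :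
    ∑ e ∈ A, adjO H A f e = 2 * ∑ e ∈ A, (codeg H A e : ℝ) * f e := by
  have h1 : ∑ e ∈ A, adjO H A f e = ∑ T ∈ act H A, ∑ e ∈ T, ∑ x ∈ T.erase e, f x := by
    unfold adjO
    have : ∀ e ∈ A, ∑ T ∈ (act H A).filter (fun T => e ∈ T), ∑ x ∈ T.erase e, f x
        = ∑ T ∈ act H A, if e ∈ T then ∑ x ∈ T.erase e, f x else 0 := by
      intro e _; rw [Finset.sum_filter]
    rw [Finset.sum_congr rfl this, Finset.sum_comm]
    apply Finset.sum_congr rfl
    intro T hT
    rw [← Finset.sum_filter, Finset.filter_mem_eq_inter, Finset.inter_eq_right.2 (mem_act.1 hT).2]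
  rw [h1, ← sum_act_sum, Finset.mul_sum]
  apply Finset.sum_congr rfl
  intro T hT
  have h2 : ∀ e ∈ T, ∑ x ∈ T.erase e, f x = ∑ x ∈ T, f x - f e := by
    intro e he
    rw [← Finset.add_sum_erase T f he]; ring
  rw [Finset.sum_congr rfl h2, Finset.sum_sub_distrib, Finset.sum_const,
    hH.card3 T (mem_act.1 hT).1, nsmul_eq_mul]
  push_cast
  ring

theorem adjO_mono {H : Finset (Finset V)} {A : Finset V} {f g : V → ℝ}
    (hfg : ∀ x ∈ A, f x ≤ g x) (e : V) : adjO H A f e ≤ adjO H A g e := by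
  unfold adjO
  apply Finset.sum_le_sum
  intro T hT
  apply Finset.sum_le_sum
  intro x hx
  rw [Finset.mem_filter] at hT
  exact hfg x ((mem_act.1 hT.1).2 (Finset.mem_of_mem_erase hx))

theorem abs_adjO_le (H : Finset (Finset V)) (A : Finset V) (f : V → ℝ) (e : V) :
    |adjO H A f e| ≤ adjO H A (fun x => |f x|) e := by
  unfold adjO
  refine (Finset.abs_sum_le_sum_abs _ _).trans ?_
  apply Finset.sum_le_sum
  intro T _
  exact Finset.abs_sum_le_sum_abs _ _

namespace Nice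

variable {H : Finset (Finset V)} {A : Finset V} {η : ℝ}

/-- pointwise: `|t|^(p+1) |A ζ| ≤ 2 Y t^q + A (ζ^q)` -/
theorem pow_mul_adjO_le (h : Nice H A η) {p : ℕ} (hp : Even p) (t : ℝ) {e : V} (he : e ∈ A) :
    |t| ^ (p + 1) * |adjO H A (zt H A) e|
      ≤ 11 / 5 * mc H A * t ^ (p + 2) + adjO H A (fun x => zt H A x ^ (p + 2)) e := by
  have hm := h.mpos
  have hp2 : Even (p + 2) := by rw [Nat.even_add]; simp [hp]
  have htp : 0 ≤ t ^ (p + 2) := hp2.pow_nonneg t
  calc |t| ^ (p + 1) * |adjO H A (zt H A) e|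
      ≤ |t| ^ (p + 1) * adjO H A (fun x => |zt H A x|) e := by
        gcongr; exact abs_adjO_le H A _ e
    _ = adjO H A (fun x => |t| ^ (p + 1) * |zt H A x|) e := by rw [adjO_const_mul]
    _ ≤ adjO H A (fun x => t ^ (p + 2) + zt H A x ^ (p + 2)) e := by
        apply adjO_mono
        intro x _
        have := pow_mul_pow_le_add (abs_nonneg t) (abs_nonneg (zt H A x)) (p + 1) 1
        rw [show p + 1 + 1 = p + 2 from rfl, hp2.pow_abs, hp2.pow_abs, pow_one] at this
        exact this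
    _ = 2 * t ^ (p + 2) * (codeg H A e : ℝ) + adjO H A (fun x => zt H A x ^ (p + 2)) e := by
        rw [adjO_add, adjO_const h.lin]
    _ ≤ 2 * t ^ (p + 2) * (11 / 10 * mc H A) + adjO H A (fun x => zt H A x ^ (p + 2)) e := by
        gcongr
        exact h.codeg_le he
    _ = _ := by ring

theorem sum_adjO_pow_le (h : Nice H A η) {p : ℕ} (hp : Even p) :
    ∑ e ∈ A, adjO H A (fun x => zt H A x ^ (p + 2)) e
      ≤ 11 / 5 * mc H A * ∑ e ∈ A, zt H A e ^ (p + 2) := by
  have hp2 : Even (p + 2) := by rw [Nat.even_add]; simp [hp]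
  rw [sum_adjO H h.lin, Finset.mul_sum, Finset.mul_sum]
  apply Finset.sum_le_sum
  intro e he
  have h1 := h.codeg_le he
  have h2 : 0 ≤ zt H A e ^ (p + 2) := hp2.pow_nonneg _
  nlinarith

theorem Zf_nonneg (h : Nice H A η) {p : ℕ} (hp : Even p) : 0 ≤ Zf p H A := by
  have hp2 : Even (p + 2) := by rw [Nat.even_add]; simp [hp]
  unfold Zf
  apply div_nonneg _ h.xpos.le
  exact Finset.sum_nonneg (fun e _ => hp2.pow_nonneg _)

theorem x_mul_Zf (h : Nice H A η) (p : ℕ) : A.card * Zf p H A = ∑ e ∈ A, zt H A e ^ (p + 2) := by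
  have := h.xpos
  unfold Zf; field_simp

theorem abs_Xf_le (h : Nice H A η) {p : ℕ} (hp : Even p) : |Xf p H A| ≤ 22 / 5 * Zf p H A := by
  have hx := h.xpos
  have hm := h.mpos
  unfold Xf Zf
  rw [abs_div, abs_of_pos hx, ← mul_div_assoc]
  apply div_le_div_of_nonneg_right _ hx.le
  calc |∑ e ∈ A, zt H A e ^ (p + 1) * (adjO H A (zt H A) e / mc H A)|
      ≤ ∑ e ∈ A, |zt H A e ^ (p + 1) * (adjO H A (zt H A) e / mc H A)| :=
        Finset.abs_sum_le_sum_abs _ _
    _ = ∑ e ∈ A, (|zt H A e| ^ (p + 1) * |adjO H A (zt H A) e|) / mc H A := by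
        apply Finset.sum_congr rfl
        intro e _
        rw [abs_mul, abs_pow, abs_div, abs_of_pos hm]; ring
    _ ≤ ∑ e ∈ A, (11 / 5 * mc H A * zt H A e ^ (p + 2)
          + adjO H A (fun x => zt H A x ^ (p + 2)) e) / mc H A := by
        apply Finset.sum_le_sum
        intro e he
        gcongr
        exact h.pow_mul_adjO_le hp _ he
    _ = (11 / 5 * mc H A * ∑ e ∈ A, zt H A e ^ (p + 2)
          + ∑ e ∈ A, adjO H A (fun x => zt H A x ^ (p + 2)) e) / mc H A := by
        rw [← Finset.sum_div, Finset.sum_add_distrib, ← Finset.mul_sum]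
    _ ≤ (11 / 5 * mc H A * ∑ e ∈ A, zt H A e ^ (p + 2)
          + 11 / 5 * mc H A * ∑ e ∈ A, zt H A e ^ (p + 2)) / mc H A := by
        gcongr
        exact h.sum_adjO_pow_le hp
    _ = 22 / 5 * ∑ e ∈ A, zt H A e ^ (p + 2) := by field_simp; ring

/-- conversion of the prefactor -/
theorem conv_pref {x a b E : ℝ} (hx : 1000 ≤ x) (hE : |E| ≤ b) (ha : 0 ≤ a) :
    3 / (x - 3) * (-E + a) ≤ 3 / x * (-E + (2 * a + 4 / x * b)) := by
  have h1 : 3 / (x - 3) = 3 / x * (1 + 3 / (x - 3)) := by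
    have : x - 3 ≠ 0 := by linarith
    have : x ≠ 0 := by linarith
    field_simp
    ring
  have h2 : 0 ≤ 3 / (x - 3) := div_nonneg (by norm_num) (by linarith)
  have h3 : 3 / (x - 3) ≤ 4 / x := by
    rw [div_le_div_iff₀ (by linarith) (by linarith)]; linarith
  have h4 : (4 : ℝ) / x ≤ 1 := by rw [div_le_one (by linarith)]; linarith
  have h5 := abs_le.1 hE
  rw [h1, mul_assoc]
  apply mul_le_mul_of_nonneg_left _ (by positivity)
  have h6 : 3 / (x - 3) * (-E) ≤ 4 / x * b := by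
    calc 3 / (x - 3) * (-E) ≤ 3 / (x - 3) * b := mul_le_mul_of_nonneg_left (by linarith) h2
      _ ≤ 4 / x * b := mul_le_mul_of_nonneg_right h3 ((abs_nonneg E).trans hE)
  have h7 : 3 / (x - 3) * a ≤ 1 * a := mul_le_mul_of_nonneg_right (h3.trans h4) ha
  nlinarith

/-- **(C1)**: the averaged one-step inequality for `Z`. -/
theorem avgZ (h : Nice H A η) {p : ℕ} (hp : Even p) {ε : ℝ} (hε : 0 < ε) :
    ((act H A).card : ℝ)⁻¹ * ∑ T ∈ act H A, Zf p H (A \ T)
      ≤ Zf p H A + 3 / A.card * (-((p + 2) * Xf p H A)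
          + ((6 * th1 p 400 η ε + 18 * (p + 2) / A.card) * Zf p H A
            + 2 * Kc p 400 ε * (1 / mc H A) ^ (p / 2 + 1))) := by
  have hx := h.xpos
  have hx1 := h.hx
  have hm := h.mpos
  have hQ := h.Qpos
  have hZ0 := h.Zf_nonneg hp
  have hη0 := h.hη0
  have hth1 : 0 ≤ th1 p 400 η ε := by unfold th1; positivity
  have hKc : 0 ≤ Kc p 400 ε := by unfold Kc; positivity
  set μ := (1 / mc H A) ^ (p / 2 + 1) with hμ
  have hμ0 : 0 ≤ μ := by positivity
  -- sum of the block inequalities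
  have hsum : ∑ T ∈ act H A, ∑ e ∈ A, PsiB p H (A \ T) {e}
      ≤ ((act H A).card : ℝ) * (A.card * Zf p H A) + mc H A * (- (A.card * Zf p H A)
          - (p + 2) * (A.card * Xf p H A)
          + th1 p 400 η ε * (3 * (A.card * Zf p H A)) + Kc p 400 ε * A.card * μ) := by
    rw [Finset.sum_comm]
    have h1 : ∀ e ∈ A, ∑ T ∈ act H A, PsiB p H (A \ T) {e}
        ≤ ((act H A).card : ℝ) * zt H A e ^ (p + 2) + mc H A * (- zt H A e ^ (p + 2)
          - (p + 2) * (zt H A e ^ (p + 1) * (adjO H A (zt H A) e / mc H A))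
          + th1 p 400 η ε * (zt H A e ^ (p + 2) + zt H A e ^ (p + 2) + Zf p H A)
          + Kc p 400 ε * μ) := by
      intro e he
      have := h.block_step2 hp hε (h.regB_single he)
      rw [PsiB_single p he, tB_single he, dB_single he, Finset.inter_singleton_of_mem he,
        Finset.sum_singleton, Finset.sum_singleton, one_mul, mul_one] at this
      exact this
    refine (Finset.sum_le_sum h1).trans (le_of_eq ?_)
    have e1 : ∑ e ∈ A, zt H A e ^ (p + 2) = A.card * Zf p H A := (h.x_mul_Zf p).symm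
    have e2 : ∑ e ∈ A, zt H A e ^ (p + 1) * (adjO H A (zt H A) e / mc H A)
        = A.card * Xf p H A := by unfold Xf; field_simp
    simp only [Finset.sum_add_distrib, ← Finset.mul_sum, Finset.sum_sub_distrib,
      Finset.sum_neg_distrib, Finset.sum_const, nsmul_eq_mul]
    rw [e1, e2]
    ring
  have hLHS : ∑ T ∈ act H A, ∑ e ∈ A, PsiB p H (A \ T) {e}
      = (A.card - 3) * ∑ T ∈ act H A, Zf p H (A \ T) := by
    rw [Finset.mul_sum]
    apply Finset.sum_congr rfl
    intro T hT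
    rw [sum_PsiB_single p H Finset.sdiff_subset]
    have hc := card_sdiff_cast h.lin hT
    unfold Zf
    rw [hc]
    have : (A.card : ℝ) - 3 ≠ 0 := by linarith
    field_simp
  rw [hLHS] at hsum
  have hx3 : 0 < (A.card : ℝ) - 3 := by linarith
  have hX := h.abs_Xf_le hp
  have step : ((act H A).card : ℝ)⁻¹ * ∑ T ∈ act H A, Zf p H (A \ T)
      ≤ Zf p H A + 3 / (A.card - 3) * (-((p + 2) * Xf p H A)
        + (3 * th1 p 400 η ε * Zf p H A + Kc p 400 ε * μ)) := by
    rw [inv_mul_le_iff₀ hQ]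
    have h2 : ∑ T ∈ act H A, Zf p H (A \ T) ≤
        (((act H A).card : ℝ) * (A.card * Zf p H A) + mc H A * (- (A.card * Zf p H A)
          - (p + 2) * (A.card * Xf p H A)
          + th1 p 400 η ε * (3 * (A.card * Zf p H A)) + Kc p 400 ε * A.card * μ))
          / (A.card - 3) := by
      rw [le_div_iff₀ hx3]; linarith
    refine h2.trans (le_of_eq ?_)
    rw [h.Qeq]
    field_simp
    ring
  refine step.trans ?_
  have hE : |(p + 2) * Xf p H A| ≤ (p + 2) * (22 / 5 * Zf p H A) := by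
    rw [abs_mul, abs_of_nonneg (by positivity : (0:ℝ) ≤ (p:ℝ) + 2)]
    gcongr
  have hc := conv_pref (a := 3 * th1 p 400 η ε * Zf p H A + Kc p 400 ε * μ) hx1 hE (by positivity)
  refine (add_le_add_right hc (Zf p H A)).trans ?_
  gcongr Zf p H A + 3 / (A.card : ℝ) * (-((p + 2) * Xf p H A) + ?_)
  have h8 : 4 / (A.card : ℝ) * ((p + 2) * (22 / 5 * Zf p H A))
      ≤ 18 * (p + 2) / A.card * Zf p H A := by
    have : 0 ≤ (p + 2) * Zf p H A / A.card := by positivity
    have e1 : 4 / (A.card : ℝ) * ((p + 2) * (22 / 5 * Zf p H A))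
      = 88 / 5 * ((p + 2) * Zf p H A / A.card) := by ring
    have e2 : 18 * (p + 2) / A.card * Zf p H A = 18 * ((p + 2) * Zf p H A / A.card) := by ring
    rw [e1, e2]; linarith
  linarith

section star

variable {W : Type*} [Fintype W] {A0 : Finset V} {σ : W → Finset V}

theorem sum_star (_h : Nice H A η) (hσ : Stars H A0 σ) (hA : A ⊆ A0) (f : V → ℝ) :
    ∑ u, ∑ e ∈ A ∩ σ u, f e = 2 * ∑ e ∈ A, f e := by
  classical
  have h1 : ∀ u : W, ∑ e ∈ A ∩ σ u, f e = ∑ e ∈ A, if e ∈ σ u then f e else 0 := by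
    intro u
    rw [← Finset.sum_filter, Finset.filter_mem_eq_inter]
  simp_rw [h1]
  rw [Finset.sum_comm, Finset.mul_sum]
  apply Finset.sum_congr rfl
  intro e he
  obtain ⟨u, w, huw, hiff⟩ := hσ.two e (hA he)
  rw [← Finset.sum_filter]
  have : (Finset.univ.filter (fun y => e ∈ σ y)) = {u, w} := by
    ext y
    simp [hiff y]
  rw [this, Finset.sum_pair huw]
  ring

theorem sum_dB_star (h : Nice H A η) (hσ : Stars H A0 σ) (hA : A ⊆ A0) :
    ∑ u, dB A (σ u) = 2 * A.card := by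
  have := h.sum_star hσ hA (fun _ => (1 : ℝ))
  simpa [dB] using this

theorem Hfn_nonneg (h : Nice H A η) {p : ℕ} (hp : Even p) (σ : W → Finset V) :
    0 ≤ Hfn p H σ A := by
  have hp2 : Even (p + 2) := by rw [Nat.even_add]; simp [hp]
  unfold Hfn
  apply div_nonneg _ (by linarith [h.xpos])
  exact Finset.sum_nonneg (fun u _ => mul_nonneg (dB_nonneg _ _) (hp2.pow_nonneg _))

theorem abs_Yf_le (h : Nice H A η) {p : ℕ} (hp : Even p) (hσ : Stars H A0 σ) (hA : A ⊆ A0) :
    |Yf p H σ A| ≤ 11 / 5 * (Hfn p H σ A + Zf p H A) := by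
  have hx := h.xpos
  have hm := h.mpos
  have key : |∑ u, tB H A (σ u) ^ (p + 1) * ((∑ e ∈ A ∩ σ u, adjO H A (zt H A) e) / mc H A)|
      ≤ 11 / 5 * (∑ u, PsiB p H A (σ u)) + 22 / 5 * ∑ e ∈ A, zt H A e ^ (p + 2) := by
    calc |∑ u, tB H A (σ u) ^ (p + 1) * ((∑ e ∈ A ∩ σ u, adjO H A (zt H A) e) / mc H A)|
        ≤ ∑ u, |tB H A (σ u) ^ (p + 1) * ((∑ e ∈ A ∩ σ u, adjO H A (zt H A) e) / mc H A)| :=
          Finset.abs_sum_le_sum_abs _ _
      _ ≤ ∑ u, (∑ e ∈ A ∩ σ u, |tB H A (σ u)| ^ (p + 1) * |adjO H A (zt H A) e|) / mc H A := by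
          apply Finset.sum_le_sum
          intro u _
          rw [abs_mul, abs_pow, abs_div, abs_of_pos hm, ← mul_div_assoc, ← Finset.mul_sum]
          gcongr
          exact Finset.abs_sum_le_sum_abs _ _
      _ ≤ ∑ u, (∑ e ∈ A ∩ σ u, (11 / 5 * mc H A * tB H A (σ u) ^ (p + 2)
            + adjO H A (fun x => zt H A x ^ (p + 2)) e)) / mc H A := by
          apply Finset.sum_le_sum
          intro u _
          apply div_le_div_of_nonneg_right _ hm.le
          apply Finset.sum_le_sum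
          intro e he
          exact h.pow_mul_adjO_le hp _ (Finset.mem_inter.1 he).1
      _ = (11 / 5 * mc H A * (∑ u, PsiB p H A (σ u))
            + ∑ u, ∑ e ∈ A ∩ σ u, adjO H A (fun x => zt H A x ^ (p + 2)) e) / mc H A := by
          rw [← Finset.sum_div, Finset.mul_sum, ← Finset.sum_add_distrib]
          congr 1
          apply Finset.sum_congr rfl
          intro u _
          rw [Finset.sum_add_distrib, Finset.sum_const, nsmul_eq_mul]
          unfold PsiB dB
          ring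
      _ = (11 / 5 * mc H A * (∑ u, PsiB p H A (σ u))
            + 2 * ∑ e ∈ A, adjO H A (fun x => zt H A x ^ (p + 2)) e) / mc H A := by
          rw [h.sum_star hσ hA]
      _ ≤ (11 / 5 * mc H A * (∑ u, PsiB p H A (σ u))
            + 2 * (11 / 5 * mc H A * ∑ e ∈ A, zt H A e ^ (p + 2))) / mc H A := by
          gcongr
          exact h.sum_adjO_pow_le hp
      _ = _ := by field_simp; ring
  unfold Yf Hfn Zf
  rw [abs_div, abs_of_pos (by linarith : (0:ℝ) < 2 * A.card)]
  calc |∑ u, tB H A (σ u) ^ (p + 1) * ((∑ e ∈ A ∩ σ u, adjO H A (zt H A) e) / mc H A)|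
        / (2 * A.card)
      ≤ (11 / 5 * (∑ u, PsiB p H A (σ u)) + 22 / 5 * ∑ e ∈ A, zt H A e ^ (p + 2))
        / (2 * A.card) := by gcongr
    _ = _ := by field_simp; ring

/-- **(C2)**: the averaged one-step inequality for `H`. -/
theorem avgH (h : Nice H A η) {p : ℕ} (hp : Even p) {ε : ℝ} (hε : 0 < ε)
    (hσ : Stars H A0 σ) (hA : A ⊆ A0) :
    ((act H A).card : ℝ)⁻¹ * ∑ T ∈ act H A, Hfn p H σ (A \ T)
      ≤ Hfn p H σ A + 3 / A.card * (-((p + 2) * Yf p H σ A)
          + ((4 * th1 p 400 η ε + 9 * (p + 2) / A.card) * (Hfn p H σ A + Zf p H A)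
            + 2 * Kc p 400 ε * (1 / mc H A) ^ (p / 2 + 1))) := by
  have hx := h.xpos
  have hx1 := h.hx
  have hm := h.mpos
  have hQ := h.Qpos
  have hZ0 := h.Zf_nonneg hp
  have hH0 := h.Hfn_nonneg hp σ
  have hη0 := h.hη0
  have hth1 : 0 ≤ th1 p 400 η ε := by unfold th1; positivity
  have hKc : 0 ≤ Kc p 400 ε := by unfold Kc; positivity
  set μ := (1 / mc H A) ^ (p / 2 + 1) with hμ
  have hμ0 : 0 ≤ μ := by positivity
  have e3 : ∑ u, PsiB p H A (σ u) = 2 * A.card * Hfn p H σ A := by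
    unfold Hfn; field_simp
  have e4 : ∑ u, tB H A (σ u) ^ (p + 1) * ((∑ e ∈ A ∩ σ u, adjO H A (zt H A) e) / mc H A)
      = 2 * A.card * Yf p H σ A := by
    unfold Yf; field_simp
  have hsum : ∑ T ∈ act H A, ∑ u, PsiB p H (A \ T) (σ u)
      ≤ ((act H A).card : ℝ) * (2 * A.card * Hfn p H σ A)
        + mc H A * (- (2 * A.card * Hfn p H σ A)
          - (p + 2) * (2 * A.card * Yf p H σ A)
          + th1 p 400 η ε * (2 * A.card * Hfn p H σ A + 4 * (A.card * Zf p H A))
          + Kc p 400 ε * (2 * A.card) * μ) := by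
    rw [Finset.sum_comm]
    refine (Finset.sum_le_sum (fun u _ => h.block_step2 hp hε (h.regB_star hσ u))).trans
      (le_of_eq ?_)
    have e5 : ∑ u, ∑ e ∈ A ∩ σ u, zt H A e ^ (p + 2) = 2 * (A.card * Zf p H A) := by
      rw [h.sum_star hσ hA, h.x_mul_Zf p]
    have e6 := h.sum_dB_star hσ hA
    simp only [Finset.sum_add_distrib, ← Finset.mul_sum, Finset.sum_sub_distrib,
      Finset.sum_neg_distrib, ← Finset.sum_mul]
    rw [e3, e4, e5, e6]
    ring
  have hLHS : ∑ T ∈ act H A, ∑ u, PsiB p H (A \ T) (σ u)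
      = 2 * (A.card - 3) * ∑ T ∈ act H A, Hfn p H σ (A \ T) := by
    rw [Finset.mul_sum]
    apply Finset.sum_congr rfl
    intro T hT
    have hc := card_sdiff_cast h.lin hT
    unfold Hfn
    rw [hc]
    have : (A.card : ℝ) - 3 ≠ 0 := by linarith
    field_simp
  rw [hLHS] at hsum
  have hx3 : 0 < (A.card : ℝ) - 3 := by linarith
  have hY := h.abs_Yf_le hp hσ hA
  have step : ((act H A).card : ℝ)⁻¹ * ∑ T ∈ act H A, Hfn p H σ (A \ T)
      ≤ Hfn p H σ A + 3 / (A.card - 3) * (-((p + 2) * Yf p H σ A)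
        + (th1 p 400 η ε * (Hfn p H σ A + 2 * Zf p H A) + Kc p 400 ε * μ)) := by
    rw [inv_mul_le_iff₀ hQ]
    have h2 : ∑ T ∈ act H A, Hfn p H σ (A \ T) ≤
        (((act H A).card : ℝ) * (2 * A.card * Hfn p H σ A)
        + mc H A * (- (2 * A.card * Hfn p H σ A)
          - (p + 2) * (2 * A.card * Yf p H σ A)
          + th1 p 400 η ε * (2 * A.card * Hfn p H σ A + 4 * (A.card * Zf p H A))
          + Kc p 400 ε * (2 * A.card) * μ)) / (2 * (A.card - 3)) := by
      rw [le_div_iff₀ (by linarith)]; linarith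
    refine h2.trans (le_of_eq ?_)
    rw [h.Qeq]
    field_simp
    ring
  refine step.trans ?_
  have hE : |(p + 2) * Yf p H σ A| ≤ (p + 2) * (11 / 5 * (Hfn p H σ A + Zf p H A)) := by
    rw [abs_mul, abs_of_nonneg (by positivity : (0:ℝ) ≤ (p:ℝ) + 2)]
    gcongr
  have hc := conv_pref
    (a := th1 p 400 η ε * (Hfn p H σ A + 2 * Zf p H A) + Kc p 400 ε * μ) hx1 hE (by positivity)
  refine (add_le_add_right hc (Hfn p H σ A)).trans ?_
  gcongr Hfn p H σ A + 3 / (A.card : ℝ) * (-((p + 2) * Yf p H σ A) + ?_)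
  have h8 : 4 / (A.card : ℝ) * ((p + 2) * (11 / 5 * (Hfn p H σ A + Zf p H A)))
      ≤ 9 * (p + 2) / A.card * (Hfn p H σ A + Zf p H A) := by
    have : 0 ≤ (p + 2) * (Hfn p H σ A + Zf p H A) / A.card := by positivity
    have e1 : 4 / (A.card : ℝ) * ((p + 2) * (11 / 5 * (Hfn p H σ A + Zf p H A)))
      = 44 / 5 * ((p + 2) * (Hfn p H σ A + Zf p H A) / A.card) := by ring
    have e2 : 9 * (p + 2) / A.card * (Hfn p H σ A + Zf p H A)
      = 9 * ((p + 2) * (Hfn p H σ A + Zf p H A) / A.card) := by ring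
    rw [e1, e2]; linarith
  have h9 : 0 ≤ th1 p 400 η ε * Hfn p H σ A := by positivity
  linarith

end star

end Nice

end Crest.Agent.R030.Drift
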