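import Mathlib

/-!
Row 30 (S0040), helper953.  Asymptotics of the error bound `ErrB.err_core`.
-/

set_option autoImplicit false

namespace Crest.Agent.R030.ErrB

open Filter Real

/-- The right-hand side of `err_core` is at most `n^(7/5)`. -/
theorem err_asym {δ : ℝ} (hδ : 0 < δ) (hδ1 : δ ≤ 1 / 100) (C : ℝ) (hC : 0 ≤ C) :
    ∀ᶠ n : ℕ in atTop, ∀ (p J Y x D K0 : ℝ), 0 ≤ p → (n : ℝ) * p ^ 2 ≤ 4 * (n : ℝ) ^ δ →
      0 ≤ Y → Y ≤ 20 * (n : ℝ) ^ δ → 0 ≤ D → D ≤ 20 * (n : ℝ) ^ δ → 0 ≤ J →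
      J * Y ≤ 10 * (δ * Real.log n + 1) → J * D ≤ 10 * (δ * Real.log n + 1) →
      0 ≤ x → x ≤ (n : ℝ) ^ 2 → (Real.log n) ^ 2 / 8 ≤ K0 →
      (1 + Y) * (C * (n : ℝ) ^ 2 * p ^ 2 * Y ^ 4 * Real.exp (3 * (J * Y)))
      + (1 + 2 * D) * (x * (2 * (2 * D) ^ 4) * Real.exp (-K0) *
          Real.exp (3 * (Real.exp 1 * (2 * D) * J))) ≤ (n : ℝ) ^ ((7 : ℝ) / 5) := by
  set K1 : ℝ := 21 * (C * 4 * 20 ^ 4) * Real.exp 30 with hK1
  set c : ℝ := 2 + 5 * δ + 180 * δ with hc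
  set K2 : ℝ := 41 * (2 * 40 ^ 4) * Real.exp 180 with hK2
  have hK1_0 : 0 ≤ K1 := by positivity
  have hK2_0 : 0 ≤ K2 := by positivity
  have t1 : Tendsto (fun n : ℕ => Real.log (n : ℝ)) atTop atTop :=
    Real.tendsto_log_atTop.comp tendsto_natCast_atTop_atTop
  have h1 : ∀ᶠ n : ℕ in atTop, 25 * Real.log (2 * K1 + 1) ≤ Real.log n :=
    t1.eventually_ge_atTop _
  have h2 : ∀ᶠ n : ℕ in atTop, Real.log (2 * K2 + 1) ≤ Real.log n := t1.eventually_ge_atTop _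
  have h3 : ∀ᶠ n : ℕ in atTop, 8 * c ≤ Real.log n := t1.eventually_ge_atTop _
  filter_upwards [h1, h2, h3, eventually_ge_atTop 1] with n h1 h2 h3 hn
  intro p J Y x D K0 hp hnp hY0 hY hD0 hD hJ hJY hJD hx0 hx hK0
  have hn0 : (0 : ℝ) < n := by exact_mod_cast hn
  have hn1 : (1 : ℝ) ≤ n := by exact_mod_cast hn
  set L : ℝ := Real.log n with hL
  have hL0 : 0 ≤ L := Real.log_nonneg hn1
  have hnL : (n : ℝ) = Real.exp L := by rw [hL, Real.exp_log hn0]
  have hpow : ∀ s : ℝ, (n : ℝ) ^ s = Real.exp (s * L) := by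
    intro s
    rw [Real.rpow_def_of_pos hn0, mul_comm]
  have hδn : (n : ℝ) ^ δ = Real.exp (δ * L) := hpow δ
  have hδ1' : 1 ≤ Real.exp (δ * L) := Real.one_le_exp (by positivity)
  rw [hδn] at hnp hY hD
  set E : ℝ := Real.exp (δ * L) with hE
  have hE0 : 0 < E := Real.exp_pos _
  -- first part
  have a1 : (1 + Y) ≤ 21 * E := by linarith
  have a2 : C * (n : ℝ) ^ 2 * p ^ 2 * Y ^ 4 ≤ (C * 4 * 20 ^ 4) * (Real.exp L * E ^ 5) := by
    have b1 : Y ^ 4 ≤ (20 * E) ^ 4 := pow_le_pow_left₀ hY0 hY 4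
    have b2 : C * (n : ℝ) ^ 2 * p ^ 2 * Y ^ 4 = C * n * ((n * p ^ 2) * Y ^ 4) := by ring
    have b3 : (n * p ^ 2) * Y ^ 4 ≤ (4 * E) * (20 * E) ^ 4 :=
      mul_le_mul hnp b1 (by positivity) (by positivity)
    rw [b2]
    calc C * n * ((n * p ^ 2) * Y ^ 4) ≤ C * n * ((4 * E) * (20 * E) ^ 4) :=
          mul_le_mul_of_nonneg_left b3 (by positivity)
      _ = (C * 4 * 20 ^ 4) * (Real.exp L * E ^ 5) := by rw [← hnL]; ring
  have a3 : Real.exp (3 * (J * Y)) ≤ Real.exp 30 * Real.exp (30 * δ * L) := by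
    rw [← Real.exp_add]
    apply Real.exp_le_exp.2
    linarith
  have a4 : (1 + Y) * (C * (n : ℝ) ^ 2 * p ^ 2 * Y ^ 4 * Real.exp (3 * (J * Y)))
      ≤ K1 * Real.exp ((1 + 36 * δ) * L) := by
    have c1 : C * (n : ℝ) ^ 2 * p ^ 2 * Y ^ 4 * Real.exp (3 * (J * Y))
        ≤ ((C * 4 * 20 ^ 4) * (Real.exp L * E ^ 5)) * (Real.exp 30 * Real.exp (30 * δ * L)) :=
      mul_le_mul a2 a3 (Real.exp_pos _).le (by positivity)
    calc (1 + Y) * (C * (n : ℝ) ^ 2 * p ^ 2 * Y ^ 4 * Real.exp (3 * (J * Y)))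
        ≤ (21 * E) * (((C * 4 * 20 ^ 4) * (Real.exp L * E ^ 5)) *
            (Real.exp 30 * Real.exp (30 * δ * L))) :=
          mul_le_mul a1 c1 (by positivity) (by positivity)
      _ = K1 * (Real.exp L * E ^ 6 * Real.exp (30 * δ * L)) := by rw [hK1]; ring
      _ = K1 * Real.exp ((1 + 36 * δ) * L) := by
          rw [hE, ← Real.exp_nat_mul, ← Real.exp_add, ← Real.exp_add]
          congr 2
          push_cast
          ring
  have a5 : K1 * Real.exp ((1 + 36 * δ) * L) ≤ (1 / 2) * Real.exp (7 / 5 * L) := by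
    have c1 : 2 * K1 + 1 ≤ Real.exp (L / 25) := by
      have : Real.log (2 * K1 + 1) ≤ L / 25 := by linarith
      calc 2 * K1 + 1 = Real.exp (Real.log (2 * K1 + 1)) := by
            rw [Real.exp_log (by linarith)]
        _ ≤ _ := Real.exp_le_exp.2 this
    have c2 : (1 + 36 * δ) * L ≤ 7 / 5 * L - L / 25 := by nlinarith
    calc K1 * Real.exp ((1 + 36 * δ) * L)
        ≤ ((1 / 2) * Real.exp (L / 25)) * Real.exp (7 / 5 * L - L / 25) :=
          mul_le_mul (by linarith) (Real.exp_le_exp.2 c2) (Real.exp_pos _).le (by positivity)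
      _ = (1 / 2) * Real.exp (7 / 5 * L) := by
          rw [mul_assoc, ← Real.exp_add]; congr 2; ring
  -- second part
  have e1 : Real.exp 1 ≤ 3 := by
    have := Real.exp_one_lt_d9
    linarith
  have b4 : 3 * (Real.exp 1 * (2 * D) * J) ≤ 180 * (δ * L) + 180 := by
    have hJD0 : 0 ≤ J * D := by positivity
    have : 3 * (Real.exp 1 * (2 * D) * J) = 6 * Real.exp 1 * (J * D) := by ring
    rw [this]
    have h6 : 6 * Real.exp 1 * (J * D) ≤ 18 * (J * D) :=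
      mul_le_mul_of_nonneg_right (by linarith) hJD0
    linarith
  have b5 : (1 + 2 * D) * (x * (2 * (2 * D) ^ 4) * Real.exp (-K0) *
          Real.exp (3 * (Real.exp 1 * (2 * D) * J)))
      ≤ K2 * Real.exp (c * L - L ^ 2 / 8) := by
    have c1 : 1 + 2 * D ≤ 41 * E := by linarith
    have c2 : x ≤ Real.exp (2 * L) := by
      refine hx.trans (le_of_eq ?_)
      rw [hnL, ← Real.exp_nat_mul]; norm_num
    have c3 : 2 * (2 * D) ^ 4 ≤ 2 * (40 * E) ^ 4 := by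
      have : (2 * D) ^ 4 ≤ (40 * E) ^ 4 := pow_le_pow_left₀ (by positivity) (by linarith) 4
      linarith
    have c4 : Real.exp (-K0) ≤ Real.exp (-(L ^ 2 / 8)) := Real.exp_le_exp.2 (by linarith)
    have c5 : Real.exp (3 * (Real.exp 1 * (2 * D) * J)) ≤ Real.exp (180 * (δ * L) + 180) :=
      Real.exp_le_exp.2 b4
    calc (1 + 2 * D) * (x * (2 * (2 * D) ^ 4) * Real.exp (-K0) *
          Real.exp (3 * (Real.exp 1 * (2 * D) * J)))
        ≤ (41 * E) * (Real.exp (2 * L) * (2 * (40 * E) ^ 4) * Real.exp (-(L ^ 2 / 8)) *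
            Real.exp (180 * (δ * L) + 180)) := by
          gcongr
      _ = K2 * (E ^ 5 * (Real.exp (2 * L) * Real.exp (-(L ^ 2 / 8)) *
            Real.exp (180 * (δ * L)))) := by
          rw [Real.exp_add (180 * (δ * L)) 180, hK2]; ring
      _ = K2 * Real.exp (c * L - L ^ 2 / 8) := by
          rw [hE, ← Real.exp_nat_mul, ← Real.exp_add, ← Real.exp_add, ← Real.exp_add]
          congr 2
          rw [hc]
          push_cast
          ring
  have b6 : K2 * Real.exp (c * L - L ^ 2 / 8) ≤ (1 / 2) * Real.exp (7 / 5 * L) := by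
    have c1 : 2 * K2 + 1 ≤ Real.exp L := by
      calc 2 * K2 + 1 = Real.exp (Real.log (2 * K2 + 1)) := by
            rw [Real.exp_log (by linarith)]
        _ ≤ _ := Real.exp_le_exp.2 h2
    have c2 : c * L - L ^ 2 / 8 ≤ 0 := by nlinarith
    have c3 : Real.exp (c * L - L ^ 2 / 8) ≤ 1 := Real.exp_le_one_iff.2 c2
    have c4 : Real.exp L ≤ Real.exp (7 / 5 * L) := Real.exp_le_exp.2 (by linarith)
    have c5 : K2 * Real.exp (c * L - L ^ 2 / 8) ≤ K2 * 1 := mul_le_mul_of_nonneg_left c3 hK2_0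
    linarith
  rw [hpow (7 / 5)]
  linarith

end Crest.Agent.R030.ErrB
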