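import Crest.Agent.R030.PortCount
import Crest.Agent.R030.VisitPath

/-!
Row 30 (S0040), helper953.  Deterministic bounds for helper196's path pair counts `RR`.
-/

set_option autoImplicit false

namespace Crest.Agent.R030.RRB

open Finset Crest.Agent.R030 Crest.Agent.R030.Prog

section abstract

variable {P B : Type} [DecidableEq B]

theorem count_map_eq_sum (tri : P → B) (lst : List P) (t : B) :
    (((lst.map tri).count t : ℕ) : ℝ) = (lst.map (fun c => if tri c = t then (1 : ℝ) else 0)).sum := by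
  induction lst with
  | nil => simp
  | cons c lst ih =>
    simp only [List.map_cons, List.sum_cons, List.count_cons]
    push_cast
    rw [ih]
    by_cases h : tri c = t
    · simp [h]; ring
    · simp [h]

/-- helper196's `Nk` is `NN`. -/
theorem Nk_eq_NN (tri : P → B) (ch : P → List P) (k : ℕ) (lst : List P) (t : B) :
    Nk tri ch k lst t = NN tri ch k lst t := by
  induction k generalizing lst with
  | zero => exact count_map_eq_sum tri lst t
  | succ k ih =>
    unfold Nk NN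
    congr 1
    apply List.map_congr_left
    intro c _
    exact ih (ch c)

theorem Nk_nonneg (tri : P → B) (ch : P → List P) (k : ℕ) (lst : List P) (t : B) :
    0 ≤ Nk tri ch k lst t := by
  rw [Nk_eq_NN]; exact NN_nonneg k lst t

theorem crs2_nonneg {α : Type} (f g : α → ℝ) (hf : ∀ x, 0 ≤ f x) (hg : ∀ x, 0 ≤ g x)
    (l : List α) : 0 ≤ crs2 f g l := by
  induction l with
  | nil => exact le_rfl
  | cons x xs ih =>
    unfold crs2
    have h1 := list_sum_map_nonneg xs g (fun c _ => hg c)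
    have := mul_nonneg (hf x) h1
    linarith

theorem crs2_le {α : Type} (f g : α → ℝ) (hf : ∀ x, 0 ≤ f x) (hg : ∀ x, 0 ≤ g x)
    (l : List α) : crs2 f g l ≤ (l.map f).sum * (l.map g).sum := by
  induction l with
  | nil => simp [crs2]
  | cons x xs ih =>
    unfold crs2
    simp only [List.map_cons, List.sum_cons]
    have h1 := list_sum_map_nonneg xs g (fun c _ => hg c)
    have h2 := list_sum_map_nonneg xs f (fun c _ => hf c)
    have h3 := mul_nonneg (hf x) (hg x)
    have h4 := mul_nonneg h2 (hg x)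
    nlinarith

variable {tri : P → B} {ch : P → List P} {Q : P → Prop}

theorem list_sum_le_len {α : Type*} (l : List α) (f : α → ℝ) {c : ℝ} (h : ∀ x ∈ l, f x ≤ c) :
    (l.map f).sum ≤ (l.length : ℝ) * c := by
  induction l with
  | nil => simp
  | cons x xs ih =>
    simp only [List.map_cons, List.sum_cons, List.length_cons]
    have h1 := ih (fun y hy => h y (List.mem_cons_of_mem _ hy))
    have h2 := h x List.mem_cons_self
    push_cast
    linarith

theorem Sk_le (hQ : ∀ c, Q c → ∀ d ∈ ch c, Q d) {D : ℝ} (hD0 : 0 ≤ D)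
    (hD : ∀ c, Q c → ((ch c).length : ℝ) ≤ D) (φ : List P → ℝ) {X : ℝ} (hX : 0 ≤ X)
    (hφ : ∀ lst : List P, (∀ c ∈ lst, Q c) → (lst.length : ℝ) ≤ D → φ lst ≤ X) (a : ℕ)
    (lst : List P) (hl : ∀ c ∈ lst, Q c) (hlen : (lst.length : ℝ) ≤ D) :
    Sk ch a φ lst ≤ D ^ a * X := by
  induction a generalizing lst with
  | zero => simpa [Sk] using hφ lst hl hlen
  | succ a ih =>
    unfold Sk
    refine (list_sum_le_len lst _ (c := D ^ a * X)
      (fun c hc => ih (ch c) (hQ c (hl c hc)) (hD c (hl c hc)))).trans ?_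
    rw [pow_succ]
    have : 0 ≤ D ^ a * X := by positivity
    nlinarith

variable [Fintype B]

theorem sum_Nk_le (hQ : ∀ c, Q c → ∀ d ∈ ch c, Q d) {D : ℝ} (hD0 : 0 ≤ D)
    (hD : ∀ c, Q c → ((ch c).length : ℝ) ≤ D) (k : ℕ) (lst : List P) (hl : ∀ c ∈ lst, Q c)
    (hlen : (lst.length : ℝ) ≤ D) :
    ∑ t, (lst.map (fun c => Nk tri ch k (ch c) t)).sum ≤ D ^ (k + 2) := by
  have h1 : ∀ t, (lst.map (fun c => Nk tri ch k (ch c) t)).sum = NN tri ch (k + 1) lst t := by
    intro t
    unfold NN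
    simp only [Nk_eq_NN]
  simp only [h1]
  refine (sum_NN_le Q hQ hD0 hD (k + 1) lst hl).trans ?_
  rw [show k + 2 = (k + 1) + 1 by ring, pow_succ D (k + 1), mul_comm]
  exact mul_le_mul_of_nonneg_left hlen (by positivity)

theorem Cou_nonneg (i j : ℕ) (lst : List P) : 0 ≤ Cou tri ch i j lst := by
  unfold Cou
  exact Finset.sum_nonneg fun t _ => crs2_nonneg _ _ (fun c => Nk_nonneg _ _ _ _ _)
    (fun c => Nk_nonneg _ _ _ _ _) lst

omit [Fintype B] in
theorem Anc_nonneg (i : ℕ) (lst : List P) : 0 ≤ Anc tri ch i lst := by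
  unfold Anc
  exact list_sum_map_nonneg _ _ fun d _ => list_sum_map_nonneg _ _ fun c _ => Nk_nonneg _ _ _ _ _

theorem Cou_le (hQ : ∀ c, Q c → ∀ d ∈ ch c, Q d) {D : ℝ} (hD0 : 0 ≤ D)
    (hD : ∀ c, Q c → ((ch c).length : ℝ) ≤ D) (i j : ℕ) (lst : List P) (hl : ∀ c ∈ lst, Q c)
    (hlen : (lst.length : ℝ) ≤ D) :
    Cou tri ch i j lst ≤ D ^ (i + 2) * D ^ (j + 2) := by
  unfold Cou
  set F : B → ℝ := fun t => (lst.map (fun c => Nk tri ch i (ch c) t)).sum with hF
  set G : B → ℝ := fun t => (lst.map (fun c => Nk tri ch j (ch c) t)).sum with hG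
  have hF0 : ∀ t, 0 ≤ F t := fun t => list_sum_map_nonneg _ _ fun c _ => Nk_nonneg _ _ _ _ _
  have hG0 : ∀ t, 0 ≤ G t := fun t => list_sum_map_nonneg _ _ fun c _ => Nk_nonneg _ _ _ _ _
  have h1 : ∑ t, F t ≤ D ^ (i + 2) := sum_Nk_le hQ hD0 hD i lst hl hlen
  have h2 : ∑ t, G t ≤ D ^ (j + 2) := sum_Nk_le hQ hD0 hD j lst hl hlen
  calc ∑ t, crs2 (fun c => Nk tri ch i (ch c) t) (fun c => Nk tri ch j (ch c) t) lst
      ≤ ∑ t, F t * G t := Finset.sum_le_sum fun t _ =>
        crs2_le _ _ (fun c => Nk_nonneg _ _ _ _ _) (fun c => Nk_nonneg _ _ _ _ _) lst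
    _ ≤ ∑ t, F t * ∑ s, G s := Finset.sum_le_sum fun t _ =>
        mul_le_mul_of_nonneg_left (Finset.single_le_sum (fun s _ => hG0 s) (Finset.mem_univ t))
          (hF0 t)
    _ = (∑ t, F t) * ∑ s, G s := by rw [Finset.sum_mul]
    _ ≤ D ^ (i + 2) * D ^ (j + 2) :=
        mul_le_mul h1 h2 (Finset.sum_nonneg fun s _ => hG0 s) (by positivity)

theorem Anc_le (hQ : ∀ c, Q c → ∀ d ∈ ch c, Q d) {D : ℝ} (hD0 : 0 ≤ D)
    (hD : ∀ c, Q c → ((ch c).length : ℝ) ≤ D) (i : ℕ) (lst : List P) (hl : ∀ c ∈ lst, Q c)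
    (hlen : (lst.length : ℝ) ≤ D) :
    Anc tri ch i lst ≤ D ^ (i + 3) := by
  unfold Anc
  have h1 := sum_Nk_le (tri := tri) hQ hD0 hD i lst hl hlen
  have h0 : ∀ t : B, 0 ≤ (lst.map (fun c => Nk tri ch i (ch c) t)).sum :=
    fun t => list_sum_map_nonneg _ _ fun c _ => Nk_nonneg _ _ _ _ _
  refine (list_sum_le_len lst _ (c := D ^ (i + 2)) (fun d _ => ?_)).trans ?_
  · exact (Finset.single_le_sum (fun s _ => h0 s) (Finset.mem_univ (tri d))).trans h1
  · rw [show i + 3 = (i + 2) + 1 by ring, pow_succ D (i + 2), mul_comm]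
    exact mul_le_mul_of_nonneg_left hlen (by positivity)

/-- Deterministic bound of the path pair count. -/
theorem RR_le (hQ : ∀ c, Q c → ∀ d ∈ ch c, Q d) {D : ℝ} (hD1 : 1 ≤ D)
    (hD : ∀ c, Q c → ((ch c).length : ℝ) ≤ D) (a i j : ℕ) (lst : List P) (hl : ∀ c ∈ lst, Q c)
    (hlen : (lst.length : ℝ) ≤ D) :
    RR tri ch a i j lst ≤ 2 * D ^ (a + i + j + 4) := by
  have hD0 : 0 ≤ D := by linarith
  unfold RR
  have hb : ∀ l : List P, (∀ c ∈ l, Q c) → (l.length : ℝ) ≤ D →
      Cou tri ch i j l + (if j = 0 then Anc tri ch i l else 0) ≤ 2 * D ^ (i + j + 4) := by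
    intro l hl hlen
    have h1 := Cou_le (tri := tri) hQ hD0 hD i j l hl hlen
    have e1 : D ^ (i + 2) * D ^ (j + 2) = D ^ (i + j + 4) := by
      rw [← pow_add]; congr 1; ring
    have h2 : (if j = 0 then Anc tri ch i l else 0) ≤ D ^ (i + j + 4) := by
      split_ifs
      · refine (Anc_le (tri := tri) hQ hD0 hD i l hl hlen).trans ?_
        exact pow_le_pow_right₀ hD1 (by omega)
      · positivity
    rw [e1] at h1
    linarith
  refine (Sk_le hQ hD0 hD _ (by positivity) hb a lst hl hlen).trans (le_of_eq ?_)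
  rw [show a + i + j + 4 = a + (i + j + 4) by ring, pow_add]
  ring

theorem RR_nonneg (a i j : ℕ) (lst : List P) : 0 ≤ RR tri ch a i j lst := by
  unfold RR
  have hb : ∀ l : List P, 0 ≤ Cou tri ch i j l + (if j = 0 then Anc tri ch i l else 0) := by
    intro l
    have h1 := Cou_nonneg (tri := tri) (ch := ch) i j l
    have h2 : 0 ≤ (if j = 0 then Anc tri ch i l else 0) := by
      split_ifs
      · exact Anc_nonneg i l
      · exact le_rfl
    linarith
  induction a generalizing lst with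
  | zero => exact hb lst
  | succ a ih =>
    unfold Sk
    exact list_sum_map_nonneg _ _ fun c _ => ih (ch c)

end abstract

section concrete

variable {V : Type} [DecidableEq V] [Fintype V]

/-- Deterministic bound of the path pair count at a root. -/
theorem RR_root_le {H : Finset (Finset V)} (hH : Lin3 H) {D : ℕ} (hD1 : 1 ≤ D)
    (hD : ∀ v, (H.filter (fun T => v ∈ T)).card ≤ D) (a i j : ℕ) (e : V) :
    RR Prod.fst (chL H) a i j (rtL H e) ≤ 2 * (2 * (D : ℝ)) ^ (a + i + j + 4) := by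
  have hDr : (1 : ℝ) ≤ D := by exact_mod_cast hD1
  apply RR_le (Q := fun c => c ∈ ports H) (fun c _ d hd => chL_ports c d hd)
    (by linarith)
  · intro c hc
    exact_mod_cast length_chL_le hH hD hc
  · exact rtL_ports e
  · have := length_rtL_le hD e
    have h2 : ((rtL H e).length : ℝ) ≤ D := by exact_mod_cast this
    linarith

end concrete

end Crest.Agent.R030.RRB
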