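import Crest.Agent.R030.PairSum
import Crest.Agent.R030.RRBound

/-!
Row 30 (S0040), helper953.  Error bound of the last window: from
* the bound of the expected number of equal asks by path pair counts (module V),
* the first moment of the path pair counts (module N), and
* the deterministic degree bounds,
to an explicit bound of `∑_Γ μ Γ ∑_{e ∈ Γ} prs (root program of e)`.
-/

set_option autoImplicit false

namespace Crest.Agent.R030.ErrB

open Finset Crest.Agent.R030 Crest.Agent.R030.Prog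

section core

variable {V : Type} [DecidableEq V] [Fintype V]

open Classical in
/-- **Core error bound.** `HH Γ` is the hypergraph of the state `Γ`. -/
theorem err_core {μ : Finset V → ℝ} (hμ0 : ∀ Γ, 0 ≤ μ Γ) (hmass : ∑ Γ, μ Γ ≤ 1)
    (HH : Finset V → Finset (Finset V)) (hH : ∀ Γ, Lin3 (HH Γ)) (good : Finset V → Prop)
    {J Y S0 x : ℝ} {D K0 b : ℕ} (hJ : 0 ≤ J) (hY : 0 ≤ Y) (hS0 : 0 ≤ S0) (hx : 0 ≤ x)
    (hD1 : 1 ≤ D) (hb : 1 ≤ b)
    (hdeg : ∀ Γ, good Γ → ∀ v, ((HH Γ).filter (fun T => v ∈ T)).card ≤ D)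
    (hcard : ∀ Γ, good Γ → (Γ.card : ℝ) ≤ x)
    (hN : ∀ a i j, a + i + j ≤ K0 + 1 →
      ∑ Γ, μ Γ * ∑ e ∈ Γ, RR Prod.fst (chL (HH Γ)) a i j (rtL (HH Γ) e) ≤ S0 * Y ^ (a + i + j))
    (P : Finset V → V → ℝ)
    (hV : ∀ Γ, good Γ → ∀ e ∈ Γ, P Γ e ≤
      ∑ i ∈ range b, ∑ j ∈ range b, J ^ i / (i.factorial : ℝ) * (J ^ j / (j.factorial : ℝ)) *
          RR Prod.fst (chL (HH Γ)) 0 i j (rtL (HH Γ) e)
      + ∑ a ∈ range b, ∑ i ∈ range b, ∑ j ∈ range b,
          J ^ a / (a.factorial : ℝ) * (J ^ i / (i.factorial : ℝ)) * (J ^ j / (j.factorial : ℝ)) *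
          RR Prod.fst (chL (HH Γ)) (a + 1) i j (rtL (HH Γ) e)) :
    ∑ Γ, μ Γ * (if good Γ then ∑ e ∈ Γ, P Γ e else 0) ≤
      (1 + Y) * (S0 * Real.exp (3 * (J * Y)))
      + (1 + 2 * (D : ℝ)) * (x * (2 * (2 * (D : ℝ)) ^ 4) * Real.exp (-K0) *
          Real.exp (3 * (Real.exp 1 * (2 * (D : ℝ)) * J))) := by
  have hDr : (1 : ℝ) ≤ D := by exact_mod_cast hD1
  set D2 : ℝ := 2 * (D : ℝ) with hD2
  have hD20 : 0 ≤ D2 := by positivity
  have hD21 : 1 ≤ D2 := by rw [hD2]; linarith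
  -- the averaged counts
  set R1 : ℕ → ℕ → ℕ → ℝ := fun a i j =>
    ∑ Γ, μ Γ * (if good Γ then ∑ e ∈ Γ, RR Prod.fst (chL (HH Γ)) a i j (rtL (HH Γ) e) else 0)
    with hR1
  have hRR0 : ∀ (Γ : Finset V) (a i j : ℕ) (e : V),
      0 ≤ RR Prod.fst (chL (HH Γ)) a i j (rtL (HH Γ) e) := fun Γ a i j e => RRB.RR_nonneg a i j _
  have hR1_0 : ∀ a i j, 0 ≤ R1 a i j := by
    intro a i j
    refine Finset.sum_nonneg fun Γ _ => mul_nonneg (hμ0 Γ) ?_
    split_ifs
    · exact Finset.sum_nonneg fun e _ => hRR0 Γ a i j e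
    · exact le_rfl
  have hR1_short : ∀ a i j, a + i + j ≤ K0 + 1 → R1 a i j ≤ S0 * Y ^ (a + i + j) := by
    intro a i j h
    refine le_trans (Finset.sum_le_sum fun Γ _ => mul_le_mul_of_nonneg_left ?_ (hμ0 Γ))
      (hN a i j h)
    split_ifs
    · exact le_rfl
    · exact Finset.sum_nonneg fun e _ => hRR0 Γ a i j e
  have hR1_all : ∀ a i j, R1 a i j ≤ (x * (2 * D2 ^ 4)) * D2 ^ (a + i + j) := by
    intro a i j
    have h1 : R1 a i j ≤ ∑ Γ, μ Γ * ((x * (2 * D2 ^ 4)) * D2 ^ (a + i + j)) := by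
      refine Finset.sum_le_sum fun Γ _ => mul_le_mul_of_nonneg_left ?_ (hμ0 Γ)
      split_ifs with hg
      · have h2 : ∑ e ∈ Γ, RR Prod.fst (chL (HH Γ)) a i j (rtL (HH Γ) e)
            ≤ ∑ e ∈ Γ, 2 * D2 ^ (a + i + j + 4) :=
          Finset.sum_le_sum fun e _ => RRB.RR_root_le (hH Γ) hD1 (hdeg Γ hg) a i j e
        rw [Finset.sum_const, nsmul_eq_mul] at h2
        refine h2.trans ?_
        have h3 : (0 : ℝ) ≤ 2 * D2 ^ (a + i + j + 4) := by positivity
        refine (mul_le_mul_of_nonneg_right (hcard Γ hg) h3).trans (le_of_eq ?_)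
        rw [pow_add]; ring
      · positivity
    refine h1.trans ?_
    rw [← Finset.sum_mul]
    have h4 : (0 : ℝ) ≤ (x * (2 * D2 ^ 4)) * D2 ^ (a + i + j) := by positivity
    calc (∑ Γ, μ Γ) * ((x * (2 * D2 ^ 4)) * D2 ^ (a + i + j))
        ≤ 1 * ((x * (2 * D2 ^ 4)) * D2 ^ (a + i + j)) := mul_le_mul_of_nonneg_right hmass h4
      _ = _ := one_mul _
  -- weights
  set w : ℕ → ℝ := fun k => J ^ k / (k.factorial : ℝ) with hw
  have hw0 : ∀ k, 0 ≤ w k := fun k => by rw [hw]; positivity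
  -- exchange the sums
  have step1 : ∑ Γ, μ Γ * (if good Γ then ∑ e ∈ Γ, P Γ e else 0)
      ≤ ∑ i ∈ range b, ∑ j ∈ range b, w i * w j * R1 0 i j
        + ∑ a ∈ range b, ∑ i ∈ range b, ∑ j ∈ range b, w a * w i * w j * R1 (a + 1) i j := by
    have h1 : ∀ Γ, μ Γ * (if good Γ then ∑ e ∈ Γ, P Γ e else 0)
        ≤ (∑ i ∈ range b, ∑ j ∈ range b, w i * w j * (μ Γ * (if good Γ then
            ∑ e ∈ Γ, RR Prod.fst (chL (HH Γ)) 0 i j (rtL (HH Γ) e) else 0)))
          + ∑ a ∈ range b, ∑ i ∈ range b, ∑ j ∈ range b, w a * w i * w j * (μ Γ * (if good Γ then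
            ∑ e ∈ Γ, RR Prod.fst (chL (HH Γ)) (a + 1) i j (rtL (HH Γ) e) else 0)) := by
      intro Γ
      by_cases hg : good Γ
      · simp only [if_pos hg]
        have h2 : ∑ e ∈ Γ, P Γ e ≤ ∑ e ∈ Γ, (∑ i ∈ range b, ∑ j ∈ range b, w i * w j *
              RR Prod.fst (chL (HH Γ)) 0 i j (rtL (HH Γ) e)
            + ∑ a ∈ range b, ∑ i ∈ range b, ∑ j ∈ range b, w a * w i * w j *
              RR Prod.fst (chL (HH Γ)) (a + 1) i j (rtL (HH Γ) e)) :=
          Finset.sum_le_sum fun e he => hV Γ hg e he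
        refine (mul_le_mul_of_nonneg_left h2 (hμ0 Γ)).trans (le_of_eq ?_)
        rw [Finset.sum_add_distrib, mul_add]
        congr 1
        · rw [Finset.sum_comm, Finset.mul_sum]
          refine Finset.sum_congr rfl fun i _ => ?_
          rw [Finset.sum_comm, Finset.mul_sum]
          refine Finset.sum_congr rfl fun j _ => ?_
          rw [← Finset.mul_sum]; ring
        · rw [Finset.sum_comm, Finset.mul_sum]
          refine Finset.sum_congr rfl fun a _ => ?_
          rw [Finset.sum_comm, Finset.mul_sum]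
          refine Finset.sum_congr rfl fun i _ => ?_
          rw [Finset.sum_comm, Finset.mul_sum]
          refine Finset.sum_congr rfl fun j _ => ?_
          rw [← Finset.mul_sum]; ring
      · simp only [if_neg hg, mul_zero, Finset.sum_const_zero, add_zero, le_refl]
    refine (Finset.sum_le_sum fun Γ _ => h1 Γ).trans (le_of_eq ?_)
    rw [Finset.sum_add_distrib]
    congr 1
    · rw [Finset.sum_comm]
      refine Finset.sum_congr rfl fun i _ => ?_
      rw [Finset.sum_comm]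
      refine Finset.sum_congr rfl fun j _ => ?_
      rw [hR1, Finset.mul_sum]
    · rw [Finset.sum_comm]
      refine Finset.sum_congr rfl fun a _ => ?_
      rw [Finset.sum_comm]
      refine Finset.sum_congr rfl fun i _ => ?_
      rw [Finset.sum_comm]
      refine Finset.sum_congr rfl fun j _ => ?_
      rw [hR1, Finset.mul_sum]
  -- first family: the `a = 0` part of a triple sum
  have step2 : ∑ i ∈ range b, ∑ j ∈ range b, w i * w j * R1 0 i j
      ≤ ∑ a ∈ range b, ∑ i ∈ range b, ∑ j ∈ range b, w a * w i * w j * R1 a i j := by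
    have h0 : (0 : ℕ) ∈ range b := Finset.mem_range.2 (by omega)
    have h2 : ∑ i ∈ range b, ∑ j ∈ range b, w i * w j * R1 0 i j
        = ∑ i ∈ range b, ∑ j ∈ range b, w 0 * w i * w j * R1 0 i j := by
      have : w 0 = 1 := by rw [hw]; simp
      simp only [this, one_mul]
    rw [h2]
    exact Finset.single_le_sum (f := fun a =>
      ∑ i ∈ range b, ∑ j ∈ range b, w a * w i * w j * R1 a i j)
      (fun a _ => Finset.sum_nonneg fun i _ => Finset.sum_nonneg fun j _ =>
        mul_nonneg (mul_nonneg (mul_nonneg (hw0 a) (hw0 i)) (hw0 j)) (hR1_0 a i j)) h0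
  have hR0 : (0 : ℝ) ≤ x * (2 * D2 ^ 4) := by positivity
  have step3 := weighted_sum_le hJ hY hS0 hD20 hR0 K0 b R1
    (fun a i j h => hR1_short a i j (by omega)) hR1_all
  have step4 := weighted_sum_le (S0 := S0 * Y) (R0 := x * (2 * D2 ^ 4) * D2) hJ hY
    (mul_nonneg hS0 hY) hD20 (mul_nonneg hR0 hD20) K0 b (fun a i j => R1 (a + 1) i j)
    (fun a i j h => by
      have := hR1_short (a + 1) i j (by omega)
      rw [show a + 1 + i + j = (a + i + j) + 1 by ring, pow_succ] at this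
      calc R1 (a + 1) i j ≤ S0 * (Y ^ (a + i + j) * Y) := this
        _ = S0 * Y * Y ^ (a + i + j) := by ring)
    (fun a i j => by
      have := hR1_all (a + 1) i j
      rw [show a + 1 + i + j = (a + i + j) + 1 by ring, pow_succ] at this
      calc R1 (a + 1) i j ≤ (x * (2 * D2 ^ 4)) * (D2 ^ (a + i + j) * D2) := this
        _ = x * (2 * D2 ^ 4) * D2 * D2 ^ (a + i + j) := by ring)
  have step5 := step1.trans (add_le_add_left step2 _)
  calc _ ≤ _ := step5
    _ ≤ (S0 * Real.exp (3 * (J * Y))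
          + x * (2 * D2 ^ 4) * Real.exp (-K0) * Real.exp (3 * (Real.exp 1 * D2 * J)))
        + (S0 * Y * Real.exp (3 * (J * Y))
          + x * (2 * D2 ^ 4) * D2 * Real.exp (-K0) * Real.exp (3 * (Real.exp 1 * D2 * J))) :=
        add_le_add step3 step4
    _ = _ := by ring

end core

end Crest.Agent.R030.ErrB
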