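import Crest.Agent.R030.PairCount
import Crest.Agent.R030.VisitPath

/-!
Row 30 (S0040), last window (N): helper196's path pair counts `RR` at the root edges, summed under
a dominated measure.

`sum_RR_le : ∑_G μ G ∑_{e ∈ G} RR a i j (root list of e) ≤ 3 C n² p² (2 (n p² + K))^(a+i+j+4)`.
-/

set_option autoImplicit false

namespace Crest.Agent.R030.PathBridge

open Finset Crest.Agent.R030 Crest.Agent.R030.Prog Crest.Agent.R030.PairCount

section general

variable {V : Type} [DecidableEq V]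

theorem count_map_eq_sum' {P B : Type} [DecidableEq B] (tri : P → B) (lst : List P) (t : B) :
    (((lst.map tri).count t : ℕ) : ℝ) = (lst.map (fun c => if tri c = t then (1 : ℝ) else 0)).sum := by
  induction lst with
  | nil => simp
  | cons c lst ih =>
    simp only [List.map_cons, List.sum_cons, List.count_cons]
    push_cast
    rw [ih]
    by_cases h : tri c = t
    · simp [h]; ring
    · simp [h]

theorem Nk_chL (H : Finset (Finset V)) (k : ℕ) (t : Finset V) :
    ∀ c : Finset V × V, Nk Prod.fst (chL H) k (chL H c) t = (NB H)^[k + 1] (indT t) c := by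
  induction k with
  | zero =>
    intro c
    unfold Nk
    rw [count_map_eq_sum']
    unfold chL
    rw [Finset.sum_map_toList]
    rfl
  | succ k ih =>
    intro c
    rw [NB_iter_succ]
    unfold Nk
    simp only [ih]
    unfold chL
    rw [Finset.sum_map_toList]

theorem Sk_chL (H : Finset (Finset V)) (φ : List (Finset V × V) → ℝ) (a : ℕ) :
    ∀ P : Finset V × V, Sk (chL H) a φ (chL H P) = (NB H)^[a] (fun Q => φ (chL H Q)) P := by
  induction a with
  | zero => intro P; rfl
  | succ a ih =>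
    intro P
    rw [NB_iter_succ]
    unfold Sk
    simp only [ih]
    conv_lhs => unfold chL
    rw [Finset.sum_map_toList]
    rfl

theorem Sk_rtL_succ (H : Finset (Finset V)) (φ : List (Finset V × V) → ℝ) (a : ℕ) (e : V) :
    Sk (chL H) (a + 1) φ (rtL H e) =
      ∑ P ∈ rtF H e, (NB H)^[a] (fun Q => φ (chL H Q)) P := by
  unfold Sk
  simp only [Sk_chL]
  unfold rtL
  rw [Finset.sum_map_toList]

theorem NB_ind_zero (H : Finset (Finset V)) {t : Finset V} (ht : t ∉ H) (k : ℕ) :
    ∀ P : Finset V × V, (NB H)^[k + 1] (indT t) P = 0 := by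
  induction k with
  | zero =>
    intro P
    rw [NB_iter_succ]
    refine Finset.sum_eq_zero fun Q hQ => ?_
    rw [mem_chF] at hQ
    simp only [Function.iterate_zero, id_eq, indT]
    rw [if_neg]
    rintro rfl
    exact ht hQ.1
  | succ k ih =>
    intro P
    rw [NB_iter_succ]
    exact Finset.sum_eq_zero fun Q _ => ih Q

theorem crs2_le_pairs {α : Type} [DecidableEq α] (f g : α → ℝ) (hf : ∀ x, 0 ≤ f x)
    (hg : ∀ x, 0 ≤ g x) (l : List α) (hl : l.Nodup) :
    crs2 f g l ≤ ∑ x ∈ l.toFinset, ∑ y ∈ l.toFinset.erase x, f x * g y := by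
  induction l with
  | nil => simp [crs2]
  | cons x xs ih =>
    rw [List.nodup_cons] at hl
    have hx : x ∉ xs.toFinset := by simpa using hl.1
    rw [List.toFinset_cons, Finset.sum_insert hx, Finset.erase_insert hx]
    unfold crs2
    refine add_le_add ?_ ?_
    · rw [← Finset.mul_sum, List.sum_toFinset g hl.2]
    · refine (ih hl.2).trans (Finset.sum_le_sum fun x' _ => ?_)
      refine Finset.sum_le_sum_of_subset_of_nonneg (Finset.erase_subset_erase _
        (Finset.subset_insert _ _)) fun y _ _ => mul_nonneg (hf x') (hg y)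

end general

variable {n : ℕ}

theorem Cou_le_Conf (H : Finset (Finset (Sym2 (Fin n)))) (i j : ℕ)
    (S : Finset (Finset (Sym2 (Fin n)) × Sym2 (Fin n))) :
    Cou Prod.fst (chL H) i j S.toList ≤ Conf H (i + 1) (j + 1) S := by
  unfold Cou Conf
  have h1 : ∀ t : Finset (Sym2 (Fin n)),
      crs2 (fun c => Nk Prod.fst (chL H) i (chL H c) t) (fun c => Nk Prod.fst (chL H) j (chL H c) t)
        S.toList ≤ ∑ Q₁ ∈ S, ∑ Q₂ ∈ S.erase Q₁,
          (NB H)^[i + 1] (indT t) Q₁ * (NB H)^[j + 1] (indT t) Q₂ := by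
    intro t
    simp only [Nk_chL]
    have := crs2_le_pairs (fun c => (NB H)^[i + 1] (indT t) c) (fun c => (NB H)^[j + 1] (indT t) c)
      (fun x => NB_iter_nonneg H (PairCount.ind_nonneg t) _ x)
      (fun x => NB_iter_nonneg H (PairCount.ind_nonneg t) _ x) S.toList (Finset.nodup_toList S)
    rwa [Finset.toList_toFinset] at this
  refine (Finset.sum_le_sum fun t _ => h1 t).trans (le_of_eq ?_)
  rw [Finset.sum_comm]
  refine Finset.sum_congr rfl fun Q₁ _ => ?_
  rw [Finset.sum_comm]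
  refine Finset.sum_congr rfl fun Q₂ _ => ?_
  symm
  refine Finset.sum_subset (Finset.subset_univ _) fun t _ ht => ?_
  rw [NB_ind_zero H ht, zero_mul]

theorem Anc_eq (H : Finset (Finset (Sym2 (Fin n)))) (i : ℕ)
    (S : Finset (Finset (Sym2 (Fin n)) × Sym2 (Fin n))) (hS : ∀ Q ∈ S, Q.1 ∈ H) :
    Anc Prod.fst (chL H) i S.toList =
      Conf H 0 (i + 1) S + ∑ Q ∈ S, (NB H)^[i + 1] (indT Q.1) Q := by
  unfold Anc
  rw [Finset.sum_map_toList]
  simp only [Nk_chL]
  simp only [Finset.sum_map_toList]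
  unfold Conf
  rw [← Finset.sum_add_distrib]
  refine Finset.sum_congr rfl fun d hd => ?_
  rw [← Finset.sum_erase_add S _ hd]
  congr 1
  refine Finset.sum_congr rfl fun c _ => ?_
  simp only [Function.iterate_zero, id_eq]
  have h1 : ∀ τ ∈ H, indT τ d * (NB H)^[i + 1] (indT τ) c =
      if d.1 = τ then (NB H)^[i + 1] (indT d.1) c else 0 := by
    intro τ _
    unfold indT
    split_ifs with h
    · rw [h, one_mul]
    · rw [zero_mul]
  rw [Finset.sum_congr rfl h1, Finset.sum_ite_eq, if_pos (hS d hd)]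

/-- the three families at a list of ports -/
noncomputable def fam (H : Finset (Finset (Sym2 (Fin n)))) (i j : ℕ)
    (S : Finset (Finset (Sym2 (Fin n)) × Sym2 (Fin n))) : ℝ :=
  Conf H (i + 1) (j + 1) S + (Conf H 0 (i + 1) S + ∑ Q ∈ S, (NB H)^[i + 1] (indT Q.1) Q)

theorem Conf_nonneg (H : Finset (Finset (Sym2 (Fin n)))) (b c : ℕ)
    (S : Finset (Finset (Sym2 (Fin n)) × Sym2 (Fin n))) : 0 ≤ Conf H b c S := by
  unfold Conf
  refine Finset.sum_nonneg fun Q₁ _ => Finset.sum_nonneg fun Q₂ _ => Finset.sum_nonneg fun τ _ => ?_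
  exact mul_nonneg (NB_iter_nonneg H (PairCount.ind_nonneg τ) _ _) (NB_iter_nonneg H (PairCount.ind_nonneg τ) _ _)

theorem phi_le_fam (H : Finset (Finset (Sym2 (Fin n)))) (i j : ℕ)
    (S : Finset (Finset (Sym2 (Fin n)) × Sym2 (Fin n))) (hS : ∀ Q ∈ S, Q.1 ∈ H) :
    Cou Prod.fst (chL H) i j S.toList + (if j = 0 then Anc Prod.fst (chL H) i S.toList else 0) ≤
      fam H i j S := by
  unfold fam
  refine add_le_add (Cou_le_Conf H i j S) ?_
  rw [Anc_eq H i S hS]
  split_ifs
  · exact le_refl _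
  · exact add_nonneg (Conf_nonneg _ _ _ _)
      (Finset.sum_nonneg fun Q _ => NB_iter_nonneg H (PairCount.ind_nonneg _) _ _)

theorem NB_iter_add {V : Type} [DecidableEq V] (H : Finset (Finset V)) (f g : Finset V × V → ℝ)
    (k : ℕ) : ∀ P, (NB H)^[k] (fun Q => f Q + g Q) P = (NB H)^[k] f P + (NB H)^[k] g P := by
  induction k with
  | zero => intro P; rfl
  | succ k ih =>
    intro P
    rw [NB_iter_succ, NB_iter_succ, NB_iter_succ, ← Finset.sum_add_distrib]
    exact Finset.sum_congr rfl fun Q _ => ih Q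

theorem EF_add {μ : Finset (Sym2 (Fin n)) → ℝ} {F : Finset (Sym2 (Fin n))}
    (f g : Finset (Sym2 (Fin n)) → ℝ) :
    EF μ F (fun G => f G + g G) = EF μ F f + EF μ F g := by
  unfold EF
  rw [← Finset.sum_add_distrib]
  refine Finset.sum_congr rfl fun G _ => ?_
  split_ifs <;> simp [mul_add]

section bounds

variable {μ : Finset (Sym2 (Fin n)) → ℝ} {C p : ℝ} {D K : ℕ}

theorem empty_notMem (G : Finset (Sym2 (Fin n))) : ∅ ∉ act (triHyp n) G := by
  intro h
  rw [mem_act] at h
  have := (lin3_triHyp n).1 _ h.1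
  simp at this

/-- **(N)** at one root. -/
theorem root_RR_le (hμ : ∀ G, 0 ≤ μ G) (hC : 0 ≤ C) (hp0 : 0 ≤ p) (hp1 : p ≤ 1)
    (hD : Dom μ C p D) (a i j : ℕ) (hFD : 1 + 2 * (a + i + j + 4) ≤ D)
    (hFK : 2 + (a + i + j + 4) ≤ K) (e : Sym2 (Fin n)) :
    EF μ {e} (fun G => RR Prod.fst (chL (act (triHyp n) G)) a i j (rtL (act (triHyp n) G) e)) ≤
      3 * C * p ^ 2 * (2 * (n * p ^ 2 + K)) ^ (a + i + j + 4) := by
  have hY : (1 : ℝ) ≤ 2 * (n * p ^ 2 + K) := by
    have h1 : (0 : ℝ) ≤ n * p ^ 2 := by positivity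
    have h2 : (1 : ℝ) ≤ K := by exact_mod_cast (by omega : 1 ≤ K)
    linarith
  have hpow : ∀ {s t : ℕ}, s ≤ t →
      C * p ^ 2 * (2 * (n * p ^ 2 + K)) ^ s ≤ C * p ^ 2 * (2 * (n * p ^ 2 + K)) ^ t := by
    intro s t hst
    exact mul_le_mul_of_nonneg_left (pow_le_pow_right₀ hY hst) (by positivity)
  cases a with
  | zero =>
    have h1 : EF μ {e} (fun G => RR Prod.fst (chL (act (triHyp n) G)) 0 i j
          (rtL (act (triHyp n) G) e)) ≤
        EF μ {e} (fun G => Conf (act (triHyp n) G) (i + 1) (j + 1) (rch (act (triHyp n) G) e) +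
          (Conf (act (triHyp n) G) 0 (i + 1) (rch (act (triHyp n) G) e) +
            ∑ Q ∈ rch (act (triHyp n) G) e,
              (NB (act (triHyp n) G))^[0] (fun P => (NB (act (triHyp n) G))^[i + 1] (indT P.1) P) Q)) := by
      refine EF_mono hμ fun G _ => ?_
      have := phi_le_fam (act (triHyp n) G) i j (rch (act (triHyp n) G) e)
        (fun Q hQ => (mem_chX.1 hQ).1)
      unfold RR Sk
      unfold fam at this
      unfold rtL
      rw [rtF_eq (empty_notMem G)]
      exact this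
    refine h1.trans ?_
    rw [EF_add, EF_add]
    have b1 := root_branch (K := K) hμ hC hp0 hp1 hD (i + 1) (j + 1) (by omega) (by omega) e
    have b2 := root_branch (K := K) hμ hC hp0 hp1 hD 0 (i + 1) (by omega) (by omega) e
    have b3 := root_stem_anc (K := K) hμ hC hp0 hp1 hD 0 i (by omega) (by omega) e
    have c1 := b1.trans (hpow (by omega : i + 1 + (j + 1) + 2 ≤ 0 + i + j + 4))
    have c2 := b2.trans (hpow (by omega : 0 + (i + 1) + 2 ≤ 0 + i + j + 4))
    have c3 := b3.trans (hpow (by omega : 0 + i + 2 ≤ 0 + i + j + 4))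
    linarith
  | succ a =>
    have h1 : EF μ {e} (fun G => RR Prod.fst (chL (act (triHyp n) G)) (a + 1) i j
          (rtL (act (triHyp n) G) e)) ≤
        EF μ {e} (fun G =>
          ∑ P ∈ rch (act (triHyp n) G) e, (NB (act (triHyp n) G))^[a]
            (fun P => Conf (act (triHyp n) G) (i + 1) (j + 1) (chF (act (triHyp n) G) P)) P +
          (∑ P ∈ rch (act (triHyp n) G) e, (NB (act (triHyp n) G))^[a]
            (fun P => Conf (act (triHyp n) G) 0 (i + 1) (chF (act (triHyp n) G) P)) P +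
            ∑ P ∈ rch (act (triHyp n) G) e, (NB (act (triHyp n) G))^[a + 1]
              (fun P => (NB (act (triHyp n) G))^[i + 1] (indT P.1) P) P)) := by
      refine EF_mono hμ fun G _ => ?_
      unfold RR
      rw [Sk_rtL_succ, rtF_eq (empty_notMem G), ← Finset.sum_add_distrib, ← Finset.sum_add_distrib]
      refine Finset.sum_le_sum fun P _ => ?_
      rw [Function.iterate_succ_apply (NB (act (triHyp n) G)) a, ← NB_iter_add, ← NB_iter_add]
      refine NB_iter_mono _ (fun Q => ?_) a P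
      exact phi_le_fam (act (triHyp n) G) i j (chF (act (triHyp n) G) Q)
        (fun Q' hQ' => (mem_chF.1 hQ').1)
    refine h1.trans ?_
    rw [EF_add, EF_add]
    have b1 := root_stem_branch (K := K) hμ hC hp0 hp1 hD a (i + 1) (j + 1) (by omega) (by omega) e
    have b2 := root_stem_branch (K := K) hμ hC hp0 hp1 hD a 0 (i + 1) (by omega) (by omega) e
    have b3 := root_stem_anc (K := K) hμ hC hp0 hp1 hD (a + 1) i (by omega) (by omega) e
    have c1 := b1.trans (hpow (by omega : a + (i + 1) + (j + 1) + 3 ≤ a + 1 + i + j + 4))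
    have c2 := b2.trans (hpow (by omega : a + 0 + (i + 1) + 3 ≤ a + 1 + i + j + 4))
    have c3 := b3.trans (hpow (by omega : a + 1 + i + 2 ≤ a + 1 + i + j + 4))
    linarith

theorem sum_EF_singleton (μ : Finset (Sym2 (Fin n)) → ℝ)
    (f : Finset (Sym2 (Fin n)) → Sym2 (Fin n) → ℝ) :
    ∑ G, μ G * ∑ e ∈ G, f G e = ∑ e : Sym2 (Fin n), EF μ {e} (fun G => f G e) := by
  unfold EF
  rw [Finset.sum_comm]
  refine Finset.sum_congr rfl fun G _ => ?_
  rw [Finset.mul_sum, ← Finset.sum_filter]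
  refine Finset.sum_congr ?_ fun _ _ => rfl
  ext e
  simp

theorem card_sym2_le (n : ℕ) : (Fintype.card (Sym2 (Fin n)) : ℝ) ≤ (n : ℝ) ^ 2 := by
  rw [Sym2.card, Fintype.card_fin]
  have h : (n + 1).choose 2 ≤ n ^ 2 := by
    rw [Nat.choose_two_right]
    simp only [Nat.add_sub_cancel]
    rcases Nat.eq_zero_or_pos n with rfl | hn
    · simp
    · calc (n + 1) * n / 2 ≤ (2 * n ^ 2) / 2 := Nat.div_le_div_right (by nlinarith)
        _ = n ^ 2 := by simp
  exact_mod_cast h

/-- **(N)**: the path pair counts, summed over all root edges of `G`, averaged over `G`. -/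
theorem sum_RR_le (hμ : ∀ G, 0 ≤ μ G) (hC : 0 ≤ C) (hp0 : 0 ≤ p) (hp1 : p ≤ 1)
    (hD : Dom μ C p D) (a i j : ℕ) (hFD : 1 + 2 * (a + i + j + 4) ≤ D)
    (hFK : 2 + (a + i + j + 4) ≤ K) :
    ∑ G, μ G * ∑ e ∈ G, RR Prod.fst (chL (act (triHyp n) G)) a i j (rtL (act (triHyp n) G) e) ≤
      3 * C * n ^ 2 * p ^ 2 * (2 * (n * p ^ 2 + K)) ^ (a + i + j + 4) := by
  rw [sum_EF_singleton]
  calc ∑ e : Sym2 (Fin n), EF μ {e} (fun G => RR Prod.fst (chL (act (triHyp n) G)) a i j
        (rtL (act (triHyp n) G) e))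
      ≤ ∑ _e : Sym2 (Fin n), 3 * C * p ^ 2 * (2 * (n * p ^ 2 + K)) ^ (a + i + j + 4) :=
        Finset.sum_le_sum fun e _ => root_RR_le hμ hC hp0 hp1 hD a i j hFD hFK e
    _ = (Fintype.card (Sym2 (Fin n)) : ℝ) *
          (3 * C * p ^ 2 * (2 * (n * p ^ 2 + K)) ^ (a + i + j + 4)) := by
        rw [Finset.sum_const, Finset.card_univ, nsmul_eq_mul]
    _ ≤ (n : ℝ) ^ 2 * (3 * C * p ^ 2 * (2 * (n * p ^ 2 + K)) ^ (a + i + j + 4)) :=
        mul_le_mul_of_nonneg_right (card_sym2_le n) (by positivity)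
    _ = _ := by ring

end bounds

end Crest.Agent.R030.PathBridge
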