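import Crest.Agent.R030.ErrBound
import Crest.Agent.R030.VisitH
import Crest.Agent.R030.PathBridge
import Crest.Agent.R030.Cavity3

/-!
Row 30 (S0040), helper953.  The exploration bounds at a state satisfying the cavity hypotheses.
-/

set_option autoImplicit false

namespace Crest.Agent.R030.ErrB

open Finset Crest.Agent.R030 Crest.Agent.R030.Prog

theorem Wt_le {M : ℕ} {om : ℕ → ℝ} {J : ℝ} (h0 : 0 ≤ (M : ℝ)⁻¹ * ∑ l ∈ range M, om l)
    (hJ : (M : ℝ)⁻¹ * ∑ l ∈ range M, om l ≤ J) (k : ℕ) :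
    Wt M om k M ≤ J ^ k / (k.factorial : ℝ) := by
  unfold Wt
  exact div_le_div_of_nonneg_right (pow_le_pow_left₀ h0 hJ k) (by positivity)

theorem Wt_nonneg {M : ℕ} {om : ℕ → ℝ} (h0 : 0 ≤ (M : ℝ)⁻¹ * ∑ l ∈ range M, om l) (k : ℕ) :
    0 ≤ Wt M om k M := by
  unfold Wt; positivity

variable {n : ℕ}

section cav

variable {E : Finset (Sym2 (Fin n))} {q M : ℕ} {m η κ Γ κ₀ α θ : ℝ}

/-- The weights used at a state satisfying the cavity hypotheses. -/
noncomputable def omc (m : ℝ) (M l : ℕ) : ℝ := 32 / 7 * (Cavity.RR m M l)⁻¹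

theorem omc_nonneg (hm : 0 ≤ m) (M l : ℕ) : 0 ≤ omc m M l := by
  unfold omc
  have := Cavity.RR_pos hm M l
  positivity

theorem sum_omc (m : ℝ) (M : ℕ) :
    (M : ℝ)⁻¹ * ∑ l ∈ range M, omc m M l = 32 / 7 * Cavity.JJ m M M := by
  unfold omc Cavity.JJ
  rw [← Finset.mul_sum]
  ring

theorem vhyp_cav (h : Cavity.CavHyp E q M m η κ Γ κ₀ α θ) :
    VHyp M Prod.fst (chL (act (triHyp n) E))
      (fun P => P.1 ∈ act (triHyp n) E ∧ P.2 ∈ P.1) (omc m M) := by
  have hL : Lin3 (act (triHyp n) E) := (lin3_triHyp n).subset (Finset.filter_subset _ _)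
  refine VisitH.vhyp hL (omc_nonneg h.hm.le M) (th := 7 / 8) (by norm_num) ?_ ?_
  · intro l hl T hT v hv
    have h1 := (h.cavI_bounds hl.le hT hv).2
    have h2 := h.hα8
    have h3 : cavI (act (triHyp n) E) M l T v ≤ α := h1
    linarith
  · intro l hl T hT v hv
    have h1 := (h.acAcc_bounds hl.le hT hv).2
    have h2 : acAcc (act (triHyp n) E) M l T v ≤ 4 * (Cavity.RR m M l)⁻¹ := h1
    refine h2.trans (le_of_eq ?_)
    unfold omc
    ring

theorem prs_cav [NeZero M] (h : Cavity.CavHyp E q M m η κ Γ κ₀ α θ) {J : ℝ}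
    (hJ : 32 / 7 * Cavity.JJ m M M ≤ J) (e : Sym2 (Fin n)) :
    prs (rootP (act (triHyp n) E) M M e) ≤
      ∑ i ∈ range (M - 1), ∑ j ∈ range (M - 1),
        J ^ i / (i.factorial : ℝ) * (J ^ j / (j.factorial : ℝ)) *
          Prog.RR Prod.fst (chL (act (triHyp n) E)) 0 i j (rtL (act (triHyp n) E) e)
      + ∑ a ∈ range (M - 1), ∑ i ∈ range (M - 1), ∑ j ∈ range (M - 1),
          J ^ a / (a.factorial : ℝ) * (J ^ i / (i.factorial : ℝ)) * (J ^ j / (j.factorial : ℝ)) *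
          Prog.RR Prod.fst (chL (act (triHyp n) E)) (a + 1) i j
            (rtL (act (triHyp n) E) e) := by
  have h0 : 0 ≤ (M : ℝ)⁻¹ * ∑ l ∈ range M, omc m M l :=
    mul_nonneg (by positivity) (Finset.sum_nonneg fun l _ => omc_nonneg h.hm.le M l)
  have hJ' : (M : ℝ)⁻¹ * ∑ l ∈ range M, omc m M l ≤ J := by rw [sum_omc]; exact hJ
  have hJ0 : 0 ≤ J := h0.trans hJ'
  have hw := fun k => Wt_le h0 hJ' k
  have hw0 := fun k => Wt_nonneg (M := M) (om := omc m M) h0 k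
  refine (VisitH.prs_rootP_le (vhyp_cav h) e).trans (add_le_add ?_ ?_)
  · refine Finset.sum_le_sum fun i _ => Finset.sum_le_sum fun j _ => ?_
    exact mul_le_mul_of_nonneg_right (mul_le_mul (hw i) (hw j) (hw0 j) (by positivity))
      (RRB.RR_nonneg 0 i j _)
  · refine Finset.sum_le_sum fun a _ => ?_
    rw [Finset.mul_sum]
    refine Finset.sum_le_sum fun i _ => ?_
    rw [Finset.mul_sum]
    refine Finset.sum_le_sum fun j _ => ?_
    rw [← mul_assoc, ← mul_assoc]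
    refine mul_le_mul_of_nonneg_right ?_ (RRB.RR_nonneg (a + 1) i j _)
    refine mul_le_mul ?_ (hw j) (hw0 j) (by positivity)
    exact mul_le_mul (hw a) (hw i) (hw0 i) (by positivity)

/-- Two-root term at a state satisfying the cavity hypotheses. -/
theorem cross_cav [NeZero M] (h : Cavity.CavHyp E q M m η κ Γ κ₀ α θ) {J : ℝ}
    (hJ : 32 / 7 * Cavity.JJ m M M ≤ J) {D : ℕ} (hD1 : 1 ≤ D)
    (hdeg : ∀ v, ((act (triHyp n) E).filter (fun T => v ∈ T)).card ≤ D) :
    ∑ t : Finset (Sym2 (Fin n)), (∑ e ∈ E, cnt (rootP (act (triHyp n) E) M M e) t) ^ 2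
      ≤ ((act (triHyp n) E).card : ℝ) *
        (3 * ((1 + 2 * (D : ℝ)) * Real.exp (J * (2 * (D : ℝ))))) ^ 2 := by
  have hL : Lin3 (act (triHyp n) E) := (lin3_triHyp n).subset (Finset.filter_subset _ _)
  have h0 : 0 ≤ (M : ℝ)⁻¹ * ∑ l ∈ range M, omc m M l :=
    mul_nonneg (by positivity) (Finset.sum_nonneg fun l _ => omc_nonneg h.hm.le M l)
  have hJ' : (M : ℝ)⁻¹ * ∑ l ∈ range M, omc m M l ≤ J := by rw [sum_omc]; exact hJ
  have hJ0 : 0 ≤ J := h0.trans hJ'
  have hw := fun k => Wt_le h0 hJ' k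
  set w : ℕ → ℝ := fun k => match k with
    | 0 => 1
    | k + 1 => J ^ k / (k.factorial : ℝ) with hwdef
  have hw_nonneg : ∀ k, 0 ≤ w k := by
    intro k
    cases k with
    | zero => simp [hwdef]
    | succ k => simp only [hwdef]; positivity
  have hcnt : ∀ e ∈ E, ∀ t, cnt (rootP (act (triHyp n) E) M M e) t ≤
      ∑ k ∈ range (M - 1 + 1), w k *
        NN Prod.fst (chL (act (triHyp n) E)) k (rtL (act (triHyp n) E) e) t := by
    intro e _ t
    refine (VisitH.cnt_rootP_le (vhyp_cav h) e t).trans ?_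
    rw [Finset.sum_range_succ']
    simp only [RRB.Nk_eq_NN]
    rw [add_comm]
    refine add_le_add ?_ (le_of_eq ?_)
    · refine Finset.sum_le_sum fun k _ => ?_
      exact mul_le_mul_of_nonneg_right (hw k) (NN_nonneg _ _ _)
    · simp [hwdef]
  have hc0 : ∀ e t, 0 ≤ cnt (rootP (act (triHyp n) E) M M e) t := fun e t => cnt_nonneg _ _
  refine (sum_cnt_sq_le hL hdeg E (M - 1 + 1) w hw_nonneg
    (fun e t => cnt (rootP (act (triHyp n) E) M M e) t) hc0 hcnt).trans ?_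
  refine mul_le_mul_of_nonneg_left ?_ (by positivity)
  have hDr : (1 : ℝ) ≤ D := by exact_mod_cast hD1
  have hs0 : 0 ≤ ∑ k ∈ range (M - 1 + 1), w k * (2 * (D : ℝ)) ^ k :=
    Finset.sum_nonneg fun k _ => mul_nonneg (hw_nonneg k) (by positivity)
  refine pow_le_pow_left₀ (by positivity) ?_ 2
  refine mul_le_mul_of_nonneg_left ?_ (by norm_num)
  rw [Finset.sum_range_succ']
  have h2 : ∑ k ∈ range (M - 1), w (k + 1) * (2 * (D : ℝ)) ^ (k + 1)
      ≤ 2 * (D : ℝ) * Real.exp (J * (2 * (D : ℝ))) := by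
    have h3 := Real.sum_le_exp_of_nonneg (x := J * (2 * (D : ℝ))) (by positivity) (M - 1)
    calc ∑ k ∈ range (M - 1), w (k + 1) * (2 * (D : ℝ)) ^ (k + 1)
        = 2 * (D : ℝ) * ∑ k ∈ range (M - 1), (J * (2 * (D : ℝ))) ^ k / (k.factorial : ℝ) := by
          rw [Finset.mul_sum]
          refine Finset.sum_congr rfl fun k _ => ?_
          simp only [hwdef]
          rw [mul_pow, pow_succ]
          ring
      _ ≤ _ := mul_le_mul_of_nonneg_left h3 (by positivity)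
  have h4 : (1 : ℝ) ≤ Real.exp (J * (2 * (D : ℝ))) := Real.one_le_exp (by positivity)
  have h5 : w 0 * (2 * (D : ℝ)) ^ 0 = 1 := by simp [hwdef]
  rw [h5]
  nlinarith

end cav

end Crest.Agent.R030.ErrB
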