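import Crest.Agent.R030.MomentBound

/-!
# Row 30: the trace of `linkM^{2k}` under a dominated law, for large `n`

`trace_tail_eventually`: if `μ` is dominated by `G(n,p)` on sets of size `≤ (log n)^2`, and
`n p² ≥ n^δ`, `k = 2^j ≥ 2/δ`, then for every `u`
`μ {tr (linkM G u ^ 2k) ≥ (1+d) (n p²)^{2k}} ≤ n^{-A}`.
-/

set_option autoImplicit false

namespace Crest.Agent.R030

namespace Good2

open Finset Matrix Filter
open scoped Classical

/-- The size up to which inclusion events are dominated. -/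
noncomputable def Dn (n : ℕ) : ℕ := ⌊(Real.log n) ^ 2⌋₊

/-- Deterministic bound of the closed-walk sum. -/
lemma walk_bound_num {n k : ℕ} {p r K c X : ℝ} (hk : 1 ≤ k) (_hp : 0 ≤ p) (hp1 : p ≤ 1)
    (hr : 0 < r) (hr2 : r ^ 2 = n * p ^ 2) (hXr : X = r ^ 2) (hK : 0 ≤ K) (hKn : K ≤ n)
    (hc : 0 ≤ c)
    (h1 : 4 * k * K ≤ c * X) (h2 : (1 + K) ^ (2 * k) ≤ c / 2 * n) (h3 : (n : ℝ) ^ 2 ≤ X ^ k) :
    (n * p + K) * (p * (r ^ 2 + K) ^ (2 * k - 1) +
      ((2 * k - 1 : ℕ) : ℝ) * K * p * (r ^ 2 + K) ^ (2 * k - 1 - 1) +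
        ((1 + K) * r) ^ (2 * k - 1 + 1)) ≤ X ^ (2 * k) * (Real.exp c + c) := by
  have hX : 0 < X := by rw [hXr]; positivity
  have e1 : 2 * k - 1 + 1 = 2 * k := by omega
  rw [e1, ← hXr]
  have hn0 : (0:ℝ) ≤ n := by positivity
  have hpX : (n * p + K) * p ≤ X + K := by
    have : n * p * p = X := by rw [hXr, hr2]; ring
    nlinarith [mul_le_of_le_one_right hK hp1]
  -- third term
  have t3 : (n * p + K) * ((1 + K) * r) ^ (2 * k) ≤ X ^ (2 * k) * c := by
    have a1 : n * p + K ≤ 2 * n := by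
      have : n * p ≤ n := mul_le_of_le_one_right hn0 hp1
      linarith
    have a2 : ((1 + K) * r) ^ (2 * k) = (1 + K) ^ (2 * k) * X ^ k := by
      rw [mul_pow, pow_mul r, ← hXr]
    rw [a2]
    have hXk : 0 < X ^ k := by positivity
    calc (n * p + K) * ((1 + K) ^ (2 * k) * X ^ k) ≤ (2 * n) * ((c / 2 * n) * X ^ k) := by
          refine mul_le_mul a1 (mul_le_mul_of_nonneg_right h2 hXk.le) (by positivity)
            (by positivity)
      _ = (n : ℝ) ^ 2 * (c * X ^ k) := by ring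
      _ ≤ X ^ k * (c * X ^ k) := mul_le_mul_of_nonneg_right h3 (by positivity)
      _ = X ^ (2 * k) * c := by rw [two_mul, pow_add]; ring
  -- first two terms
  have hXK : 0 < X + K := by positivity
  have t12 : (n * p + K) * (p * (X + K) ^ (2 * k - 1) +
      ((2 * k - 1 : ℕ) : ℝ) * K * p * (X + K) ^ (2 * k - 1 - 1)) ≤
      X ^ (2 * k) * Real.exp c := by
    have b1 : (n * p + K) * (p * (X + K) ^ (2 * k - 1)) ≤ (X + K) ^ (2 * k) := by
      calc (n * p + K) * (p * (X + K) ^ (2 * k - 1))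
          = ((n * p + K) * p) * (X + K) ^ (2 * k - 1) := by ring
        _ ≤ (X + K) * (X + K) ^ (2 * k - 1) :=
            mul_le_mul_of_nonneg_right hpX (by positivity)
        _ = (X + K) ^ (2 * k) := by rw [← pow_succ', e1]
    have b2 : (n * p + K) * (((2 * k - 1 : ℕ) : ℝ) * K * p * (X + K) ^ (2 * k - 1 - 1)) ≤
        (X + K) ^ (2 * k) * (2 * k * K / X) := by
      have e2 : 2 * k - 1 - 1 + 1 = 2 * k - 1 := by omega
      calc (n * p + K) * (((2 * k - 1 : ℕ) : ℝ) * K * p * (X + K) ^ (2 * k - 1 - 1))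
          = ((n * p + K) * p) * (X + K) ^ (2 * k - 1 - 1) * (((2 * k - 1 : ℕ) : ℝ) * K) := by ring
        _ ≤ (X + K) * (X + K) ^ (2 * k - 1 - 1) * ((2 * k : ℝ) * K) := by
            refine mul_le_mul (mul_le_mul_of_nonneg_right hpX (by positivity)) ?_ (by positivity)
              (by positivity)
            refine mul_le_mul_of_nonneg_right ?_ hK
            have : (2 * k - 1 : ℕ) ≤ 2 * k := by omega
            exact_mod_cast this
        _ = (X + K) ^ (2 * k - 1) * (2 * k * K) := by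
            rw [← pow_succ', e2]
        _ = (X + K) ^ (2 * k - 1) * X * (2 * k * K / X) := by field_simp
        _ ≤ (X + K) ^ (2 * k - 1) * (X + K) * (2 * k * K / X) := by
            refine mul_le_mul_of_nonneg_right ?_ (by positivity)
            exact mul_le_mul_of_nonneg_left (by linarith) (by positivity)
        _ = _ := by rw [← pow_succ, e1]
    have hkx : 2 * k * K / X ≤ c / 2 := by
      rw [div_le_iff₀ hX]; linarith
    have b3 : (X + K) ^ (2 * k) ≤ X ^ (2 * k) * Real.exp (c / 2) := by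
      have : X + K = X * (1 + K / X) := by field_simp
      rw [this, mul_pow]
      refine mul_le_mul_of_nonneg_left ?_ (by positivity)
      calc (1 + K / X) ^ (2 * k) ≤ (Real.exp (K / X)) ^ (2 * k) := by
            refine pow_le_pow_left₀ (by positivity) ?_ _
            have := Real.add_one_le_exp (K / X)
            linarith
        _ = Real.exp (2 * k * K / X) := by
            rw [← Real.exp_nat_mul]
            congr 1
            push_cast
            ring
        _ ≤ Real.exp (c / 2) := Real.exp_le_exp.2 hkx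
    have b4 : 1 + 2 * k * K / X ≤ Real.exp (c / 2) := by
      have := Real.add_one_le_exp (c / 2)
      linarith
    calc (n * p + K) * (p * (X + K) ^ (2 * k - 1) +
        ((2 * k - 1 : ℕ) : ℝ) * K * p * (X + K) ^ (2 * k - 1 - 1))
        ≤ (X + K) ^ (2 * k) + (X + K) ^ (2 * k) * (2 * k * K / X) := by
          rw [mul_add]; exact add_le_add b1 b2
      _ = (X + K) ^ (2 * k) * (1 + 2 * k * K / X) := by ring
      _ ≤ (X ^ (2 * k) * Real.exp (c / 2)) * Real.exp (c / 2) :=
          mul_le_mul b3 b4 (by positivity) (by positivity)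
      _ = X ^ (2 * k) * Real.exp c := by
          rw [mul_assoc, ← Real.exp_add]; congr 2; ring
  rw [mul_add, mul_add]
  linarith

/-- polylogarithms are smaller than powers. -/
lemma eventually_Dn_pow_le (a k : ℕ) {c r : ℝ} (hc : 0 < c) (hr : 0 < r) :
    ∀ᶠ n : ℕ in atTop, (1 + (2 * (Dn n : ℝ) + 2 * k)) ^ a ≤ c * (n : ℝ) ^ r := by
  have h1 : (fun x : ℝ => Real.log x ^ ((2 * a : ℕ) : ℝ)) =o[atTop] fun x => x ^ r :=
    isLittleO_log_rpow_rpow_atTop _ hr
  have h2 := h1.comp_tendsto tendsto_natCast_atTop_atTop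
  have hc' : 0 < c / (3 + 2 * (k:ℝ)) ^ a := by positivity
  have h3 := h2.bound hc'
  have h4 : ∀ᶠ n : ℕ in atTop, (1 : ℝ) ≤ Real.log n := by
    have : Tendsto (fun n : ℕ => Real.log (n : ℝ)) atTop atTop :=
      Real.tendsto_log_atTop.comp tendsto_natCast_atTop_atTop
    exact this.eventually_ge_atTop 1
  filter_upwards [h3, h4, eventually_ge_atTop 1] with n hn hlog hn1
  simp only [Function.comp] at hn
  have hn0 : (0:ℝ) < n := by exact_mod_cast hn1
  have hL : (0:ℝ) < Real.log n := by linarith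
  rw [Real.rpow_natCast, Real.norm_of_nonneg (by positivity),
    Real.norm_of_nonneg (by positivity)] at hn
  have hD : (Dn n : ℝ) ≤ (Real.log n) ^ 2 := Nat.floor_le (by positivity)
  have hL2 : 1 ≤ (Real.log n) ^ 2 := by nlinarith
  have hk0 : (0:ℝ) ≤ k := by positivity
  have h5 : 1 + (2 * (Dn n : ℝ) + 2 * k) ≤ (3 + 2 * k) * (Real.log n) ^ 2 := by
    nlinarith
  calc (1 + (2 * (Dn n : ℝ) + 2 * k)) ^ a ≤ ((3 + 2 * k) * (Real.log n) ^ 2) ^ a :=
        pow_le_pow_left₀ (by positivity) h5 a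
    _ = (3 + 2 * k) ^ a * (Real.log n) ^ (2 * a) := by rw [mul_pow, ← pow_mul]
    _ ≤ (3 + 2 * k) ^ a * (c / (3 + 2 * (k:ℝ)) ^ a * (n:ℝ) ^ r) :=
        mul_le_mul_of_nonneg_left hn (by positivity)
    _ = c * (n:ℝ) ^ r := by field_simp

/-- exponential smallness. -/
lemma eventually_theta_pow (k : ℕ) {θ C A : ℝ} (hk : 1 ≤ k) (hθ : 1 < θ) :
    ∀ᶠ n : ℕ in atTop, C / θ ^ (Dn n / (4 * k)) ≤ (n : ℝ) ^ (-A) := by
  set c := Real.log θ with hc
  have hc0 : 0 < c := Real.log_pos hθ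
  have hθ0 : 0 < θ := by linarith
  have hlog : Tendsto (fun n : ℕ => Real.log (n : ℝ)) atTop atTop :=
    Real.tendsto_log_atTop.comp tendsto_natCast_atTop_atTop
  have hk0 : (0:ℝ) < k := by exact_mod_cast hk
  set b := |Real.log (|C| + 1)| with hb
  filter_upwards [hlog.eventually_ge_atTop 1,
    hlog.eventually_ge_atTop (4 * k / c * (|A| + b + 2 * c)), eventually_ge_atTop 1]
    with n h1 h2 hn1
  set L := Real.log n with hL
  have hn0 : (0:ℝ) < n := by exact_mod_cast hn1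
  have hb0 : 0 ≤ b := abs_nonneg _
  have hA0 : 0 ≤ |A| := abs_nonneg _
  -- lower bound for the exponent
  have hm : L ^ 2 / (4 * k) - 2 ≤ ((Dn n / (4 * k) : ℕ) : ℝ) := by
    have e1 : L ^ 2 < (Dn n : ℝ) + 1 := Nat.lt_floor_add_one _
    have e2 : (Dn n : ℝ) / ((4 * k : ℕ) : ℝ) < ((Dn n / (4 * k) : ℕ) : ℝ) + 1 := by
      have := Nat.lt_succ_floor ((Dn n : ℝ) / ((4 * k : ℕ) : ℝ))
      rw [Nat.floor_div_eq_div] at this
      exact_mod_cast this
    have e3 : ((4 * k : ℕ) : ℝ) = 4 * k := by push_cast; ring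
    rw [e3] at e2
    have e4 : L ^ 2 / (4 * k) ≤ ((Dn n : ℝ) + 1) / (4 * k) :=
      div_le_div_of_nonneg_right e1.le (by positivity)
    have e5 : ((Dn n : ℝ) + 1) / (4 * k) ≤ (Dn n : ℝ) / (4 * k) + 1 := by
      rw [add_div]
      have : 1 / (4 * (k:ℝ)) ≤ 1 := by
        rw [div_le_one (by positivity)]
        have : (1:ℝ) ≤ k := by exact_mod_cast hk
        linarith
      linarith
    linarith
  have h3 : |A| * L + b ≤ (L ^ 2 / (4 * k) - 2) * c := by
    have e1 : L * (|A| + b + 2 * c) ≤ L * (L * (c / (4 * k))) := by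
      refine mul_le_mul_of_nonneg_left ?_ (by linarith)
      have := mul_le_mul_of_nonneg_right h2 (show 0 ≤ c / (4 * (k:ℝ)) by positivity)
      have e2 : 4 * k / c * (|A| + b + 2 * c) * (c / (4 * k)) = |A| + b + 2 * c := by
        field_simp
      rw [e2] at this
      exact this
    have e3 : (L ^ 2 / (4 * k) - 2) * c = L * (L * (c / (4 * k))) - 2 * c := by
      field_simp
    rw [e3]
    nlinarith
  have h4 : A * L + Real.log (|C| + 1) ≤ ((Dn n / (4 * k) : ℕ) : ℝ) * c := by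
    have a1 : A * L ≤ |A| * L := mul_le_mul_of_nonneg_right (le_abs_self A) (by linarith)
    have a2 : Real.log (|C| + 1) ≤ b := le_abs_self _
    have a3 : (L ^ 2 / (4 * k) - 2) * c ≤ ((Dn n / (4 * k) : ℕ) : ℝ) * c :=
      mul_le_mul_of_nonneg_right hm hc0.le
    linarith
  rw [div_le_iff₀ (by positivity)]
  have h5 : θ ^ (Dn n / (4 * k)) = Real.exp (((Dn n / (4 * k) : ℕ) : ℝ) * c) := by
    rw [Real.exp_nat_mul, hc, Real.exp_log hθ0]
  have h6 : (n : ℝ) ^ (-A) = Real.exp (-A * L) := by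
    rw [Real.rpow_def_of_pos hn0, mul_comm]
  rw [h5, h6, ← Real.exp_add]
  calc C ≤ |C| + 1 := by linarith [le_abs_self C]
    _ = Real.exp (Real.log (|C| + 1)) := by
        rw [Real.exp_log]; positivity
    _ ≤ _ := Real.exp_le_exp.2 (by linarith)

/-- **Trace tail bound**, for all large `n`, uniformly in `p` with `n p² ≥ n^δ`. -/
theorem trace_tail_eventually {δ : ℝ} (hδ : 0 < δ) (j : ℕ) (hj : 2 ≤ (2 : ℝ) ^ j * δ)
    {d : ℝ} (hd : 0 < d) (A C : ℝ) (hC : 0 ≤ C) :
    ∀ᶠ n : ℕ in atTop, ∀ p : ℝ, 0 ≤ p → p ≤ 1 → (n : ℝ) ^ δ ≤ n * p ^ 2 →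
      ∀ μ : Finset (Sym2 (Fin n)) → ℝ, (∀ G, 0 ≤ μ G) → (∀ G, μ G ≠ 0 → Proper G) →
      Dom μ C p (Dn n) → ∀ u : Fin n,
      ∑ G : Finset (Sym2 (Fin n)),
        (if (1 + d) * (n * p ^ 2) ^ (2 * 2 ^ j) ≤ (linkM G u ^ (2 * 2 ^ j)).trace then μ G else 0)
        ≤ (n : ℝ) ^ (-A) := by
  set k : ℕ := 2 ^ j with hk
  have hk1 : 1 ≤ k := Nat.one_le_two_pow
  have hk0 : (0:ℝ) < k := by exact_mod_cast hk1
  -- choose c
  obtain ⟨c, hc0, hc1⟩ : ∃ c : ℝ, 0 < c ∧ (1 + d / 2) * (Real.exp c + c) ≤ 1 + d := by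
    have : Tendsto (fun c : ℝ => (1 + d / 2) * (Real.exp c + c)) (nhdsWithin 0 (Set.Ioi 0))
        (nhds ((1 + d / 2) * (Real.exp 0 + 0))) := by
      refine Tendsto.mono_left ?_ nhdsWithin_le_nhds
      exact (Continuous.tendsto (by fun_prop) 0)
    have h2 : (1 + d / 2) * (Real.exp 0 + 0) < 1 + d := by
      rw [Real.exp_zero]; linarith
    have h3 := this.eventually_lt_const h2
    obtain ⟨c, hc⟩ := (h3.and self_mem_nhdsWithin).exists
    exact ⟨c, hc.2, hc.1.le⟩
  have E1 := eventually_Dn_pow_le 1 k (c := c / (4 * k)) (r := δ) (by positivity) hδ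
  have E2 := eventually_Dn_pow_le (2 * k) k (c := c / 2) (r := 1) (by positivity) one_pos
  have E3 := eventually_Dn_pow_le 1 k (c := 1) (r := 1) one_pos one_pos
  have E4 := eventually_theta_pow k (θ := 1 + d / 2) (C := C) (A := A) hk1 (by linarith)
  filter_upwards [E1, E2, E3, E4, eventually_ge_atTop 1] with n e1 e2 e3 e4 hn1
  intro p hp hp1 hnp μ hμ0 hprop hdom u
  have hn0 : (0:ℝ) < n := by exact_mod_cast hn1
  have hn1' : (1:ℝ) ≤ n := by exact_mod_cast hn1
  rw [pow_one] at e1 e3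
  rw [Real.rpow_one] at e2 e3
  set K : ℝ := 2 * (Dn n : ℝ) + 2 * k with hK
  have hK0 : 0 ≤ K := by positivity
  set X : ℝ := n * p ^ 2 with hX
  have hX1 : 1 ≤ X := le_trans (Real.one_le_rpow hn1' hδ.le) hnp
  set r : ℝ := Real.sqrt X with hr
  have hr2 : r ^ 2 = X := Real.sq_sqrt (by linarith)
  have hr1 : 1 ≤ r := by
    rw [hr]; exact Real.one_le_sqrt.2 hX1
  have hkey := trace_tail (n := n) hp hp1 hr1 hr2 u (2 * k - 1) (Dn n) (Dn n / (4 * k)) K
    (by
      have : ((2 * k - 1 : ℕ) : ℝ) = 2 * k - 1 := by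
        rw [Nat.cast_sub (by omega)]; push_cast; ring
      rw [this, hK]; linarith)
    (by
      have : 2 * (2 * k - 1) + 2 = 4 * k := by omega
      rw [this]; exact Nat.mul_div_le _ _)
    hμ0 hprop hC (θ := 1 + d / 2) (by linarith) hdom
  have hB := walk_bound_num (n := n) (k := k) (p := p) (r := r) (K := K) (c := c) (X := X) hk1 hp
    hp1 (by linarith) hr2 hr2.symm hK0 (by linarith) hc0.le
    (by
      have h1 : K ≤ c / (4 * k) * (n:ℝ) ^ δ := by linarith
      have h2 : K ≤ c / (4 * k) * X :=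
        h1.trans (mul_le_mul_of_nonneg_left hnp (by positivity))
      calc 4 * k * K ≤ 4 * k * (c / (4 * k) * X) :=
            mul_le_mul_of_nonneg_left h2 (by positivity)
        _ = c * X := by field_simp)
    e2
    (by
      have h1 : ((n:ℝ) ^ δ) ^ k ≤ X ^ k := pow_le_pow_left₀ (by positivity) hnp k
      refine le_trans ?_ h1
      rw [← Real.rpow_natCast, ← Real.rpow_natCast, ← Real.rpow_mul hn0.le]
      refine Real.rpow_le_rpow_of_exponent_le hn1' ?_
      have : (k : ℝ) = 2 ^ j := by rw [hk]; push_cast; ring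
      rw [this]
      push_cast
      linarith)
  have e1' : 2 * k - 1 + 1 = 2 * k := by omega
  rw [e1'] at hkey hB
  refine le_trans ?_ (hkey.trans e4)
  refine Finset.sum_le_sum fun G _ => ?_
  by_cases hG : (1 + d) * X ^ (2 * k) ≤ (linkM G u ^ (2 * k)).trace
  · rw [if_pos hG, if_pos]
    refine le_trans ?_ hG
    calc (1 + d / 2) * _ ≤ (1 + d / 2) * (X ^ (2 * k) * (Real.exp c + c)) :=
          mul_le_mul_of_nonneg_left hB (by linarith)
      _ = ((1 + d / 2) * (Real.exp c + c)) * X ^ (2 * k) := by ring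
      _ ≤ (1 + d) * X ^ (2 * k) := mul_le_mul_of_nonneg_right hc1 (by positivity)
  · rw [if_neg hG]
    split_ifs
    · exact hμ0 G
    · exact le_refl _

end Good2

end Crest.Agent.R030
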