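import Crest.Agent.R030.Params
import Crest.Agent.R030.TraceTail

/-!
Row 30 (S0040), helper953.  Numerical facts (large `n`) for the error bound of the last window.
-/

set_option autoImplicit false

namespace Crest.Agent.R030.ErrB

open Filter Real Crest.Agent.R030

/-- Density after Stage 1. -/
noncomputable def pn (δ : ℝ) (n : ℕ) : ℝ := (x0n n - 3 * kn δ n) / x0n n

/-- Bound for the total weight of one generation. -/
noncomputable def Jn (δ : ℝ) (n : ℕ) : ℝ :=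
  32 / 7 * (1 / (n : ℝ) ^ 20 + Real.log (1 + 6 * (n : ℝ) ^ δ) / (3 / 2 * (n : ℝ) ^ δ))

/-- Bound for the codegrees. -/
noncomputable def DDn (δ : ℝ) (n : ℕ) : ℕ := ⌈2 * (n : ℝ) ^ δ⌉₊

/-- Expansion rate of the path counts. -/
noncomputable def Yn (δ : ℝ) (n : ℕ) : ℝ := 2 * (n * pn δ n ^ 2 + (Good2.Dn n : ℝ))

theorem lamx_le {δ : ℝ} {n : ℕ} (hn : 1 ≤ n) {x : ℝ} (hx0 : 0 ≤ x) (hX : 300 ≤ Xn δ n)
    (hx : x ≤ Xn δ n + 3) : Kap.lamx n x ≤ 1.03 * (n : ℝ) ^ δ := by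
  have hn0 : (0:ℝ) < n := by exact_mod_cast hn
  have h8 : x ≤ 1.01 * Xn δ n := by linarith
  rw [← Iface.lamx_Xn (δ := δ) hn]
  have h9 : 0 ≤ Kap.lamx n (Xn δ n) := by
    unfold Kap.lamx; positivity
  calc Kap.lamx n x ≤ Kap.lamx n (1.01 * Xn δ n) := Iface.lamx_mono hn0 hx0 h8
    _ = 1.01 ^ 2 * Kap.lamx n (Xn δ n) := by unfold Kap.lamx; ring
    _ ≤ _ := by nlinarith

/-- density facts -/
theorem pn_facts {δ : ℝ} (hδ0 : 0 < δ) (hδ1 : δ < 1) :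
    ∀ᶠ n : ℕ in atTop, 0 ≤ pn δ n ∧ pn δ n ≤ 1 ∧ (n : ℝ) * pn δ n ^ 2 ≤ 6 / 5 * (n : ℝ) ^ δ := by
  filter_upwards [Iface.eventually_Xn_ge δ hδ0.le 300, Iface.eventually_Xn_le δ hδ1,
    eventually_ge_atTop 40] with n hX hX2 hn
  have hn1 : 1 ≤ n := by omega
  have hn0 : (0:ℝ) < n := by exact_mod_cast hn1
  have hn40 : (40:ℝ) ≤ n := by exact_mod_cast hn
  have hx0pos : 0 < x0n n := by linarith
  obtain ⟨h1, h2⟩ := Iface.kn_spec δ (n := n) (by linarith)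
  have h0 : 0 ≤ x0n n - 3 * kn δ n := by linarith
  refine ⟨div_nonneg h0 hx0pos.le, ?_, ?_⟩
  · unfold pn
    rw [div_le_one hx0pos]
    have : (0:ℝ) ≤ kn δ n := Nat.cast_nonneg _
    linarith
  · have h3 := lamx_le (δ := δ) hn1 h0 hX h2.le
    have h4 : (n : ℝ) * pn δ n ^ 2
        = Kap.lamx n (x0n n - 3 * kn δ n) * (n / (n - 1)) ^ 2 := by
      unfold pn Kap.lamx
      rw [Iface.x0n_eq]
      have h5 : (n : ℝ) - 1 ≠ 0 := by
        have : (0:ℝ) < (n : ℝ) - 1 := by linarith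
        exact this.ne'
      field_simp
      ring
    rw [h4]
    have h5 : ((n : ℝ) / (n - 1)) ^ 2 ≤ 1.1 := by
      have h6 : (0:ℝ) < (n : ℝ) - 1 := by linarith
      have h7 : (n : ℝ) / (n - 1) ≤ 1.04 := by
        rw [div_le_iff₀ h6]; linarith
      have h8 : 0 ≤ (n : ℝ) / (n - 1) := by positivity
      nlinarith
    have h6 : 0 < (n : ℝ) ^ δ := by positivity
    have h7 : 0 ≤ Kap.lamx n (x0n n - 3 * kn δ n) := by unfold Kap.lamx; positivity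
    calc Kap.lamx n (x0n n - 3 * kn δ n) * (n / (n - 1)) ^ 2
        ≤ (1.03 * (n : ℝ) ^ δ) * 1.1 := mul_le_mul h3 h5 (by positivity) (by positivity)
      _ ≤ _ := by nlinarith

/-- log facts -/
theorem log_facts {δ : ℝ} (hδ0 : 0 < δ) :
    ∀ᶠ n : ℕ in atTop, Real.log (1 + 6 * (n : ℝ) ^ δ) ≤ δ * Real.log n + 2 ∧
      30 ≤ δ * Real.log n := by
  have t1 : Tendsto (fun n : ℕ => Real.log (n : ℝ)) atTop atTop :=
    Real.tendsto_log_atTop.comp tendsto_natCast_atTop_atTop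
  filter_upwards [t1.eventually_ge_atTop (30 / δ), eventually_ge_atTop 1] with n h1 hn
  have hn0 : (0:ℝ) < n := by exact_mod_cast hn
  have hn1 : (1:ℝ) ≤ n := by exact_mod_cast hn
  have hX : 1 ≤ (n : ℝ) ^ δ := Real.one_le_rpow hn1 hδ0.le
  constructor
  · have h2 : 1 + 6 * (n : ℝ) ^ δ ≤ 7 * (n : ℝ) ^ δ := by linarith
    have h3 : Real.log (7 * (n : ℝ) ^ δ) = Real.log 7 + δ * Real.log n := by
      rw [Real.log_mul (by norm_num) (by positivity), Real.log_rpow hn0]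
    have h4 : Real.log 7 ≤ 2 := by
      have h5 : (7 : ℝ) ≤ Real.exp 2 := by
        have h6 : Real.exp 2 = Real.exp 1 * Real.exp 1 := by
          rw [← Real.exp_add]; norm_num
        have h7 := Real.exp_one_gt_d9
        rw [h6]; nlinarith
      rw [← Real.log_exp 2]
      exact Real.log_le_log (by norm_num) h5
    have h5 := Real.log_le_log (by positivity) h2
    rw [h3] at h5
    linarith
  · rw [div_le_iff₀ hδ0] at h1
    linarith

theorem num_facts {δ : ℝ} (hδ0 : 0 < δ) (hδ1 : δ < 1) :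
    ∀ᶠ n : ℕ in atTop,
      0 ≤ pn δ n ∧ pn δ n ≤ 1 ∧ (n : ℝ) * pn δ n ^ 2 ≤ 6 / 5 * (n : ℝ) ^ δ ∧
      0 ≤ Yn δ n ∧ Yn δ n ≤ 5 / 2 * (n : ℝ) ^ δ ∧
      1 ≤ DDn δ n ∧ 2 * (n : ℝ) ^ δ ≤ DDn δ n ∧ (DDn δ n : ℝ) ≤ 21 / 10 * (n : ℝ) ^ δ ∧
      0 ≤ Jn δ n ∧ Jn δ n * Yn δ n ≤ 10 * (δ * Real.log n + 1) ∧
      Jn δ n * DDn δ n ≤ 10 * (δ * Real.log n + 1) ∧
      (Real.log n) ^ 2 / 8 ≤ ((Good2.Dn n / 4 : ℕ) : ℝ) ∧
      1 + 2 * ((Good2.Dn n / 4 + 1) + 4) ≤ Good2.Dn n ∧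
      2 + ((Good2.Dn n / 4 + 1) + 4) ≤ Good2.Dn n := by
  have t1 : Tendsto (fun n : ℕ => Real.log (n : ℝ)) atTop atTop :=
    Real.tendsto_log_atTop.comp tendsto_natCast_atTop_atTop
  have t2 : Tendsto (fun n : ℕ => (n : ℝ) ^ δ) atTop atTop :=
    (tendsto_rpow_atTop hδ0).comp tendsto_natCast_atTop_atTop
  have e5 : ∀ᶠ n : ℕ in atTop, (Real.log n) ^ 2 ≤ 1 / 40 * (n : ℝ) ^ δ := by
    have h1 : (fun x : ℝ => Real.log x ^ ((2 : ℕ) : ℝ)) =o[atTop] fun x => x ^ δ :=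
      isLittleO_log_rpow_rpow_atTop _ hδ0
    have h2 := h1.comp_tendsto tendsto_natCast_atTop_atTop
    filter_upwards [h2.bound (c := 1 / 40) (by norm_num), eventually_ge_atTop 1] with n hn hn1
    simp only [Function.comp] at hn
    have hL : (0:ℝ) ≤ Real.log n := Real.log_natCast_nonneg n
    rw [Real.rpow_natCast, Real.norm_of_nonneg (by positivity),
      Real.norm_of_nonneg (by positivity)] at hn
    exact hn
  filter_upwards [pn_facts hδ0 hδ1, log_facts hδ0, t1.eventually_ge_atTop 20,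
    t2.eventually_ge_atTop 100, e5, eventually_ge_atTop 2] with n hp hl hL hX hDn hn
  obtain ⟨hp0, hp1, hp2⟩ := hp
  obtain ⟨hl1, hl2⟩ := hl
  have hn1 : 1 ≤ n := by omega
  have hn0 : (0:ℝ) < n := by exact_mod_cast hn1
  have hn1' : (1:ℝ) ≤ n := by exact_mod_cast hn1
  set X : ℝ := (n : ℝ) ^ δ with hXdef
  have hX0 : 0 < X := by linarith
  set L : ℝ := Real.log n with hLdef
  have hDle : (Good2.Dn n : ℝ) ≤ L ^ 2 := Nat.floor_le (by positivity)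
  have hDge : L ^ 2 < (Good2.Dn n : ℝ) + 1 := Nat.lt_floor_add_one _
  have hD0 : (0:ℝ) ≤ Good2.Dn n := Nat.cast_nonneg _
  have hY0 : 0 ≤ Yn δ n := by unfold Yn; positivity
  have hY : Yn δ n ≤ 5 / 2 * X := by unfold Yn; linarith
  have hDD1 : 2 * X ≤ DDn δ n := Nat.le_ceil _
  have hDD2 : (DDn δ n : ℝ) < 2 * X + 1 := Nat.ceil_lt_add_one (by positivity)
  have hlog0 : 0 ≤ Real.log (1 + 6 * X) := Real.log_nonneg (by linarith)
  have hJ0 : 0 ≤ Jn δ n := by unfold Jn; positivity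
  -- `X / n^20 ≤ 1`
  have hXn : X ≤ (n : ℝ) ^ 20 := by
    calc X ≤ (n : ℝ) ^ (1 : ℝ) := Real.rpow_le_rpow_of_exponent_le hn1' hδ1.le
      _ = n := Real.rpow_one _
      _ ≤ (n : ℝ) ^ 20 := le_self_pow₀ hn1' (by norm_num)
  have hsmall : 1 / (n : ℝ) ^ 20 * X ≤ 1 := by
    rw [one_div, inv_mul_le_iff₀ (by positivity)]; linarith
  have hJX : Jn δ n * X ≤ 32 / 7 * (1 + 2 / 3 * (δ * L + 2)) := by
    unfold Jn
    have h1 : (1 / (n : ℝ) ^ 20 + Real.log (1 + 6 * X) / (3 / 2 * X)) * X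
        = 1 / (n : ℝ) ^ 20 * X + 2 / 3 * Real.log (1 + 6 * X) := by
      field_simp
    rw [mul_assoc, h1]
    linarith
  refine ⟨hp0, hp1, hp2, hY0, hY, ?_, hDD1, by linarith, hJ0, ?_, ?_, ?_, ?_, ?_⟩
  · have : (0:ℝ) < DDn δ n := by linarith
    exact_mod_cast this
  · calc Jn δ n * Yn δ n ≤ Jn δ n * (5 / 2 * X) := mul_le_mul_of_nonneg_left hY hJ0
      _ = 5 / 2 * (Jn δ n * X) := by ring
      _ ≤ _ := by linarith
  · calc Jn δ n * DDn δ n ≤ Jn δ n * (21 / 10 * X) :=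
          mul_le_mul_of_nonneg_left (by linarith) hJ0
      _ = 21 / 10 * (Jn δ n * X) := by ring
      _ ≤ _ := by linarith
  · have h1 : (Good2.Dn n : ℝ) ≤ 4 * ((Good2.Dn n / 4 : ℕ) : ℝ) + 3 := by
      have : Good2.Dn n ≤ 4 * (Good2.Dn n / 4) + 3 := by omega
      exact_mod_cast this
    nlinarith
  · have h1 : (40 : ℝ) < Good2.Dn n := by nlinarith
    have h2 : 40 < Good2.Dn n := by exact_mod_cast h1
    omega
  · have h1 : (40 : ℝ) < Good2.Dn n := by nlinarith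
    have h2 : 40 < Good2.Dn n := by exact_mod_cast h1
    omega

end Crest.Agent.R030.ErrB
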