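import Crest.Agent.R030.Good2Det
import Crest.Agent.R030.TraceTail
import Crest.Agent.R030.Domin

/-!
# Row 30: the GOOD2 wrap `(A)+(B)+LinkSpec`

`good2_wrap`: for the triangle removal process started from `K_n`, the probability that at some
step `i ≤ K` the state satisfies `Good1` (as all earlier states) but not `LinkLq` is at most
`(K+1) n ε`, where `ε` is the bound of the trace tail (`TraceTail.trace_tail_eventually`).
-/

set_option autoImplicit false

namespace Crest.Agent.R030

namespace Good2

open Finset Matrix Filter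
open scoped Classical
open Crest.CombinatoricsR.TriangleRemoval

variable {n : ℕ}

/-- codegree in the triangle hypergraph = number of common neighbours. -/
lemma codeg_triHyp_eq {E : Finset (Sym2 (Fin n))} (hE : E ⊆ allEdges n) {u v : Fin n}
    (huv : s(u, v) ∈ E) : codeg (triHyp n) E s(u, v) = (cn E u v).card := by
  have hne : u ≠ v := by
    have := hE huv
    rw [allEdges, mem_filter] at this
    simpa [Sym2.mk_isDiag_iff] using this.2
  unfold codeg
  symm
  refine Finset.card_bij (fun w _ => edgesOf ({u, v, w} : Finset (Fin n))) ?_ ?_ ?_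
  · intro w hw
    rw [mem_cn] at hw
    have huw : u ≠ w := by
      have := hE hw.1
      rw [allEdges, mem_filter] at this
      simpa [Sym2.mk_isDiag_iff] using this.2
    have hvw : v ≠ w := by
      have := hE hw.2
      rw [allEdges, mem_filter] at this
      simpa [Sym2.mk_isDiag_iff] using this.2
    rw [mem_filter, mem_act, triHyp, mem_image]
    refine ⟨⟨⟨{u, v, w}, ?_, rfl⟩, ?_⟩, ?_⟩
    · rw [mem_powersetCard]
      exact ⟨subset_univ _, Finset.card_eq_three.2 ⟨u, v, w, hne, huw, hvw, rfl⟩⟩
    · rw [edgesOf_explicit hne huw hvw]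
      intro e he
      simp only [mem_insert, mem_singleton] at he
      rcases he with rfl | rfl | rfl
      · exact huv
      · exact hw.1
      · exact hw.2
    · rw [edgesOf_explicit hne huw hvw]
      simp
  · intro w hw w' hw' heq
    rw [mem_cn] at hw hw'
    have aux : ∀ z, s(u, z) ∈ E → s(v, z) ∈ E → u ≠ z ∧ v ≠ z := by
      intro z h1 h2
      have h1' := hE h1
      have h2' := hE h2
      rw [allEdges, mem_filter] at h1' h2'
      exact ⟨by simpa [Sym2.mk_isDiag_iff] using h1'.2,
        by simpa [Sym2.mk_isDiag_iff] using h2'.2⟩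
    obtain ⟨huw, hvw⟩ := aux w hw.1 hw.2
    obtain ⟨huw', hvw'⟩ := aux w' hw'.1 hw'.2
    have hc : ({u, v, w} : Finset (Fin n)).card = 3 :=
      Finset.card_eq_three.2 ⟨u, v, w, hne, huw, hvw, rfl⟩
    have hc' : ({u, v, w'} : Finset (Fin n)).card = 3 :=
      Finset.card_eq_three.2 ⟨u, v, w', hne, huw', hvw', rfl⟩
    have hset := edgesOf_injOn hc hc' heq
    have : w ∈ ({u, v, w'} : Finset (Fin n)) := by
      rw [← hset]; simp
    simp only [mem_insert, mem_singleton] at this
    rcases this with h | h | h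
    · exact absurd h.symm huw
    · exact absurd h.symm hvw
    · exact h
  · intro T hT
    rw [mem_filter, mem_act, triHyp, mem_image] at hT
    obtain ⟨⟨⟨t, ht, rfl⟩, hsub⟩, hmem⟩ := hT
    rw [mem_powersetCard] at ht
    rw [mk_mem_edgesOf] at hmem
    obtain ⟨w, hw⟩ : ∃ w, w ∈ t \ {u, v} := by
      have : 0 < (t \ {u, v}).card := by
        have h1 : ({u, v} : Finset (Fin n)).card ≤ 2 := card_le_two
        have h2 := le_card_sdiff ({u, v} : Finset (Fin n)) t
        omega
      exact (card_pos.1 this)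
    rw [Finset.mem_sdiff] at hw
    simp only [mem_insert, mem_singleton, not_or] at hw
    have hwu : u ≠ w := fun h => hw.2.1 h.symm
    have hwv : v ≠ w := fun h => hw.2.2 h.symm
    have hteq : ({u, v, w} : Finset (Fin n)) = t := by
      refine eq_of_subset_of_card_le ?_ ?_
      · intro y hy
        simp only [mem_insert, mem_singleton] at hy
        rcases hy with rfl | rfl | rfl
        · exact hmem.1
        · exact hmem.2.1
        · exact hw.1
      · rw [ht.2]
        exact le_of_eq (Finset.card_eq_three.2 ⟨u, v, w, hne, hwu, hwv, rfl⟩).symm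
    refine ⟨w, ?_, ?_⟩
    · rw [mem_cn]
      exact ⟨hsub (mk_mem_edgesOf.2 ⟨hmem.1, hw.1, hwu⟩),
        hsub (mk_mem_edgesOf.2 ⟨hmem.2.1, hw.1, hwv⟩)⟩
    · rw [hteq]

/-- Along a path staying in `G` (whose members are alive) the number of elements is
deterministic. -/
lemma kill_card {V : Type*} [DecidableEq V] {H : Finset (Finset V)} (hH : Lin3 H)
    {G : Finset V → Prop} (hG : ∀ A, G A → act H A ≠ ∅) (f : Finset V → ℝ) (k : ℕ) :
    ∀ A : Finset V, (baseKer H).kill G f k A =
      (baseKer H).kill G (fun x => if x.card + 3 * k = A.card then f x else 0) k A := by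
  induction k with
  | zero => intro A; simp
  | succ k ih =>
    intro A
    by_cases h : G A
    · rw [Ker.kill_succ _ _ _ h, Ker.kill_succ _ _ _ h]
      refine Ker.avg_congr _ (fun x hx => ?_)
      have hc := card_of_mem_supp hH (hG A h) hx
      rw [ih x]
      congr 1
      funext y
      have : (y.card + 3 * k = x.card) ↔ (y.card + 3 * (k + 1) = A.card) := by omega
      by_cases hy : y.card + 3 * k = x.card
      · rw [if_pos hy, if_pos (this.1 hy)]
      · rw [if_neg hy, if_neg (fun h' => hy (this.2 h'))]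
    · rw [Ker.kill_succ_not _ _ _ h, Ker.kill_succ_not _ _ _ h]

lemma proper_of_subset {E : Finset (Sym2 (Fin n))} (hE : E ⊆ allEdges n) : Proper E := by
  intro e he
  have := hE he
  rw [allEdges, mem_filter] at this
  exact this.2

lemma act_ne_of_mcod_pos {E : Finset (Sym2 (Fin n))} (h : 0 < mcod (triHyp n) E) :
    act (triHyp n) E ≠ ∅ := by
  intro h0
  unfold mcod at h
  rw [h0] at h
  simp at h

/-- **GOOD2 wrap**, explicit form.  `N = |allEdges n|`, `p_i = (N - 3i)/N`. -/
theorem good2_wrap {k j D K : ℕ} {η κ η' d κ₂ κ' C ε : ℝ}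
    (hη : 0 ≤ η) (hη1 : η ≤ 1) (hd : 0 ≤ d) (hκ : 0 < κ) (hκ₂ : 0 ≤ κ₂)
    (Good1 : Finset (Sym2 (Fin n)) → Prop)
    (hlow : ∀ E, Good1 E → LowGood (triHyp n) η κ E)
    (hpos : ∀ E, Good1 E → 0 < mcod (triHyp n) E)
    (hreg : ∀ E, Good1 E → Reg E (mcod (triHyp n) E) η)
    (hX : ∀ E, Good1 E → n * ((E.card : ℝ) / ((allEdges n).card : ℝ)) ^ 2 ≤
      (1 + η') * mcod (triHyp n) E)
    (hnum : (1 + d) * (1 + η') ^ (2 * 2 ^ j) ≤ (1 - η) ^ (2 * 2 ^ j) + κ₂ ^ (2 * 2 ^ j))
    (hκ' : 4 * (k + 3) / (k + 1) * (4 * (1 + η)) ^ (k + 1) * κ₂ ^ 2 ≤ κ' ^ (k + 3))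
    (hK : 3 * K < (allEdges n).card)
    (hC : ∀ i ≤ K, Real.exp (D * η * Real.log (((allEdges n).card : ℝ) /
        (((allEdges n).card : ℝ) - 3 * i)) + 3 * D / (((allEdges n).card : ℝ) - 3 * i) +
        (D : ℝ) ^ 2 / (4 * κ * (((allEdges n).card : ℝ) - 3 * i) ^ 2)) ≤ C)
    (htail : ∀ i ≤ K, ∀ μ : Finset (Sym2 (Fin n)) → ℝ, (∀ G, 0 ≤ μ G) →
      (∀ G, μ G ≠ 0 → Proper G) →
      Dom μ C ((((allEdges n).card : ℝ) - 3 * i) / ((allEdges n).card : ℝ)) D → ∀ u : Fin n,
      ∑ G : Finset (Sym2 (Fin n)),
        (if (1 + d) * (n * ((((allEdges n).card : ℝ) - 3 * i) /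
          ((allEdges n).card : ℝ)) ^ 2) ^ (2 * 2 ^ j) ≤ (linkM G u ^ (2 * 2 ^ j)).trace
          then μ G else 0) ≤ ε) :
    (baseKer (triHyp n)).hit
      (fun E => Good1 E ∧ ¬ LinkLq (k + 3) E (κ' * mcod (triHyp n) E)) Good1 K (allEdges n) ≤
      (K + 1) * (n * ε) := by
  set N : ℕ := (allEdges n).card with hN
  set Bad : Finset (Sym2 (Fin n)) → Prop :=
    fun E => Good1 E ∧ ¬ LinkLq (k + 3) E (κ' * mcod (triHyp n) E) with hBad
  refine (Ker.hit_le_sum_kill _ Bad K (allEdges n)).trans ?_
  have hstep : ∀ i ∈ range (K + 1), (baseKer (triHyp n)).kill Good1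
      (fun x => if Bad x then (1:ℝ) else 0) i (allEdges n) ≤ n * ε := by
    intro i hi
    have hiK : i ≤ K := by
      have := mem_range.1 hi
      omega
    have h3i : 3 * i < N := by omega
    have hN0 : (0:ℝ) < N := by exact_mod_cast (by omega : 0 < N)
    have hyN : (0:ℝ) < (N:ℝ) - 3 * i := by
      have : ((3 * i : ℕ) : ℝ) < N := by exact_mod_cast h3i
      push_cast at this
      linarith
    -- the threshold event
    let thr : Fin n → Finset (Sym2 (Fin n)) → Prop := fun u G =>
      (1 + d) * (n * (((N : ℝ) - 3 * i) / (N : ℝ)) ^ 2) ^ (2 * 2 ^ j) ≤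
        (linkM G u ^ (2 * 2 ^ j)).trace
    rw [kill_card (lin3_triHyp n) (fun A hA => act_ne_of_mcod_pos (hpos A hA))]
    have hpt : ∀ E : Finset (Sym2 (Fin n)),
        (if E.card + 3 * i = (allEdges n).card then (if Bad E then (1:ℝ) else 0) else 0) ≤
        ∑ u : Fin n, (if thr u E then (1:ℝ) else 0) := by
      intro E
      have hnn : 0 ≤ ∑ u : Fin n, (if thr u E then (1:ℝ) else 0) :=
        sum_nonneg fun u _ => by split_ifs <;> norm_num
      split_ifs with h1 h2
      · obtain ⟨hg, hnot⟩ := h2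
        have hcardE : (E.card : ℝ) = (N:ℝ) - 3 * i := by
          have : ((E.card + 3 * i : ℕ) : ℝ) = N := by
            rw [hN]; exact_mod_cast h1
          push_cast at this
          linarith
        by_contra hcon
        push Not at hcon
        have hall : ∀ u, ¬ thr u E := by
          intro u hu
          have : (1:ℝ) ≤ ∑ u : Fin n, (if thr u E then (1:ℝ) else 0) := by
            calc (1:ℝ) = (if thr u E then (1:ℝ) else 0) := by rw [if_pos hu]
              _ ≤ _ := single_le_sum
                (f := fun u => if thr u E then (1:ℝ) else 0)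
                (fun u _ => by split_ifs <;> norm_num) (mem_univ u)
          linarith
        apply hnot
        refine linkLq_of_tr E j (hpos E hg) hη hη1 hd
          (X := n * (((N : ℝ) - 3 * i) / (N : ℝ)) ^ 2) (by positivity) hκ₂ (hreg E hg)
          (η' := η') ?_ hnum ?_ k hκ'
        · have := hX E hg
          rwa [hcardE] at this
        · intro u
          exact (not_le.1 (hall u)).le
      · exact hnn
      · exact hnn
    refine (Ker.kill_mono _ hpt i (allEdges n)).trans ?_
    rw [Ker.kill_sum]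
    have hu : ∀ u : Fin n, (baseKer (triHyp n)).kill Good1
        (fun E => if thr u E then (1:ℝ) else 0) i (allEdges n) ≤ ε := by
      intro u
      rw [← Ker.sum_ite_law]
      refine htail i hiK _ (fun G => Ker.law_nonneg _ _ _ _) ?_ ?_ u
      · intro G hG
        by_contra hnp
        apply hG
        refine Ker.law_eq_zero _ (I := fun A => A ⊆ allEdges n) ?_ (Finset.Subset.refl _) i ?_
        · intro A hA _ x hx
          exact (subset_of_mem_supp hx).trans hA
        · intro hsub
          exact hnp (proper_of_subset hsub)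
      · exact dom_law hη hκ hlow (allEdges n) i D h3i rfl rfl (hC i hiK)
    calc ∑ u : Fin n, (baseKer (triHyp n)).kill Good1
          (fun E => if thr u E then (1:ℝ) else 0) i (allEdges n) ≤ ∑ _u : Fin n, ε :=
          sum_le_sum fun u _ => hu u
      _ = n * ε := by simp
  have hfin : ∑ _i ∈ range (K + 1), (n : ℝ) * ε = (K + 1) * (n * ε) := by simp
  rw [← hfin]
  refine sum_le_sum fun i hi => le_trans (le_of_eq ?_) (hstep i hi)
  congr 1
  funext x
  by_cases hx : Bad x
  · rw [if_pos hx, if_pos hx]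
  · rw [if_neg hx, if_neg hx]

end Good2

end Crest.Agent.R030
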