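import Mathlib

/-!
# R030 (S0040): from the last window to the constant `1/(2√2)`

`S_close` : if `m = (4 x²/n³) e^{±W}` and `S = (1 ± t) x (1+2m)^{-1/2}` then
`|S/n^{3/2} - 1/(2√2)| ≤ W + 1/m + t`.
-/

set_option autoImplicit false

namespace Crest.Agent.R030.SClose

open Real

/-- `|exp w - 1| ≤ 2 |w|` for `|w| ≤ 1/2` with the sharper constant `W` when `|w| ≤ W/2`, `W ≤ 1`. -/
theorem abs_exp_sub_one_le' {w W : ℝ} (hw : |w| ≤ W / 2) (hW : W ≤ 1) : |exp w - 1| ≤ W := by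
  have h1 : |w| ≤ 1 := by linarith
  have h2 := Real.abs_exp_sub_one_le h1
  linarith

theorem S_close {n : ℕ} (hn : 0 < n) {x m W t S : ℝ} (hx : 0 < x) (hm : 0 < m)
    (hW : |log (m / (4 / (n:ℝ) ^ 3 * x ^ 2))| ≤ W) (hW1 : W ≤ 1) (ht : 0 ≤ t)
    (hS : |S - x / sqrt (1 + 2 * m)| ≤ t * (x / sqrt (1 + 2 * m))) :
    |S / (n:ℝ) ^ ((3:ℝ) / 2) - 1 / (2 * sqrt 2)| ≤ W + 1 / m + t := by
  have hn0 : (0:ℝ) < n := by exact_mod_cast hn
  set N : ℝ := (n:ℝ) ^ ((3:ℝ) / 2) with hN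
  have hN0 : 0 < N := rpow_pos_of_pos hn0 _
  have hN2 : N ^ 2 = (n:ℝ) ^ 3 := by
    rw [hN, ← rpow_natCast ((n:ℝ) ^ ((3:ℝ) / 2)) 2, ← rpow_mul hn0.le, ← rpow_natCast (n:ℝ) 3]
    norm_num
  have h2 : 0 < sqrt 2 := by positivity
  have h22 : sqrt 2 ^ 2 = 2 := sq_sqrt (by norm_num)
  have h2l : (7:ℝ) / 5 ≤ sqrt 2 := by
    rw [show (7:ℝ)/5 = sqrt ((7/5)^2) by rw [sqrt_sq (by norm_num)]]
    exact sqrt_le_sqrt (by norm_num)
  set C : ℝ := N / (2 * sqrt 2) with hC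
  have hC0 : 0 < C := by positivity
  set A : ℝ := x / sqrt (1 + 2 * m) with hA
  have hA0 : 0 < A := by positivity
  set B : ℝ := x / sqrt (2 * m) with hB
  have hB0 : 0 < B := by positivity
  -- `B / C = exp w`
  set w : ℝ := -(1 / 2) * log (m / (4 / (n:ℝ) ^ 3 * x ^ 2)) with hw
  have hBC : B / C = exp w := by
    have hlam : 0 < m / (4 / (n:ℝ) ^ 3 * x ^ 2) := by positivity
    have e1 : (B / C) ^ 2 = (exp w) ^ 2 := by
      rw [← exp_nat_mul, hw]
      rw [show ((2:ℕ):ℝ) * (-(1 / 2) * log (m / (4 / (n:ℝ) ^ 3 * x ^ 2)))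
        = -log (m / (4 / (n:ℝ) ^ 3 * x ^ 2)) by push_cast; ring]
      rw [exp_neg, exp_log hlam, hB, hC, div_pow, div_pow, div_pow, mul_pow, h22, hN2,
        sq_sqrt (by positivity)]
      field_simp
      ring
    exact (pow_left_inj₀ (by positivity) (exp_pos w).le (by norm_num)).1 e1
  have hwW : |w| ≤ W / 2 := by
    rw [hw, abs_mul]
    have : |-(1 / 2 : ℝ)| = 1 / 2 := by norm_num
    rw [this]; linarith
  have hexp := abs_exp_sub_one_le' hwW hW1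
  have hexp2 : exp w ≤ 2 := by
    have := (abs_le.1 hexp).2
    linarith
  set r : ℝ := A / B with hr
  have hr0 : 0 < r := by positivity
  have hr2 : r ^ 2 = 2 * m / (1 + 2 * m) := by
    rw [hr, hA, hB, div_pow, div_pow, div_pow, sq_sqrt (by positivity), sq_sqrt (by positivity)]
    field_simp
  have hr1 : r ≤ 1 := by
    by_contra hcon
    push Not at hcon
    have h3 : 2 * m / (1 + 2 * m) < 1 := by rw [div_lt_one (by positivity)]; linarith
    nlinarith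
  have hr3 : 1 - r ≤ 1 / (2 * m) := by
    have h4 : 1 - r ≤ 1 - r ^ 2 := by nlinarith
    have h5 : 1 - r ^ 2 ≤ 1 / (2 * m) := by
      rw [hr2, show 1 - 2 * m / (1 + 2 * m) = 1 / (1 + 2 * m) by field_simp; ring]
      exact one_div_le_one_div_of_le (by positivity) (by linarith)
    linarith
  have hAC : A / C = exp w * r := by
    rw [← hBC, hr]; field_simp
  have hAC0 : 0 ≤ A / C := by positivity
  have hAC1 : |A / C - 1| ≤ W + 1 / m := by
    have e1 : A / C - 1 = (exp w - 1) - exp w * (1 - r) := by rw [hAC]; ring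
    have e2 : 0 ≤ exp w * (1 - r) := mul_nonneg (exp_pos w).le (by linarith)
    have e3 : exp w * (1 - r) ≤ 1 / m := by
      calc exp w * (1 - r) ≤ 2 * (1 / (2 * m)) :=
            mul_le_mul hexp2 hr3 (by linarith) (by norm_num)
        _ = 1 / m := by field_simp
    rw [e1]
    rw [abs_le] at hexp ⊢
    constructor <;> linarith
  have hAC2 : A / C ≤ 2 := by
    rw [hAC]
    calc exp w * r ≤ 2 * 1 := mul_le_mul hexp2 hr1 hr0.le (by norm_num)
      _ = 2 := by norm_num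
  have hSC : |S / C - 1| ≤ W + 1 / m + 2 * t := by
    have e1 : S / C - 1 = (A / C - 1) + (S - A) / C := by field_simp; ring
    have e2 : |(S - A) / C| ≤ 2 * t := by
      rw [abs_div, abs_of_pos hC0]
      calc |S - A| / C ≤ t * A / C := div_le_div_of_nonneg_right hS hC0.le
        _ = t * (A / C) := by ring
        _ ≤ t * 2 := mul_le_mul_of_nonneg_left hAC2 ht
        _ = 2 * t := by ring
    rw [e1]
    exact (abs_add_le _ _).trans (by linarith)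
  have hfin : S / N - 1 / (2 * sqrt 2) = 1 / (2 * sqrt 2) * (S / C - 1) := by
    rw [hC]; field_simp
  have hhalf : 1 / (2 * sqrt 2) ≤ 1 / 2 := by
    apply one_div_le_one_div_of_le (by norm_num)
    linarith
  rw [hfin, abs_mul, abs_of_pos (by positivity)]
  have hm1 : 0 < 1 / m := by positivity
  have hWnn : 0 ≤ W := (abs_nonneg _).trans hW
  calc 1 / (2 * sqrt 2) * |S / C - 1| ≤ 1 / 2 * (W + 1 / m + 2 * t) :=
        mul_le_mul hhalf hSC (abs_nonneg _) (by norm_num)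
    _ ≤ W + 1 / m + t := by linarith

/-- from `log r_e = -(1/2) log (1+2m) ± θ` for all `e` to the sum. -/
theorem sum_close {ι : Type*} (s : Finset ι) {r : ι → ℝ} (hr : ∀ e ∈ s, 0 < r e) {m θ : ℝ}
    (hm : 0 ≤ m) (hθ : θ ≤ 1)
    (h : ∀ e ∈ s, |log (r e) + 1 / 2 * log (1 + 2 * m)| ≤ θ) :
    |∑ e ∈ s, r e - s.card / sqrt (1 + 2 * m)| ≤ 2 * θ * (s.card / sqrt (1 + 2 * m)) := by
  have hq : 0 < sqrt (1 + 2 * m) := by positivity
  have hlog : log (sqrt (1 + 2 * m)) = 1 / 2 * log (1 + 2 * m) := by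
    rw [log_sqrt (by positivity)]; ring
  have key : ∀ e ∈ s, |r e - 1 / sqrt (1 + 2 * m)| ≤ 2 * θ * (1 / sqrt (1 + 2 * m)) := by
    intro e he
    set u := log (r e) + 1 / 2 * log (1 + 2 * m) with hu
    have h1 : r e = exp u * (1 / sqrt (1 + 2 * m)) := by
      rw [hu, exp_add, exp_log (hr e he), ← hlog, exp_log hq]
      field_simp
    have h2 : |u| ≤ 1 := (h e he).trans hθ
    have h3 : |exp u - 1| ≤ 2 * θ := by
      have := Real.abs_exp_sub_one_le h2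
      have := h e he
      linarith
    have h4 : r e - 1 / sqrt (1 + 2 * m) = (exp u - 1) * (1 / sqrt (1 + 2 * m)) := by
      rw [h1]; ring
    rw [h4, abs_mul, abs_of_pos (show 0 < 1 / sqrt (1 + 2 * m) by positivity)]
    exact mul_le_mul_of_nonneg_right h3 (by positivity)
  have e1 : ∑ e ∈ s, r e - s.card / sqrt (1 + 2 * m)
      = ∑ e ∈ s, (r e - 1 / sqrt (1 + 2 * m)) := by
    rw [Finset.sum_sub_distrib, Finset.sum_const, nsmul_eq_mul]; ring
  rw [e1]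
  refine (Finset.abs_sum_le_sum_abs _ _).trans ((Finset.sum_le_sum key).trans ?_)
  rw [Finset.sum_const, nsmul_eq_mul]
  apply le_of_eq
  ring

open Filter in
/-- asymptotic form -/
theorem S_close_eventually (δ : ℝ) (hδ : 0 < δ) :
    ∀ᶠ n : ℕ in atTop, ∀ x m W t S : ℝ, 0 < x → 0 < m → (n:ℝ) ^ δ / 3 ≤ m →
      |log (m / (4 / (n:ℝ) ^ 3 * x ^ 2))| ≤ W → W ≤ (n:ℝ) ^ (-(δ / 9)) → 0 ≤ t →
      t ≤ 2 * (n:ℝ) ^ (-(δ / 12)) →
      |S - x / sqrt (1 + 2 * m)| ≤ t * (x / sqrt (1 + 2 * m)) →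
      |S / (n:ℝ) ^ ((3:ℝ) / 2) - 1 / (2 * sqrt 2)| ≤ (n:ℝ) ^ (-(δ / 13)) := by
  have h1 : Tendsto (fun n : ℕ => (n : ℝ) ^ (δ / 12 - δ / 13)) atTop atTop :=
    (tendsto_rpow_atTop (by
      have : δ / 12 - δ / 13 = δ / 156 := by ring
      rw [this]; positivity)).comp tendsto_natCast_atTop_atTop
  filter_upwards [h1.eventually_ge_atTop 6, eventually_ge_atTop 1] with n hn hn1
  intro x m W t S hx hm hmn hW hWn ht htn hS
  have hn0 : (0:ℝ) < n := by exact_mod_cast hn1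
  have hn1' : (1:ℝ) ≤ n := by exact_mod_cast hn1
  have a1 : (n:ℝ) ^ (-(δ / 9)) ≤ (n:ℝ) ^ (-(δ / 12)) :=
    rpow_le_rpow_of_exponent_le hn1' (by linarith)
  have a2 : (n:ℝ) ^ (-δ) ≤ (n:ℝ) ^ (-(δ / 12)) :=
    rpow_le_rpow_of_exponent_le hn1' (by linarith)
  have a3 : (n:ℝ) ^ (-(δ / 9)) ≤ 1 := by
    rw [← rpow_zero (n:ℝ)]
    exact rpow_le_rpow_of_exponent_le hn1' (by linarith)
  have a4 : 1 / m ≤ 3 * (n:ℝ) ^ (-δ) := by
    rw [rpow_neg hn0.le, div_le_iff₀ hm]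
    have : 0 < (n:ℝ) ^ δ := by positivity
    calc (1:ℝ) = 3 * ((n:ℝ) ^ δ)⁻¹ * ((n:ℝ) ^ δ / 3) := by field_simp
      _ ≤ 3 * ((n:ℝ) ^ δ)⁻¹ * m := by gcongr
  have key := S_close (n := n) hn1 hx hm hW (hWn.trans a3) ht hS
  have a5 : 6 * (n:ℝ) ^ (-(δ / 12)) ≤ (n:ℝ) ^ (-(δ / 13)) := by
    have e : (n:ℝ) ^ (-(δ / 13)) = (n:ℝ) ^ (δ / 12 - δ / 13) * (n:ℝ) ^ (-(δ / 12)) := by
      rw [← rpow_add hn0]; congr 1; ring
    rw [e]
    exact mul_le_mul_of_nonneg_right hn (by positivity)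
  linarith

end Crest.Agent.R030.SClose
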