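import Crest.Agent.R030.Params
import Crest.Agent.R030.SClose

/-!
# R030 (S0040): facts about the good states at the end of Stage 1, and (h3)

* `pre_facts` : eventually, every `PreE` state has `0 < mE`, `n^δ/3 ≤ mE`, is alive, and
  `|log (mE / (4/n³ x²))| ≤ n^{-δ/9}`.
* `pre_upper` : `mE ≤ 3 n^δ` if moreover `|Γ| < Xn + 3`.
* `h3_pre` : (h3) for `S = ∑ r e`.
-/

set_option autoImplicit false

open Finset Filter Topology
open Crest.CombinatoricsR.TriangleRemoval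

namespace Crest.Agent.R030

namespace H3

variable {n : ℕ}

theorem mE_pos_of_pre {δ : ℝ} (hn : 1 ≤ n) {E : Finset (Sym2 (Fin n))} (h : PreE δ E)
    (hη : etan δ n < 1) : 0 < mE E := by
  have hX := Iface.Xn_pos (δ := δ) hn
  have hcard : 0 < E.card := by
    have := h.size
    have h1 : (0:ℝ) < E.card := lt_of_lt_of_le hX this
    exact_mod_cast h1
  obtain ⟨e, he⟩ := Finset.card_pos.1 hcard
  rcases lt_or_eq_of_le (show 0 ≤ mE E by rw [mE_eq_mcod]; exact Kap.mcod_nonneg _ _) with h0 | h0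
  · exact h0
  · exfalso
    induction e using Sym2.ind with
    | _ u v =>
      have h1 := h.reg u v he
      rw [← h0, div_zero, zero_sub, abs_neg, abs_one] at h1
      linarith

theorem act_ne_of_mE_pos {E : Finset (Sym2 (Fin n))} (h : 0 < mE E) : act (triHyp n) E ≠ ∅ := by
  intro h0
  unfold mE at h
  rw [h0] at h
  simp at h

theorem lamx_eq (n : ℕ) (x : ℝ) : Kap.lamx n x = 4 / (n:ℝ) ^ 3 * x ^ 2 := by
  unfold Kap.lamx; ring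

/-- facts about the pre-good states -/
theorem pre_facts (δ : ℝ) (hδ0 : 0 < δ) (hδ1 : δ < 1) :
    ∀ᶠ n : ℕ in atTop, ∀ Γ : Finset (Sym2 (Fin n)), PreE δ Γ →
      0 < mE Γ ∧ (n:ℝ) ^ δ / 3 ≤ mE Γ ∧ act (triHyp n) Γ ≠ ∅ ∧ (0:ℝ) < Γ.card ∧
      |Real.log (mE Γ / (4 / (n:ℝ) ^ 3 * (Γ.card:ℝ) ^ 2))| ≤ (n:ℝ) ^ (-(δ / 9)) ∧
      3 / 4 * Kap.lamx n Γ.card ≤ mE Γ ∧ mE Γ ≤ 3 / 2 * Kap.lamx n Γ.card := by
  filter_upwards [Iface.eventually_kap_le δ hδ0 hδ1,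
    Iface.eventually_etan_le δ hδ0 (show (0:ℝ) < 1 / 2 by norm_num), eventually_ge_atTop 1]
    with n hk hη hn
  intro Γ hΓ
  have hn0 : (0:ℝ) < n := by exact_mod_cast hn
  have hn1' : (1:ℝ) ≤ n := by exact_mod_cast hn
  have hm := mE_pos_of_pre hn hΓ (by linarith)
  have hX := Iface.Xn_pos (δ := δ) hn
  have hx : (0:ℝ) < Γ.card := lt_of_lt_of_le hX hΓ.size
  have hk' := hk Γ.card hΓ.size (Iface.card_le_x0n hΓ.sub)
  have hwin := hΓ.win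
  unfold Kap.Win at hwin
  rw [← mE_eq_mcod] at hwin
  have a3 : (n:ℝ) ^ (-(δ / 9)) ≤ 1 := by
    rw [← Real.rpow_zero (n:ℝ)]
    exact Real.rpow_le_rpow_of_exponent_le hn1' (by linarith)
  have a4 : 0 < (n:ℝ) ^ (-(δ / 9)) := by positivity
  have hw2 := Kap.mcod_of_window hn0 hx hm hwin (hk'.trans (show _ ≤ (1:ℝ)/4 by linarith))
    (by norm_num)
  have hlx := Iface.lamx_ge (n := n) (δ := δ) hn hΓ.size
  refine ⟨hm, ?_, act_ne_of_mE_pos hm, hx, ?_, ?_, ?_⟩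
  · have : 0 < (n:ℝ) ^ δ := by positivity
    linarith [hw2.1]
  · rw [← lamx_eq]
    linarith
  · linarith [hw2.1]
  · linarith [hw2.2]

/-- upper bound for the mean codegree at the last step -/
theorem pre_upper (δ : ℝ) (hδ0 : 0 < δ) (hδ1 : δ < 1) :
    ∀ᶠ n : ℕ in atTop, ∀ Γ : Finset (Sym2 (Fin n)), PreE δ Γ → (Γ.card : ℝ) < Xn δ n + 3 →
      mE Γ ≤ 3 * (n:ℝ) ^ δ := by
  filter_upwards [pre_facts δ hδ0 hδ1, Iface.eventually_Xn_ge δ hδ0.le 12, eventually_ge_atTop 1]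
    with n hf hX hn
  intro Γ hΓ hc
  have hn0 : (0:ℝ) < n := by exact_mod_cast hn
  obtain ⟨h1, h2, h3, h4, h5, h6, h7⟩ := hf Γ hΓ
  have h8 : (Γ.card : ℝ) ≤ 5 / 4 * Xn δ n := by linarith
  have h9 : Kap.lamx n Γ.card ≤ (25 / 16) * (n:ℝ) ^ δ := by
    rw [← Iface.lamx_Xn (δ := δ) hn]
    calc Kap.lamx n Γ.card ≤ Kap.lamx n (5 / 4 * Xn δ n) := Iface.lamx_mono hn0 h4.le h8
      _ = 25 / 16 * Kap.lamx n (Xn δ n) := by unfold Kap.lamx; ring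
  have : 0 < (n:ℝ) ^ δ := by positivity
  linarith

/-- **(h3)** for `S = ∑ r e`. -/
theorem h3_pre (δ : ℝ) (hδ0 : 0 < δ) (hδ1 : δ < 1) :
    ∀ᶠ n : ℕ in atTop, ∀ Γ : Finset (Sym2 (Fin n)), PreE δ Γ → ∀ r : Sym2 (Fin n) → ℝ,
      (∀ e ∈ Γ, 0 < r e) →
      (∀ e ∈ Γ, |Real.log (r e) + 1 / 2 * Real.log (1 + 2 * mE Γ)| ≤ (n:ℝ) ^ (-(δ / 12))) →
      |(∑ e ∈ Γ, r e) / (n:ℝ) ^ ((3:ℝ) / 2) - 1 / (2 * Real.sqrt 2)| ≤ (n:ℝ) ^ (-(δ / 13)) := by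
  filter_upwards [pre_facts δ hδ0 hδ1, SClose.S_close_eventually δ hδ0, eventually_ge_atTop 1]
    with n hf hS hn
  intro Γ hΓ r hr hlog
  have hn0 : (0:ℝ) < n := by exact_mod_cast hn
  have hn1' : (1:ℝ) ≤ n := by exact_mod_cast hn
  obtain ⟨h1, h2, h3, h4, h5, -, -⟩ := hf Γ hΓ
  have a3 : (n:ℝ) ^ (-(δ / 12)) ≤ 1 := by
    rw [← Real.rpow_zero (n:ℝ)]
    exact Real.rpow_le_rpow_of_exponent_le hn1' (by linarith)
  have a4 : 0 < (n:ℝ) ^ (-(δ / 12)) := by positivity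
  have key := SClose.sum_close Γ hr h1.le a3 hlog
  exact hS Γ.card (mE Γ) _ (2 * (n:ℝ) ^ (-(δ / 12))) _ h4 h1 h2 h5 le_rfl (by positivity)
    le_rfl key

end H3

end Crest.Agent.R030
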