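import Crest.Agent.R030.LabelBridge
import Crest.Agent.R030.GreedyDefs

/-!
Row 30 (S0040): the label bridge in terms of helper9's simultaneous sweep `greedyU`.
-/

set_option autoImplicit false

namespace Crest.Agent.R030

open Finset

theorem greedyU_eq_gs {V : Type*} [DecidableEq V] {M : ℕ} (H : Finset (Finset V))
    (U : Finset V → Fin M) (A : Finset V) (s : ℕ) :
    greedyU H U A s = gs H (fun T => (U T).val) A s := by
  induction s with
  | zero => rfl
  | succ s ih =>
    rw [greedyU_succ, ih]
    simp only [gs, act, Finset.filter_filter]
    congr 2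
    apply Finset.filter_congr
    intro T _
    exact and_comm

/-- **Label bridge** for `0 ≤ f ≤ B`. -/
theorem label_bridge_greedy {V : Type} [DecidableEq V] [Fintype V] {M : ℕ} [NeZero M]
    {H : Finset (Finset V)} (hne : ∀ T ∈ H, T.Nonempty) {f : Finset V → ℝ}
    {B : ℝ} (h0 : ∀ A, 0 ≤ f A) (hf : ∀ A, f A ≤ B) (A : Finset V) :
    |avg (Finset V → Fin M) (fun U => f (greedyU H U A M)) - Phi H f A|
      ≤ B * ((act H A).card : ℝ) ^ 2 / M := by
  have key := label_bridge (M := M) hne (f := fun S => f S - B / 2) (B := B / 2)
    (fun S => by
      rw [abs_le]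
      constructor
      · have := h0 S; linarith
      · have := hf S; linarith) A
  have e1 : Phi H (fun S => f S - B / 2) A = Phi H f A - B / 2 := by
    have hv : ∀ (k : ℕ) (A : Finset V), val H (fun S => f S - B / 2) k A = val H f k A - B / 2 := by
      intro k
      induction k with
      | zero => intro A; rfl
      | succ k ih =>
        intro A
        simp only [val]
        split_ifs with h
        · rfl
        · simp only [ih, Finset.sum_sub_distrib, Finset.sum_const, nsmul_eq_mul, mul_sub]
          rw [← mul_assoc, inv_mul_cancel₀ (by exact_mod_cast h), one_mul]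
    exact hv _ A
  have e2 : avgL (fun U : Finset V → Fin M => f (gs H (fun T => (U T).val) A M) - B / 2)
      = avg (Finset V → Fin M) (fun U => f (greedyU H U A M)) - B / 2 := by
    rw [avgL_sub, avgL_const]
    congr 1
    unfold avg avgL
    congr 1
    apply Finset.sum_congr rfl
    intro U _
    show f (gs H (fun T => (U T).val) A M) = f (greedyU H U A M)
    rw [greedyU_eq_gs]
  rw [e1, e2] at key
  rw [abs_sub_comm]
  have e3 : Phi H f A - B / 2 - (avg (Finset V → Fin M) (fun U => f (greedyU H U A M)) - B / 2)
      = Phi H f A - avg (Finset V → Fin M) (fun U => f (greedyU H U A M)) := by ring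
  rw [e3] at key
  refine key.trans (le_of_eq ?_)
  ring

end Crest.Agent.R030
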