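import Crest.Agent.R030.Explore
import Crest.Agent.R030.GreedyBridge
import Crest.Agent.R030.Final

/-!
Row 30 (S0040), helper148: the last window, hypotheses (h1), (h2) of `tendsto_of_stages`.

For EVERY state `Γ` (no goodness needed) and every number `M ≥ 1` of labels:
* `|Φ(card) Γ - ∑ rootQ| ≤ ∑ prs + tie`,
* `Φ(card²) Γ ≤ (∑ rootQ)² + 2 |Γ| ∑ prs + ∑_b (∑ cnt)² + tie`.
-/

set_option autoImplicit false

open Finset

namespace Crest.Agent.R030.LW

section general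

variable {V : Type} [DecidableEq V] [Fintype V]

/-- Sum of the cavity survival probabilities (hypergraph restricted to the alive hyperedges). -/
noncomputable def SS (H : Finset (Finset V)) (M : ℕ) (Γ : Finset V) : ℝ :=
  ∑ e ∈ Γ, rootQ (act H Γ) M M e

/-- Sum of the expected numbers of equal asks. -/
noncomputable def prsS (H : Finset (Finset V)) (M : ℕ) (Γ : Finset V) : ℝ :=
  ∑ e ∈ Γ, Prog.prs (rootP (act H Γ) M M e)

/-- Two-root term. -/
noncomputable def cntS (H : Finset (Finset V)) (M : ℕ) (Γ : Finset V) : ℝ :=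
  ∑ b, (∑ e ∈ Γ, Prog.cnt (rootP (act H Γ) M M e) b) ^ 2

theorem prsS_nonneg (H : Finset (Finset V)) (M : ℕ) (Γ : Finset V) : 0 ≤ prsS H M Γ :=
  Finset.sum_nonneg fun _ _ => Prog.prs_nonneg _

theorem cntS_nonneg (H : Finset (Finset V)) (M : ℕ) (Γ : Finset V) : 0 ≤ cntS H M Γ :=
  Finset.sum_nonneg fun _ _ => sq_nonneg _

theorem greedyU_act (H : Finset (Finset V)) {M : ℕ} (U : Finset V → Fin M) (A : Finset V)
    (s : ℕ) : greedyU (act H A) U A s = greedyU H U A s := by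
  rw [greedyU_eq_gs, greedyU_eq_gs, gs_act]

theorem subset_of_mem_act {H : Finset (Finset V)} {Γ : Finset V} :
    ∀ T ∈ act H Γ, T ⊆ Γ := fun _ hT => (mem_act.1 hT).2

/-- **First moment, last window.** -/
theorem first_moment {H : Finset (Finset V)} (hne : ∀ T ∈ H, T.Nonempty) {M : ℕ} [NeZero M]
    (Γ : Finset V) :
    |Phi H (fun x => (x.card : ℝ)) Γ - SS H M Γ|
      ≤ prsS H M Γ + (Fintype.card V : ℝ) * ((act H Γ).card : ℝ) ^ 2 / M := by
  have h1 := explore_first (H := act H Γ) (A := Γ) subset_of_mem_act (M := M) (le_refl M)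
  simp only [greedyU_act] at h1
  have h2 := label_bridge_greedy (M := M) hne (f := fun x => (x.card : ℝ))
    (B := (Fintype.card V : ℝ)) (fun A => Nat.cast_nonneg _)
    (fun A => by exact_mod_cast Finset.card_le_univ A) Γ
  rw [abs_sub_comm] at h2
  calc |Phi H (fun x => (x.card : ℝ)) Γ - SS H M Γ|
      = |(Phi H (fun x => (x.card : ℝ)) Γ
          - avg (Finset V → Fin M) (fun U => ((greedyU H U Γ M).card : ℝ)))
        + (avg (Finset V → Fin M) (fun U => ((greedyU H U Γ M).card : ℝ)) - SS H M Γ)| := by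
        congr 1; ring
    _ ≤ _ := (abs_add_le _ _).trans (by
        have h3 : |avg (Finset V → Fin M) (fun U => ((greedyU H U Γ M).card : ℝ)) - SS H M Γ|
          ≤ prsS H M Γ := h1
        linarith)

/-- **Second moment, last window.** -/
theorem second_moment {H : Finset (Finset V)} (hne : ∀ T ∈ H, T.Nonempty) {M : ℕ} [NeZero M]
    (Γ : Finset V) :
    |Phi H (fun x => (x.card : ℝ) ^ 2) Γ - SS H M Γ ^ 2|
      ≤ 2 * (Γ.card : ℝ) * prsS H M Γ + cntS H M Γ
        + (Fintype.card V : ℝ) ^ 2 * ((act H Γ).card : ℝ) ^ 2 / M := by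
  have h1 := explore_second (H := act H Γ) (A := Γ) subset_of_mem_act (M := M) (le_refl M)
  simp only [greedyU_act] at h1
  have h2 := label_bridge_greedy (M := M) hne (f := fun x => (x.card : ℝ) ^ 2)
    (B := (Fintype.card V : ℝ) ^ 2) (fun A => by positivity)
    (fun A => pow_le_pow_left₀ (Nat.cast_nonneg _) (by exact_mod_cast Finset.card_le_univ A) 2) Γ
  rw [abs_sub_comm] at h2
  calc |Phi H (fun x => (x.card : ℝ) ^ 2) Γ - SS H M Γ ^ 2|
      = |(Phi H (fun x => (x.card : ℝ) ^ 2) Γ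
          - avg (Finset V → Fin M) (fun U => ((greedyU H U Γ M).card : ℝ) ^ 2))
        + (avg (Finset V → Fin M) (fun U => ((greedyU H U Γ M).card : ℝ) ^ 2)
            - SS H M Γ ^ 2)| := by
        congr 1; ring
    _ ≤ _ := (abs_add_le _ _).trans (by
        have h3 : |avg (Finset V → Fin M) (fun U => ((greedyU H U Γ M).card : ℝ) ^ 2)
            - SS H M Γ ^ 2| ≤ 2 * (Γ.card : ℝ) * prsS H M Γ + cntS H M Γ := h1
        linarith)

end general

open Crest.CombinatoricsR.TriangleRemoval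

theorem card_act_triHyp_le (n : ℕ) (Γ : Finset (Sym2 (Fin n))) :
    ((act (triHyp n) Γ).card : ℝ) ≤ (n : ℝ) ^ 3 := by
  have h1 : (act (triHyp n) Γ).card ≤ (triHyp n).card := Finset.card_filter_le _ _
  have h2 : (triHyp n).card ≤ (Finset.univ.powersetCard 3 : Finset (Finset (Fin n))).card := by
    unfold triHyp
    exact Finset.card_image_le
  have h3 : (Finset.univ.powersetCard 3 : Finset (Finset (Fin n))).card ≤ n ^ 3 := by
    rw [Finset.card_powersetCard, Finset.card_univ, Fintype.card_fin]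
    exact Nat.choose_le_pow n 3
  exact_mod_cast h1.trans (h2.trans h3)

theorem fintype_card_sym2_le (n : ℕ) : (Fintype.card (Sym2 (Fin n)) : ℝ) ≤ (n : ℝ) ^ 2 := by
  have := card_sym2_le_sqF n Finset.univ
  rwa [Finset.card_univ] at this

/-- number of labels -/
def MM (n : ℕ) : ℕ := n ^ 20

instance (n : ℕ) [NeZero n] : NeZero (MM n) := ⟨pow_ne_zero _ (NeZero.ne n)⟩

/-- `S` of `tendsto_of_stages`. -/
noncomputable def Sn (n : ℕ) (Γ : Finset (Sym2 (Fin n))) : ℝ := SS (triHyp n) (MM n) Γ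

/-- `err₁` of `tendsto_of_stages`. -/
noncomputable def err1 (n : ℕ) (Γ : Finset (Sym2 (Fin n))) : ℝ :=
  prsS (triHyp n) (MM n) Γ + 1

/-- `err₂` of `tendsto_of_stages`. -/
noncomputable def err2 (n : ℕ) (Γ : Finset (Sym2 (Fin n))) : ℝ :=
  2 * (Γ.card : ℝ) * prsS (triHyp n) (MM n) Γ + cntS (triHyp n) (MM n) Γ + 1

theorem err1_nonneg (n : ℕ) (Γ : Finset (Sym2 (Fin n))) : 0 ≤ err1 n Γ := by
  have := prsS_nonneg (triHyp n) (MM n) Γ
  unfold err1; linarith

theorem err2_nonneg (n : ℕ) (Γ : Finset (Sym2 (Fin n))) : 0 ≤ err2 n Γ := by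
  have h1 := prsS_nonneg (triHyp n) (MM n) Γ
  have h2 := cntS_nonneg (triHyp n) (MM n) Γ
  unfold err2; positivity

theorem tie_le {n : ℕ} (hn : 1 ≤ n) (Γ : Finset (Sym2 (Fin n))) {k : ℕ} (hk : k ≤ 2) :
    (Fintype.card (Sym2 (Fin n)) : ℝ) ^ k * ((act (triHyp n) Γ).card : ℝ) ^ 2 / (MM n : ℕ)
      ≤ 1 := by
  have hn1 : (1 : ℝ) ≤ n := by exact_mod_cast hn
  have h1 : (Fintype.card (Sym2 (Fin n)) : ℝ) ^ k ≤ ((n : ℝ) ^ 2) ^ 2 :=
    calc (Fintype.card (Sym2 (Fin n)) : ℝ) ^ k ≤ ((n : ℝ) ^ 2) ^ k :=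
          pow_le_pow_left₀ (Nat.cast_nonneg _) (fintype_card_sym2_le n) k
      _ ≤ ((n : ℝ) ^ 2) ^ 2 := pow_le_pow_right₀ (one_le_pow₀ hn1) hk
  have h2 : ((act (triHyp n) Γ).card : ℝ) ^ 2 ≤ ((n : ℝ) ^ 3) ^ 2 :=
    pow_le_pow_left₀ (Nat.cast_nonneg _) (card_act_triHyp_le n Γ) 2
  have hM : ((MM n : ℕ) : ℝ) = (n : ℝ) ^ 20 := by unfold MM; push_cast; rfl
  rw [hM, div_le_one (by positivity)]
  calc (Fintype.card (Sym2 (Fin n)) : ℝ) ^ k * ((act (triHyp n) Γ).card : ℝ) ^ 2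
      ≤ ((n : ℝ) ^ 2) ^ 2 * ((n : ℝ) ^ 3) ^ 2 := mul_le_mul h1 h2 (by positivity) (by positivity)
    _ = (n : ℝ) ^ 10 := by ring
    _ ≤ (n : ℝ) ^ 20 := pow_le_pow_right₀ hn1 (by norm_num)

theorem first_moment_tri {n : ℕ} (hn : 1 ≤ n) (Γ : Finset (Sym2 (Fin n))) :
    |Phi (triHyp n) (fun x => (x.card : ℝ)) Γ - Sn n Γ| ≤ err1 n Γ := by
  haveI : NeZero n := ⟨by omega⟩
  have h := first_moment (fun T hT => (lin3_triHyp n).nonempty hT) (M := MM n) Γ
  have h2 := tie_le hn Γ (k := 1) (by norm_num)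
  rw [pow_one] at h2
  unfold err1 Sn
  linarith

/-- (h1) of `tendsto_of_stages`, for all `n ≥ 1` and ALL states. -/
theorem h1_tri {n : ℕ} (hn : 1 ≤ n) (Γ : Finset (Sym2 (Fin n))) :
    Sn n Γ - err1 n Γ ≤ Phi (triHyp n) (fun x => (x.card : ℝ)) Γ := by
  have := (abs_le.1 (first_moment_tri hn Γ)).1
  linarith

/-- (h2) of `tendsto_of_stages`, for all `n ≥ 1` and ALL states. -/
theorem h2_tri {n : ℕ} (hn : 1 ≤ n) (Γ : Finset (Sym2 (Fin n))) :
    Phi (triHyp n) (fun x => (x.card : ℝ) ^ 2) Γ ≤ Sn n Γ ^ 2 + err2 n Γ := by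
  haveI : NeZero n := ⟨by omega⟩
  have h := second_moment (fun T hT => (lin3_triHyp n).nonempty hT) (M := MM n) Γ
  have h2 := tie_le hn Γ (k := 2) (by norm_num)
  have h3 := (abs_le.1 h).2
  unfold err2 Sn
  linarith

end Crest.Agent.R030.LW
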