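import Crest.Agent.R030.Good2Final
import Crest.Agent.R030.Params

/-!
# Row 30: the GOOD2 tail in the form of the interface (`Iface.BadLink`)
-/

set_option autoImplicit false

namespace Crest.Agent.R030

open Finset Filter Topology
open Crest.CombinatoricsR.TriangleRemoval

namespace Good2

variable {n : ℕ}

/-- ratio `n (x/N)² / lamx = (n/(n-1))²`. -/
lemma ratio_eq {n : ℕ} (hn : 2 ≤ n) (x : ℝ) :
    (n : ℝ) * (x / x0n n) ^ 2 = Kap.lamx n x * ((n : ℝ) / (n - 1)) ^ 2 := by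
  have h2 : (2:ℝ) ≤ n := by exact_mod_cast hn
  have h0 : (n : ℝ) ≠ 0 := by positivity
  have h1 : (n : ℝ) - 1 ≠ 0 := by
    have : (0:ℝ) < n - 1 := by linarith
    exact this.ne'
  rw [Iface.x0n_eq, Kap.lamx]
  field_simp
  ring

lemma aux_div {a b c : ℝ} (hb : b ≠ 0) : c * a = a / b * (b * c) := by
  field_simp

/-- the sequence `η'`. -/
noncomputable def etap (δ : ℝ) (n : ℕ) : ℝ :=
  ((n : ℝ) / (n - 1)) ^ 2 / (1 - (n : ℝ) ^ (-(δ / 9)) / 4) - 1

lemma tendsto_etap {δ : ℝ} (hδ : 0 < δ) : Tendsto (etap δ) atTop (𝓝 0) := by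
  have h1 : Tendsto (fun n : ℕ => (n : ℝ) ^ (-(δ / 9))) atTop (nhds 0) :=
    (tendsto_rpow_neg_atTop (by linarith)).comp tendsto_natCast_atTop_atTop
  have h2 : Tendsto (fun n : ℕ => (n : ℝ) / (n - 1)) atTop (𝓝 1) := by
    have h3 : Tendsto (fun n : ℕ => 1 / (1 - 1 / (n : ℝ))) atTop (𝓝 (1 / (1 - 0))) := by
      refine Tendsto.div tendsto_const_nhds ?_ (by norm_num)
      exact tendsto_const_nhds.sub tendsto_one_div_atTop_nhds_zero_nat
    rw [sub_zero, div_one] at h3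
    refine h3.congr' ?_
    filter_upwards [eventually_ge_atTop 2] with n hn
    have h2 : (2:ℝ) ≤ n := by exact_mod_cast hn
    have h0 : (n : ℝ) ≠ 0 := by positivity
    have h1 : (n : ℝ) - 1 ≠ 0 := by
      have : (0:ℝ) < n - 1 := by linarith
      exact this.ne'
    field_simp
  have h4 : Tendsto (etap δ) atTop (𝓝 (1 ^ 2 / (1 - 0 / 4) - 1)) :=
    Tendsto.sub_const (Tendsto.div (h2.pow 2) ((h1.div_const 4).const_sub 1) (by norm_num)) 1
  simpa using h4

lemma etap_nonneg {δ : ℝ} {n : ℕ} (hn : 2 ≤ n) (h : (n : ℝ) ^ (-(δ / 9)) ≤ 1) :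
    0 ≤ etap δ n := by
  have h2 : (2:ℝ) ≤ n := by exact_mod_cast hn
  have h1 : (0:ℝ) < n - 1 := by linarith
  have h3 : 1 ≤ (n : ℝ) / (n - 1) := by
    rw [le_div_iff₀ h1]; linarith
  have h4 : 1 ≤ ((n : ℝ) / (n - 1)) ^ 2 := one_le_pow₀ h3
  have h5 : 0 ≤ (n : ℝ) ^ (-(δ / 9)) := by positivity
  have h6 : 0 < 1 - (n : ℝ) ^ (-(δ / 9)) / 4 := by linarith
  have : 1 ≤ ((n : ℝ) / (n - 1)) ^ 2 / (1 - (n : ℝ) ^ (-(δ / 9)) / 4) := by
    rw [le_div_iff₀ h6]; linarith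
  unfold etap
  linarith

lemma mE_pos {δ : ℝ} {E : Finset (Sym2 (Fin n))} (h : PreE δ E) (hX : 0 < Xn δ n)
    (hη : etan δ n < 1) : 0 < mE E := by
  have h0 : 0 ≤ mE E := by
    rw [mE_eq_mcod]; unfold mcod; positivity
  rcases h0.eq_or_lt with h1 | h1
  · exfalso
    have hne : E.Nonempty := by
      rw [← card_pos]
      have := lt_of_lt_of_le hX h.size
      exact_mod_cast this
    obtain ⟨e, he⟩ := hne
    induction e using Sym2.ind with
    | _ u v =>
      have := h.reg u v he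
      rw [← h1] at this
      simp at this
      linarith
  · exact h1

/-- **The GOOD2 tail** in the form requested by the Stage 1 wrap. -/
theorem badLink_hit {δ : ℝ} (hδ0 : 0 < δ) (hδ1 : δ < 1) (k : ℕ) {κ : ℝ} (hκ : 0 < κ) (A : ℝ) :
    ∀ᶠ n : ℕ in atTop, ∀ G : Finset (Sym2 (Fin n)) → Prop, (∀ E, G E → PreE δ E) →
      ∀ K ≤ kn δ n, (baseKer (triHyp n)).hit (BadLink δ (k + 3) κ) G K (allEdges n) ≤
        (n : ℝ) ^ (-A) := by
  have hδ9 : Tendsto (fun n : ℕ => (n : ℝ) ^ (-(δ / 9))) atTop (nhds 0) :=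
    (tendsto_rpow_neg_atTop (by linarith)).comp tendsto_natCast_atTop_atTop
  have E1 := good2_eventually hδ0 (c := δ / 8) (by positivity) k hκ (etan δ) (etap δ)
    (Eventually.of_forall fun n => by unfold etan; positivity)
    (Eventually.of_forall fun n => le_refl _)
    (by
      filter_upwards [hδ9.eventually_le_const one_pos, eventually_ge_atTop 2] with n h1 h2
      exact etap_nonneg h2 h1)
    (tendsto_etap hδ0) A
  have E2 := Iface.eventually_kap_le δ hδ0 hδ1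
  have E3 := Iface.eventually_Xn_le δ hδ1
  have E4 := Iface.eventually_etan_le δ hδ0 (c := 1 / 2) (by norm_num)
  filter_upwards [E1, E2, E3, E4, hδ9.eventually_le_const one_pos, eventually_ge_atTop 2] with
    n e1 e2 e3 e4 e5 hn2
  intro G hG K hK
  have hn1 : 1 ≤ n := by omega
  have hn0 : (0:ℝ) < n := by exact_mod_cast hn1
  have hX0 : 0 < Xn δ n := Iface.Xn_pos hn1
  have hspec := Iface.kn_spec δ (n := n) (by linarith)
  have hKr : (K : ℝ) ≤ kn δ n := by exact_mod_cast hK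
  have hNK : Xn δ n ≤ x0n n - 3 * K := by linarith [hspec.1]
  have hτ : (n : ℝ) ^ (-(δ / 9)) / 4 ≤ 1 / 2 := by linarith
  -- facts about `PreE`
  have hfacts : ∀ E : Finset (Sym2 (Fin n)), PreE δ E →
      0 < mE E ∧ (1 - (n : ℝ) ^ (-(δ / 9)) / 4) * Kap.lamx n E.card ≤ mE E := by
    intro E hE
    have hm := mE_pos hE hX0 (by linarith)
    have hx : 0 < (E.card : ℝ) := lt_of_lt_of_le hX0 hE.size
    have hk := e2 E.card hE.size (Iface.card_le_x0n hE.sub)
    exact ⟨hm, (Kap.mcod_of_window hn0 hx hm hE.win hk hτ).1⟩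
  have key := e1 (PreE δ) ?_ (fun E hE => (hfacts E hE).1) (fun E hE => hE.reg) ?_ K ?_ ?_
  · refine le_trans ?_ key
    refine Ker.hit_mono _ (I := fun _ => True) ?_ ?_ ?_ K (allEdges n) trivial
    · intro ω _ _ _ x _
      trivial
    · intro ω _ h
      exact h
    · intro ω _ _ h
      exact hG ω h
  · intro E hE
    obtain ⟨hm, hlam⟩ := hfacts E hE
    refine ⟨?_, ?_⟩
    · intro e he
      have h1 := Iface.hreg_of_reg hE.sub hm hE.reg e he
      have h2 := (abs_le.1 h1).1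
      linarith
    · have h1 : (1 / 4 : ℝ) * Kap.lamx n E.card ≤ mE E := by
        refine le_trans (mul_le_mul_of_nonneg_right (by linarith) ?_) hlam
        unfold Kap.lamx; positivity
      have h2 : 1 / (n:ℝ) ^ 3 * (E.card : ℝ) ^ 2 = (1 / 4 : ℝ) * Kap.lamx n E.card := by
        unfold Kap.lamx; ring
      rw [h2]
      exact h1
  · intro E hE
    obtain ⟨hm, hlam⟩ := hfacts E hE
    have h1 : n * ((E.card : ℝ) / ((allEdges n).card : ℝ)) ^ 2 =
        Kap.lamx n E.card * ((n : ℝ) / (n - 1)) ^ 2 := ratio_eq hn2 _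
    rw [h1]
    have h6 : 0 < 1 - (n : ℝ) ^ (-(δ / 9)) / 4 := by linarith
    have h7 : 1 + etap δ n = ((n : ℝ) / (n - 1)) ^ 2 / (1 - (n : ℝ) ^ (-(δ / 9)) / 4) := by
      unfold etap; ring
    rw [h7]
    calc Kap.lamx n E.card * ((n : ℝ) / (n - 1)) ^ 2
        = ((n : ℝ) / (n - 1)) ^ 2 / (1 - (n : ℝ) ^ (-(δ / 9)) / 4) *
          ((1 - (n : ℝ) ^ (-(δ / 9)) / 4) * Kap.lamx n E.card) := aux_div h6.ne'
      _ ≤ _ := mul_le_mul_of_nonneg_left hlam (by positivity)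
  · have h1 : (3 * K : ℝ) < x0n n := by linarith
    unfold x0n at h1
    exact_mod_cast h1
  · have h1 : (n : ℝ) * ((((allEdges n).card : ℝ) - 3 * K) / ((allEdges n).card : ℝ)) ^ 2 =
        Kap.lamx n (x0n n - 3 * K) * ((n : ℝ) / (n - 1)) ^ 2 := ratio_eq hn2 _
    rw [h1]
    have h2 := Iface.lamx_ge (δ := δ) hn1 hNK
    have h3 : (2:ℝ) ≤ n := by exact_mod_cast hn2
    have h4 : (0:ℝ) < n - 1 := by linarith
    have h5 : 1 ≤ ((n : ℝ) / (n - 1)) ^ 2 := by
      refine one_le_pow₀ ?_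
      rw [le_div_iff₀ h4]; linarith
    calc (n : ℝ) ^ δ ≤ Kap.lamx n (x0n n - 3 * K) * 1 := by linarith
      _ ≤ _ := mul_le_mul_of_nonneg_left h5 (le_trans (by positivity) h2)

end Good2

end Crest.Agent.R030
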