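import Crest.Agent.R030.Stage1Reg

/-!
# R030 (S0040): Stage 1, exit probability

`exit_split` : exit probability ≤ P(Reg fails first) + P(link condition fails first);
`eventually_hit_notReg` : P(Reg fails first) ≤ n^{-4} for large `n` from (C3);
`stage1` : the exit probability is ≤ 2 n^{-3}.
-/

set_option autoImplicit false

open Finset Filter Topology
open Crest.CombinatoricsR.TriangleRemoval

namespace Crest.Agent.R030

namespace Stage1

variable {n : ℕ}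

/-- splitting of the exit probability -/
theorem exit_split {δ κ : ℝ} {q : ℕ} (hn : 10 ≤ n) (hη1 : etan δ n ≤ 1 / 9)
    (hX : 300 ≤ Xn δ n) (hXx : Xn δ n ≤ x0n n)
    (hkap : ∀ x, Xn δ n ≤ x → x ≤ x0n n → Kap.kap n (x0n n) (etan δ n) x ≤ 1 / 2) :
    (baseKer (triHyp n)).hit (fun E => ¬ GoodE δ q κ E) (GoodE δ q κ) (kn δ n) (allEdges n)
      ≤ (baseKer (triHyp n)).hit (fun E => ¬ Reg E (mE E) (etan δ n)) (GoodE δ q κ) (kn δ n)
          (allEdges n)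
        + (baseKer (triHyp n)).hit (BadLink δ q κ) (GoodE δ q κ) (kn δ n) (allEdges n) := by
  have hn1 : 1 ≤ n := by omega
  have hn0 : (0:ℝ) < n := by exact_mod_cast hn1
  set B' : Fin 3 → Finset (Sym2 (Fin n)) → Prop := fun j E =>
    if j = 0 then ¬ Reg E (mE E) (etan δ n) else if j = 1 then BadLink δ q κ E
      else ¬ Xn δ n ≤ (E.card : ℝ) with hB'
  have h := Ker.exit_le (baseKer (triHyp n)) (Finset.univ : Finset (Fin 3)) (G := GoodE δ q κ)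
    (I := fun E => E ⊆ allEdges n ∧ Kap.Win (triHyp n) n (x0n n) (etan δ n) E) B' ?_ ?_
    (kn δ n) (allEdges n) ⟨Finset.Subset.refl _, Iface.win_start (by omega)⟩
  · rw [Fin.sum_univ_three] at h
    have h0 : (baseKer (triHyp n)).hit (B' 0) (GoodE δ q κ) (kn δ n) (allEdges n)
        = (baseKer (triHyp n)).hit (fun E => ¬ Reg E (mE E) (etan δ n)) (GoodE δ q κ) (kn δ n)
          (allEdges n) := by
      congr 1
    have h1 : (baseKer (triHyp n)).hit (B' 1) (GoodE δ q κ) (kn δ n) (allEdges n)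
        = (baseKer (triHyp n)).hit (BadLink δ q κ) (GoodE δ q κ) (kn δ n) (allEdges n) := by
      congr 1
    have h2 : (baseKer (triHyp n)).hit (B' 2) (GoodE δ q κ) (kn δ n) (allEdges n) = 0 := by
      have : B' 2 = fun E : Finset (Sym2 (Fin n)) => ¬ Xn δ n ≤ (E.card : ℝ) := by
        funext E
        simp [hB']
      rw [this]
      apply hit_size (lin3_triHyp n)
      have h3 := (Iface.kn_spec δ hXx).1
      have h4 : ((allEdges n).card : ℝ) = x0n n := rfl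
      rw [h4]
      linarith
    rw [h0, h1, h2, add_zero] at h
    exact h
  · intro E hI hG _ x hx
    refine ⟨(subset_of_mem_supp hx).trans hI.1, ?_⟩
    have hsize := hG.size
    have hle : (E.card : ℝ) ≤ x0n n := Iface.card_le_x0n hI.1
    have hpos := mE_pos hn1 (by linarith) hG.toPreE
    refine Kap.Win.supp (lin3_triHyp n) hx hn0 (by linarith) ?_ (Iface.etan_pos hn1).le hη1
      (mE_ge hn1 (by linarith) hkap hG.toPreE) hle
      (Iface.hreg_of_reg hI.1 hpos hG.reg) hI.2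
    have h5 := hle.trans (Iface.x0n_le n)
    have h6 : (10:ℝ) ≤ n := by exact_mod_cast hn
    nlinarith [sq_nonneg (n:ℝ)]
  · intro E hI hB
    have h0 := hB 0 (Finset.mem_univ _)
    have h1 := hB 1 (Finset.mem_univ _)
    have h2 := hB 2 (Finset.mem_univ _)
    simp only [hB', if_true, not_not] at h0
    have h1' : ¬ BadLink δ q κ E := by simpa [hB'] using h1
    have h2' : Xn δ n ≤ (E.card : ℝ) := by simpa [hB'] using h2
    have hpre : PreE δ E := ⟨hI.1, h2', h0, hI.2⟩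
    refine ⟨hpre, ?_⟩
    by_contra hcon
    exact h1' ⟨hpre, hcon⟩

/-- the bound of `hit_notReg_le` for large `n` -/
theorem eventually_bound {δ c0 Cq : ℝ} {q r : ℕ} (hδ0 : 0 < δ) (hq : q = 2 * r) (hr : 1 ≤ r)
    (hc00 : 0 ≤ c0) (hc0 : c0 ≤ q * δ / 8) (hqδ : 40 ≤ q * δ) (hCq : 0 ≤ Cq) :
    ∀ᶠ n : ℕ in atTop,
      (n : ℝ) ^ 2 * (1 / etan δ n) ^ q * (x0n n / (Xn δ n - 3)) ^ c0
        * (Cq * ((n : ℝ) ^ 3 / 2) ^ r / (3 * q)) / (Xn δ n - 3) ^ q ≤ (n : ℝ) ^ (-(4:ℝ)) := by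
  have hq1 : (0:ℝ) < q := by
    have : 0 < q := by omega
    exact_mod_cast this
  have h4 : Tendsto (fun n : ℕ => (n : ℝ) ^ (4:ℝ)) atTop atTop :=
    (tendsto_rpow_atTop (by norm_num)).comp tendsto_natCast_atTop_atTop
  filter_upwards [h4.eventually_ge_atTop (Cq * 4 ^ q / (3 * q)),
    Iface.eventually_Xn_ge δ hδ0.le 6, eventually_ge_atTop 4] with n hn hX6 hn4
  have hn0 : (0:ℝ) < n := by positivity
  have hn4' : (4:ℝ) ≤ n := by exact_mod_cast hn4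
  have hn1' : (1:ℝ) ≤ n := by linarith
  have hXpos : 0 < Xn δ n := by linarith
  have hX3 : Xn δ n / 2 ≤ Xn δ n - 3 := by linarith
  have hX3pos : 0 < Xn δ n - 3 := by linarith
  -- the factors
  have f1 : (1 / etan δ n) ^ q = (n:ℝ) ^ (q * δ / 8) := by
    unfold etan
    rw [one_div, ← Real.rpow_neg hn0.le, ← Real.rpow_natCast, ← Real.rpow_mul hn0.le]
    congr 1
    ring
  have f2 : (x0n n / (Xn δ n - 3)) ^ c0 ≤ (n:ℝ) ^ (q * δ / 8) := by
    have h1 : x0n n / (Xn δ n - 3) ≤ n := by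
      rw [div_le_iff₀ hX3pos]
      have h2 := Iface.x0n_le n
      have h3 : (n:ℝ) ^ ((3:ℝ)/2) / 2 ≤ Xn δ n := Iface.Xn_ge (by omega) hδ0.le
      have h5 : (n:ℝ) ^ ((3:ℝ)/2) = n * (n:ℝ) ^ ((1:ℝ)/2) := by
        nth_rw 2 [← Real.rpow_one (n:ℝ)]
        rw [← Real.rpow_add hn0]
        norm_num
      have h6 : (2:ℝ) ≤ (n:ℝ) ^ ((1:ℝ)/2) := by
        have : (4:ℝ) ^ ((1:ℝ)/2) ≤ (n:ℝ) ^ ((1:ℝ)/2) :=
          Real.rpow_le_rpow (by norm_num) hn4' (by norm_num)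
        have h7 : (4:ℝ) ^ ((1:ℝ)/2) = 2 := by
          rw [show (4:ℝ) = 2 ^ (2:ℝ) by norm_num, ← Real.rpow_mul (by norm_num)]
          norm_num
        linarith
      have h8 : (n:ℝ) ≤ Xn δ n := by
        rw [h5] at h3
        nlinarith
      nlinarith
    have h0 : 0 ≤ x0n n / (Xn δ n - 3) := div_nonneg (Iface.x0n_nonneg n) hX3pos.le
    calc (x0n n / (Xn δ n - 3)) ^ c0 ≤ (n:ℝ) ^ c0 := Real.rpow_le_rpow h0 h1 hc00
      _ ≤ (n:ℝ) ^ (q * δ / 8) := Real.rpow_le_rpow_of_exponent_le hn1' hc0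
  have f3 : ((n : ℝ) ^ 3 / 2) ^ r ≤ (n:ℝ) ^ (3 * (q:ℝ) / 2) := by
    have h1 : ((n : ℝ) ^ 3 / 2) ^ r ≤ ((n : ℝ) ^ 3) ^ r := by
      apply pow_le_pow_left₀ (by positivity)
      have : (0:ℝ) < (n:ℝ) ^ 3 := by positivity
      linarith
    refine h1.trans (le_of_eq ?_)
    rw [← pow_mul, ← Real.rpow_natCast]
    congr 1
    rw [hq]
    push_cast
    ring
  have f4 : (n:ℝ) ^ ((3 + δ) * q / 2) / 4 ^ q ≤ (Xn δ n - 3) ^ q := by
    have h1 : (Xn δ n / 2) ^ q ≤ (Xn δ n - 3) ^ q := pow_le_pow_left₀ (by positivity) hX3 q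
    refine le_trans (le_of_eq ?_) h1
    have e : ((n:ℝ) ^ ((3 + δ) / 2)) ^ q = (n:ℝ) ^ ((3 + δ) * q / 2) := by
      rw [← Real.rpow_natCast, ← Real.rpow_mul hn0.le]
      congr 1
      ring
    unfold Xn
    rw [div_div, div_pow, e]
    norm_num
  have hη0 : 0 < etan δ n := Iface.etan_pos (by omega)
  rw [f1]
  have hA : (n : ℝ) ^ 2 * (n:ℝ) ^ (q * δ / 8) * (x0n n / (Xn δ n - 3)) ^ c0
        * (Cq * ((n : ℝ) ^ 3 / 2) ^ r / (3 * q))
      ≤ (n : ℝ) ^ 2 * (n:ℝ) ^ (q * δ / 8) * (n:ℝ) ^ (q * δ / 8)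
        * (Cq * (n:ℝ) ^ (3 * (q:ℝ) / 2) / (3 * q)) := by
    apply mul_le_mul
    · exact mul_le_mul_of_nonneg_left f2 (by positivity)
    · apply div_le_div_of_nonneg_right _ (by positivity)
      exact mul_le_mul_of_nonneg_left f3 hCq
    · positivity
    · positivity
  calc (n : ℝ) ^ 2 * (n:ℝ) ^ (q * δ / 8) * (x0n n / (Xn δ n - 3)) ^ c0
        * (Cq * ((n : ℝ) ^ 3 / 2) ^ r / (3 * q)) / (Xn δ n - 3) ^ q
      ≤ ((n : ℝ) ^ 2 * (n:ℝ) ^ (q * δ / 8) * (n:ℝ) ^ (q * δ / 8)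
        * (Cq * (n:ℝ) ^ (3 * (q:ℝ) / 2) / (3 * q))) / ((n:ℝ) ^ ((3 + δ) * q / 2) / 4 ^ q) := by
        apply div_le_div₀ (by positivity) hA (by positivity) f4
    _ = (Cq * 4 ^ q / (3 * q)) * ((n : ℝ) ^ 2 * (n:ℝ) ^ (q * δ / 8) * (n:ℝ) ^ (q * δ / 8)
        * (n:ℝ) ^ (3 * (q:ℝ) / 2) / (n:ℝ) ^ ((3 + δ) * q / 2)) := by
        field_simp
    _ = (Cq * 4 ^ q / (3 * q)) * (n:ℝ) ^ (2 - q * δ / 4) := by
        congr 1
        rw [← Real.rpow_natCast, ← Real.rpow_add hn0, ← Real.rpow_add hn0, ← Real.rpow_add hn0,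
          ← Real.rpow_sub hn0]
        congr 1
        push_cast
        ring
    _ ≤ (n:ℝ) ^ (4:ℝ) * (n:ℝ) ^ (2 - q * δ / 4) :=
        mul_le_mul_of_nonneg_right hn (by positivity)
    _ = (n:ℝ) ^ (4 + (2 - q * δ / 4)) := by rw [← Real.rpow_add hn0]
    _ ≤ (n:ℝ) ^ (-(4:ℝ)) := by
        apply Real.rpow_le_rpow_of_exponent_le hn1'
        linarith

/-- **Stage 1.** For large `n` the process stays in `GoodE` up to step `kn δ n` with probability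
at least `1 - 2 n^{-3}`. -/
theorem stage1 {δ κ Γ c0 Cq : ℝ} {q r : ℕ} (hδ0 : 0 < δ) (hδ1 : δ < 1) (hq : q = 2 * r)
    (hr : 1 ≤ r) (hΓ : 0 ≤ Γ) (hc00 : 0 ≤ c0) (hc0 : c0 ≤ q * δ / 8) (hqδ : 40 ≤ q * δ)
    (hCq : 0 ≤ Cq)
    (hC3 : ∀ᶠ n : ℕ in atTop, ∀ E : Finset (Sym2 (Fin n)), GoodE δ q κ E →
      avT E (fun E' => ZZ q E' + Γ * HH q E')
        ≤ (1 + c0 / E.card) * (ZZ q E + Γ * HH q E) + Cq * (1 / mE E) ^ r / E.card)
    (hlink : ∀ᶠ n : ℕ in atTop,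
      (baseKer (triHyp n)).hit (BadLink δ q κ) (GoodE δ q κ) (kn δ n) (allEdges n)
        ≤ (n : ℝ) ^ (-(3:ℝ))) :
    ∀ᶠ n : ℕ in atTop,
      (baseKer (triHyp n)).hit (fun E => ¬ GoodE δ q κ E) (GoodE δ q κ) (kn δ n) (allEdges n)
        ≤ 2 * (n : ℝ) ^ (-(3:ℝ)) := by
  filter_upwards [hC3, hlink, eventually_bound hδ0 hq hr hc00 hc0 hqδ hCq,
    Iface.eventually_Xn_ge δ hδ0.le 300, Iface.eventually_Xn_le δ hδ1,
    Iface.eventually_etan_le δ hδ0 (c := 1 / 9) (by norm_num),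
    Iface.eventually_kap_le δ hδ0 hδ1, eventually_ge_atTop 10]
    with n h1 h2 h3 h4 h5 h6 h7 h8
  have hn1' : (1:ℝ) ≤ n := by
    have : 1 ≤ n := by omega
    exact_mod_cast this
  have hkap : ∀ x, Xn δ n ≤ x → x ≤ x0n n → Kap.kap n (x0n n) (etan δ n) x ≤ 1 / 2 := by
    intro x hx hx'
    refine (h7 x hx hx').trans ?_
    have : (n:ℝ) ^ (-(δ / 9)) ≤ 1 := Real.rpow_le_one_of_one_le_of_nonpos hn1' (by linarith)
    linarith
  have hs := exit_split (q := q) (κ := κ) h8 h6 h4 (by linarith) hkap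
  have hr' := hit_notReg_le (κ := κ) (Γ := Γ) hq hr (by omega) (by linarith) hΓ hc00 hCq
    (by linarith) (by linarith) hkap (fun E hE => hE) h1 (kn δ n)
  have h9 : (n : ℝ) ^ (-(4:ℝ)) ≤ (n : ℝ) ^ (-(3:ℝ)) :=
    Real.rpow_le_rpow_of_exponent_le hn1' (by norm_num)
  linarith

end Stage1

end Crest.Agent.R030
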