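import Crest.Agent.R030.LW
import Crest.Agent.R030.H3
import Crest.Agent.R030.Stage1Exit
import Crest.Agent.R030.Good2Link
import Crest.Agent.R030.Cavity3
import Crest.Agent.R030.CavParam

/-!
Row 30 (S0040), helper745: the final assembly.
-/

set_option autoImplicit false

open Finset Filter Topology
open Crest.CombinatoricsR.TriangleRemoval

namespace Crest.Agent.R030.Main

open Crest.Agent.R030.LW Crest.Agent.R030.Iface

/-- The sum of the ask-pair errors on good states. -/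
noncomputable def gprs (δ : ℝ) (q : ℕ) (κ : ℝ) (n : ℕ) (Γ : Finset (Sym2 (Fin n))) : ℝ := by
  classical
  exact if GoodE δ q κ Γ then prsS (triHyp n) (MM n) Γ else 0

/-- The two-root error on good states. -/
noncomputable def gcnt (δ : ℝ) (q : ℕ) (κ : ℝ) (n : ℕ) (Γ : Finset (Sym2 (Fin n))) : ℝ := by
  classical
  exact if GoodE δ q κ Γ then cntS (triHyp n) (MM n) Γ else 0

theorem gprs_nonneg (δ : ℝ) (q : ℕ) (κ : ℝ) (n : ℕ) (Γ : Finset (Sym2 (Fin n))) :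
    0 ≤ gprs δ q κ n Γ := by
  unfold gprs
  split_ifs
  · exact prsS_nonneg _ _ _
  · exact le_rfl

theorem gcnt_nonneg (δ : ℝ) (q : ℕ) (κ : ℝ) (n : ℕ) (Γ : Finset (Sym2 (Fin n))) :
    0 ≤ gcnt δ q κ n Γ := by
  unfold gcnt
  split_ifs
  · exact cntS_nonneg _ _ _
  · exact le_rfl

theorem kill_one_le' {n : ℕ} (G : Finset (Sym2 (Fin n)) → Prop) (k : ℕ)
    (A : Finset (Sym2 (Fin n))) : (baseKer (triHyp n)).kill G (fun _ => (1:ℝ)) k A ≤ 1 := by
  refine ((baseKer (triHyp n)).kill_le_E (fun _ => zero_le_one) k A).trans ?_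
  rw [Ker.E_const]

/-- eventually `C n^a ≤ n^b` for `a < b` -/
theorem ev_rpow_le {C a b : ℝ} (hab : a < b) :
    ∀ᶠ n : ℕ in atTop, C * (n : ℝ) ^ a ≤ (n : ℝ) ^ b := by
  have h := (tendsto_rpow_atTop (sub_pos.2 hab)).comp tendsto_natCast_atTop_atTop
  filter_upwards [h.eventually_ge_atTop C, eventually_ge_atTop 1] with n hn h1
  have hn0 : (0:ℝ) < n := by exact_mod_cast h1
  have e : (n : ℝ) ^ b = (n : ℝ) ^ (b - a) * (n : ℝ) ^ a := by
    rw [← Real.rpow_add hn0]; congr 1; ring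
  rw [e]
  exact mul_le_mul_of_nonneg_right hn (Real.rpow_nonneg hn0.le _)

theorem main_of_inputs {δ : ℝ} (hδ0 : 0 < δ) (hδ1 : δ ≤ 1 / 100) {q : ℕ} {κ : ℝ}
    (hreg : ∀ᶠ n : ℕ in atTop,
      (baseKer (triHyp n)).hit (fun E => ¬ Reg E (mE E) (etan δ n)) (GoodE δ q κ) (kn δ n)
        (allEdges n) ≤ (n : ℝ) ^ (-(3:ℝ)))
    (hlink : ∀ᶠ n : ℕ in atTop,
      (baseKer (triHyp n)).hit (BadLink δ q κ) (GoodE δ q κ) (kn δ n) (allEdges n)
        ≤ (n : ℝ) ^ (-(3:ℝ)))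
    (hcav : ∀ᶠ n : ℕ in atTop, ∀ Γ : Finset (Sym2 (Fin n)), GoodE δ q κ Γ →
      (Γ.card : ℝ) < Xn δ n + 3 → ∀ e ∈ Γ,
        0 < rootQ (act (triHyp n) Γ) (MM n) (MM n) e ∧
        |Real.log (rootQ (act (triHyp n) Γ) (MM n) (MM n) e) + 1 / 2 * Real.log (1 + 2 * mE Γ)|
          ≤ (n : ℝ) ^ (-(δ / 12)))
    (hE1 : ∀ᶠ n : ℕ in atTop,
      (baseKer (triHyp n)).kill (GoodE δ q κ) (gprs δ q κ n) (kn δ n) (allEdges n)
        ≤ (n : ℝ) ^ ((7:ℝ) / 5))
    (hE2 : ∀ᶠ n : ℕ in atTop,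
      (baseKer (triHyp n)).kill (GoodE δ q κ) (gcnt δ q κ n) (kn δ n) (allEdges n)
        ≤ (n : ℝ) ^ ((29:ℝ) / 10)) :
    Tendsto (fun n : ℕ =>
      expectFinal
        (fun e : ℕ => ((e : ℝ) / (n : ℝ) ^ ((3 : ℝ) / 2) - 1 / (2 * Real.sqrt 2)) ^ 2)
        (n ^ 2) (allEdges n)) atTop (nhds 0) := by
  have hδ1' : δ < 1 := by linarith
  have hc0 : 0 < δ / 13 := by positivity
  refine tendsto_of_stages (fun n => GoodE δ q κ) (kn δ) Sn
    (fun n Γ => gprs δ q κ n Γ + 1)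
    (fun n Γ => 2 * (Xn δ n + 3) * gprs δ q κ n Γ + gcnt δ q κ n Γ + 1) (δ / 13) hc0
    ?_ ?_ ?_ ?_ ?_ ?_ ?_ ?_ ?_
  · filter_upwards [H3.pre_facts δ hδ0 hδ1'] with n hn A hA
    exact (hn A hA.toPreE).2.2.1
  · exact Eventually.of_forall fun n Γ => by
      have := gprs_nonneg δ q κ n Γ
      linarith
  · filter_upwards [eventually_Xn_ge δ hδ0.le 0] with n hn Γ
    have h1 := gprs_nonneg δ q κ n Γ
    have h2 := gcnt_nonneg δ q κ n Γ
    have : 0 ≤ 2 * (Xn δ n + 3) * gprs δ q κ n Γ := by positivity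
    linarith
  · -- exit probability
    have hpow : ∀ᶠ n : ℕ in atTop, 2 * (n : ℝ) ^ (-(3:ℝ)) ≤ (n : ℝ) ^ (-(1 + δ / 13)) :=
      ev_rpow_le (by linarith)
    filter_upwards [hreg, hlink, hpow, eventually_ge_atTop 10,
      eventually_etan_le δ hδ0 (show (0:ℝ) < 1 / 9 by norm_num),
      eventually_Xn_ge δ hδ0.le 300, eventually_Xn_le δ hδ1', eventually_kap_le δ hδ0 hδ1']
      with n hreg hlink hpow hn hη hX hXx hk
    have hn1 : (1:ℝ) ≤ n := by exact_mod_cast (by omega : 1 ≤ n)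
    refine (Stage1.exit_split hn hη hX (by linarith) ?_).trans ?_
    · intro x h1 h2
      have h3 : (n : ℝ) ^ (-(δ / 9)) ≤ 1 :=
        Real.rpow_le_one_of_one_le_of_nonpos hn1 (by linarith [hδ0])
      exact (hk x h1 h2).trans (by linarith)
    · linarith
  · filter_upwards [eventually_ge_atTop 1] with n hn Γ _ _ hG
    have h1 := h1_tri hn Γ
    have : err1 n Γ = gprs δ q κ n Γ + 1 := by
      unfold err1 gprs
      rw [if_pos hG]
    rw [← this]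
    exact h1
  · filter_upwards [eventually_ge_atTop 1, eventually_Xn_le δ hδ1'] with n hn hX Γ _ hcard hG
    have h2 := h2_tri hn Γ
    refine h2.trans ?_
    have e1 : gprs δ q κ n Γ = prsS (triHyp n) (MM n) Γ := by
      unfold gprs
      rw [if_pos hG]
    have e2 : gcnt δ q κ n Γ = cntS (triHyp n) (MM n) Γ := by
      unfold gcnt
      rw [if_pos hG]
    have hx : (Γ.card : ℝ) ≤ Xn δ n + 3 := by
      have h3 := (kn_spec δ (n := n) (by linarith)).2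
      have h4 : (Γ.card : ℝ) + 3 * kn δ n = x0n n := by
        unfold x0n
        exact_mod_cast hcard
      linarith
    rw [e1, e2]
    unfold err2
    have h5 := prsS_nonneg (triHyp n) (MM n) Γ
    have : 2 * (Γ.card : ℝ) * prsS (triHyp n) (MM n) Γ
        ≤ 2 * (Xn δ n + 3) * prsS (triHyp n) (MM n) Γ := by gcongr
    linarith
  · -- h3
    filter_upwards [H3.h3_pre δ hδ0 hδ1', hcav, eventually_Xn_le δ hδ1'] with n h3 hcav hX Γ _
      hcard hG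
    have hx : (Γ.card : ℝ) < Xn δ n + 3 := by
      have h3 := (kn_spec δ (n := n) (by linarith)).2
      have h4 : (Γ.card : ℝ) + 3 * kn δ n = x0n n := by
        unfold x0n
        exact_mod_cast hcard
      linarith
    exact h3 Γ hG.toPreE (fun e => rootQ (act (triHyp n) Γ) (MM n) (MM n) e)
      (fun e he => (hcav Γ hG hx e he).1) (fun e he => (hcav Γ hG hx e he).2)
  · -- hk1
    have hpow : ∀ᶠ n : ℕ in atTop, 2 * (n : ℝ) ^ ((7:ℝ) / 5) ≤ (n : ℝ) ^ ((3:ℝ) / 2 - δ / 13) :=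
      ev_rpow_le (by linarith)
    filter_upwards [hE1, hpow, eventually_ge_atTop 1] with n hE1 hpow hn
    rw [Ker.kill_add]
    have h1 := kill_one_le' (GoodE δ q κ) (kn δ n) (allEdges n)
    have hn1 : (1:ℝ) ≤ n := by exact_mod_cast hn
    have h2 : (1:ℝ) ≤ (n : ℝ) ^ ((7:ℝ) / 5) := Real.one_le_rpow hn1 (by norm_num)
    linarith
  · -- hk2
    have hpow : ∀ᶠ n : ℕ in atTop, 8 * (n : ℝ) ^ ((299:ℝ) / 100) ≤ (n : ℝ) ^ (3 - δ / 13) :=
      ev_rpow_le (by linarith)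
    filter_upwards [hE1, hE2, hpow, eventually_ge_atTop 1, eventually_Xn_ge δ hδ0.le 3]
      with n hE1 hE2 hpow hn hX
    have hn1 : (1:ℝ) ≤ n := by exact_mod_cast hn
    have hn0 : (0:ℝ) < n := by linarith
    have h1 := kill_one_le' (GoodE δ q κ) (kn δ n) (allEdges n)
    rw [Ker.kill_add, Ker.kill_add, Ker.kill_smul]
    have h2 : (n : ℝ) ^ ((29:ℝ) / 10) ≤ (n : ℝ) ^ ((299:ℝ) / 100) :=
      Real.rpow_le_rpow_of_exponent_le hn1 (by norm_num)
    have h3 : (1:ℝ) ≤ (n : ℝ) ^ ((299:ℝ) / 100) := Real.one_le_rpow hn1 (by norm_num)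
    have h4 : Xn δ n * (n : ℝ) ^ ((7:ℝ) / 5) ≤ (n : ℝ) ^ ((299:ℝ) / 100) := by
      unfold Xn
      have : (n : ℝ) ^ ((3 + δ) / 2) * (n : ℝ) ^ ((7:ℝ) / 5) ≤ (n : ℝ) ^ ((299:ℝ) / 100) := by
        rw [← Real.rpow_add hn0]
        exact Real.rpow_le_rpow_of_exponent_le hn1 (by linarith)
      have h5 : 0 ≤ (n : ℝ) ^ ((3 + δ) / 2) * (n : ℝ) ^ ((7:ℝ) / 5) := by positivity
      calc (n : ℝ) ^ ((3 + δ) / 2) / 2 * (n : ℝ) ^ ((7:ℝ) / 5)
          = (n : ℝ) ^ ((3 + δ) / 2) * (n : ℝ) ^ ((7:ℝ) / 5) / 2 := by ring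
        _ ≤ _ := by linarith
    have h6 : 2 * (Xn δ n + 3) *
        (baseKer (triHyp n)).kill (GoodE δ q κ) (gprs δ q κ n) (kn δ n) (allEdges n)
        ≤ 4 * (n : ℝ) ^ ((299:ℝ) / 100) := by
      calc 2 * (Xn δ n + 3) *
          (baseKer (triHyp n)).kill (GoodE δ q κ) (gprs δ q κ n) (kn δ n) (allEdges n)
          ≤ 2 * (Xn δ n + 3) * (n : ℝ) ^ ((7:ℝ) / 5) :=
            mul_le_mul_of_nonneg_left hE1 (by linarith)
        _ ≤ 2 * (Xn δ n + Xn δ n) * (n : ℝ) ^ ((7:ℝ) / 5) := by gcongr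
        _ = 4 * (Xn δ n * (n : ℝ) ^ ((7:ℝ) / 5)) := by ring
        _ ≤ _ := by linarith
    linarith

end Crest.Agent.R030.Main
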