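import Crest.Agent.R030.ErrCav
import Crest.Agent.R030.ErrAsym
import Crest.Agent.R030.ErrNum
import Crest.Agent.R030.GoodCav
import Crest.Agent.R030.LW
import Crest.Agent.R030.H3
import Crest.Agent.R030.Good2Wrap
import Crest.Agent.R030.DomEv
import Crest.Agent.R030.Main

/-!
Row 30 (S0040), helper953.  The hypotheses `hk₁`, `hk₂` of `Final.tendsto_of_stages`.

`e1n δ q κ n Γ` / `e2n δ q κ n Γ` are helper148's `LW.err1`, `LW.err2`, set to `0` outside the good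
states reached at step `kn δ n`.
-/

set_option autoImplicit false

namespace Crest.Agent.R030.ErrB

open Finset Filter Crest.Agent.R030 Crest.Agent.R030.Prog
open Crest.CombinatoricsR.TriangleRemoval

/-- Good states at the end of Stage 1. -/
def GoodEnd (δ : ℝ) (q : ℕ) (κ : ℝ) (n : ℕ) (Γ : Finset (Sym2 (Fin n))) : Prop :=
  GoodE δ q κ Γ ∧ Γ.card + 3 * kn δ n = (allEdges n).card

open Classical in
/-- `err₁`. -/
noncomputable def e1n (δ : ℝ) (q : ℕ) (κ : ℝ) (n : ℕ) (Γ : Finset (Sym2 (Fin n))) : ℝ :=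
  if GoodEnd δ q κ n Γ then LW.err1 n Γ else 0

open Classical in
/-- `err₂`. -/
noncomputable def e2n (δ : ℝ) (q : ℕ) (κ : ℝ) (n : ℕ) (Γ : Finset (Sym2 (Fin n))) : ℝ :=
  if GoodEnd δ q κ n Γ then LW.err2 n Γ else 0

theorem e1n_nonneg (δ : ℝ) (q : ℕ) (κ : ℝ) (n : ℕ) (Γ : Finset (Sym2 (Fin n))) :
    0 ≤ e1n δ q κ n Γ := by
  unfold e1n; split_ifs
  · exact LW.err1_nonneg n Γ
  · exact le_rfl

theorem e2n_nonneg (δ : ℝ) (q : ℕ) (κ : ℝ) (n : ℕ) (Γ : Finset (Sym2 (Fin n))) :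
    0 ≤ e2n δ q κ n Γ := by
  unfold e2n; split_ifs
  · exact LW.err2_nonneg n Γ
  · exact le_rfl

theorem e1n_of_good {δ : ℝ} {q : ℕ} {κ : ℝ} {n : ℕ} {Γ : Finset (Sym2 (Fin n))}
    (h : GoodE δ q κ Γ) (hc : Γ.card + 3 * kn δ n = (allEdges n).card) :
    e1n δ q κ n Γ = LW.err1 n Γ := if_pos ⟨h, hc⟩

theorem e2n_of_good {δ : ℝ} {q : ℕ} {κ : ℝ} {n : ℕ} {Γ : Finset (Sym2 (Fin n))}
    (h : GoodE δ q κ Γ) (hc : Γ.card + 3 * kn δ n = (allEdges n).card) :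
    e2n δ q κ n Γ = LW.err2 n Γ := if_pos ⟨h, hc⟩

/-- Facts at a good end state. -/
structure EndFacts (δ : ℝ) (n : ℕ) (Γ : Finset (Sym2 (Fin n))) : Prop where
  card_le : (Γ.card : ℝ) ≤ (n : ℝ) ^ ((3 + δ) / 2)
  deg : ∀ v, ((act (triHyp n) Γ).filter (fun T => v ∈ T)).card ≤ DDn δ n
  cav : ∃ (q' : ℕ) (η κ' Γ' κ₀ α θ : ℝ),
    Cavity.CavHyp Γ q' (LW.MM n) (mE Γ) η κ' Γ' κ₀ α θ
  JJ : 32 / 7 * Cavity.JJ (mE Γ) (LW.MM n) (LW.MM n) ≤ Jn δ n
  hyp : ((act (triHyp n) Γ).card : ℝ) ≤ (n : ℝ) ^ ((3 + δ) / 2) * DDn δ n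

theorem endFacts_eventually {δ κ : ℝ} {q : ℕ} (hδ0 : 0 < δ) (hδ1 : δ < 1) (hκ0 : 0 ≤ κ)
    (hκ : κ ≤ 1 / 400400) (hq : 400 / δ ≤ (q : ℝ)) :
    ∀ᶠ n : ℕ in atTop, ∀ Γ : Finset (Sym2 (Fin n)), GoodEnd δ q κ n Γ → EndFacts δ n Γ := by
  filter_upwards [GoodCav.cavHyp_eventually hδ0 hδ1 hκ0 hκ hq, num_facts hδ0 hδ1,
    H3.pre_facts δ hδ0 hδ1, Iface.eventually_Xn_ge δ hδ0.le 300, Iface.eventually_Xn_le δ hδ1,
    Iface.eventually_etan_le δ hδ0 (c := 1 / 10) (by norm_num), eventually_ge_atTop 2]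
    with n hcav hnum hpre hX hX2 hη hn
  intro Γ hΓ
  obtain ⟨hG, hc⟩ := hΓ
  obtain ⟨-, -, -, -, -, hD1, hD2, hD3, hJ0, -, -, -, -, -⟩ := hnum
  have hn1 : 1 ≤ n := by omega
  have hn0 : (0:ℝ) < n := by exact_mod_cast hn1
  have hn1' : (1:ℝ) ≤ n := by exact_mod_cast hn1
  have hX0 : 0 < (n : ℝ) ^ δ := by positivity
  obtain ⟨hm, -, -, hx0, -, hm1, hm2⟩ := hpre Γ hG.toPreE
  obtain ⟨hk1, hk2⟩ := Iface.kn_spec δ (n := n) (by linarith)
  have hcard : (Γ.card : ℝ) = x0n n - 3 * kn δ n := by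
    unfold x0n
    have : ((Γ.card + 3 * kn δ n : ℕ) : ℝ) = ((allEdges n).card : ℝ) := by rw [hc]
    push_cast at this
    linarith
  have hcard3 : (Γ.card : ℝ) ≤ Xn δ n + 3 := by linarith
  have hlam := lamx_le (δ := δ) hn1 hx0.le hX hcard3
  have hlam2 : (n : ℝ) ^ δ ≤ Kap.lamx n Γ.card := Iface.lamx_ge hn1 hG.size
  have hmU : mE Γ ≤ 1.55 * (n : ℝ) ^ δ := by linarith
  have hmL : 3 / 4 * (n : ℝ) ^ δ ≤ mE Γ := by linarith
  have hcard_le : (Γ.card : ℝ) ≤ (n : ℝ) ^ ((3 + δ) / 2) := by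
    have : (n : ℝ) ^ ((3 + δ) / 2) = 2 * Xn δ n := by unfold Xn; ring
    rw [this]; linarith
  have hdeg : ∀ v, ((act (triHyp n) Γ).filter (fun T => v ∈ T)).card ≤ DDn δ n := by
    intro v
    by_cases hv : v ∈ Γ
    · have h1 := Iface.hreg_of_reg hG.sub hm hG.reg v hv
      rw [← mE_eq_mcod] at h1
      have h2 := (abs_le.1 h1).2
      have h3 : etan δ n * mE Γ ≤ 1 / 10 * mE Γ := mul_le_mul_of_nonneg_right hη hm.le
      have h4 : (codeg (triHyp n) Γ v : ℝ) ≤ DDn δ n := by linarith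
      exact_mod_cast h4
    · have : (act (triHyp n) Γ).filter (fun T => v ∈ T) = ∅ := by
        apply Finset.filter_false_of_mem
        intro T hT hvT
        exact hv ((mem_act.1 hT).2 hvT)
      rw [this]; simp
  have hMM : n ^ 2 ≤ LW.MM n := by
    unfold LW.MM; exact Nat.pow_le_pow_right hn1 (by norm_num)
  have hM0 : 0 < LW.MM n := by unfold LW.MM; positivity
  have hMr : ((LW.MM n : ℕ) : ℝ) = (n : ℝ) ^ 20 := by unfold LW.MM; push_cast; rfl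
  refine ⟨hcard_le, hdeg, ⟨q, etan δ n, κ, 1000, 1 / 200, _, _, hcav (LW.MM n) hMM Γ hG hcard3⟩,
    ?_, ?_⟩
  · have h1 := Cavity.JJ_le hm hM0
    rw [hMr] at h1
    unfold Jn
    refine mul_le_mul_of_nonneg_left (h1.trans ?_) (by norm_num)
    refine add_le_add le_rfl ?_
    have h2 : Real.log (1 + 2 * mE Γ) ≤ Real.log (1 + 6 * (n : ℝ) ^ δ) :=
      Real.log_le_log (by positivity) (by linarith)
    have h3 : 0 ≤ Real.log (1 + 6 * (n : ℝ) ^ δ) := Real.log_nonneg (by linarith)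
    exact div_le_div₀ h3 h2 (by positivity) (by linarith)
  · -- number of hyperedges: `3 |act| = |Γ| m`
    have h1 : 3 * ((act (triHyp n) Γ).card : ℝ) = mE Γ * Γ.card := by
      unfold mE; field_simp
    have h2 : mE Γ ≤ DDn δ n := by linarith
    have h3 : mE Γ * Γ.card ≤ DDn δ n * (n : ℝ) ^ ((3 + δ) / 2) :=
      mul_le_mul h2 hcard_le hx0.le (by positivity)
    have h4 : (0 : ℝ) ≤ (act (triHyp n) Γ).card := Nat.cast_nonneg _
    nlinarith

open Classical in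
/-- **Killed expectation of the number of equal asks.** -/
theorem kill_prs_eventually {δ κ : ℝ} {q : ℕ} (hδ0 : 0 < δ) (hδ1 : δ ≤ 1 / 100) (hκ0 : 0 ≤ κ)
    (hκ : κ ≤ 1 / 400400) (hq : 400 / δ ≤ (q : ℝ))
    (hdom : ∀ᶠ n : ℕ in atTop, Dom ((baseKer (triHyp n)).law (GoodE δ q κ) (allEdges n) (kn δ n))
      (Real.exp 1) (pn δ n) (Good2.Dn n)) :
    ∀ᶠ n : ℕ in atTop, (baseKer (triHyp n)).kill (GoodE δ q κ)
      (fun Γ => if GoodEnd δ q κ n Γ then LW.prsS (triHyp n) (LW.MM n) Γ else 0)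
      (kn δ n) (allEdges n) ≤ (n : ℝ) ^ ((7 : ℝ) / 5) := by
  have hδ1' : δ < 1 := by linarith
  filter_upwards [hdom, endFacts_eventually hδ0 hδ1' hκ0 hκ hq, num_facts hδ0 hδ1',
    err_asym hδ0 hδ1 (3 * Real.exp 1) (by positivity), eventually_ge_atTop 2]
    with n hdom hend hnum hasym hn
  have hn1 : 1 ≤ n := by omega
  have hn0 : (0:ℝ) < n := by exact_mod_cast hn1
  have hn1' : (1:ℝ) ≤ n := by exact_mod_cast hn1
  obtain ⟨hp0, hp1, hp2, hY0, hY, hD1, hD2, hD3, hJ0, hJY, hJD, hK0, hF1, hF2⟩ := hnum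
  have : NeZero n := ⟨by omega⟩
  set μ := (baseKer (triHyp n)).law (GoodE δ q κ) (allEdges n) (kn δ n) with hμdef
  have hμ0 : ∀ Γ, 0 ≤ μ Γ := fun Γ => (baseKer (triHyp n)).law_nonneg _ _ _
  have hmass : ∑ Γ, μ Γ ≤ 1 := by
    have h1 := (baseKer (triHyp n)).sum_law (G := GoodE δ q κ) (fun _ => (1 : ℝ)) (allEdges n)
      (kn δ n)
    simp only [mul_one] at h1
    rw [hμdef, h1]
    refine ((baseKer (triHyp n)).kill_le_E (fun _ => zero_le_one) _ _).trans ?_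
    rw [Ker.E_const]
  rw [← (baseKer (triHyp n)).sum_law]
  set K0 : ℕ := Good2.Dn n / 4 with hK0def
  set x : ℝ := (n : ℝ) ^ 2 with hx
  have hx0 : 0 ≤ x := by positivity
  set S0 : ℝ := 3 * Real.exp 1 * (n : ℝ) ^ 2 * pn δ n ^ 2 * Yn δ n ^ 4 with hS0def
  have hS0 : 0 ≤ S0 := by positivity
  have hMM2 : 2 ≤ LW.MM n := by
    unfold LW.MM
    calc 2 ≤ n := hn
      _ = n ^ 1 := (pow_one n).symm
      _ ≤ n ^ 20 := Nat.pow_le_pow_right hn1 (by norm_num)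
  have key := err_core (V := Sym2 (Fin n)) (μ := μ) hμ0 hmass (fun Γ => act (triHyp n) Γ)
    (fun Γ => (lin3_triHyp n).subset (Finset.filter_subset _ _)) (GoodEnd δ q κ n)
    (J := Jn δ n) (Y := Yn δ n) (S0 := S0) (x := x) (D := DDn δ n) (K0 := K0)
    (b := LW.MM n - 1) hJ0 hY0 hS0 hx0 hD1 (by omega)
    (fun Γ hΓ => (hend Γ hΓ).deg)
    (fun Γ _ => by
      have := card_sym2_le_sqF n Γ
      exact this)
    (fun a i j haij => by
      have h1 := PathBridge.sum_RR_le (n := n) (μ := μ) (C := Real.exp 1) (p := pn δ n)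
        (D := Good2.Dn n) (K := Good2.Dn n) hμ0 (Real.exp_pos 1).le hp0 hp1 hdom a i j
        (by omega) (by omega)
      refine h1.trans (le_of_eq ?_)
      rw [hS0def]
      unfold Yn
      rw [pow_add]
      ring)
    (fun Γ e => Prog.prs (rootP (act (triHyp n) Γ) (LW.MM n) (LW.MM n) e))
    (fun Γ hΓ e _ => by
      obtain ⟨q', η, κ', Γ', κ₀, α, θ, hc⟩ := (hend Γ hΓ).cav
      exact prs_cav hc (hend Γ hΓ).JJ e)
  have hfin := hasym (pn δ n) (Jn δ n) (Yn δ n) x (DDn δ n) K0 hp0 (by linarith [Real.rpow_pos_of_pos hn0 δ])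
    hY0 (by linarith [Real.rpow_pos_of_pos hn0 δ]) (Nat.cast_nonneg _)
    (by linarith [Real.rpow_pos_of_pos hn0 δ]) hJ0 hJY hJD hx0 le_rfl hK0
  refine le_trans (le_of_eq ?_) (key.trans (le_trans (le_of_eq ?_) hfin))
  · rfl
  · rw [hS0def]

/-- (hE1) of `Assemble.of_err`. -/
theorem hE1 {δ κ : ℝ} {q : ℕ} (hδ0 : 0 < δ) (hδ1 : δ ≤ 1 / 100) (hκ0 : 0 ≤ κ)
    (hκ : κ ≤ 1 / 400400) (hq : 400 / δ ≤ (q : ℝ)) :
    ∀ᶠ n : ℕ in atTop,
      (baseKer (triHyp n)).kill (GoodE δ q κ) (Main.gprs δ q κ n) (kn δ n) (allEdges n)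
        ≤ (n : ℝ) ^ ((7:ℝ) / 5) := by
  classical
  have hδ1' : δ < 1 := by linarith
  filter_upwards [kill_prs_eventually hδ0 hδ1 hκ0 hκ hq (Good2.dom_eventually hδ0 hδ1' q κ),
    Good2.halive_eventually hδ0 hδ1' q κ] with n h halive
  refine le_trans (le_of_eq ?_) h
  rw [Good2.kill_card (lin3_triHyp n) halive (Main.gprs δ q κ n)]
  congr 1
  funext Γ
  unfold Main.gprs GoodEnd
  by_cases h1 : GoodE δ q κ Γ
  · by_cases h2 : Γ.card + 3 * kn δ n = (allEdges n).card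
    · simp [h1, h2]
    · simp [h2]
  · simp [h1]

/-- (hE2) of `Assemble.of_err`. -/
theorem hE2 {δ κ : ℝ} {q : ℕ} (hδ0 : 0 < δ) (hδ1 : δ ≤ 1 / 100) (hκ0 : 0 ≤ κ)
    (hκ : κ ≤ 1 / 400400) (hq : 400 / δ ≤ (q : ℝ)) :
    ∀ᶠ n : ℕ in atTop,
      (baseKer (triHyp n)).kill (GoodE δ q κ) (Main.gcnt δ q κ n) (kn δ n) (allEdges n)
        ≤ (n : ℝ) ^ ((29:ℝ) / 10) := by
  classical
  have hδ1' : δ < 1 := by linarith
  have hpow : ∀ᶠ n : ℕ in atTop,
      (21 / 10) * (9 * (36 * Real.exp 40)) * (n : ℝ) ^ ((5:ℝ) / 2) ≤ (n : ℝ) ^ ((29:ℝ) / 10) :=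
    Main.ev_rpow_le (by norm_num)
  filter_upwards [endFacts_eventually hδ0 hδ1' hκ0 hκ hq, num_facts hδ0 hδ1',
    Good2.halive_eventually hδ0 hδ1' q κ, hpow, eventually_ge_atTop 2]
    with n hend hnum halive hpow hn
  have hn1 : 1 ≤ n := by omega
  have hn0 : (0:ℝ) < n := by exact_mod_cast hn1
  have hn1' : (1:ℝ) ≤ n := by exact_mod_cast hn1
  obtain ⟨hp0, hp1, hp2, hY0, hY, hD1, hD2, hD3, hJ0, hJY, hJD, hK0, hF1, hF2⟩ := hnum
  have : NeZero n := ⟨by omega⟩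
  rw [Good2.kill_card (lin3_triHyp n) halive (Main.gcnt δ q κ n)]
  have hnn : (0 : ℝ) ≤ (n : ℝ) ^ ((29:ℝ) / 10) := by positivity
  have hpt : ∀ Γ : Finset (Sym2 (Fin n)),
      (if Γ.card + 3 * kn δ n = (allEdges n).card then Main.gcnt δ q κ n Γ else 0)
        ≤ (n : ℝ) ^ ((29:ℝ) / 10) := by
    intro Γ
    by_cases h2 : Γ.card + 3 * kn δ n = (allEdges n).card
    · rw [if_pos h2]
      unfold Main.gcnt
      by_cases h1 : GoodE δ q κ Γ
      · rw [if_pos h1]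
        have hΓ := hend Γ ⟨h1, h2⟩
        obtain ⟨q', η, κ', Γ', κ₀, α, θ, hc⟩ := hΓ.cav
        have hcr := cross_cav hc hΓ.JJ hD1 hΓ.deg
        unfold LW.cntS
        refine hcr.trans (le_trans ?_ hpow)
        set X : ℝ := (n : ℝ) ^ δ with hX
        have hX0 : 0 < X := by positivity
        have hX1 : 1 ≤ X := Real.one_le_rpow hn1' hδ0.le
        have hlog : Real.exp (δ * Real.log n) = X := by
          rw [hX, Real.rpow_def_of_pos hn0, mul_comm]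
        have hDr : (1:ℝ) ≤ DDn δ n := by exact_mod_cast hD1
        -- the exponential
        have e1 : Real.exp (Jn δ n * (2 * (DDn δ n : ℝ))) ≤ X ^ 20 * Real.exp 20 := by
          rw [← hlog, ← Real.exp_nat_mul, ← Real.exp_add]
          apply Real.exp_le_exp.2
          push_cast
          linarith
        have e2 : 1 + 2 * (DDn δ n : ℝ) ≤ 6 * X := by linarith
        have e3 : (3 * ((1 + 2 * (DDn δ n : ℝ)) * Real.exp (Jn δ n * (2 * (DDn δ n : ℝ))))) ^ 2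
            ≤ (3 * ((6 * X) * (X ^ 20 * Real.exp 20))) ^ 2 := by
          refine pow_le_pow_left₀ (by positivity) ?_ 2
          refine mul_le_mul_of_nonneg_left ?_ (by norm_num)
          exact mul_le_mul e2 e1 (Real.exp_pos _).le (by positivity)
        have e4 : (3 * ((6 * X) * (X ^ 20 * Real.exp 20))) ^ 2
            = (9 * (36 * Real.exp 40)) * X ^ 42 := by
          have : Real.exp 40 = Real.exp 20 * Real.exp 20 := by
            rw [← Real.exp_add]; norm_num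
          rw [this]; ring
        have e5 : ((act (triHyp n) Γ).card : ℝ) ≤ (n : ℝ) ^ ((3 + δ) / 2) * (21 / 10 * X) :=
          hΓ.hyp.trans (mul_le_mul_of_nonneg_left hD3 (by positivity))
        have e6 : (n : ℝ) ^ ((3 + δ) / 2) * X ^ 43 ≤ (n : ℝ) ^ ((5:ℝ) / 2) := by
          rw [hX, ← Real.rpow_natCast ((n : ℝ) ^ δ) 43, ← Real.rpow_mul hn0.le,
            ← Real.rpow_add hn0]
          apply Real.rpow_le_rpow_of_exponent_le hn1'
          push_cast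
          linarith
        calc ((act (triHyp n) Γ).card : ℝ) *
            (3 * ((1 + 2 * (DDn δ n : ℝ)) * Real.exp (Jn δ n * (2 * (DDn δ n : ℝ))))) ^ 2
            ≤ ((n : ℝ) ^ ((3 + δ) / 2) * (21 / 10 * X)) *
                ((9 * (36 * Real.exp 40)) * X ^ 42) := by
              refine mul_le_mul e5 (e3.trans (le_of_eq e4)) (by positivity) (by positivity)
          _ = (21 / 10) * (9 * (36 * Real.exp 40)) * ((n : ℝ) ^ ((3 + δ) / 2) * X ^ 43) := by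
              ring
          _ ≤ _ := mul_le_mul_of_nonneg_left e6 (by positivity)
      · rw [if_neg h1]; exact hnn
    · rw [if_neg h2]; exact hnn
  refine ((baseKer (triHyp n)).kill_mono (g := fun _ => (n : ℝ) ^ ((29:ℝ) / 10)) hpt _ _).trans ?_
  refine ((baseKer (triHyp n)).kill_le_E (fun _ => hnn) _ _).trans ?_
  rw [Ker.E_const]

end Crest.Agent.R030.ErrB
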