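import Crest.Agent.R030.Prog

/-!
Row 30 (S0040), helper9.  Exploration programs.

Abstract ports `P`, `tri : P → B`, `ch : P → List P`, labels `Fin M`.
`free tri ch b lst s` : no port of `lst` with label `< s` is accepted, where a port `c` with label `l`
is accepted iff `free (ch c) l`.  (`b ≥ s` is fuel.)
-/

set_option autoImplicit false

namespace Crest.Agent.R030

namespace Prog

variable {B L A P : Type}

/-- Run the programs one after the other until the first `true`; the result is `true` iff all of
them return `false`. -/
def seqP : List (Prog B L Bool) → Prog B L Bool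
  | [] => ret true
  | p :: ps => bind p (fun r => if r then ret false else seqP ps)

/-- Ask all labels of a list. -/
def askL : List B → (List L → Prog B L A) → Prog B L A
  | [], k => k []
  | b :: bs, k => ask b (fun l => askL bs (fun ls => k (l :: ls)))

/-- The list of programs run while sweeping over the levels `0, …, s-1`. -/
def evs {M : ℕ} (s : ℕ) (lst : List P) (ls : List (Fin M)) (q : P → ℕ → Prog B L Bool) :
    List (Prog B L Bool) :=
  (List.range s).flatMap (fun l =>
    ((lst.zip ls).filter (fun c => c.2.val = l)).map (fun c => q c.1 l))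

/-- `free b lst s`: no port of `lst` with label `< s` is accepted. -/
def free {M : ℕ} (tri : P → B) (ch : P → List P) : ℕ → List P → ℕ → Prog B (Fin M) Bool
  | 0, _, _ => ret true
  | b + 1, lst, s =>
      askL (lst.map tri) (fun ls => seqP (evs s lst ls (fun c l => free tri ch b (ch c) l)))

end Prog

/-- The fresh probability that `free b lst s` returns `true`. -/
noncomputable def Fr {P : Type} (M : ℕ) (ch : P → List P) : ℕ → List P → ℕ → ℝ
  | 0, _, _ => 1
  | b + 1, lst, s =>
      (lst.map (fun c => 1 - (M : ℝ)⁻¹ * ∑ l ∈ Finset.range s, Fr M ch b (ch c) l)).prod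

/-! Equation lemmas, generated here once (so that no two importing modules generate them again). -/

namespace EqGen

theorem Fr_def1 {P : Type} (M : ℕ) (ch : P → List P) (lst : List P) (s : ℕ) :
    Fr M ch 0 lst s = 1 := by
  rw [Fr.eq_def]

theorem Fr_one {P : Type} (M : ℕ) (ch : P → List P) (lst : List P) (s : ℕ) :
    Fr M ch 0 lst s = 1 := by
  simp only [Fr]

theorem Fr_two {P : Type} (M : ℕ) (ch : P → List P) (b : ℕ) (lst : List P) (s : ℕ) :
    Fr M ch (b + 1) lst s =
      (lst.map (fun c => 1 - (M : ℝ)⁻¹ * ∑ l ∈ Finset.range s, Fr M ch b (ch c) l)).prod := by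
  simp only [Fr]

theorem Fr_two' {P : Type} (M : ℕ) (ch : P → List P) (b : ℕ) (lst : List P) (s : ℕ) :
    Fr M ch (b + 1) lst s =
      (lst.map (fun c => 1 - (M : ℝ)⁻¹ * ∑ l ∈ Finset.range s, Fr M ch b (ch c) l)).prod := by
  rw [Fr]

open Prog

theorem free_def1 {B P : Type} {M : ℕ} (tri : P → B) (ch : P → List P) (lst : List P) (s : ℕ) :
    (free tri ch 0 lst s : Prog B (Fin M) Bool) = ret true := by
  rw [free.eq_def]

theorem free_one {B P : Type} {M : ℕ} (tri : P → B) (ch : P → List P) (lst : List P) (s : ℕ) :
    (free tri ch 0 lst s : Prog B (Fin M) Bool) = ret true := by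
  simp only [free]

theorem free_two {B P : Type} {M : ℕ} (tri : P → B) (ch : P → List P) (b : ℕ) (lst : List P)
    (s : ℕ) :
    (free tri ch (b + 1) lst s : Prog B (Fin M) Bool) =
      askL (lst.map tri) (fun ls => seqP (evs s lst ls (fun c l => free tri ch b (ch c) l))) := by
  simp only [free]

theorem seqP_def1 {B L : Type} : seqP ([] : List (Prog B L Bool)) = ret true := by
  rw [seqP.eq_def]

theorem seqP_one {B L : Type} : seqP ([] : List (Prog B L Bool)) = ret true := by
  simp only [seqP]

theorem seqP_two {B L : Type} (p : Prog B L Bool) (ps : List (Prog B L Bool)) :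
    seqP (p :: ps) = bind p (fun r => if r then ret false else seqP ps) := by
  simp only [seqP]

theorem askL_def1 {B L A : Type} (k : List L → Prog B L A) : askL ([] : List B) k = k [] := by
  rw [askL.eq_def]

theorem askL_one {B L A : Type} (k : List L → Prog B L A) : askL ([] : List B) k = k [] := by
  simp only [askL]

theorem askL_two {B L A : Type} (b : B) (bs : List B) (k : List L → Prog B L A) :
    askL (b :: bs) k = ask b (fun l => askL bs (fun ls => k (l :: ls))) := by
  simp only [askL]

theorem evs_one {B L P : Type} {M : ℕ} (s : ℕ) (lst : List P) (ls : List (Fin M))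
    (q : P → ℕ → Prog B L Bool) :
    evs s lst ls q = (List.range s).flatMap (fun l =>
      ((lst.zip ls).filter (fun c => c.2.val = l)).map (fun c => q c.1 l)) := by
  rw [evs]

end EqGen

end Crest.Agent.R030
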