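import Crest.Agent.R030.MomentBound
import Crest.Agent.R030.TriOp

/-!
# Row 30: deterministic part of the GOOD2 wrap

* `trace_linkMat_pow`: `tr (linkMat E u ^ N) = tr (linkM E u ^ N)` for `N ≥ 1`.
* `linkLq_of_tr`: from `Reg E m η`, `X ≤ (1+η') m` and `tr (linkM E u ^ 2k) ≤ (1+d) X^{2k}` for all
  `u` to helper656's `LinkLq`.
-/

set_option autoImplicit false

namespace Crest.Agent.R030

namespace Good2

open Finset Matrix
open scoped Classical

/-- Powers of a matrix supported on `S × S`. -/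
lemma submatrix_pow_of_supp {α : Type*} [Fintype α] [DecidableEq α] (A : Matrix α α ℝ)
    (P : α → Prop) (h : ∀ v w, ¬ P w → A v w = 0) (N : ℕ) :
    (A ^ N).submatrix (fun x : {v // P v} => (x : α)) (fun x : {v // P v} => (x : α)) =
      (A.submatrix (fun x : {v // P v} => (x : α)) (fun x : {v // P v} => (x : α))) ^ N := by
  induction N with
  | zero =>
    simp only [pow_zero]
    ext x y
    simp only [submatrix_apply, Matrix.one_apply, Subtype.ext_iff]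
  | succ N ih =>
    rw [pow_succ', pow_succ', ← ih]
    ext x y
    simp only [submatrix_apply, Matrix.mul_apply]
    have h1 : ∑ j : α, A x j * (A ^ N) j y = ∑ j ∈ univ.filter P, A x j * (A ^ N) j y := by
      rw [Finset.sum_filter]
      refine Finset.sum_congr rfl fun j _ => ?_
      split_ifs with hj
      · rfl
      · rw [h _ _ hj, zero_mul]
    rw [h1]
    exact (Finset.sum_subtype (univ.filter P) (p := P) (by simp) (fun j => A x j * (A ^ N) j y))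

variable {n : ℕ}

lemma trace_linkMat_pow (E : Finset (Sym2 (Fin n))) (u : Fin n) {N : ℕ} (hN : N ≠ 0) :
    ((linkMat E u) ^ N).trace = ((linkM E u) ^ N).trace := by
  have hsupp : ∀ v w, ¬ (w ∈ nbr E u) → linkM E u v w = 0 := by
    intro v w hw
    unfold linkM
    rw [if_neg]
    rintro ⟨_, h, _⟩
    exact hw (mem_nbr.2 h)
  have hsub : (linkM E u).submatrix (fun x : {v // v ∈ nbr E u} => (x : Fin n))
      (fun x : {v // v ∈ nbr E u} => (x : Fin n)) = linkMat E u := by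
    ext x y
    simp only [submatrix_apply, linkM, linkMat]
    have hx := mem_nbr.1 x.2
    have hy := mem_nbr.1 y.2
    by_cases h : s((x : Fin n), (y : Fin n)) ∈ E
    · rw [if_pos ⟨hx, hy, h⟩, if_pos h]
    · rw [if_neg (fun hh => h hh.2.2), if_neg h]
  have hpow : ((linkM E u) ^ N).submatrix (fun x : {v // v ∈ nbr E u} => (x : Fin n))
      (fun x : {v // v ∈ nbr E u} => (x : Fin n)) = (linkMat E u) ^ N := by
    have := submatrix_pow_of_supp (linkM E u) (fun w => w ∈ nbr E u) hsupp N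
    rw [hsub] at this
    convert this
  rw [← hpow]
  simp only [trace, diag_apply, submatrix_apply]
  have h0 : ∀ v, ¬ (v ∈ nbr E u) → ((linkM E u) ^ N) v v = 0 := by
    intro v hv
    obtain ⟨M, rfl⟩ := Nat.exists_eq_succ_of_ne_zero hN
    rw [Nat.succ_eq_add_one, pow_succ, Matrix.mul_apply]
    refine Finset.sum_eq_zero fun w _ => ?_
    rw [hsupp _ _ hv, mul_zero]
  have h1 : ∑ v : Fin n, ((linkM E u) ^ N) v v =
      ∑ v ∈ nbr E u, ((linkM E u) ^ N) v v := by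
    symm
    refine Finset.sum_subset (subset_univ _) fun v _ hv => h0 v hv
  rw [h1]
  exact (Finset.sum_subtype (nbr E u) (p := fun v => v ∈ nbr E u) (fun _ => Iff.rfl)
    (fun v => ((linkM E u) ^ N) v v)).symm

lemma linkM_isolated (E : Finset (Sym2 (Fin n))) (u : Fin n) (h : nbr E u = ∅) {N : ℕ}
    (hN : N ≠ 0) : ((linkM E u) ^ N).trace = 0 := by
  rw [← trace_linkMat_pow E u hN]
  have : IsEmpty {w // w ∈ nbr E u} := by
    rw [h]
    exact ⟨fun x => absurd x.2 (notMem_empty _)⟩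
  simp [trace]

/-- From the trace bound in terms of `X` to helper656's hypothesis. -/
theorem trace_le_of_tr (E : Finset (Sym2 (Fin n))) (j : ℕ) {m η η' d X κ₂ : ℝ} (hm : 0 < m)
    (hη1 : η ≤ 1) (hd : 0 ≤ d) (hX0 : 0 ≤ X) (hκ₂ : 0 ≤ κ₂)
    (hreg : Reg E m η) (hX : X ≤ (1 + η') * m)
    (hnum : (1 + d) * (1 + η') ^ (2 * 2 ^ j) ≤ (1 - η) ^ (2 * 2 ^ j) + κ₂ ^ (2 * 2 ^ j))
    (htr : ∀ u, ((linkM E u) ^ (2 * 2 ^ j)).trace ≤ (1 + d) * X ^ (2 * 2 ^ j)) (u : Fin n) :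
    ((linkMat E u) ^ (2 * 2 ^ j)).trace ≤
      ((∑ v ∈ nbr E u, ((cn E u v).card : ℝ)) / ((nbr E u).card : ℝ)) ^ (2 * 2 ^ j)
        + (κ₂ * m) ^ (2 * 2 ^ j) := by
  have hN : (2 * 2 ^ j : ℕ) ≠ 0 := by positivity
  rw [trace_linkMat_pow E u hN]
  rcases (nbr E u).eq_empty_or_nonempty with hemp | hne
  · rw [linkM_isolated E u hemp hN, hemp]
    have : 0 ≤ (κ₂ * m) ^ (2 * 2 ^ j) := by positivity
    simpa using this
  · have hcard : (0:ℝ) < ((nbr E u).card : ℝ) := by exact_mod_cast hne.card_pos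
    have havg : (1 - η) * m ≤
        (∑ v ∈ nbr E u, ((cn E u v).card : ℝ)) / ((nbr E u).card : ℝ) := by
      rw [le_div_iff₀ hcard]
      calc (1 - η) * m * ((nbr E u).card : ℝ) = ∑ _v ∈ nbr E u, (1 - η) * m := by
            rw [sum_const, nsmul_eq_mul]; ring
        _ ≤ ∑ v ∈ nbr E u, ((cn E u v).card : ℝ) := by
            refine sum_le_sum fun v hv => ?_
            have h1 := (abs_le.1 (hreg u v (mem_nbr.1 hv))).1
            have h2 : 1 - η ≤ ((cn E u v).card : ℝ) / m := by linarith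
            rwa [le_div_iff₀ hm] at h2
    have h1 : ((1 - η) * m) ^ (2 * 2 ^ j) ≤
        ((∑ v ∈ nbr E u, ((cn E u v).card : ℝ)) / ((nbr E u).card : ℝ)) ^ (2 * 2 ^ j) :=
      pow_le_pow_left₀ (mul_nonneg (by linarith) hm.le) havg _
    calc ((linkM E u) ^ (2 * 2 ^ j)).trace ≤ (1 + d) * X ^ (2 * 2 ^ j) := htr u
      _ ≤ (1 + d) * ((1 + η') * m) ^ (2 * 2 ^ j) :=
          mul_le_mul_of_nonneg_left (pow_le_pow_left₀ hX0 hX _) (by linarith)
      _ = ((1 + d) * (1 + η') ^ (2 * 2 ^ j)) * m ^ (2 * 2 ^ j) := by rw [mul_pow]; ring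
      _ ≤ ((1 - η) ^ (2 * 2 ^ j) + κ₂ ^ (2 * 2 ^ j)) * m ^ (2 * 2 ^ j) :=
          mul_le_mul_of_nonneg_right hnum (by positivity)
      _ = ((1 - η) * m) ^ (2 * 2 ^ j) + (κ₂ * m) ^ (2 * 2 ^ j) := by
          rw [mul_pow, mul_pow]; ring
      _ ≤ _ := by linarith

/-- **Deterministic GOOD2 wrap.** -/
theorem linkLq_of_tr (E : Finset (Sym2 (Fin n))) (j : ℕ) {m η η' d X κ₂ κ : ℝ} (hm : 0 < m)
    (hη : 0 ≤ η) (hη1 : η ≤ 1) (hd : 0 ≤ d) (hX0 : 0 ≤ X) (hκ₂ : 0 ≤ κ₂)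
    (hreg : Reg E m η) (hX : X ≤ (1 + η') * m)
    (hnum : (1 + d) * (1 + η') ^ (2 * 2 ^ j) ≤ (1 - η) ^ (2 * 2 ^ j) + κ₂ ^ (2 * 2 ^ j))
    (htr : ∀ u, ((linkM E u) ^ (2 * 2 ^ j)).trace ≤ (1 + d) * X ^ (2 * 2 ^ j)) (k : ℕ)
    (hκ : 4 * (k + 3) / (k + 1) * (4 * (1 + η)) ^ (k + 1) * κ₂ ^ 2 ≤ κ ^ (k + 3)) :
    LinkLq (k + 3) E (κ * m) :=
  LinkLq_of_trace j hm hη hκ₂ hreg
    (trace_le_of_tr E j hm hη1 hd hX0 hκ₂ hreg hX hnum htr) k hκ

end Good2

end Crest.Agent.R030
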