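import Crest.Agent.R030.Good2Wrap

/-!
# Row 30: the GOOD2 wrap for large `n`

`good2_eventually`: for all large `n`, the probability that the triangle removal process started
from `K_n` reaches, before `n p² < n^δ`, a state satisfying `Good1` (as all earlier states) but not
`LinkLq` is at most `n^{-A}`.
-/

set_option autoImplicit false

namespace Crest.Agent.R030

namespace Good2

open Finset Matrix Filter
open scoped Classical
open Crest.CombinatoricsR.TriangleRemoval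

lemma eventually_log_pow_le (a : ℕ) {c r : ℝ} (hc : 0 < c) (hr : 0 < r) :
    ∀ᶠ n : ℕ in atTop, (Real.log n) ^ a ≤ c * (n : ℝ) ^ r := by
  have h1 : (fun x : ℝ => Real.log x ^ ((a : ℕ) : ℝ)) =o[atTop] fun x => x ^ r :=
    isLittleO_log_rpow_rpow_atTop _ hr
  have h2 := h1.comp_tendsto tendsto_natCast_atTop_atTop
  filter_upwards [h2.bound hc, eventually_ge_atTop 1] with n hn hn1
  simp only [Function.comp] at hn
  have hL : (0:ℝ) ≤ Real.log n := Real.log_natCast_nonneg n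
  rw [Real.rpow_natCast, Real.norm_of_nonneg (by positivity),
    Real.norm_of_nonneg (by positivity)] at hn
  exact hn

lemma card_allEdges_eq (n : ℕ) : (allEdges n).card = n.choose 2 := by
  have := Sym2.card_subtype_not_diag (α := Fin n)
  rw [Fintype.card_fin] at this
  rw [← this, allEdges, Fintype.card_subtype]

lemma card_allEdges_ge {n : ℕ} (hn : 2 ≤ n) : (n : ℝ) ^ 2 / 4 ≤ ((allEdges n).card : ℝ) := by
  rw [card_allEdges_eq, Nat.cast_choose_two]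
  have : (2:ℝ) ≤ n := by exact_mod_cast hn
  nlinarith

lemma card_allEdges_le' (n : ℕ) : ((allEdges n).card : ℝ) ≤ (n : ℝ) ^ 2 := by
  have := card_allEdges_le n
  exact_mod_cast this

/-- **GOOD2 wrap for large `n`.** -/
theorem good2_eventually {δ c : ℝ} (hδ : 0 < δ) (hc : 0 < c) (k : ℕ) {κ' : ℝ} (hκ' : 0 < κ')
    (η η' : ℕ → ℝ) (hη0 : ∀ᶠ n in atTop, 0 ≤ η n) (hηc : ∀ᶠ n in atTop, η n ≤ (n : ℝ) ^ (-c))
    (hη'0 : ∀ᶠ n in atTop, 0 ≤ η' n) (hη' : Tendsto η' atTop (nhds 0)) (A : ℝ) :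
    ∀ᶠ n : ℕ in atTop, ∀ Good1 : Finset (Sym2 (Fin n)) → Prop,
      (∀ E, Good1 E → LowGood (triHyp n) (η n) (1 / (n : ℝ) ^ 3) E) →
      (∀ E, Good1 E → 0 < mcod (triHyp n) E) →
      (∀ E, Good1 E → Reg E (mcod (triHyp n) E) (η n)) →
      (∀ E, Good1 E → n * ((E.card : ℝ) / ((allEdges n).card : ℝ)) ^ 2 ≤
        (1 + η' n) * mcod (triHyp n) E) →
      ∀ K : ℕ, 3 * K < (allEdges n).card →
      (n : ℝ) ^ δ ≤ n * ((((allEdges n).card : ℝ) - 3 * K) / ((allEdges n).card : ℝ)) ^ 2 →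
      (baseKer (triHyp n)).hit
        (fun E => Good1 E ∧ ¬ LinkLq (k + 3) E (κ' * mcod (triHyp n) E)) Good1 K (allEdges n) ≤
        (n : ℝ) ^ (-A) := by
  -- constants
  obtain ⟨j, hj⟩ : ∃ j : ℕ, 2 ≤ (2:ℝ) ^ j * δ := by
    obtain ⟨j, hj⟩ := pow_unbounded_of_one_lt (2 / δ) (one_lt_two)
    refine ⟨j, ?_⟩
    rw [div_lt_iff₀ hδ] at hj
    linarith
  have hk0 : (0:ℝ) ≤ k := by positivity
  set κ₂ : ℝ := Real.sqrt (κ' ^ (k + 3) / (4 * (k + 3) / (k + 1) * 8 ^ (k + 1))) with hκ₂def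
  have hden : (0:ℝ) < 4 * (k + 3) / (k + 1) * 8 ^ (k + 1) := by positivity
  have hκ₂sq : κ₂ ^ 2 = κ' ^ (k + 3) / (4 * (k + 3) / (k + 1) * 8 ^ (k + 1)) :=
    Real.sq_sqrt (by positivity)
  have hκ₂ : 0 < κ₂ := Real.sqrt_pos.2 (by positivity)
  set d : ℝ := κ₂ ^ (2 * 2 ^ j) / 2 with hd
  have hd0 : 0 < d := by positivity
  -- eventual facts
  have hη1 : Tendsto (fun n : ℕ => (n : ℝ) ^ (-c)) atTop (nhds 0) :=
    (tendsto_rpow_neg_atTop hc).comp tendsto_natCast_atTop_atTop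
  have E1 := trace_tail_eventually hδ j hj hd0 (A + 5) (Real.exp 1) (Real.exp_pos 1).le
  have E2 : ∀ᶠ n : ℕ in atTop, (n : ℝ) ^ (-c) ≤ 1 := by
    filter_upwards [hη1.eventually_le_const one_pos] with n hn using hn
  have E3 : ∀ᶠ n : ℕ in atTop,
      (1 + d) * (1 + η' n) ^ (2 * 2 ^ j) <
        (1 - (n : ℝ) ^ (-c)) ^ (2 * 2 ^ j) + κ₂ ^ (2 * 2 ^ j) := by
    have t1 : Tendsto (fun n : ℕ => (1 + d) * (1 + η' n) ^ (2 * 2 ^ j)) atTop
        (nhds ((1 + d) * (1 + 0) ^ (2 * 2 ^ j))) :=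
      ((hη'.const_add 1).pow _).const_mul _
    have t2 : Tendsto (fun n : ℕ => (1 - (n : ℝ) ^ (-c)) ^ (2 * 2 ^ j) + κ₂ ^ (2 * 2 ^ j)) atTop
        (nhds ((1 - 0) ^ (2 * 2 ^ j) + κ₂ ^ (2 * 2 ^ j))) :=
      ((hη1.const_sub 1).pow _).add_const _
    refine t1.eventually_lt t2 ?_
    rw [add_zero, sub_zero, one_pow, mul_one]
    have : 0 < κ₂ ^ (2 * 2 ^ j) := by positivity
    linarith
  have E4 := eventually_log_pow_le 3 (c := 1 / 6) (r := c) (by norm_num) hc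
  have E5 := eventually_log_pow_le 2 (c := 1 / 36) (r := 1) (by norm_num) one_pos
  have E6 := eventually_log_pow_le 4 (c := 1 / 12) (r := δ) (by norm_num) hδ
  filter_upwards [hη0, hηc, hη'0, E1, E2, E3, E4, E5, E6, eventually_ge_atTop 2] with
    n h0 h1 h2 e1 e2 e3 e4 e5 e6 hn2
  intro Good1 hlow hpos hreg hX K hK hKδ
  have hn1 : (1:ℝ) ≤ n := by exact_mod_cast (by omega : 1 ≤ n)
  have hn0 : (0:ℝ) < n := by linarith
  set N : ℝ := ((allEdges n).card : ℝ) with hN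
  have hNge := card_allEdges_ge hn2
  have hNle := card_allEdges_le' n
  rw [← hN] at hNge hNle
  have hN0 : 0 < N := lt_of_lt_of_le (by positivity) hNge
  have hL0 : 0 ≤ Real.log n := Real.log_nonneg hn1
  have hD : (Dn n : ℝ) ≤ (Real.log n) ^ 2 := Nat.floor_le (by positivity)
  have hD0 : (0:ℝ) ≤ Dn n := by positivity
  -- the final size
  set y : ℝ := N - 3 * K with hy
  have hy0 : 0 < y := by
    have : ((3 * K : ℕ) : ℝ) < ((allEdges n).card : ℝ) := by exact_mod_cast hK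
    push_cast at this
    rw [hy]; linarith
  have hy2 : (n:ℝ) ^ 3 * (n:ℝ) ^ δ / 16 ≤ y ^ 2 := by
    have h3 : (n:ℝ) ^ δ * N ^ 2 ≤ n * y ^ 2 := by
      rw [div_pow] at hKδ
      have := mul_le_mul_of_nonneg_right hKδ (sq_nonneg N)
      calc (n:ℝ) ^ δ * N ^ 2 ≤ n * (y ^ 2 / N ^ 2) * N ^ 2 := this
        _ = n * y ^ 2 := by field_simp
    have h4 : (n:ℝ) ^ 4 / 16 ≤ N ^ 2 := by
      have : ((n:ℝ) ^ 2 / 4) ^ 2 ≤ N ^ 2 := pow_le_pow_left₀ (by positivity) hNge 2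
      calc (n:ℝ) ^ 4 / 16 = ((n:ℝ) ^ 2 / 4) ^ 2 := by ring
        _ ≤ N ^ 2 := this
    have h5 : (n:ℝ) ^ δ * ((n:ℝ) ^ 4 / 16) ≤ n * y ^ 2 :=
      (mul_le_mul_of_nonneg_left h4 (by positivity)).trans h3
    have h6 : n * ((n:ℝ) ^ 3 * (n:ℝ) ^ δ / 16) ≤ n * y ^ 2 := by
      calc n * ((n:ℝ) ^ 3 * (n:ℝ) ^ δ / 16) = (n:ℝ) ^ δ * ((n:ℝ) ^ 4 / 16) := by ring
        _ ≤ _ := h5
    exact le_of_mul_le_mul_left h6 hn0
  have hyn : (n:ℝ) / 4 ≤ y := by
    have h3 : ((n:ℝ) / 4) ^ 2 ≤ y ^ 2 := by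
      refine le_trans ?_ hy2
      have h4 : 1 ≤ (n:ℝ) ^ δ := Real.one_le_rpow hn1 hδ.le
      have h5 : (n:ℝ) ^ 2 ≤ (n:ℝ) ^ 3 := pow_le_pow_right₀ hn1 (by norm_num)
      have h6 : (n:ℝ) ^ 3 * 1 ≤ (n:ℝ) ^ 3 * (n:ℝ) ^ δ :=
        mul_le_mul_of_nonneg_left h4 (by positivity)
      calc ((n:ℝ) / 4) ^ 2 = (n:ℝ) ^ 2 / 16 := by ring
        _ ≤ _ := by linarith
    exact le_of_sq_le_sq h3 hy0.le
  -- monotonicity in i
  have hyi : ∀ i ≤ K, y ≤ N - 3 * i := by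
    intro i hi
    have : (i:ℝ) ≤ K := by exact_mod_cast hi
    rw [hy]; linarith
  have hwrap := good2_wrap (n := n) (k := k) (j := j) (D := Dn n) (K := K) (η := η n)
    (κ := 1 / (n:ℝ) ^ 3) (η' := η' n) (d := d) (κ₂ := κ₂) (κ' := κ') (C := Real.exp 1)
    (ε := (n:ℝ) ^ (-(A + 5))) h0 (h1.trans e2) hd0.le (by positivity) hκ₂.le Good1 hlow hpos
    hreg hX ?_ ?_ hK ?_ ?_
  · refine hwrap.trans ?_
    have hK1 : (K:ℝ) + 1 ≤ (n:ℝ) ^ 2 := by
      have : K + 1 ≤ (allEdges n).card := by omega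
      have : (K:ℝ) + 1 ≤ N := by rw [hN]; exact_mod_cast this
      linarith
    have hpos' : 0 ≤ (n:ℝ) ^ (-(A+5)) := by positivity
    calc ((K:ℝ) + 1) * (n * (n:ℝ) ^ (-(A + 5))) ≤ (n:ℝ) ^ 2 * (n * (n:ℝ) ^ (-(A + 5))) :=
          mul_le_mul_of_nonneg_right hK1 (by positivity)
      _ = (n:ℝ) ^ (3:ℝ) * (n:ℝ) ^ (-(A + 5)) := by
          rw [show (3:ℝ) = ((3:ℕ):ℝ) by norm_num, Real.rpow_natCast]; ring
      _ = (n:ℝ) ^ (3 + -(A + 5)) := by rw [← Real.rpow_add hn0]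
      _ ≤ (n:ℝ) ^ (-A) := Real.rpow_le_rpow_of_exponent_le hn1 (by linarith)
  · -- numeric 1
    refine le_trans e3.le ?_
    have : (1 - (n:ℝ) ^ (-c)) ^ (2 * 2 ^ j) ≤ (1 - η n) ^ (2 * 2 ^ j) :=
      pow_le_pow_left₀ (by linarith) (by linarith) _
    linarith
  · -- numeric 2
    have h4 : (4 * (1 + η n)) ^ (k + 1) ≤ 8 ^ (k + 1) :=
      pow_le_pow_left₀ (by positivity) (by linarith [h1.trans e2]) _
    calc 4 * ((k:ℝ) + 3) / (k + 1) * (4 * (1 + η n)) ^ (k + 1) * κ₂ ^ 2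
        ≤ 4 * ((k:ℝ) + 3) / (k + 1) * 8 ^ (k + 1) * κ₂ ^ 2 := by
          refine mul_le_mul_of_nonneg_right ?_ (by positivity)
          exact mul_le_mul_of_nonneg_left h4 (by positivity)
      _ = κ' ^ (k + 3) := by
          rw [hκ₂sq]; field_simp
  · -- domination constant
    intro i hi
    refine Real.exp_le_exp.2 ?_
    have hyi' := hyi i hi
    have hyi0 : 0 < N - 3 * i := by linarith
    have a1 : (Dn n : ℝ) * η n * Real.log (N / (N - 3 * i)) ≤ 1 / 3 := by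
      have hlog : Real.log (N / (N - 3 * i)) ≤ 2 * Real.log n := by
        have h1y : 1 ≤ N - 3 * i := by
          have h3i : 3 * i + 1 ≤ (allEdges n).card := by omega
          have : ((3 * i + 1 : ℕ) : ℝ) ≤ N := by rw [hN]; exact_mod_cast h3i
          push_cast at this
          linarith
        have h4 : N / (N - 3 * i) ≤ (n:ℝ) ^ 2 := by
          rw [div_le_iff₀ hyi0]
          calc N ≤ (n:ℝ) ^ 2 * 1 := by linarith
            _ ≤ (n:ℝ) ^ 2 * (N - 3 * i) := mul_le_mul_of_nonneg_left h1y (by positivity)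
        calc Real.log (N / (N - 3 * i)) ≤ Real.log ((n:ℝ) ^ 2) :=
              Real.log_le_log (by positivity) h4
          _ = 2 * Real.log n := by rw [Real.log_pow]; push_cast; ring
      have hnc : (0:ℝ) < (n:ℝ) ^ c := by positivity
      have hmulc : (n:ℝ) ^ (-c) * (n:ℝ) ^ c = 1 := by
        rw [← Real.rpow_add hn0]; simp
      calc (Dn n : ℝ) * η n * Real.log (N / (N - 3 * i))
          ≤ (Dn n : ℝ) * η n * (2 * Real.log n) :=
            mul_le_mul_of_nonneg_left hlog (by positivity)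
        _ ≤ (Real.log n) ^ 2 * (n:ℝ) ^ (-c) * (2 * Real.log n) := by
            refine mul_le_mul_of_nonneg_right ?_ (by positivity)
            exact mul_le_mul hD h1 h0 (by positivity)
        _ = 2 * (Real.log n) ^ 3 * (n:ℝ) ^ (-c) := by ring
        _ ≤ 2 * (1 / 6 * (n:ℝ) ^ c) * (n:ℝ) ^ (-c) := by
            refine mul_le_mul_of_nonneg_right ?_ (by positivity)
            linarith
        _ = 1 / 3 * ((n:ℝ) ^ (-c) * (n:ℝ) ^ c) := by ring
        _ = 1 / 3 := by rw [hmulc]; ring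
    have a2 : 3 * (Dn n : ℝ) / (N - 3 * i) ≤ 1 / 3 := by
      rw [div_le_iff₀ hyi0]
      rw [Real.rpow_one] at e5
      nlinarith
    have a3 : (Dn n : ℝ) ^ 2 / (4 * (1 / (n:ℝ) ^ 3) * (N - 3 * i) ^ 2) ≤ 1 / 3 := by
      have hyy : y ^ 2 ≤ (N - 3 * i) ^ 2 := pow_le_pow_left₀ hy0.le hyi' 2
      rw [div_le_iff₀ (by positivity)]
      have h4 : (n:ℝ) ^ δ / 4 ≤ 4 * (1 / (n:ℝ) ^ 3) * (N - 3 * i) ^ 2 := by
        calc (n:ℝ) ^ δ / 4 = 4 * (1 / (n:ℝ) ^ 3) * ((n:ℝ) ^ 3 * (n:ℝ) ^ δ / 16) := by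
              field_simp; ring
          _ ≤ 4 * (1 / (n:ℝ) ^ 3) * (N - 3 * i) ^ 2 :=
              mul_le_mul_of_nonneg_left (hy2.trans hyy) (by positivity)
      have h5 : (Dn n : ℝ) ^ 2 ≤ (Real.log n) ^ 4 := by
        calc (Dn n : ℝ) ^ 2 ≤ ((Real.log n) ^ 2) ^ 2 := pow_le_pow_left₀ hD0 hD 2
          _ = _ := by ring
      linarith
    linarith
  · -- tails
    intro i hi μ hμ0 hprop hdom u
    have hyi' := hyi i hi
    refine e1 ((N - 3 * i) / N) (div_nonneg (by linarith) hN0.le) ?_ ?_ μ hμ0 hprop hdom u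
    · rw [div_le_one hN0]
      have : (0:ℝ) ≤ 3 * i := by positivity
      linarith
    · refine hKδ.trans ?_
      refine mul_le_mul_of_nonneg_left ?_ hn0.le
      refine pow_le_pow_left₀ (div_nonneg hy0.le hN0.le) ?_ 2
      exact div_le_div_of_nonneg_right hyi' hN0.le

end Good2

end Crest.Agent.R030
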