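import Crest.Agent.R030.VDefs
import Crest.Agent.R030.Domin

/-!
Row 30 (S0040), part (C): combinatorics of one step of the triangle removal process in terms of
codegrees (helper725).  Everything is in the namespace `Crest.Agent.R030.HD`.
-/

set_option autoImplicit false

namespace Crest.Agent.R030.HD

open Finset Crest.CombinatoricsR.TriangleRemoval

variable {n : ℕ}

/-! ### Triangles -/

theorem ne_of_mem {E : Finset (Sym2 (Fin n))} (hE : ∀ e ∈ E, ¬ e.IsDiag) {u v : Fin n}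
    (h : s(u, v) ∈ E) : u ≠ v := by
  have := hE _ h
  simpa using this

theorem edgesOf_mem_act {E : Finset (Sym2 (Fin n))} (hE : ∀ e ∈ E, ¬ e.IsDiag) {u v w : Fin n}
    (huv : s(u, v) ∈ E) (huw : s(u, w) ∈ E) (hvw : s(v, w) ∈ E) :
    edgesOf ({u, v, w} : Finset (Fin n)) ∈ act (triHyp n) E := by
  have h1 := ne_of_mem hE huv
  have h2 := ne_of_mem hE huw
  have h3 := ne_of_mem hE hvw
  rw [mem_act_triHyp]
  refine ⟨{u, v, w}, ?_, rfl⟩
  rw [mem_triangles]
  refine ⟨Finset.card_eq_three.2 ⟨u, v, w, h1, h2, h3, rfl⟩, ?_⟩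
  rw [edgesOf_explicit h1 h2 h3]
  intro e he
  simp only [mem_insert, mem_singleton] at he
  rcases he with rfl | rfl | rfl <;> assumption

theorem codeg_eq_cn {E : Finset (Sym2 (Fin n))} (hE : ∀ e ∈ E, ¬ e.IsDiag) {u v : Fin n}
    (huv : s(u, v) ∈ E) : codeg (triHyp n) E s(u, v) = (cn E u v).card := by
  have h1 := ne_of_mem hE huv
  unfold codeg
  symm
  refine Finset.card_bij (fun w _ => edgesOf ({u, v, w} : Finset (Fin n))) ?_ ?_ ?_
  · intro w hw
    rw [mem_cn] at hw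
    rw [mem_filter]
    refine ⟨edgesOf_mem_act hE huv hw.1 hw.2, ?_⟩
    rw [mk_mem_edgesOf]
    simp [h1]
  · intro w hw w' hw' h
    rw [mem_cn] at hw hw'
    have a1 := ne_of_mem hE hw.1
    have a2 := ne_of_mem hE hw.2
    have a3 := ne_of_mem hE hw'.1
    have a4 := ne_of_mem hE hw'.2
    have c1 : ({u, v, w} : Finset (Fin n)).card = 3 :=
      Finset.card_eq_three.2 ⟨u, v, w, h1, a1, a2, rfl⟩
    have c2 : ({u, v, w'} : Finset (Fin n)).card = 3 :=
      Finset.card_eq_three.2 ⟨u, v, w', h1, a3, a4, rfl⟩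
    have h5 := edgesOf_injOn c1 c2 h
    have h6 : w ∈ ({u, v, w'} : Finset (Fin n)) := by rw [← h5]; simp
    simp only [mem_insert, mem_singleton] at h6
    rcases h6 with h6 | h6 | h6
    · exact absurd h6.symm a1
    · exact absurd h6.symm a2
    · exact h6
  · intro T hT
    rw [mem_filter, mem_act_triHyp] at hT
    obtain ⟨⟨t, ht, rfl⟩, huvT⟩ := hT
    rw [mem_triangles] at ht
    rw [mk_mem_edgesOf] at huvT
    have hcard : (t \ {u, v}).card = 1 := by
      rw [Finset.card_sdiff_of_subset, ht.1, Finset.card_pair h1]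
      intro x hx
      simp only [mem_insert, mem_singleton] at hx
      rcases hx with rfl | rfl
      · exact huvT.1
      · exact huvT.2.1
    obtain ⟨w, hw⟩ := Finset.card_eq_one.1 hcard
    have hwt : w ∈ t \ {u, v} := by rw [hw]; simp
    simp only [mem_sdiff, mem_insert, mem_singleton, not_or] at hwt
    have hsub : ({u, v, w} : Finset (Fin n)) ⊆ t := by
      intro x hx
      simp only [mem_insert, mem_singleton] at hx
      rcases hx with rfl | rfl | rfl
      · exact huvT.1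
      · exact huvT.2.1
      · exact hwt.1
    have hc3 : ({u, v, w} : Finset (Fin n)).card = 3 :=
      Finset.card_eq_three.2 ⟨u, v, w, h1, fun h => hwt.2.1 h.symm, fun h => hwt.2.2 h.symm, rfl⟩
    have hteq : ({u, v, w} : Finset (Fin n)) = t :=
      Finset.eq_of_subset_of_card_le hsub (by rw [hc3, ht.1])
    refine ⟨w, ?_, by rw [hteq]⟩
    rw [mem_cn]
    refine ⟨ht.2 (mk_mem_edgesOf.2 ⟨huvT.1, hwt.1, fun h => hwt.2.1 h.symm⟩),
      ht.2 (mk_mem_edgesOf.2 ⟨huvT.2.1, hwt.1, fun h => hwt.2.2 h.symm⟩)⟩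

/-- The number of active hyperedges meeting an active one. -/
theorem card_meet {V : Type*} [DecidableEq V] {H : Finset (Finset V)} (hH : Lin3 H) {A τ : Finset V}
    (hτ : τ ∈ act H A) :
    ((act H A).filter (fun T => ¬ Disjoint T τ)).card + 2 = ∑ e ∈ τ, codeg H A e := by
  rw [sum_codeg_eq]
  have hcard : τ.card = 3 := hH.card3 τ (mem_act.1 hτ).1
  have h1 : ∀ T ∈ act H A, (T ∩ τ).card =
      (if ¬ Disjoint T τ then 1 else 0) + (if T = τ then 2 else 0) := by
    intro T hT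
    by_cases h : T = τ
    · subst h
      have hne : T.Nonempty := by
        rw [← Finset.card_pos]; omega
      have : ¬ Disjoint T T := by
        rw [Finset.disjoint_self_iff_empty]
        exact hne.ne_empty
      rw [if_pos this]
      simp [hcard]
    · simp only [h, if_false, add_zero]
      by_cases hd : Disjoint T τ
      · have : (T ∩ τ).card = 0 := by
          rw [Finset.card_eq_zero, ← Finset.disjoint_iff_inter_eq_empty]; exact hd
        simp [hd, this]
      · simp only [hd, not_false_eq_true, if_true]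
        apply le_antisymm
        · rw [Finset.card_le_one]
          intro a ha b hb
          by_contra hab
          rw [mem_inter] at ha hb
          exact h (hH.lin T (mem_act.1 hT).1 τ (mem_act.1 hτ).1 a b hab ha.1 hb.1 ha.2 hb.2)
        · rw [Nat.succ_le_iff, Finset.card_pos]
          exact Finset.not_disjoint_iff_nonempty_inter.1 hd
  rw [Finset.sum_congr rfl h1, Finset.sum_add_distrib, Finset.sum_ite_eq' (act H A) τ, if_pos hτ,
    Finset.card_filter]

theorem card_act_sdiff {V : Type*} [DecidableEq V] {H : Finset (Finset V)} (hH : Lin3 H)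
    {A T : Finset V} (hT : T ∈ act H A) :
    ((act H (A \ T)).card : ℝ) = ((act H A).card : ℝ) - ∑ e ∈ T, (codeg H A e : ℝ) + 2 := by
  rw [act_sdiff]
  have h1 := Finset.card_filter_add_card_filter_not (s := act H A) (fun T' => Disjoint T' T)
  have h2 := card_meet hH hT
  have h3 : ((((act H A).filter (fun T' => Disjoint T' T)).card : ℕ) : ℝ) +
      ((act H A).filter (fun T' => ¬ Disjoint T' T)).card = ((act H A).card : ℝ) := by
    exact_mod_cast h1
  have h4 : (((act H A).filter (fun T' => ¬ Disjoint T' T)).card : ℝ) + 2 =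
      ∑ e ∈ T, (codeg H A e : ℝ) := by
    exact_mod_cast h2
  linarith

/-- Summing an edge function over all active triangles. -/
theorem sum_act_sum {V : Type*} [DecidableEq V] {H : Finset (Finset V)} (A : Finset V)
    (f : V → ℝ) :
    ∑ T ∈ act H A, ∑ e ∈ T, f e = ∑ e ∈ A, (codeg H A e : ℝ) * f e := by
  have h1 : ∀ T ∈ act H A, ∑ e ∈ T, f e = ∑ e ∈ A, if e ∈ T then f e else 0 := by
    intro T hT
    rw [← Finset.sum_filter]
    apply Finset.sum_congr _ (fun _ _ => rfl)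
    ext e
    simp only [mem_filter]
    exact ⟨fun h => ⟨(mem_act.1 hT).2 h, h⟩, fun h => h.2⟩
  rw [Finset.sum_congr rfl h1, Finset.sum_comm]
  apply Finset.sum_congr rfl
  intro e _
  rw [← Finset.sum_filter, Finset.sum_const, nsmul_eq_mul]
  rfl

theorem sum_codeg {V : Type*} [DecidableEq V] {H : Finset (Finset V)} (hH : Lin3 H) (A : Finset V) :
    ∑ e ∈ A, (codeg H A e : ℝ) = 3 * ((act H A).card : ℝ) := by
  have := sum_act_sum (H := H) A (fun _ => (1:ℝ))
  simp only [mul_one] at this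
  rw [← this]
  have h1 : ∀ T ∈ act H A, ∑ _e ∈ T, (1:ℝ) = 3 := by
    intro T hT
    rw [sum_const, hH.card3 T (mem_act.1 hT).1]
    norm_num
  rw [sum_congr rfl h1, sum_const, nsmul_eq_mul]
  ring

/-! ### Neighbourhoods after a step -/

variable {E : Finset (Sym2 (Fin n))} {T : Finset (Sym2 (Fin n))}

theorem nbr_sdiff (u : Fin n) : nbr (E \ T) u = (nbr E u).filter (fun w => s(u, w) ∉ T) := by
  ext w
  simp [nbr]

theorem cn_sdiff (u v : Fin n) :
    cn (E \ T) u v = (cn E u v).filter (fun w => s(u, w) ∉ T ∧ s(v, w) ∉ T) := by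
  ext w
  simp only [mem_cn, mem_filter, mem_sdiff]
  tauto

/-- Number of ordered pairs `(w, w')` with `u w w'` a triangle. -/
noncomputable def SS (E : Finset (Sym2 (Fin n))) (u : Fin n) : ℝ :=
  ∑ w ∈ nbr E u, ((cn E u w).card : ℝ)

/-- Degree drop. -/
noncomputable def kk (E T : Finset (Sym2 (Fin n))) (u : Fin n) : ℝ :=
  ∑ w ∈ nbr E u, (if s(u, w) ∈ T then (1:ℝ) else 0)

/-- Drop of `SS`. -/
noncomputable def jj (E T : Finset (Sym2 (Fin n))) (u : Fin n) : ℝ :=
  ∑ w ∈ nbr E u, ∑ w' ∈ cn E u w,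
    (if ¬ Disjoint (edgesOf ({u, w, w'} : Finset (Fin n))) T then (1:ℝ) else 0)

theorem dd_sdiff (u : Fin n) : ((nbr (E \ T) u).card : ℝ) = ((nbr E u).card : ℝ) - kk E T u := by
  rw [nbr_sdiff]
  unfold kk
  rw [← Finset.sum_filter, Finset.sum_const, nsmul_eq_mul, mul_one]
  have := Finset.card_filter_add_card_filter_not (s := nbr E u) (fun w => s(u, w) ∈ T)
  have h2 : (((nbr E u).filter (fun w => s(u, w) ∈ T)).card : ℝ) +
      ((nbr E u).filter (fun w => s(u, w) ∉ T)).card = ((nbr E u).card : ℝ) := by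
    exact_mod_cast this
  linarith

theorem disjoint_edgesOf {u w w' : Fin n} (h1 : u ≠ w) (h2 : u ≠ w') (h3 : w ≠ w') :
    Disjoint (edgesOf ({u, w, w'} : Finset (Fin n))) T ↔
      s(u, w) ∉ T ∧ s(u, w') ∉ T ∧ s(w, w') ∉ T := by
  rw [edgesOf_explicit h1 h2 h3]
  simp [Finset.disjoint_left]

theorem SS_sdiff (hE : ∀ e ∈ E, ¬ e.IsDiag) (u : Fin n) : SS (E \ T) u = SS E u - jj E T u := by
  unfold SS jj
  rw [nbr_sdiff, Finset.sum_filter, ← Finset.sum_sub_distrib]
  refine Finset.sum_congr rfl fun w hw => ?_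
  rw [mem_nbr] at hw
  have e1 : ((cn E u w).card : ℝ) = ∑ w' ∈ cn E u w, (1:ℝ) := by simp
  rw [e1, ← Finset.sum_sub_distrib]
  by_cases h : s(u, w) ∈ T
  · rw [if_neg (by simpa using h)]
    symm
    apply Finset.sum_eq_zero
    intro w' hw'
    rw [mem_cn] at hw'
    have hd := disjoint_edgesOf (T := T) (ne_of_mem hE hw) (ne_of_mem hE hw'.1)
      (ne_of_mem hE hw'.2)
    have hd' : ¬ Disjoint (edgesOf ({u, w, w'} : Finset (Fin n))) T := by
      rw [hd]; simp [h]
    rw [if_pos hd']; ring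
  · rw [if_pos (by simpa using h), cn_sdiff, Finset.card_filter]
    push_cast
    refine Finset.sum_congr rfl fun w' hw' => ?_
    rw [mem_cn] at hw'
    have hd := disjoint_edgesOf (T := T) (ne_of_mem hE hw) (ne_of_mem hE hw'.1)
      (ne_of_mem hE hw'.2)
    by_cases h2 : s(u, w') ∉ T ∧ s(w, w') ∉ T
    · have hd' : Disjoint (edgesOf ({u, w, w'} : Finset (Fin n))) T := hd.2 ⟨h, h2.1, h2.2⟩
      rw [if_pos h2, if_neg (not_not.2 hd')]; ring
    · have hd' : ¬ Disjoint (edgesOf ({u, w, w'} : Finset (Fin n))) T :=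
        fun h5 => h2 (hd.1 h5).2
      rw [if_neg h2, if_pos hd']; ring

/-- Symmetry of the set of ordered pairs spanning a triangle with `u`. -/
theorem sum_pairs_swap (u : Fin n) (f : Fin n → Fin n → ℝ) :
    ∑ w ∈ nbr E u, ∑ w' ∈ cn E u w, f w w' = ∑ w ∈ nbr E u, ∑ w' ∈ cn E u w, f w' w := by
  rw [Finset.sum_comm' (t' := nbr E u) (s' := fun w' => cn E u w')]
  intro w w'
  simp only [mem_nbr, mem_cn]
  rw [Sym2.eq_swap (a := w) (b := w')]
  tauto

/-- Total degree drop over all triangles. -/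
theorem sum_kk (hE : ∀ e ∈ E, ¬ e.IsDiag) (u : Fin n) :
    ∑ T ∈ act (triHyp n) E, kk E T u = SS E u := by
  unfold kk SS
  rw [Finset.sum_comm]
  refine Finset.sum_congr rfl fun w hw => ?_
  rw [mem_nbr] at hw
  rw [← codeg_eq_cn hE hw, codeg, Finset.card_filter]
  push_cast
  rfl

theorem card_meet_edgesOf (hE : ∀ e ∈ E, ¬ e.IsDiag) {u w w' : Fin n}
    (huw : s(u, w) ∈ E) (huw' : s(u, w') ∈ E) (hww' : s(w, w') ∈ E) :
    ∑ T ∈ act (triHyp n) E,
      (if ¬ Disjoint (edgesOf ({u, w, w'} : Finset (Fin n))) T then (1:ℝ) else 0) =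
      ((cn E u w).card : ℝ) + ((cn E u w').card : ℝ) + ((cn E w w').card : ℝ) - 2 := by
  have h1 := ne_of_mem hE huw
  have h2 := ne_of_mem hE huw'
  have h3 := ne_of_mem hE hww'
  have hm := card_meet (lin3_triHyp n) (edgesOf_mem_act hE huw huw' hww')
  rw [edgesOf_explicit h1 h2 h3] at hm ⊢
  have hne1 : s(u, w) ≠ s(u, w') := by
    intro h
    rw [Sym2.eq_iff] at h
    rcases h with ⟨_, h⟩ | ⟨h, _⟩
    · exact h3 h
    · exact h2 h
  have hne2 : s(u, w) ≠ s(w, w') := by
    intro h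
    rw [Sym2.eq_iff] at h
    rcases h with ⟨h, _⟩ | ⟨h, _⟩
    · exact h1 h
    · exact h2 h
  have hne3 : s(u, w') ≠ s(w, w') := by
    intro h
    rw [Sym2.eq_iff] at h
    rcases h with ⟨h, _⟩ | ⟨h, _⟩
    · exact h1 h
    · exact h2 h
  rw [Finset.sum_insert (by simp [hne1, hne2]), Finset.sum_insert (by simp [hne3]),
    Finset.sum_singleton, codeg_eq_cn hE huw, codeg_eq_cn hE huw', codeg_eq_cn hE hww'] at hm
  rw [← Finset.sum_filter, Finset.sum_const, nsmul_eq_mul, mul_one]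
  have h4 : (act (triHyp n) E).filter
      (fun T => ¬ Disjoint ({s(u, w), s(u, w'), s(w, w')} : Finset (Sym2 (Fin n))) T) =
      (act (triHyp n) E).filter
      (fun T => ¬ Disjoint T ({s(u, w), s(u, w'), s(w, w')} : Finset (Sym2 (Fin n)))) := by
    refine Finset.filter_congr fun T _ => ?_
    rw [disjoint_comm]
  rw [h4]
  have h5 : ((((act (triHyp n) E).filter
      (fun T => ¬ Disjoint T ({s(u, w), s(u, w'), s(w, w')} : Finset (Sym2 (Fin n))))).card : ℕ) : ℝ)
      + 2 = ((cn E u w).card : ℝ) + (((cn E u w').card : ℝ) + ((cn E w w').card : ℝ)) := by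
    exact_mod_cast hm
  linarith

/-- Total drop of `SS` over all triangles. -/
theorem sum_jj (hE : ∀ e ∈ E, ¬ e.IsDiag) (u : Fin n) :
    ∑ T ∈ act (triHyp n) E, jj E T u =
      2 * (∑ w ∈ nbr E u, ((cn E u w).card : ℝ) ^ 2)
      + (∑ w ∈ nbr E u, ∑ w' ∈ cn E u w, ((cn E w w').card : ℝ)) - 2 * SS E u := by
  unfold jj
  rw [Finset.sum_comm]
  have h1 : ∀ w ∈ nbr E u, ∑ T ∈ act (triHyp n) E, ∑ w' ∈ cn E u w,
      (if ¬ Disjoint (edgesOf ({u, w, w'} : Finset (Fin n))) T then (1:ℝ) else 0) =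
      ∑ w' ∈ cn E u w, (((cn E u w).card : ℝ) + ((cn E u w').card : ℝ)
        + ((cn E w w').card : ℝ) - 2) := by
    intro w hw
    rw [mem_nbr] at hw
    rw [Finset.sum_comm]
    refine Finset.sum_congr rfl fun w' hw' => ?_
    rw [mem_cn] at hw'
    exact card_meet_edgesOf hE hw hw'.1 hw'.2
  rw [Finset.sum_congr rfl h1]
  simp only [Finset.sum_sub_distrib, Finset.sum_add_distrib]
  have h2 := sum_pairs_swap (E := E) u (fun _ w' => ((cn E u w').card : ℝ))
  rw [h2]
  have h3 : ∀ w, ∑ _w' ∈ cn E u w, ((cn E u w).card : ℝ) = ((cn E u w).card : ℝ) ^ 2 := by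
    intro w
    rw [Finset.sum_const, nsmul_eq_mul, sq]
  have h4 : ∀ w, ∑ _w' ∈ cn E u w, (2:ℝ) = 2 * ((cn E u w).card : ℝ) := by
    intro w
    rw [Finset.sum_const, nsmul_eq_mul, mul_comm]
  simp only [h3, h4, SS]
  rw [← Finset.mul_sum]
  ring

/-! ### Pointwise bounds -/

theorem kk_nonneg (u : Fin n) : 0 ≤ kk E T u :=
  Finset.sum_nonneg fun _ _ => by split_ifs <;> norm_num

theorem kk_le (hT : T ∈ act (triHyp n) E) (u : Fin n) : kk E T u ≤ 3 := by
  unfold kk
  rw [← Finset.sum_filter, Finset.sum_const, nsmul_eq_mul, mul_one]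
  have h1 : ((nbr E u).filter (fun w => s(u, w) ∈ T)).card ≤ T.card := by
    refine Finset.card_le_card_of_injOn (fun w => s(u, w)) ?_ ?_
    · intro w hw
      exact (mem_filter.1 hw).2
    · intro w _ w' _ h
      simp only [Sym2.eq_iff] at h
      rcases h with ⟨_, h⟩ | ⟨h1, h2⟩
      · exact h
      · rw [h2, h1]
  rw [(lin3_triHyp n).card3 T (mem_act.1 hT).1] at h1
  exact_mod_cast h1

theorem jj_nonneg (u : Fin n) : 0 ≤ jj E T u :=
  Finset.sum_nonneg fun _ _ => Finset.sum_nonneg fun _ _ => by split_ifs <;> norm_num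

theorem sum_ite_darts_le (hE : ∀ e ∈ E, ¬ e.IsDiag) (hT : T ∈ act (triHyp n) E) (u : Fin n) :
    ∑ w ∈ nbr E u, ∑ w' ∈ cn E u w, (if s(w, w') ∈ T then (1:ℝ) else 0) ≤ 6 := by
  have hTE : T ⊆ E := (mem_act.1 hT).2
  have h1 : ∑ w ∈ nbr E u, ∑ w' ∈ cn E u w, (if s(w, w') ∈ T then (1:ℝ) else 0) ≤
      ∑ w : Fin n, ∑ w' ∈ nbr T w, (1:ℝ) := by
    calc ∑ w ∈ nbr E u, ∑ w' ∈ cn E u w, (if s(w, w') ∈ T then (1:ℝ) else 0)
        ≤ ∑ w ∈ nbr E u, ∑ w' ∈ nbr T w, (1:ℝ) := by
          refine Finset.sum_le_sum fun w _ => ?_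
          rw [← Finset.sum_filter]
          refine Finset.sum_le_sum_of_subset_of_nonneg ?_ fun _ _ _ => zero_le_one
          intro w' hw'
          rw [mem_nbr]
          exact (mem_filter.1 hw').2
      _ ≤ _ := Finset.sum_le_sum_of_subset_of_nonneg (Finset.subset_univ _)
          fun _ _ _ => Finset.sum_nonneg fun _ _ => zero_le_one
  have h2 := sum_darts (E := T) (fun _ _ => (1:ℝ))
  have h3 := card_darts (E := T) (fun e he => hE e (hTE he))
  rw [(lin3_triHyp n).card3 T (mem_act.1 hT).1] at h3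
  rw [← h2, Finset.sum_const, nsmul_eq_mul, mul_one, h3] at h1
  have h5 : (2:ℝ) * ((3:ℕ):ℝ) = 6 := by norm_num
  rw [h5] at h1
  exact h1

theorem jj_le (hE : ∀ e ∈ E, ¬ e.IsDiag) (hT : T ∈ act (triHyp n) E) {D : ℝ}
    (hD : ∀ u v, s(u, v) ∈ E → ((cn E u v).card : ℝ) ≤ D) (u : Fin n) :
    jj E T u ≤ 2 * D * kk E T u + 6 := by
  have h1 : jj E T u ≤ ∑ w ∈ nbr E u, ∑ w' ∈ cn E u w,
      ((if s(u, w) ∈ T then (1:ℝ) else 0) + (if s(u, w') ∈ T then (1:ℝ) else 0)
        + (if s(w, w') ∈ T then (1:ℝ) else 0)) := by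
    unfold jj
    refine Finset.sum_le_sum fun w hw => Finset.sum_le_sum fun w' hw' => ?_
    rw [mem_nbr] at hw
    rw [mem_cn] at hw'
    have hd := disjoint_edgesOf (T := T) (ne_of_mem hE hw) (ne_of_mem hE hw'.1)
      (ne_of_mem hE hw'.2)
    by_cases a : s(u, w) ∈ T
    · have : ¬ Disjoint (edgesOf ({u, w, w'} : Finset (Fin n))) T := by rw [hd]; simp [a]
      rw [if_pos this, if_pos a]
      split_ifs <;> norm_num
    · by_cases b : s(u, w') ∈ T
      · have : ¬ Disjoint (edgesOf ({u, w, w'} : Finset (Fin n))) T := by rw [hd]; simp [b]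
        rw [if_pos this, if_pos b]
        split_ifs <;> norm_num
      · by_cases c : s(w, w') ∈ T
        · have : ¬ Disjoint (edgesOf ({u, w, w'} : Finset (Fin n))) T := by rw [hd]; simp [c]
          rw [if_pos this, if_pos c]
          split_ifs <;> norm_num
        · have : Disjoint (edgesOf ({u, w, w'} : Finset (Fin n))) T := hd.2 ⟨a, b, c⟩
          rw [if_neg (not_not.2 this)]
          split_ifs <;> norm_num
  have h2 : ∑ w ∈ nbr E u, ∑ _w' ∈ cn E u w, (if s(u, w) ∈ T then (1:ℝ) else 0) ≤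
      D * kk E T u := by
    unfold kk
    rw [Finset.mul_sum]
    refine Finset.sum_le_sum fun w hw => ?_
    rw [mem_nbr] at hw
    rw [Finset.sum_const, nsmul_eq_mul]
    refine mul_le_mul_of_nonneg_right (hD u w hw) ?_
    split_ifs <;> norm_num
  have h3 := sum_pairs_swap (E := E) u (fun _ w' => (if s(u, w') ∈ T then (1:ℝ) else 0))
  have h4 := sum_ite_darts_le hE hT u
  simp only [Finset.sum_add_distrib] at h1
  rw [h3] at h1
  linarith

/-! ### Expressions in terms of `zeta` -/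

theorem card_mul_tav (F : Fin n → Fin n → ℝ) (u : Fin n) :
    ((nbr E u).card : ℝ) * tav E F u = ∑ w ∈ nbr E u, F u w := by
  unfold tav
  rcases (nbr E u).eq_empty_or_nonempty with h | h
  · rw [h]; simp
  · have hc : ((nbr E u).card : ℝ) ≠ 0 := by
      have := h.card_pos
      positivity
    field_simp

theorem cn_eq (hm : mE E ≠ 0) (u w : Fin n) :
    ((cn E u w).card : ℝ) = mE E * (1 + zeta E u w) := by
  unfold zeta
  field_simp
  ring

theorem card_mul_tt (u : Fin n) :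
    ((nbr E u).card : ℝ) * tt E u = SS E u / mE E - ((nbr E u).card : ℝ) := by
  unfold tt
  rw [card_mul_tav]
  unfold zeta SS
  rw [Finset.sum_sub_distrib, Finset.sum_div]
  simp

theorem SS_eq (hm : mE E ≠ 0) (u : Fin n) :
    SS E u = mE E * (((nbr E u).card : ℝ) * (1 + tt E u)) := by
  have := card_mul_tt (E := E) u
  rw [mul_add, mul_one, this]
  field_simp
  ring

/-- `∑_T jj` in terms of `ζ`, `t`, link operators. -/
theorem sum_jj_eq (hE : ∀ e ∈ E, ¬ e.IsDiag) (hm : mE E ≠ 0) (u : Fin n) :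
    ∑ T ∈ act (triHyp n) E, jj E T u =
      mE E ^ 2 * (((nbr E u).card : ℝ) * (3 + 5 * tt E u
        + 2 * tav E (fun u w => zeta E u w ^ 2) u
        + tav E (fun _ w => tt E w) u + tav E (fun u w => zeta E u w * tt E w) u
        + tav E (fun u w => (mE E)⁻¹ * perp E (zeta E) w u) u))
      - 2 * (mE E * (((nbr E u).card : ℝ) * (1 + tt E u))) := by
  rw [sum_jj hE u, SS_eq hm u]
  have h1 : ∀ w, ∑ w' ∈ cn E u w, ((cn E w w').card : ℝ) =
      mE E * (mE E * (1 + zeta E u w) * (1 + tt E w) + perp E (zeta E) w u) := by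
    intro w
    have e1 : ∑ w' ∈ cn E u w, ((cn E w w').card : ℝ) =
        ∑ w' ∈ cn E u w, mE E * (1 + zeta E w w') :=
      Finset.sum_congr rfl fun w' _ => cn_eq hm w w'
    have e2 : perp E (zeta E) w u = ∑ w' ∈ cn E u w, zeta E w w'
        - ((cn E u w).card : ℝ) * tt E w := by
      unfold perp tt
      rw [cn_comm w u, Finset.sum_sub_distrib, Finset.sum_const, nsmul_eq_mul]
    rw [e1, ← Finset.mul_sum, Finset.sum_add_distrib, e2, Finset.sum_const, nsmul_eq_mul,
      ← cn_eq hm u w]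
    ring
  simp only [h1]
  have h2 : ∑ w ∈ nbr E u, ((cn E u w).card : ℝ) ^ 2 =
      mE E ^ 2 * ∑ w ∈ nbr E u, (1 + 2 * zeta E u w + zeta E u w ^ 2) := by
    rw [Finset.mul_sum]
    refine Finset.sum_congr rfl fun w _ => ?_
    rw [cn_eq hm u w]; ring
  have h3 : ∑ w ∈ nbr E u,
      mE E * (mE E * (1 + zeta E u w) * (1 + tt E w) + perp E (zeta E) w u) =
      mE E ^ 2 * ∑ w ∈ nbr E u, (1 + zeta E u w + tt E w + zeta E u w * tt E w
        + (mE E)⁻¹ * perp E (zeta E) w u) := by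
    rw [Finset.mul_sum]
    refine Finset.sum_congr rfl fun w _ => ?_
    field_simp
    ring
  rw [h2, h3]
  have a0 : ((nbr E u).card : ℝ) = ∑ _w ∈ nbr E u, (1:ℝ) := by simp
  have a1 := card_mul_tav (E := E) (zeta E) u
  have a2 := card_mul_tav (E := E) (fun u w => zeta E u w ^ 2) u
  have a3 := card_mul_tav (E := E) (fun _ w => tt E w) u
  have a4 := card_mul_tav (E := E) (fun u w => zeta E u w * tt E w) u
  have a5 := card_mul_tav (E := E) (fun u w => (mE E)⁻¹ * perp E (zeta E) w u) u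
  have a1' : ((nbr E u).card : ℝ) * tt E u = ∑ w ∈ nbr E u, zeta E u w := a1
  simp only [Finset.sum_add_distrib, ← Finset.mul_sum] at *
  rw [← a1', ← a2, ← a3, ← a4, ← a0]
  have a5' : (mE E)⁻¹ * ∑ w ∈ nbr E u, perp E (zeta E) w u =
      ((nbr E u).card : ℝ) * tav E (fun u w => (mE E)⁻¹ * perp E (zeta E) w u) u := by
    rw [a5]
  rw [a5']
  ring

/-! ### The mean codegree after a step -/

theorem darts_ne (hE : ∀ e ∈ E, ¬ e.IsDiag) : ((darts E).card : ℝ) = 2 * (E.card : ℝ) :=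
  card_darts hE

theorem sum_zeta (hE : ∀ e ∈ E, ¬ e.IsDiag) (hm : mE E ≠ 0) :
    ∑ p ∈ darts E, zeta E p.1 p.2 = 0 := by
  have hx : (E.card : ℝ) ≠ 0 := by
    intro h
    apply hm
    unfold mE
    rw [h, div_zero]
  have h1 : ∑ p ∈ darts E, ((cn E p.1 p.2).card : ℝ) = 2 * (3 * ((act (triHyp n) E).card : ℝ)) := by
    rw [← sum_codeg (lin3_triHyp n) E, ← sum_darts_sym2 hE]
    refine Finset.sum_congr rfl fun p hp => ?_
    rw [codeg_eq_cn hE (mem_darts.1 hp)]
  unfold zeta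
  rw [Finset.sum_sub_distrib, ← Finset.sum_div, h1, Finset.sum_const, nsmul_eq_mul, mul_one,
    card_darts hE]
  have h2 : 3 * ((act (triHyp n) E).card : ℝ) = mE E * (E.card : ℝ) := by
    unfold mE; field_simp
  rw [h2]
  field_simp
  ring

/-- Sum of the squared codegrees. -/
theorem sum_codeg_sq (hE : ∀ e ∈ E, ¬ e.IsDiag) (hm : mE E ≠ 0) :
    ∑ e ∈ E, (codeg (triHyp n) E e : ℝ) * (codeg (triHyp n) E e : ℝ) =
      mE E ^ 2 * (E.card : ℝ) * (1 + ZZ 2 E) := by
  have hx : (E.card : ℝ) ≠ 0 := by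
    intro h
    apply hm
    unfold mE
    rw [h, div_zero]
  have h1 := sum_darts_sym2 hE
    (fun e => (codeg (triHyp n) E e : ℝ) * (codeg (triHyp n) E e : ℝ))
  have h2 : ∑ p ∈ darts E, (codeg (triHyp n) E s(p.1, p.2) : ℝ)
      * (codeg (triHyp n) E s(p.1, p.2) : ℝ) =
      ∑ p ∈ darts E, mE E ^ 2 * (1 + 2 * zeta E p.1 p.2 + zeta E p.1 p.2 ^ 2) := by
    refine Finset.sum_congr rfl fun p hp => ?_
    rw [codeg_eq_cn hE (mem_darts.1 hp), cn_eq hm]
    ring
  rw [h2, ← Finset.mul_sum, Finset.sum_add_distrib, Finset.sum_add_distrib, ← Finset.mul_sum,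
    sum_zeta hE hm, Finset.sum_const, nsmul_eq_mul, mul_one, card_darts hE] at h1
  unfold ZZ
  rw [card_darts hE]
  have h3 : ∑ e ∈ E, (codeg (triHyp n) E e : ℝ) * (codeg (triHyp n) E e : ℝ) =
      mE E ^ 2 * (2 * (E.card : ℝ) + 2 * 0 + ∑ p ∈ darts E, zeta E p.1 p.2 ^ 2) / 2 := by
    linarith
  rw [h3]
  field_simp
  ring

theorem card_E_sdiff (hT : T ∈ act (triHyp n) E) : ((E \ T).card : ℝ) = (E.card : ℝ) - 3 := by
  have := card_sdiff_act (lin3_triHyp n) hT
  have h2 : ((E \ T).card : ℝ) + 3 = (E.card : ℝ) := by exact_mod_cast this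
  linarith

theorem mE_sdiff (hT : T ∈ act (triHyp n) E) (hx : (E.card : ℝ) ≠ 0) :
    mE (E \ T) = (mE E * (E.card : ℝ) - 3 * ∑ e ∈ T, (codeg (triHyp n) E e : ℝ) + 6)
      / ((E.card : ℝ) - 3) := by
  have h2 : 3 * ((act (triHyp n) E).card : ℝ) = mE E * (E.card : ℝ) := by
    unfold mE; field_simp
  rw [mE, card_act_sdiff (lin3_triHyp n) hT, card_E_sdiff hT, ← h2]
  congr 1
  ring

theorem sigma_bound (hE : ∀ e ∈ E, ¬ e.IsDiag) (hT : T ∈ act (triHyp n) E) {η : ℝ}
    (hm : 0 < mE E) (hreg : Reg E (mE E) η) :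
    |∑ e ∈ T, (codeg (triHyp n) E e : ℝ) - 3 * mE E| ≤ 3 * (η * mE E) := by
  have hTE : T ⊆ E := (mem_act.1 hT).2
  have hc : T.card = 3 := (lin3_triHyp n).card3 T (mem_act.1 hT).1
  have h1 : ∑ e ∈ T, (codeg (triHyp n) E e : ℝ) - 3 * mE E =
      ∑ e ∈ T, ((codeg (triHyp n) E e : ℝ) - mE E) := by
    rw [Finset.sum_sub_distrib, Finset.sum_const, hc, nsmul_eq_mul]
    norm_num
  rw [h1]
  calc |∑ e ∈ T, ((codeg (triHyp n) E e : ℝ) - mE E)|
      ≤ ∑ e ∈ T, |(codeg (triHyp n) E e : ℝ) - mE E| := Finset.abs_sum_le_sum_abs _ _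
    _ ≤ ∑ _e ∈ T, η * mE E := by
        refine Finset.sum_le_sum fun e he => ?_
        have heE := hTE he
        induction e using Sym2.ind with
        | _ a b =>
          rw [codeg_eq_cn hE heE]
          have := hreg a b heE
          have h3 : ((cn E a b).card : ℝ) - mE E =
              (((cn E a b).card : ℝ) / mE E - 1) * mE E := by
            field_simp
          rw [h3, abs_mul, abs_of_pos hm]
          exact mul_le_mul_of_nonneg_right this hm.le
    _ = 3 * (η * mE E) := by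
        rw [Finset.sum_const, hc, nsmul_eq_mul]; norm_num

/-! ### Size bounds -/

theorem cn_le (hm : 0 < mE E) {η : ℝ} (hreg : Reg E (mE E) η) (u v : Fin n) (huv : s(u, v) ∈ E) :
    ((cn E u v).card : ℝ) ≤ (1 + η) * mE E := by
  have := (abs_le.1 (hreg u v huv)).2
  have h2 : ((cn E u v).card : ℝ) / mE E ≤ 1 + η := by linarith
  rwa [div_le_iff₀ hm] at h2

theorem le_cn (hm : 0 < mE E) {η : ℝ} (hreg : Reg E (mE E) η) (u v : Fin n) (huv : s(u, v) ∈ E) :
    (1 - η) * mE E ≤ ((cn E u v).card : ℝ) := by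
  have := (abs_le.1 (hreg u v huv)).1
  have h2 : 1 - η ≤ ((cn E u v).card : ℝ) / mE E := by linarith
  rwa [le_div_iff₀ hm] at h2

theorem le_deg (hm : 0 < mE E) {η : ℝ} (hreg : Reg E (mE E) η) {u : Fin n}
    (hu : (nbr E u).Nonempty) : (1 - η) * mE E ≤ ((nbr E u).card : ℝ) := by
  obtain ⟨v, hv⟩ := hu
  refine (le_cn hm hreg u v (mem_nbr.1 hv)).trans ?_
  have : (cn E u v).card ≤ (nbr E u).card := Finset.card_le_card Finset.inter_subset_left
  exact_mod_cast this

theorem deg_le (u : Fin n) : ((nbr E u).card : ℝ) ≤ (E.card : ℝ) := by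
  have h1 : (nbr E u).card ≤ E.card := by
    refine Finset.card_le_card_of_injOn (fun w => s(u, w)) ?_ ?_
    · intro w hw
      exact mem_nbr.1 hw
    · intro w _ w' _ h
      simp only [Sym2.eq_iff] at h
      rcases h with ⟨_, h⟩ | ⟨h1, h2⟩
      · exact h
      · rw [h2, h1]
  exact_mod_cast h1

theorem le_card (hm : 0 < mE E) {η : ℝ} (hreg : Reg E (mE E) η) :
    (1 - η) * mE E ≤ (E.card : ℝ) := by
  have hne : E.Nonempty := by
    rw [Finset.nonempty_iff_ne_empty]
    intro h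
    rw [mE, h] at hm
    simp at hm
  obtain ⟨e, he⟩ := hne
  induction e using Sym2.ind with
  | _ a b =>
    have hne : (nbr E a).Nonempty := ⟨b, mem_nbr.2 he⟩
    exact (le_deg hm hreg hne).trans (deg_le a)

theorem abs_tt_le {η : ℝ} (hη : 0 ≤ η) (hreg : Reg E (mE E) η) (u : Fin n) :
    |tt E u| ≤ η := by
  unfold tt
  rcases (nbr E u).eq_empty_or_nonempty with h | h
  · unfold tav
    rw [h]; simpa using hη
  · have h1 := abs_tav_le (E := E) (F := zeta E) (G := fun _ _ => η) (u := u)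
      (fun v hv => hreg u v hv)
    refine h1.trans (le_of_eq ?_)
    exact tav_fst (fun _ => η) h

end Crest.Agent.R030.HD
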