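import Crest.Agent.R030.HTrans
import Crest.Agent.R030.StageC

/-!
Row 30 (S0040), part (C): `StageC.DriftInput` holds.
-/

set_option autoImplicit false

namespace Crest.Agent.R030.HD

theorem driftInput {q : ℕ} (hq : Even q) (hq2 : 2 ≤ q) : StageC.DriftInput q := by
  intro n E η κ ε hE h hκ hκ1 hlink hε
  exact drift_final hq hq2 hE h hε hκ hκ1 hlink

end Crest.Agent.R030.HD
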