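import Crest.Agent.R030.KapWin
import Crest.Agent.R030.VDefs
import Crest.Agent.R030.TriOp

/-!
# R030 (S0040): interface of Stage 1 and of the last window

Parameters: `x0n n = |allEdges n|`, `etan δ n = n^(-δ/8)`, `Xn δ n = n^((3+δ)/2)/2` (the number of
edges at which Stage 1 stops, `lamx n (Xn δ n) = n^δ`), `kn δ n` the (deterministic) number of steps
of Stage 1, `GoodE δ q κ E` the good states.
-/

set_option autoImplicit false

open Finset Filter Topology
open Crest.CombinatoricsR.TriangleRemoval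

namespace Crest.Agent.R030

variable {n : ℕ}

/-- number of edges of the complete graph -/
noncomputable def x0n (n : ℕ) : ℝ := ((allEdges n).card : ℝ)

/-- regularity level of Stage 1 -/
noncomputable def etan (δ : ℝ) (n : ℕ) : ℝ := (n : ℝ) ^ (-(δ / 8))

/-- number of edges at which Stage 1 stops -/
noncomputable def Xn (δ : ℝ) (n : ℕ) : ℝ := (n : ℝ) ^ ((3 + δ) / 2) / 2

/-- number of steps of Stage 1 -/
noncomputable def kn (δ : ℝ) (n : ℕ) : ℕ := ⌊(x0n n - Xn δ n) / 3⌋₊

/-- The good states of Stage 1, without the link condition. -/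
structure PreE (δ : ℝ) (E : Finset (Sym2 (Fin n))) : Prop where
  sub : E ⊆ allEdges n
  size : Xn δ n ≤ (E.card : ℝ)
  reg : Reg E (mE E) (etan δ n)
  win : Kap.Win (triHyp n) n (x0n n) (etan δ n) E

/-- The good states of Stage 1. -/
structure GoodE (δ : ℝ) (q : ℕ) (κ : ℝ) (E : Finset (Sym2 (Fin n))) : Prop
    extends PreE δ E where
  link : LinkLq q E (κ * mE E)

/-- The bad event of the link condition: the other conditions hold, the link condition fails. -/
def BadLink (δ : ℝ) (q : ℕ) (κ : ℝ) (E : Finset (Sym2 (Fin n))) : Prop :=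
  PreE δ E ∧ ¬ LinkLq q E (κ * mE E)

theorem mE_eq_mcod (E : Finset (Sym2 (Fin n))) : mE E = mcod (triHyp n) E := rfl

namespace Iface

theorem not_isDiag_of_sub {E : Finset (Sym2 (Fin n))} (hE : E ⊆ allEdges n) :
    ∀ e ∈ E, ¬ e.IsDiag := by
  intro e he
  have := hE he
  rw [allEdges, mem_filter] at this
  exact this.2

theorem ne_of_mem {E : Finset (Sym2 (Fin n))} (hE : E ⊆ allEdges n) {u v : Fin n}
    (h : s(u, v) ∈ E) : u ≠ v := by
  have := not_isDiag_of_sub hE _ h
  simpa using this

/-- codegree of the triangle hypergraph = number of common neighbours -/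
theorem codeg_eq_cn {E : Finset (Sym2 (Fin n))} (hE : E ⊆ allEdges n) {u v : Fin n}
    (huv : s(u, v) ∈ E) : codeg (triHyp n) E s(u, v) = (cn E u v).card := by
  symm
  have huv' := ne_of_mem hE huv
  have key : ∀ w ∈ cn E u v, u ≠ w ∧ v ≠ w := by
    intro w hw
    rw [mem_cn] at hw
    exact ⟨ne_of_mem hE hw.1, ne_of_mem hE hw.2⟩
  refine Finset.card_bij (fun w _ => edgesOf ({u, v, w} : Finset (Fin n))) ?_ ?_ ?_
  · intro w hw
    obtain ⟨h1, h2⟩ := key w hw
    rw [mem_cn] at hw
    rw [mem_filter, mem_act_triHyp]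
    refine ⟨⟨{u, v, w}, ?_, rfl⟩, ?_⟩
    · rw [mem_triangles]
      refine ⟨Finset.card_eq_three.2 ⟨u, v, w, huv', h1, h2, rfl⟩, ?_⟩
      rw [edgesOf_explicit huv' h1 h2]
      intro e he
      simp only [mem_insert, mem_singleton] at he
      rcases he with rfl | rfl | rfl
      · exact huv
      · exact hw.1
      · exact hw.2
    · rw [mk_mem_edgesOf]
      simp [huv']
  · intro w hw w' hw' h
    obtain ⟨h1, h2⟩ := key w hw
    obtain ⟨h1', h2'⟩ := key w' hw'
    have h3 := edgesOf_injOn (Finset.card_eq_three.2 ⟨u, v, w, huv', h1, h2, rfl⟩)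
      (Finset.card_eq_three.2 ⟨u, v, w', huv', h1', h2', rfl⟩) h
    have h4 : w ∈ ({u, v, w'} : Finset (Fin n)) := by rw [← h3]; simp
    simp only [mem_insert, mem_singleton] at h4
    rcases h4 with h4 | h4 | h4
    · exact absurd h4.symm h1
    · exact absurd h4.symm h2
    · exact h4
  · intro T hT
    rw [mem_filter, mem_act_triHyp] at hT
    obtain ⟨⟨t, ht, rfl⟩, he⟩ := hT
    rw [mem_triangles] at ht
    rw [mk_mem_edgesOf] at he
    have h1 : ({u, v} : Finset (Fin n)) ⊆ t := by
      intro x hx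
      simp only [mem_insert, mem_singleton] at hx
      rcases hx with rfl | rfl
      · exact he.1
      · exact he.2.1
    have h2 : (t \ {u, v}).card = 1 := by
      rw [card_sdiff_of_subset h1, ht.1, card_pair huv']
    obtain ⟨w, hw⟩ := card_eq_one.1 h2
    have hwt : w ∈ t \ {u, v} := by rw [hw]; simp
    simp only [Finset.mem_sdiff, Finset.mem_insert, Finset.mem_singleton, not_or] at hwt
    have h3 : t = {u, v, w} := by
      symm
      apply eq_of_subset_of_card_le
      · intro x hx
        simp only [mem_insert, mem_singleton] at hx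
        rcases hx with rfl | rfl | rfl
        · exact he.1
        · exact he.2.1
        · exact hwt.1
      · rw [ht.1, Finset.card_eq_three.2 ⟨u, v, w, huv', Ne.symm hwt.2.1, Ne.symm hwt.2.2, rfl⟩]
    refine ⟨w, ?_, by rw [h3]⟩
    rw [mem_cn]
    constructor
    · exact ht.2 (mk_mem_edgesOf.2 ⟨he.1, hwt.1, Ne.symm hwt.2.1⟩)
    · exact ht.2 (mk_mem_edgesOf.2 ⟨he.2.1, hwt.1, Ne.symm hwt.2.2⟩)

/-- `Reg` in terms of hypergraph codegrees -/
theorem hreg_of_reg {E : Finset (Sym2 (Fin n))} (hE : E ⊆ allEdges n) {η : ℝ}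
    (hm : 0 < mE E) (hreg : Reg E (mE E) η) :
    ∀ e ∈ E, |(codeg (triHyp n) E e : ℝ) - mcod (triHyp n) E| ≤ η * mcod (triHyp n) E := by
  intro e he
  induction e using Sym2.ind with
  | _ u v =>
    rw [codeg_eq_cn hE he, ← mE_eq_mcod]
    have h1 := hreg u v he
    have h2 : ((cn E u v).card : ℝ) - mE E = (((cn E u v).card : ℝ) / mE E - 1) * mE E := by
      field_simp
    rw [h2, abs_mul, abs_of_pos hm]
    exact mul_le_mul_of_nonneg_right h1 hm.le

end Iface

end Crest.Agent.R030
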