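import Mathlib

/-!
Row 30 (S0040), triangle removal.  Hypergraph level definitions and helper451's deterministic
influence bound.

`act H A`      : hyperedges of `H` contained in the alive vertex set `A`
`codeg H A e`  : number of active hyperedges through `e`
`Phi H f A`    : expectation of `f (terminal set)` of the uniform hyperedge removal process from `A`
`gen H u A`    : generator  `∑_{T active} (u (A \ T) - u A)`
-/

set_option autoImplicit false

namespace Crest.Agent.R030

open Finset

variable {V : Type*} [DecidableEq V]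

/-- The hyperedges of `H` all of whose vertices are alive. -/
def act (H : Finset (Finset V)) (A : Finset V) : Finset (Finset V) := H.filter (fun T => T ⊆ A)

/-- Codegree: number of active hyperedges through `e`. -/
def codeg (H : Finset (Finset V)) (A : Finset V) (e : V) : ℕ :=
  ((act H A).filter (fun T => e ∈ T)).card

/-- All hyperedges have three vertices and two different hyperedges share at most one vertex. -/
structure Lin3 (H : Finset (Finset V)) : Prop where
  card3 : ∀ T ∈ H, T.card = 3
  lin : ∀ T ∈ H, ∀ T' ∈ H, ∀ a b : V, a ≠ b → a ∈ T → b ∈ T → a ∈ T' → b ∈ T' → T = T'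

/-- Expectation of `f (terminal set)` with a step budget. -/
noncomputable def val (H : Finset (Finset V)) (f : Finset V → ℝ) : ℕ → Finset V → ℝ
  | 0, A => f A
  | k + 1, A =>
      if (act H A).card = 0 then f A
      else ((act H A).card : ℝ)⁻¹ * ∑ T ∈ act H A, val H f k (A \ T)

/-- Expectation of `f (terminal set)`. -/
noncomputable def Phi (H : Finset (Finset V)) (f : Finset V → ℝ) (A : Finset V) : ℝ :=
  val H f A.card A

/-- The generator of the process in which every active hyperedge rings at rate one. -/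
noncomputable def gen (H : Finset (Finset V)) (u : Finset V → ℝ) (A : Finset V) : ℝ :=
  ∑ T ∈ act H A, (u (A \ T) - u A)

/-- Discrete derivative in the direction of the vertex `e`. -/
noncomputable def dd (u : Finset V → ℝ) (e : V) (A : Finset V) : ℝ := u A - u (A.erase e)

theorem mem_act {H : Finset (Finset V)} {A T : Finset V} : T ∈ act H A ↔ T ∈ H ∧ T ⊆ A := by
  simp [act]

omit [DecidableEq V] in
theorem Lin3.nonempty {H : Finset (Finset V)} (hH : Lin3 H) {T : Finset V} (hT : T ∈ H) :
    T.Nonempty := by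
  have := hH.card3 T hT
  exact Finset.card_pos.mp (by omega)

omit [DecidableEq V] in
theorem Lin3.subset {H H' : Finset (Finset V)} (hH : Lin3 H) (h : H' ⊆ H) : Lin3 H' :=
  ⟨fun T hT => hH.card3 T (h hT), fun T hT T' hT' => hH.lin T (h hT) T' (h hT')⟩

theorem card_sdiff_lt {H : Finset (Finset V)} (hne : ∀ T ∈ H, T.Nonempty) {A T : Finset V}
    (hT : T ∈ act H A) : (A \ T).card < A.card := by
  rw [mem_act] at hT
  obtain ⟨x, hx⟩ := hne T hT.1
  exact Finset.card_lt_card (Finset.ssubset_iff_subset_ne.2
    ⟨Finset.sdiff_subset, fun h => by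
      have := hT.2 hx
      rw [← h] at this
      exact (Finset.mem_sdiff.1 this).2 hx⟩)

theorem val_eq_of_le {H : Finset (Finset V)} (hne : ∀ T ∈ H, T.Nonempty) (f : Finset V → ℝ) :
    ∀ (k l : ℕ) (A : Finset V), A.card ≤ k → A.card ≤ l → val H f k A = val H f l A := by
  intro k
  induction k with
  | zero =>
    intro l A hk hl
    have hA : A = ∅ := Finset.card_eq_zero.1 (by omega)
    subst hA
    cases l with
    | zero => rfl
    | succ l =>
      have : act H (∅ : Finset V) = ∅ := by
        apply Finset.eq_empty_of_forall_notMem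
        intro T hT
        rw [mem_act] at hT
        obtain ⟨x, hx⟩ := hne T hT.1
        exact absurd (hT.2 hx) (Finset.notMem_empty x)
      simp [val, this]
  | succ k ih =>
    intro l A hk hl
    cases l with
    | zero =>
      have hA : A = ∅ := Finset.card_eq_zero.1 (by omega)
      subst hA
      have : act H (∅ : Finset V) = ∅ := by
        apply Finset.eq_empty_of_forall_notMem
        intro T hT
        rw [mem_act] at hT
        obtain ⟨x, hx⟩ := hne T hT.1
        exact absurd (hT.2 hx) (Finset.notMem_empty x)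
      simp [val, this]
    | succ l =>
      simp only [val]
      split_ifs with h
      · rfl
      · congr 1
        apply Finset.sum_congr rfl
        intro T hT
        have := card_sdiff_lt hne hT
        exact ih l _ (by omega) (by omega)

theorem val_eq_Phi {H : Finset (Finset V)} (hne : ∀ T ∈ H, T.Nonempty) (f : Finset V → ℝ)
    {k : ℕ} {A : Finset V} (hk : A.card ≤ k) : val H f k A = Phi H f A :=
  val_eq_of_le hne f k A.card A hk le_rfl

theorem Phi_of_act_empty {H : Finset (Finset V)} (f : Finset V → ℝ)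
    {A : Finset V} (h : act H A = ∅) : Phi H f A = f A := by
  unfold Phi
  cases A.card with
  | zero => rfl
  | succ k => simp [val, h]

/-- The defining recursion of `Phi`. -/
theorem Phi_rec {H : Finset (Finset V)} (hne : ∀ T ∈ H, T.Nonempty) (f : Finset V → ℝ)
    (A : Finset V) :
    ((act H A).card : ℝ) * Phi H f A = ∑ T ∈ act H A, Phi H f (A \ T) := by
  by_cases h : act H A = ∅
  · simp [h]
  have hc : (act H A).card ≠ 0 := fun h' => h (Finset.card_eq_zero.1 h')
  have hA : A.card ≠ 0 := by
    intro hA
    obtain ⟨T, hT⟩ := Finset.nonempty_iff_ne_empty.2 h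
    have := card_sdiff_lt hne hT
    omega
  obtain ⟨k, hk⟩ := Nat.exists_eq_succ_of_ne_zero hA
  have e1 : Phi H f A = ((act H A).card : ℝ)⁻¹ * ∑ T ∈ act H A, val H f k (A \ T) := by
    unfold Phi
    rw [hk, Nat.succ_eq_add_one]
    simp only [val, if_neg hc]
  rw [e1, ← mul_assoc, mul_inv_cancel₀ (by exact_mod_cast hc), one_mul]
  apply Finset.sum_congr rfl
  intro T hT
  have := card_sdiff_lt hne hT
  exact val_eq_Phi hne f (by omega)

/-- `Phi` is harmonic. -/
theorem gen_Phi {H : Finset (Finset V)} (hne : ∀ T ∈ H, T.Nonempty) (f : Finset V → ℝ)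
    (A : Finset V) : gen H (Phi H f) A = 0 := by
  unfold gen
  rw [Finset.sum_sub_distrib, ← Phi_rec hne f A, Finset.sum_const, nsmul_eq_mul, sub_self]

theorem act_erase {H : Finset (Finset V)} {A : Finset V} (e : V) :
    act H (A.erase e) = (act H A).filter (fun T => e ∉ T) := by
  ext T
  simp only [mem_act, Finset.mem_filter, Finset.subset_erase]
  tauto

theorem act_mono {H : Finset (Finset V)} {A B : Finset V} (h : A ⊆ B) : act H A ⊆ act H B := by
  intro T hT
  rw [mem_act] at *
  exact ⟨hT.1, hT.2.trans h⟩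

theorem codeg_mono {H : Finset (Finset V)} {A B : Finset V} (h : A ⊆ B) (e : V) :
    codeg H A e ≤ codeg H B e :=
  Finset.card_le_card (Finset.filter_subset_filter _ (act_mono h))

/-- **Commutation identity** between the generator and the discrete derivative, valid for every
function `u`. -/
theorem gen_dd (H : Finset (Finset V)) (u : Finset V → ℝ) {A : Finset V} {e : V} :
    gen H u A - gen H u (A.erase e) =
      ∑ T ∈ (act H A).filter (fun T => e ∉ T), (dd u e (A \ T) - dd u e A)
      + ∑ T ∈ (act H A).filter (fun T => e ∈ T), (u (A \ T) - u A) := by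
  unfold gen dd
  rw [act_erase]
  rw [← Finset.sum_filter_add_sum_filter_not (act H A) (fun T => e ∉ T)
    (fun T => u (A \ T) - u A)]
  have h1 : (act H A).filter (fun T => ¬ (e ∉ T)) = (act H A).filter (fun T => e ∈ T) := by
    apply Finset.filter_congr
    intro T _
    simp
  rw [h1]
  have h2 : ∑ T ∈ (act H A).filter (fun T => e ∉ T), (u (A.erase e \ T) - u (A.erase e))
      = ∑ T ∈ (act H A).filter (fun T => e ∉ T), (u ((A \ T).erase e) - u (A.erase e)) := by
    apply Finset.sum_congr rfl
    intro T _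
    rw [Finset.erase_sdiff_comm]
  rw [h2]
  have h3 : ∑ T ∈ (act H A).filter (fun T => e ∉ T),
      (u (A \ T) - u ((A \ T).erase e) - (u A - u (A.erase e)))
      = ∑ T ∈ (act H A).filter (fun T => e ∉ T), (u (A \ T) - u A)
      - ∑ T ∈ (act H A).filter (fun T => e ∉ T), (u ((A \ T).erase e) - u (A.erase e)) := by
    rw [← Finset.sum_sub_distrib]
    apply Finset.sum_congr rfl
    intro T _
    ring
  rw [h3]
  ring

/-! ### The profile `phi` -/

/-- `phi y = ∏_{1 ≤ j ≤ y} 2 j / (2 j - 1)`. -/
noncomputable def phi : ℕ → ℝ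
  | 0 => 1
  | y + 1 => phi y * ((2 * (y : ℝ) + 2) / (2 * (y : ℝ) + 1))

theorem phi_pos (y : ℕ) : 0 < phi y := by
  induction y with
  | zero => simp [phi]
  | succ y ih =>
    simp only [phi]
    have : (0 : ℝ) ≤ y := Nat.cast_nonneg y
    positivity

/-- increments of `phi` -/
theorem phi_succ_sub (y : ℕ) : phi (y + 1) - phi y = phi y / (2 * (y : ℝ) + 1) := by
  simp only [phi]
  have : (0 : ℝ) < 2 * (y : ℝ) + 1 := by positivity
  field_simp
  ring

theorem phi_succ_sub' (y : ℕ) : phi (y + 1) - phi y = phi (y + 1) / (2 * ((y : ℝ) + 1)) := by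
  rw [phi_succ_sub]
  simp only [phi]
  have : (0 : ℝ) < 2 * (y : ℝ) + 1 := by positivity
  have h2 : (0 : ℝ) < (y : ℝ) + 1 := by positivity
  field_simp

theorem phi_mono : Monotone phi := by
  apply monotone_nat_of_le_succ
  intro y
  have := phi_succ_sub y
  have h2 : 0 ≤ phi y / (2 * (y : ℝ) + 1) := div_nonneg (phi_pos y).le (by positivity)
  linarith

theorem one_le_phi (y : ℕ) : 1 ≤ phi y := by
  have := phi_mono (Nat.zero_le y)
  simpa [phi] using this

/-- increments decrease -/
theorem phi_incr_anti (y : ℕ) : phi (y + 2) - phi (y + 1) ≤ phi (y + 1) - phi y := by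
  have h1 := phi_succ_sub (y + 1)
  have h2 := phi_succ_sub' y
  rw [show y + 2 = (y + 1) + 1 from rfl, h1, h2]
  apply div_le_div_of_nonneg_left (phi_pos _).le (by positivity)
  push_cast
  linarith

theorem phi_incr_anti' {a b : ℕ} (h : a ≤ b) : phi (b + 1) - phi b ≤ phi (a + 1) - phi a := by
  have : Antitone (fun y => phi (y + 1) - phi y) := by
    apply antitone_nat_of_succ_le
    intro y
    exact phi_incr_anti y
  exact this h

/-- concavity from the left end -/
theorem phi_sub_le (y k : ℕ) : phi y ≤ phi (y + 1 + k) - (k + 1) * (phi (y + 1 + k) - phi (y + k)) := by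
  induction k with
  | zero => simp
  | succ k ih =>
    have h := phi_incr_anti (y + k)
    have e1 : y + 1 + (k + 1) = y + k + 2 := by omega
    have e2 : y + (k + 1) = y + k + 1 := by omega
    have e3 : y + 1 + k = y + k + 1 := by omega
    rw [e3] at ih
    rw [e1, e2]
    push_cast
    nlinarith [h, ih, Nat.cast_nonneg (α := ℝ) k]

/-- `phi (y - k) ≤ phi y - k * h y` with `h y = phi y / (2 y)`. -/
theorem phi_sub_le' {y k : ℕ} (hk : k ≤ y) : phi (y - k) ≤ phi y - k * (phi y / (2 * y)) := by
  rcases Nat.eq_zero_or_pos k with rfl | hk0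
  · simp
  obtain ⟨k, rfl⟩ : ∃ l, k = l + 1 := ⟨k - 1, by omega⟩
  obtain ⟨z, rfl⟩ : ∃ z, y = z + 1 + k := ⟨y - (k + 1), by omega⟩
  have h := phi_sub_le z k
  have e : z + 1 + k - (k + 1) = z := by omega
  have e2 : z + 1 + k = (z + k) + 1 := by omega
  rw [e]
  rw [e2] at h ⊢
  rw [phi_succ_sub'] at h
  push_cast at h ⊢
  exact h

/-- the maximum of `phi a - a h(y)` is attained at `a = y` -/
theorem phi_sub_mul_le {y : ℕ} (hy : 0 < y) (a : ℕ) :
    phi a - a * (phi y / (2 * y)) ≤ phi y / 2 := by
  have hy' : (0 : ℝ) < y := by exact_mod_cast hy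
  rcases le_total a y with h | h
  · have := phi_sub_le' (y := y) (k := y - a) (by omega)
    have e : y - (y - a) = a := by omega
    rw [e] at this
    rw [Nat.cast_sub h] at this
    have e2 : ((y : ℝ) - a) * (phi y / (2 * y)) = phi y / 2 - a * (phi y / (2 * y)) := by
      field_simp
    rw [e2] at this
    linarith
  · obtain ⟨k, rfl⟩ : ∃ k, a = y + k := ⟨a - y, by omega⟩
    have key : ∀ k : ℕ, phi (y + k) ≤ phi y + k * (phi y / (2 * y)) := by
      intro k
      induction k with
      | zero => simp
      | succ k ih =>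
        obtain ⟨z, rfl⟩ : ∃ z, y = z + 1 := ⟨y - 1, by omega⟩
        have h1 := phi_incr_anti' (a := z) (b := z + 1 + k) (by omega)
        rw [phi_succ_sub' z] at h1
        push_cast at ih h1 ⊢
        rw [← add_assoc]
        linarith
    have := key k
    push_cast
    have e2 : ((y : ℝ) + k) * (phi y / (2 * y)) = phi y / 2 + k * (phi y / (2 * y)) := by
      field_simp
    rw [e2]
    linarith

/-- `phi y ^ 2 ≤ 4 y + 1`. -/
theorem phi_sq_le (y : ℕ) : phi y ^ 2 ≤ 4 * y + 1 := by
  induction y with
  | zero => simp [phi]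
  | succ y ih =>
    simp only [phi]
    have hy : (0 : ℝ) ≤ y := Nat.cast_nonneg y
    rw [mul_pow, div_pow]
    rw [mul_div_assoc', div_le_iff₀ (by positivity)]
    push_cast
    nlinarith [mul_le_mul_of_nonneg_right ih (show (0 : ℝ) ≤ (2 * (y : ℝ) + 2) ^ 2 by positivity)]

/-! ### Combinatorics of active hyperedges -/

theorem act_sdiff {H : Finset (Finset V)} {A T : Finset V} :
    act H (A \ T) = (act H A).filter (fun T' => Disjoint T' T) := by
  ext T'
  simp only [mem_act, Finset.mem_filter, Finset.subset_sdiff]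
  tauto

theorem codeg_erase {H : Finset (Finset V)} {A : Finset V} (e x : V) :
    codeg H (A.erase e) x = ((act H A).filter (fun T => e ∉ T ∧ x ∈ T)).card := by
  unfold codeg
  rw [act_erase, Finset.filter_filter]

/-- Removing `T` destroys exactly the active hyperedges through `e` meeting `T`. -/
theorem codeg_sdiff {H : Finset (Finset V)} {A : Finset V} (T : Finset V) (e : V) :
    codeg H (A \ T) e + ((act H A).filter (fun T' => e ∈ T' ∧ ¬ Disjoint T' T)).card
      = codeg H A e := by
  unfold codeg
  rw [act_sdiff, Finset.filter_filter, ← Finset.card_union_of_disjoint]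
  · congr 1
    ext T'
    simp only [Finset.mem_union, Finset.mem_filter]
    tauto
  · rw [Finset.disjoint_left]
    intro T' h1 h2
    rw [Finset.mem_filter] at h1 h2
    exact h2.2.2 h1.2.1

/-- For an active hyperedge `T'` through `e`, the active hyperedges not through `e` meeting `T'`
are counted by the codegrees of the other vertices of `T'` after deletion of `e`. -/
theorem card_meeting {H : Finset (Finset V)} (hH : Lin3 H) {A T' : Finset V} {e : V}
    (hT' : T' ∈ act H A) (he : e ∈ T') :
    ((act H A).filter (fun T => e ∉ T ∧ ¬ Disjoint T' T)).card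
      = ∑ x ∈ T'.erase e, codeg H (A.erase e) x := by
  have hset : (act H A).filter (fun T => e ∉ T ∧ ¬ Disjoint T' T)
      = (T'.erase e).biUnion (fun x => (act H A).filter (fun T => e ∉ T ∧ x ∈ T)) := by
    ext T
    simp only [Finset.mem_filter, Finset.mem_biUnion, Finset.mem_erase]
    constructor
    · rintro ⟨hT, heT, hd⟩
      rw [Finset.not_disjoint_iff] at hd
      obtain ⟨x, hx1, hx2⟩ := hd
      exact ⟨x, ⟨fun h => heT (h ▸ hx2), hx1⟩, hT, heT, hx2⟩
    · rintro ⟨x, ⟨hxe, hx⟩, hT, heT, hxT⟩
      exact ⟨hT, heT, Finset.not_disjoint_iff.2 ⟨x, hx, hxT⟩⟩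
  rw [hset, Finset.card_biUnion]
  · apply Finset.sum_congr rfl
    intro x _
    rw [codeg_erase]
  · intro x hx y hy hxy
    rw [Function.onFun, Finset.disjoint_left]
    intro T h1 h2
    rw [Finset.mem_filter] at h1 h2
    have hx' := Finset.mem_of_mem_erase hx
    have hy' := Finset.mem_of_mem_erase hy
    have hTH := (mem_act.1 h1.1).1
    have hT'H := (mem_act.1 hT').1
    have := hH.lin T hTH T' hT'H x y hxy h1.2.2 h2.2.2 hx' hy'
    exact h1.2.1 (this ▸ he)

/-- double counting -/
theorem sum_meeting {H : Finset (Finset V)} (hH : Lin3 H) (A : Finset V) (e : V) :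
    ∑ T ∈ (act H A).filter (fun T => e ∉ T),
        ((act H A).filter (fun T' => e ∈ T' ∧ ¬ Disjoint T' T)).card
      = ∑ T' ∈ (act H A).filter (fun T => e ∈ T), ∑ x ∈ T'.erase e, codeg H (A.erase e) x := by
  have h1 : ∀ T' ∈ (act H A).filter (fun T => e ∈ T),
      ∑ x ∈ T'.erase e, codeg H (A.erase e) x
        = ∑ T ∈ (act H A).filter (fun T => e ∉ T), if ¬ Disjoint T' T then 1 else 0 := by
    intro T' hT'
    rw [Finset.mem_filter] at hT'
    rw [← card_meeting hH hT'.1 hT'.2, Finset.card_filter, Finset.sum_filter]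
    apply Finset.sum_congr rfl
    intro T _
    by_cases h : e ∈ T <;> simp [h]
  rw [Finset.sum_congr rfl h1, Finset.sum_comm]
  apply Finset.sum_congr rfl
  intro T _
  rw [Finset.card_filter, Finset.sum_filter]
  apply Finset.sum_congr rfl
  intro T' _
  by_cases h : e ∈ T' <;> simp [h]

/-- telescoping bound -/
theorem abs_sub_sdiff_le (u : Finset V → ℝ) (c : V → ℝ) (B : Finset V)
    (S : Finset V) (h : ∀ x ∈ S, ∀ B' ⊆ B, |dd u x B'| ≤ c x) :
    |u B - u (B \ S)| ≤ ∑ x ∈ S, c x := by
  induction S using Finset.induction_on with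
  | empty => simp
  | insert x S hx ih =>
    have h1 := ih (fun y hy => h y (Finset.mem_insert_of_mem hy))
    have h2 := h x (Finset.mem_insert_self x S) (B \ S) Finset.sdiff_subset
    rw [Finset.sum_insert hx]
    have e1 : B \ insert x S = (B \ S).erase x := by
      ext y
      simp only [Finset.mem_sdiff, Finset.mem_insert, Finset.mem_erase]
      tauto
    rw [e1]
    have e2 : u B - u ((B \ S).erase x) = dd u x (B \ S) + (u B - u (B \ S)) := by
      unfold dd; ring
    rw [e2]
    exact (abs_add_le _ _).trans (add_le_add h2 h1)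

/-- If `u` is harmonic, its derivative satisfies the tagged-edge equation. -/
theorem dd_eq_of_harmonic {H : Finset (Finset V)} {u : Finset V → ℝ}
    (hu : ∀ A, gen H u A = 0) (A : Finset V) (e : V) :
    ((act H A).card : ℝ) * dd u e A =
      ∑ T ∈ (act H A).filter (fun T => e ∉ T), dd u e (A \ T)
      - ∑ T ∈ (act H A).filter (fun T => e ∈ T), (u (A.erase e) - u (A \ T)) := by
  have h := gen_dd H u (A := A) (e := e)
  rw [hu, hu, Finset.sum_sub_distrib, Finset.sum_const, nsmul_eq_mul] at h
  have h2 : ∑ T ∈ (act H A).filter (fun T => e ∈ T), (u (A \ T) - u A)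
      = - (((act H A).filter (fun T => e ∈ T)).card : ℝ) * dd u e A
        - ∑ T ∈ (act H A).filter (fun T => e ∈ T), (u (A.erase e) - u (A \ T)) := by
    rw [neg_mul, ← nsmul_eq_mul, ← Finset.sum_const, ← Finset.sum_neg_distrib,
      ← Finset.sum_sub_distrib]
    apply Finset.sum_congr rfl
    intro T _
    unfold dd
    ring
  rw [h2] at h
  have h3 : ((act H A).card : ℝ) = (((act H A).filter (fun T => e ∈ T)).card : ℝ)
      + (((act H A).filter (fun T => e ∉ T)).card : ℝ) := by
    rw [← Nat.cast_add, Finset.card_filter_add_card_filter_not]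
  rw [h3]
  linarith

/-- **helper451's deterministic influence bound.** For every linear 3-uniform hypergraph and every
1-Lipschitz terminal functional. -/
theorem influence {H : Finset (Finset V)} (hH : Lin3 H) {f : Finset V → ℝ}
    (hf : ∀ (A : Finset V) (e : V), |dd f e A| ≤ 1) :
    ∀ (A : Finset V) (e : V), |dd (Phi H f) e A| ≤ phi (codeg H A e) := by
  have hne : ∀ T ∈ H, T.Nonempty := fun T hT => hH.nonempty hT
  suffices hmain : ∀ (n : ℕ) (A : Finset V), A.card = n → ∀ e : V,
      |dd (Phi H f) e A| ≤ phi (codeg H A e) from fun A e => hmain _ A rfl e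
  intro n
  induction n using Nat.strong_induction_on with
  | _ n ih =>
  intro A hA e
  by_cases heA : e ∈ A
  swap
  · have : dd (Phi H f) e A = 0 := by
      unfold dd
      rw [Finset.erase_eq_of_notMem heA, sub_self]
    rw [this, abs_zero]
    exact (phi_pos _).le
  by_cases hQ : act H A = ∅
  · have h1 : act H (A.erase e) = ∅ := by
      rw [act_erase, hQ]
      simp
    have : dd (Phi H f) e A = dd f e A := by
      unfold dd
      rw [Phi_of_act_empty f hQ, Phi_of_act_empty f h1]
    rw [this]
    exact (hf A e).trans (one_le_phi _)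
  have hQpos : (0 : ℝ) < (act H A).card := by
    exact_mod_cast Finset.card_pos.2 (Finset.nonempty_iff_ne_empty.2 hQ)
  set y := codeg H A e with hy
  set h := phi y / (2 * (y : ℝ)) with hh
  have hhnn : 0 ≤ h := div_nonneg (phi_pos y).le (by positivity)
  have key := dd_eq_of_harmonic (fun A => gen_Phi hne f A) A e
  -- first sum
  have b1 : |∑ T ∈ (act H A).filter (fun T => e ∉ T), dd (Phi H f) e (A \ T)|
      ≤ ∑ T ∈ (act H A).filter (fun T => e ∉ T), (phi y
        - (((act H A).filter (fun T' => e ∈ T' ∧ ¬ Disjoint T' T)).card : ℝ) * h) := by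
    refine (Finset.abs_sum_le_sum_abs _ _).trans (Finset.sum_le_sum ?_)
    intro T hT
    rw [Finset.mem_filter] at hT
    have hlt := card_sdiff_lt hne hT.1
    refine (ih _ (hA ▸ hlt) (A \ T) rfl e).trans ?_
    have hc := codeg_sdiff (H := H) (A := A) T e
    have hle : ((act H A).filter (fun T' => e ∈ T' ∧ ¬ Disjoint T' T)).card ≤ y := by omega
    have := phi_sub_le' hle
    have e1 : codeg H (A \ T) e
        = y - ((act H A).filter (fun T' => e ∈ T' ∧ ¬ Disjoint T' T)).card := by omega
    rw [e1]
    exact this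
  -- second sum
  have b2 : |∑ T ∈ (act H A).filter (fun T => e ∈ T), (Phi H f (A.erase e) - Phi H f (A \ T))|
      ≤ ∑ T ∈ (act H A).filter (fun T => e ∈ T),
        ∑ x ∈ T.erase e, phi (codeg H (A.erase e) x) := by
    refine (Finset.abs_sum_le_sum_abs _ _).trans (Finset.sum_le_sum ?_)
    intro T hT
    rw [Finset.mem_filter] at hT
    have e1 : A \ T = (A.erase e) \ (T.erase e) := by
      ext z
      simp only [Finset.mem_sdiff, Finset.mem_erase]
      constructor
      · rintro ⟨h1, h2⟩
        exact ⟨⟨fun h => h2 (h ▸ hT.2), h1⟩, fun h => h2 h.2⟩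
      · rintro ⟨⟨h1, h2⟩, h3⟩
        exact ⟨h2, fun h => h3 ⟨h1, h⟩⟩
    rw [e1]
    apply abs_sub_sdiff_le
    intro x _ B' hB'
    have hcard : B'.card < n := by
      have h1 := Finset.card_le_card hB'
      have h2 := Finset.card_erase_lt_of_mem heA
      omega
    exact (ih _ hcard B' rfl x).trans (phi_mono (codeg_mono hB' x))
  -- combine
  have hsum : (∑ T ∈ (act H A).filter (fun T => e ∉ T), (phi y
        - (((act H A).filter (fun T' => e ∈ T' ∧ ¬ Disjoint T' T)).card : ℝ) * h))
      + ∑ T ∈ (act H A).filter (fun T => e ∈ T),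
        ∑ x ∈ T.erase e, phi (codeg H (A.erase e) x)
      ≤ ((act H A).card : ℝ) * phi y := by
    rw [Finset.sum_sub_distrib, Finset.sum_const, nsmul_eq_mul, ← Finset.sum_mul]
    have hm := sum_meeting hH A e
    have hm' : (∑ T ∈ (act H A).filter (fun T => e ∉ T),
        (((act H A).filter (fun T' => e ∈ T' ∧ ¬ Disjoint T' T)).card : ℝ))
        = ∑ T' ∈ (act H A).filter (fun T => e ∈ T),
          ∑ x ∈ T'.erase e, (codeg H (A.erase e) x : ℝ) := by
      exact_mod_cast hm
    rw [hm']
    have h3 : ((act H A).card : ℝ) = (((act H A).filter (fun T => e ∈ T)).card : ℝ)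
        + (((act H A).filter (fun T => e ∉ T)).card : ℝ) := by
      rw [← Nat.cast_add, Finset.card_filter_add_card_filter_not]
    rw [h3, add_mul]
    have h4 : ∑ T ∈ (act H A).filter (fun T => e ∈ T),
          ∑ x ∈ T.erase e, phi (codeg H (A.erase e) x)
        - (∑ T' ∈ (act H A).filter (fun T => e ∈ T),
          ∑ x ∈ T'.erase e, (codeg H (A.erase e) x : ℝ)) * h
        ≤ (((act H A).filter (fun T => e ∈ T)).card : ℝ) * phi y := by
      rw [Finset.sum_mul, ← Finset.sum_sub_distrib, ← nsmul_eq_mul, ← Finset.sum_const]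
      apply Finset.sum_le_sum
      intro T hT
      rw [Finset.sum_mul, ← Finset.sum_sub_distrib]
      have hypos : 0 < y := by
        rw [hy]
        exact Finset.card_pos.2 ⟨T, hT⟩
      rw [Finset.mem_filter] at hT
      have hc2 : (T.erase e).card = 2 := by
        rw [Finset.card_erase_of_mem hT.2, hH.card3 T (mem_act.1 hT.1).1]
      calc ∑ x ∈ T.erase e, (phi (codeg H (A.erase e) x) - (codeg H (A.erase e) x : ℝ) * h)
          ≤ ∑ _x ∈ T.erase e, phi y / 2 := by
            apply Finset.sum_le_sum
            intro x _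
            exact phi_sub_mul_le hypos _
        _ = phi y := by
            rw [Finset.sum_const, hc2, nsmul_eq_mul]
            push_cast
            ring
    linarith
  have habs : ((act H A).card : ℝ) * |dd (Phi H f) e A| ≤ ((act H A).card : ℝ) * phi y := by
    rw [← abs_of_pos hQpos, ← abs_mul, key, abs_of_pos hQpos]
    refine (abs_sub _ _).trans ?_
    exact (add_le_add b1 b2).trans hsum
  exact le_of_mul_le_mul_left habs hQpos

/-- Deleting a set of vertices changes `Phi` by at most the sum of the influences. -/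
theorem Phi_sdiff_le {H : Finset (Finset V)} (hH : Lin3 H) {f : Finset V → ℝ}
    (hf : ∀ (A : Finset V) (e : V), |dd f e A| ≤ 1) (A S : Finset V) :
    |Phi H f A - Phi H f (A \ S)| ≤ ∑ x ∈ S, phi (codeg H A x) := by
  apply abs_sub_sdiff_le
  intro x _ B' hB'
  exact (influence hH hf B' x).trans (phi_mono (codeg_mono hB' x))

theorem act_subset_hyp {H H' : Finset (Finset V)} (h : H' ⊆ H) (A : Finset V) :
    act H' A ⊆ act H A := by
  intro T hT
  rw [mem_act] at *
  exact ⟨h hT.1, hT.2⟩

theorem codeg_mono_hyp {H H' : Finset (Finset V)} (h : H' ⊆ H) (A : Finset V) (e : V) :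
    codeg H' A e ≤ codeg H A e :=
  Finset.card_le_card (Finset.filter_subset_filter _ (act_subset_hyp h A))

/-- Switching off one hyperedge changes `Phi` by at most the sum of the influences of its
vertices. -/
theorem Phi_erase_hyp_le {H : Finset (Finset V)} (hH : Lin3 H) {f : Finset V → ℝ}
    (hf : ∀ (A : Finset V) (e : V), |dd f e A| ≤ 1) (T0 : Finset V) :
    ∀ (A : Finset V), |Phi H f A - Phi (H.erase T0) f A| ≤ ∑ x ∈ T0, phi (codeg H A x) := by
  have hne : ∀ T ∈ H, T.Nonempty := fun T hT => hH.nonempty hT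
  have hH' : Lin3 (H.erase T0) := hH.subset (Finset.erase_subset _ _)
  have hne' : ∀ T ∈ H.erase T0, T.Nonempty := fun T hT => hH'.nonempty hT
  by_cases hT0 : T0 ∈ H
  swap
  · intro A
    rw [Finset.erase_eq_of_notMem hT0, sub_self, abs_zero]
    exact Finset.sum_nonneg (fun x _ => (phi_pos _).le)
  suffices hmain : ∀ (n : ℕ) (A : Finset V), A.card = n →
      |Phi H f A - Phi (H.erase T0) f A| ≤ ∑ x ∈ T0, phi (codeg H A x) from
    fun A => hmain _ A rfl
  intro n
  induction n using Nat.strong_induction_on with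
  | _ n ih =>
  intro A hA
  have hc0 : 0 ≤ ∑ x ∈ T0, phi (codeg H A x) := Finset.sum_nonneg (fun x _ => (phi_pos _).le)
  by_cases hQ : act H A = ∅
  · have h1 : act (H.erase T0) A = ∅ :=
      Finset.subset_empty.1 (hQ ▸ act_subset_hyp (Finset.erase_subset _ _) A)
    rw [Phi_of_act_empty f hQ, Phi_of_act_empty f h1, sub_self, abs_zero]
    exact hc0
  have hQpos : (0 : ℝ) < (act H A).card := by
    exact_mod_cast Finset.card_pos.2 (Finset.nonempty_iff_ne_empty.2 hQ)
  have hstep : ∀ T ∈ act H A, |Phi H f (A \ T) - Phi (H.erase T0) f (A \ T)|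
      ≤ ∑ x ∈ T0, phi (codeg H A x) := by
    intro T hT
    refine (ih _ (hA ▸ card_sdiff_lt hne hT) _ rfl).trans (Finset.sum_le_sum ?_)
    intro x _
    exact phi_mono (codeg_mono Finset.sdiff_subset x)
  have hact : act (H.erase T0) A = (act H A).erase T0 := by
    ext T
    simp only [mem_act, Finset.mem_erase]
    tauto
  have key : ((act H A).card : ℝ) * |Phi H f A - Phi (H.erase T0) f A|
      ≤ ((act H A).card : ℝ) * ∑ x ∈ T0, phi (codeg H A x) := by
    rw [← abs_of_pos hQpos, ← abs_mul, abs_of_pos hQpos]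
    by_cases hA0 : T0 ∈ act H A
    · have e1 := Phi_rec hne f A
      have e2 := Phi_rec hne' f A
      rw [hact, Finset.card_erase_of_mem hA0] at e2
      have hcard : (((act H A).card - 1 : ℕ) : ℝ) = ((act H A).card : ℝ) - 1 := by
        rw [Nat.cast_sub (Finset.card_pos.2 ⟨T0, hA0⟩)]
        simp
      rw [hcard] at e2
      have e3 : Phi H f (A \ T0) = Phi (H.erase T0) f (A \ T0) := by
        have h1 : ∀ B : Finset V, ¬ T0 ⊆ B → ∀ k, val H f k B = val (H.erase T0) f k B := by
          intro B hB k
          induction k generalizing B with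
          | zero => rfl
          | succ k ihk =>
            have ha : act (H.erase T0) B = act H B := by
              ext T
              simp only [mem_act, Finset.mem_erase]
              constructor
              · rintro ⟨⟨_, h2⟩, h3⟩
                exact ⟨h2, h3⟩
              · rintro ⟨h2, h3⟩
                exact ⟨⟨fun h => hB (h ▸ h3), h2⟩, h3⟩
            simp only [val, ha]
            split_ifs with hz
            · rfl
            · congr 1
              apply Finset.sum_congr rfl
              intro T _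
              exact ihk _ (fun h => hB (h.trans Finset.sdiff_subset))
        apply h1
        intro hsub
        obtain ⟨x, hx⟩ := hne T0 hT0
        exact (Finset.mem_sdiff.1 (hsub hx)).2 hx
      have e4 : ((act H A).card : ℝ) * (Phi H f A - Phi (H.erase T0) f A)
          = ∑ T ∈ (act H A).erase T0, (Phi H f (A \ T) - Phi (H.erase T0) f (A \ T))
            + (Phi (H.erase T0) f (A \ T0) - Phi (H.erase T0) f A) := by
        rw [Finset.sum_sub_distrib, ← e3]
        rw [← Finset.add_sum_erase _ _ hA0] at e1
        linarith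
      rw [e4]
      refine (abs_add_le _ _).trans ?_
      have b1 : |∑ T ∈ (act H A).erase T0, (Phi H f (A \ T) - Phi (H.erase T0) f (A \ T))|
          ≤ (((act H A).card : ℝ) - 1) * ∑ x ∈ T0, phi (codeg H A x) := by
        refine (Finset.abs_sum_le_sum_abs _ _).trans ?_
        rw [← hcard, ← Finset.card_erase_of_mem hA0, ← nsmul_eq_mul, ← Finset.sum_const]
        apply Finset.sum_le_sum
        intro T hT
        exact hstep T (Finset.mem_of_mem_erase hT)
      have b2 : |Phi (H.erase T0) f (A \ T0) - Phi (H.erase T0) f A|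
          ≤ ∑ x ∈ T0, phi (codeg H A x) := by
        rw [abs_sub_comm]
        refine (Phi_sdiff_le hH' hf A T0).trans (Finset.sum_le_sum ?_)
        intro x _
        exact phi_mono (codeg_mono_hyp (Finset.erase_subset _ _) A x)
      linarith
    · have ha : act (H.erase T0) A = act H A := by
        rw [hact, Finset.erase_eq_of_notMem hA0]
      have e1 := Phi_rec hne f A
      have e2 := Phi_rec hne' f A
      rw [ha] at e2
      rw [mul_sub, e1, e2, ← Finset.sum_sub_distrib]
      refine (Finset.abs_sum_le_sum_abs _ _).trans ?_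
      rw [← nsmul_eq_mul, ← Finset.sum_const]
      exact Finset.sum_le_sum hstep
  exact le_of_mul_le_mul_left key hQpos

/-- Switching off a set `R` of hyperedges. -/
theorem Phi_sdiff_hyp_le {H : Finset (Finset V)} (hH : Lin3 H) {f : Finset V → ℝ}
    (hf : ∀ (A : Finset V) (e : V), |dd f e A| ≤ 1) (R : Finset (Finset V)) (A : Finset V) :
    |Phi H f A - Phi (H \ R) f A| ≤ ∑ T ∈ R, ∑ x ∈ T, phi (codeg H A x) := by
  induction R using Finset.induction_on with
  | empty => simp
  | insert T0 R hT0 ih =>
    rw [Finset.sum_insert hT0]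
    have e1 : H \ insert T0 R = (H \ R).erase T0 := by
      ext y
      simp only [Finset.mem_sdiff, Finset.mem_insert, Finset.mem_erase]
      tauto
    have h1 := Phi_erase_hyp_le (hH.subset (Finset.sdiff_subset (s := H) (t := R))) hf T0 A
    have h2 : ∑ x ∈ T0, phi (codeg (H \ R) A x) ≤ ∑ x ∈ T0, phi (codeg H A x) :=
      Finset.sum_le_sum (fun x _ => phi_mono (codeg_mono_hyp Finset.sdiff_subset A x))
    rw [e1]
    calc |Phi H f A - Phi ((H \ R).erase T0) f A|
        = |(Phi (H \ R) f A - Phi ((H \ R).erase T0) f A) + (Phi H f A - Phi (H \ R) f A)| := by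
          congr 1; ring
      _ ≤ |Phi (H \ R) f A - Phi ((H \ R).erase T0) f A| + |Phi H f A - Phi (H \ R) f A| :=
          abs_add_le _ _
      _ ≤ _ := add_le_add (h1.trans h2) ih

/-- **Variance bound.**  If all codegrees are at most `K`, the variance of the terminal functional
is at most `3 |A| (4 K + 1)`. -/
theorem variance_le {H : Finset (Finset V)} (hH : Lin3 H) {f : Finset V → ℝ}
    (hf : ∀ (A : Finset V) (e : V), |dd f e A| ≤ 1) (K : ℕ) :
    ∀ (A : Finset V), (∀ x, codeg H A x ≤ K) →
      Phi H (fun B => f B ^ 2) A - (Phi H f A) ^ 2 ≤ 3 * A.card * (4 * K + 1) := by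
  have hne : ∀ T ∈ H, T.Nonempty := fun T hT => hH.nonempty hT
  suffices hmain : ∀ (n : ℕ) (A : Finset V), A.card = n → (∀ x, codeg H A x ≤ K) →
      Phi H (fun B => f B ^ 2) A - (Phi H f A) ^ 2 ≤ 3 * A.card * (4 * K + 1) from
    fun A => hmain _ A rfl
  intro n
  induction n using Nat.strong_induction_on with
  | _ n ih =>
  intro A hA hK
  by_cases hQ : act H A = ∅
  · rw [Phi_of_act_empty _ hQ, Phi_of_act_empty _ hQ, sub_self]
    positivity
  have hQpos : (0 : ℝ) < (act H A).card := by
    exact_mod_cast Finset.card_pos.2 (Finset.nonempty_iff_ne_empty.2 hQ)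
  have e1 := Phi_rec hne f A
  have e2 := Phi_rec hne (fun B => f B ^ 2) A
  have e3 : ((act H A).card : ℝ) * (Phi H (fun B => f B ^ 2) A - (Phi H f A) ^ 2)
      = ∑ T ∈ act H A, ((Phi H (fun B => f B ^ 2) (A \ T) - (Phi H f (A \ T)) ^ 2)
        + (Phi H f A - Phi H f (A \ T)) ^ 2) := by
    have : ∀ T ∈ act H A, ((Phi H (fun B => f B ^ 2) (A \ T) - (Phi H f (A \ T)) ^ 2)
        + (Phi H f A - Phi H f (A \ T)) ^ 2)
        = Phi H (fun B => f B ^ 2) (A \ T) + (Phi H f A) ^ 2
          - 2 * Phi H f A * Phi H f (A \ T) := by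
      intro T _; ring
    rw [Finset.sum_congr rfl this, Finset.sum_sub_distrib, Finset.sum_add_distrib,
      ← Finset.mul_sum, ← e1, ← e2, Finset.sum_const, nsmul_eq_mul]
    ring
  have key : ((act H A).card : ℝ) * (Phi H (fun B => f B ^ 2) A - (Phi H f A) ^ 2)
      ≤ ((act H A).card : ℝ) * (3 * A.card * (4 * K + 1)) := by
    rw [e3, ← nsmul_eq_mul, ← Finset.sum_const]
    apply Finset.sum_le_sum
    intro T hT
    have hlt := card_sdiff_lt hne hT
    have hTA := (mem_act.1 hT).2
    have h3 := hH.card3 T (mem_act.1 hT).1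
    have hcard : (A \ T).card = A.card - 3 := by
      rw [Finset.card_sdiff_of_subset hTA, h3]
    have h3A : 3 ≤ A.card := h3 ▸ Finset.card_le_card hTA
    have hcard' : ((A \ T).card : ℝ) = (A.card : ℝ) - 3 := by
      rw [hcard, Nat.cast_sub h3A]; norm_num
    have b1 := ih _ (hA ▸ hlt) (A \ T) rfl
      (fun x => (codeg_mono Finset.sdiff_subset x).trans (hK x))
    rw [hcard'] at b1
    have b2 : |Phi H f A - Phi H f (A \ T)| ≤ 3 * phi K := by
      refine (Phi_sdiff_le hH hf A T).trans ?_
      calc ∑ x ∈ T, phi (codeg H A x) ≤ ∑ _x ∈ T, phi K :=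
            Finset.sum_le_sum (fun x _ => phi_mono (hK x))
        _ = 3 * phi K := by rw [Finset.sum_const, h3, nsmul_eq_mul]; norm_num
    have b3 : (Phi H f A - Phi H f (A \ T)) ^ 2 ≤ 9 * (4 * K + 1) := by
      have := phi_sq_le K
      have h0 := phi_pos K
      calc (Phi H f A - Phi H f (A \ T)) ^ 2 = |Phi H f A - Phi H f (A \ T)| ^ 2 := by
            rw [sq_abs]
        _ ≤ (3 * phi K) ^ 2 := by
            apply pow_le_pow_left₀ (abs_nonneg _) b2
        _ ≤ 9 * (4 * K + 1) := by nlinarith
    linarith
  exact le_of_mul_le_mul_left key hQpos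

/-- the cardinality is 1-Lipschitz -/
theorem dd_card_le (A : Finset V) (e : V) :
    |dd (fun B : Finset V => (B.card : ℝ)) e A| ≤ 1 := by
  show |(A.card : ℝ) - ((A.erase e).card : ℝ)| ≤ 1
  by_cases h : e ∈ A
  · rw [Finset.card_erase_of_mem h, Nat.cast_sub (Finset.card_pos.2 ⟨e, h⟩)]
    simp
  · rw [Finset.erase_eq_of_notMem h]
    simp

end Crest.Agent.R030
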