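import Crest.Agent.R030.Domin

/-!
# R030 (S0040): the pathwise relation between the mean codegree and `4 x^2 / N^3`

For a linear 3-uniform hypergraph `H` and an alive set `A` with `x = |A|` vertices ("edges") put
`mcod H A = 3 |act H A| / |A|` (mean codegree) and `lamx N x = 4 x^2 / N^3`.

* `card_act_sdiff` : exact change of the number of active hyperedges;
* `kap N x0 η x = 4 η log (x0 / x) + 3 / lamx N x`;
* `window_step` : if all codegrees of the removed `T` are `(1 ± η) mcod` then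
  `|log (mcod / lamx)| ≤ kap` is preserved by one step (so it is an invariant as long as the state
  is `η`-regular).
-/

set_option autoImplicit false

open Finset

namespace Crest.Agent.R030.Kap

variable {V : Type*} [DecidableEq V]

/-- heuristic codegree -/
noncomputable def lamx (N x : ℝ) : ℝ := 4 * x ^ 2 / N ^ 3

/-- size of the window for `log (mcod / lamx)` -/
noncomputable def kap (N x0 η x : ℝ) : ℝ := 4 * η * Real.log (x0 / x) + 3 / lamx N x

theorem card_inter_of_act {H : Finset (Finset V)} (hH : Lin3 H) {A T T' : Finset V}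
    (hT : T ∈ act H A) (hT' : T' ∈ act H A) :
    (T ∩ T').card + (if Disjoint T' T then 1 else 0) = 1 + (if T' = T then 2 else 0) := by
  have h3 := hH.card3 T (mem_act.1 hT).1
  by_cases h : T' = T
  · subst h
    have : ¬ Disjoint T' T' := by
      rw [disjoint_self]
      intro h0
      rw [h0] at h3
      simp at h3
    rw [if_neg this, if_pos rfl, Finset.inter_self, h3]
  · by_cases hd : Disjoint T' T
    · have : T ∩ T' = ∅ := by
        rw [Finset.inter_comm]
        exact Finset.disjoint_iff_inter_eq_empty.1 hd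
      simp [h, hd, this]
    · have h1 : (T ∩ T').card = 1 := by
        rw [Finset.not_disjoint_iff] at hd
        obtain ⟨a, ha1, ha2⟩ := hd
        rw [Finset.card_eq_one]
        refine ⟨a, ?_⟩
        ext b
        rw [Finset.mem_inter, Finset.mem_singleton]
        constructor
        · rintro ⟨hb1, hb2⟩
          by_contra hne
          exact h (hH.lin T' (mem_act.1 hT').1 T (mem_act.1 hT).1 a b (fun h => hne h.symm)
            ha1 hb2 ha2 hb1)
        · rintro rfl
          exact ⟨ha2, ha1⟩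
      simp [h, hd, h1]

/-- exact change of the number of active hyperedges -/
theorem card_act_sdiff {H : Finset (Finset V)} (hH : Lin3 H) {A T : Finset V}
    (hT : T ∈ act H A) :
    (act H (A \ T)).card + ∑ e ∈ T, codeg H A e = (act H A).card + 2 := by
  have h1 : ∑ e ∈ T, codeg H A e = ∑ T' ∈ act H A, (T ∩ T').card := by
    simp only [codeg, Finset.card_filter]
    rw [Finset.sum_comm]
    apply Finset.sum_congr rfl
    intro T' _
    rw [← Finset.card_filter]
    congr 1
  have h2 : (act H (A \ T)).card = ∑ T' ∈ act H A, (if Disjoint T' T then 1 else 0) := by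
    rw [act_sdiff, Finset.card_filter]
  rw [h1, h2, ← Finset.sum_add_distrib]
  have h3 : ∀ T' ∈ act H A, (if Disjoint T' T then 1 else 0) + (T ∩ T').card
      = 1 + (if T' = T then 2 else 0) := by
    intro T' hT'
    rw [add_comm]
    exact card_inter_of_act hH hT hT'
  rw [Finset.sum_congr rfl h3, Finset.sum_add_distrib, Finset.sum_ite_eq' (act H A) T]
  simp [hT]

theorem subset_of_act {H : Finset (Finset V)} {A T : Finset V} (hT : T ∈ act H A) : T ⊆ A :=
  (mem_act.1 hT).2

theorem mcod_nonneg (H : Finset (Finset V)) (A : Finset V) : 0 ≤ mcod H A := by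
  unfold mcod; positivity

theorem mcod_pos {H : Finset (Finset V)} {A T : Finset V} (hH : Lin3 H) (hT : T ∈ act H A) :
    0 < mcod H A := by
  have h1 : 0 < (act H A).card := Finset.card_pos.2 ⟨T, hT⟩
  have h2 : 0 < A.card := by have := card_sdiff_act hH hT; omega
  unfold mcod
  positivity

/-- exact recursion for the mean codegree -/
theorem mcod_sdiff {H : Finset (Finset V)} (hH : Lin3 H) {A T : Finset V}
    (hT : T ∈ act H A) :
    mcod H (A \ T) * ((A.card : ℝ) - 3)
      = mcod H A * A.card - 3 * ∑ e ∈ T, (codeg H A e : ℝ) + 6 := by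
  have h1 : ((act H (A \ T)).card : ℝ) + ∑ e ∈ T, (codeg H A e : ℝ) = (act H A).card + 2 := by
    exact_mod_cast card_act_sdiff hH hT
  have h2 : ((A \ T).card : ℝ) + 3 = A.card := by exact_mod_cast card_sdiff_act hH hT
  have h3 : (0 : ℝ) < A.card := by
    have := card_sdiff_act hH hT
    have : 0 < A.card := by omega
    exact_mod_cast this
  have h4 : mcod H A * A.card = 3 * (act H A).card := by
    unfold mcod
    field_simp
  have h5 : mcod H (A \ T) * ((A \ T).card : ℝ) = 3 * (act H (A \ T)).card := by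
    unfold mcod
    by_cases h0 : ((A \ T).card : ℝ) = 0
    · have h0' : (A \ T) = ∅ := by
        rw [← Finset.card_eq_zero]; exact_mod_cast h0
      have : act H (A \ T) = ∅ := by
        rw [h0']
        rw [Finset.eq_empty_iff_forall_notMem]
        intro T' hT'
        have := hH.nonempty (mem_act.1 hT').1
        have h9 := (mem_act.1 hT').2
        rw [Finset.subset_empty] at h9
        rw [h9] at this
        exact Finset.not_nonempty_empty this
      simp [h0, this]
    · field_simp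
  have h6 : (A.card : ℝ) - 3 = (A \ T).card := by linarith
  rw [h6, h5, h4]
  linarith

/-- one step, upper and lower bound for the mean codegree when the codegrees of `T` are
`(1 ± η) mcod` -/
theorem mcod_step {H : Finset (Finset V)} (hH : Lin3 H) {A T : Finset V}
    (hT : T ∈ act H A) {η : ℝ}
    (hreg : ∀ e ∈ T, |(codeg H A e : ℝ) - mcod H A| ≤ η * mcod H A) :
    mcod H A * ((A.card : ℝ) - 9 - 9 * η) + 6 ≤ mcod H (A \ T) * ((A.card : ℝ) - 3) ∧
    mcod H (A \ T) * ((A.card : ℝ) - 3) ≤ mcod H A * ((A.card : ℝ) - 9 + 9 * η) + 6 := by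
  have h3 := hH.card3 T (mem_act.1 hT).1
  have hs : |∑ e ∈ T, ((codeg H A e : ℝ) - mcod H A)| ≤ 3 * (η * mcod H A) := by
    calc |∑ e ∈ T, ((codeg H A e : ℝ) - mcod H A)|
        ≤ ∑ e ∈ T, |(codeg H A e : ℝ) - mcod H A| := Finset.abs_sum_le_sum_abs _ _
      _ ≤ ∑ _e ∈ T, η * mcod H A := Finset.sum_le_sum hreg
      _ = 3 * (η * mcod H A) := by rw [Finset.sum_const, h3]; simp
  rw [Finset.sum_sub_distrib, Finset.sum_const, h3, nsmul_eq_mul] at hs
  rw [abs_le] at hs
  rw [mcod_sdiff hH hT]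
  push_cast at hs
  constructor <;> nlinarith [hs.1, hs.2]

theorem lamx_pos {N x : ℝ} (hN : 0 < N) (hx : 0 < x) : 0 < lamx N x := by
  unfold lamx; positivity

theorem win_lower {x η m m' : ℝ} (hx : 300 ≤ x)
    (hη0 : 0 ≤ η) (hη : η ≤ 1 / 9) (hmpos : 0 < m) (hm'pos : 0 < m')
    (h1 : m * (x - 9 - 9 * η) + 6 ≤ m' * (x - 3)) :
    - (12 * η / x + 27 / (x * (x - 10))) ≤ Real.log (m' * x ^ 2 / (m * (x - 3) ^ 2)) := by
  have hxpos : 0 < x := by linarith
  have hx3 : 0 < x - 3 := by linarith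
  have hx10 : 0 < x - 10 := by linarith
  have hzpos : 0 < m' * x ^ 2 / (m * (x - 3) ^ 2) := by positivity
  have h9 : (m' * x ^ 2 / (m * (x - 3) ^ 2))⁻¹ - 1 ≤ (9 * η + 27 / x) / (x - 10) := by
    have e : (m' * x ^ 2 / (m * (x - 3) ^ 2))⁻¹ - 1
        = (m * (x - 3) ^ 3 - m' * (x - 3) * x ^ 2) / (m' * (x - 3) * x ^ 2) := by
      field_simp
    rw [e, div_le_div_iff₀ (by positivity) hx10]
    have h10 : m * (x - 3) ^ 3 - m' * (x - 3) * x ^ 2
        ≤ m * ((9 * η + 27 / x) * x ^ 2) := by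
      have e2 : (9 * η + 27 / x) * x ^ 2 = 9 * η * x ^ 2 + 27 * x := by field_simp
      rw [e2]
      have h : m * (x - 9 - 9 * η) * x ^ 2 ≤ m' * (x - 3) * x ^ 2 :=
        mul_le_mul_of_nonneg_right (by linarith) (sq_nonneg x)
      have e3 : m * (x - 3) ^ 3 - m * (x - 9 - 9 * η) * x ^ 2
          = m * (9 * η * x ^ 2 + 27 * x) - 27 * m := by ring
      linarith
    have h11 : m * (x - 10) ≤ m' * (x - 3) := by
      have : m * (x - 10) ≤ m * (x - 9 - 9 * η) :=
        mul_le_mul_of_nonneg_left (by linarith) hmpos.le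
      linarith
    have h12 : 0 ≤ (9 * η + 27 / x) * x ^ 2 := by positivity
    calc (m * (x - 3) ^ 3 - m' * (x - 3) * x ^ 2) * (x - 10)
        ≤ m * ((9 * η + 27 / x) * x ^ 2) * (x - 10) :=
          mul_le_mul_of_nonneg_right h10 hx10.le
      _ = ((9 * η + 27 / x) * x ^ 2) * (m * (x - 10)) := by ring
      _ ≤ ((9 * η + 27 / x) * x ^ 2) * (m' * (x - 3)) :=
          mul_le_mul_of_nonneg_left h11 h12
      _ = (9 * η + 27 / x) * (m' * (x - 3) * x ^ 2) := by ring
  have h13 := Real.one_sub_inv_le_log_of_pos hzpos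
  have h14 : (9 * η + 27 / x) / (x - 10) ≤ 12 * η / x + 27 / (x * (x - 10)) := by
    have e : (9 * η + 27 / x) / (x - 10) = 9 * η / (x - 10) + 27 / (x * (x - 10)) := by
      field_simp
    rw [e]
    have : 9 * η / (x - 10) ≤ 12 * η / x := by
      rw [div_le_div_iff₀ hx10 hxpos]
      have : 0 ≤ η * (3 * x - 120) := mul_nonneg hη0 (by linarith)
      linarith
    linarith
  linarith

theorem win_upper {N x η m m' : ℝ} (hN : 0 < N) (hx : 300 ≤ x)
    (hη0 : 0 ≤ η) (hm : lamx N x / 2 ≤ m) (hm'pos : 0 < m')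
    (h2 : m' * (x - 3) ≤ m * (x - 9 + 9 * η) + 6) :
    Real.log (m' * x ^ 2 / (m * (x - 3) ^ 2)) ≤ 12 * η / x + 3 * N ^ 3 / (x - 3) ^ 3 := by
  have hxpos : 0 < x := by linarith
  have hx3 : 0 < x - 3 := by linarith
  have hN3 : 0 < N ^ 3 := by positivity
  have hl := lamx_pos hN hxpos
  have hmpos : 0 < m := by linarith
  have hcube : 0 < (x - 3) ^ 3 := by positivity
  have h9 : m' * x ^ 2 / (m * (x - 3) ^ 2) - 1 ≤ (9 * η + 6 / m) * x ^ 2 / (x - 3) ^ 3 := by
    have e : m' * x ^ 2 / (m * (x - 3) ^ 2) - 1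
        = (m' * (x - 3) * x ^ 2 - m * (x - 3) ^ 3) / (m * (x - 3) ^ 3) := by
      field_simp
    have e2 : (9 * η + 6 / m) * x ^ 2 / (x - 3) ^ 3
        = ((9 * η * m + 6) * x ^ 2) / (m * (x - 3) ^ 3) := by
      field_simp
    rw [e, e2]
    apply div_le_div_of_nonneg_right _ (by positivity)
    have h10 : m' * (x - 3) * x ^ 2 ≤ (m * (x - 9 + 9 * η) + 6) * x ^ 2 :=
      mul_le_mul_of_nonneg_right h2 (sq_nonneg x)
    have e3 : (m * (x - 9 + 9 * η) + 6) * x ^ 2 - m * (x - 3) ^ 3
        = (9 * η * m + 6) * x ^ 2 - m * (27 * x - 27) := by ring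
    have : 0 ≤ m * (27 * x - 27) := mul_nonneg hmpos.le (by linarith)
    linarith
  have h10 : Real.log (m' * x ^ 2 / (m * (x - 3) ^ 2))
      ≤ m' * x ^ 2 / (m * (x - 3) ^ 2) - 1 := Real.log_le_sub_one_of_pos (by positivity)
  have h11 : (9 * η + 6 / m) * x ^ 2 / (x - 3) ^ 3
      ≤ 12 * η / x + 3 * N ^ 3 / (x - 3) ^ 3 := by
    have e : (9 * η + 6 / m) * x ^ 2 / (x - 3) ^ 3
        = 9 * η * x ^ 2 / (x - 3) ^ 3 + (6 / m * x ^ 2) / (x - 3) ^ 3 := by ring
    rw [e]
    apply add_le_add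
    · rw [div_le_div_iff₀ hcube hxpos]
      have h12 : 9 * x ^ 3 ≤ 12 * (x - 3) ^ 3 := by
        have h13 : 0 ≤ x ^ 2 * (3 * x - 108) := mul_nonneg (sq_nonneg x) (by linarith)
        have e : 12 * (x - 3) ^ 3 - 9 * x ^ 3 = x ^ 2 * (3 * x - 108) + (324 * x - 324) := by ring
        linarith
      have h14 := mul_le_mul_of_nonneg_left h12 hη0
      calc 9 * η * x ^ 2 * x = η * (9 * x ^ 3) := by ring
        _ ≤ η * (12 * (x - 3) ^ 3) := h14
        _ = 12 * η * (x - 3) ^ 3 := by ring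
    · apply div_le_div_of_nonneg_right _ hcube.le
      have h13 : 6 / m ≤ 3 * N ^ 3 / x ^ 2 := by
        rw [div_le_div_iff₀ hmpos (by positivity)]
        unfold lamx at hm
        have e1 : 4 * x ^ 2 / N ^ 3 / 2 * N ^ 3 = 2 * x ^ 2 := by field_simp; ring
        have e2 := mul_le_mul_of_nonneg_right hm hN3.le
        linarith
      calc 6 / m * x ^ 2 ≤ 3 * N ^ 3 / x ^ 2 * x ^ 2 :=
            mul_le_mul_of_nonneg_right h13 (sq_nonneg x)
        _ = 3 * N ^ 3 := by field_simp
  linarith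

/-- increment of the window -/
theorem win_incr {N x η x0 : ℝ} (hN : 0 < N) (hx : 300 ≤ x) (hxN : 10 * x ≤ N ^ 3)
    (hη0 : 0 ≤ η) (hx0 : x ≤ x0) :
    12 * η / x + 3 * N ^ 3 / (x - 3) ^ 3 ≤ kap N x0 η (x - 3) - kap N x0 η x ∧
    12 * η / x + 27 / (x * (x - 10)) ≤ kap N x0 η (x - 3) - kap N x0 η x := by
  have hxpos : 0 < x := by linarith
  have hx3 : 0 < x - 3 := by linarith
  have hN3 : 0 < N ^ 3 := by positivity
  have hx10 : 0 < x - 10 := by linarith
  have hcube : 0 < (x - 3) ^ 3 := by positivity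
  have hk : kap N x0 η (x - 3) - kap N x0 η x
      = 4 * η * (- Real.log ((x - 3) / x)) + (3 * N ^ 3 / 4) * (1 / (x - 3) ^ 2 - 1 / x ^ 2) := by
    have e1 : Real.log (x0 / (x - 3)) = Real.log x0 - Real.log (x - 3) :=
      Real.log_div (by linarith) hx3.ne'
    have e2 : Real.log (x0 / x) = Real.log x0 - Real.log x :=
      Real.log_div (by linarith) hxpos.ne'
    have e3 : Real.log ((x - 3) / x) = Real.log (x - 3) - Real.log x :=
      Real.log_div hx3.ne' hxpos.ne'
    unfold kap lamx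
    rw [e1, e2, e3]
    field_simp
    ring
  have hlog3 : 3 / x ≤ - Real.log ((x - 3) / x) := by
    have : Real.log ((x - 3) / x) ≤ (x - 3) / x - 1 := Real.log_le_sub_one_of_pos (by positivity)
    have e : (x - 3) / x - 1 = - (3 / x) := by field_simp; ring
    linarith
  have hA : 12 * η / x ≤ 4 * η * (- Real.log ((x - 3) / x)) := by
    have : 4 * η * (3 / x) ≤ 4 * η * (- Real.log ((x - 3) / x)) :=
      mul_le_mul_of_nonneg_left hlog3 (by linarith)
    calc 12 * η / x = 4 * η * (3 / x) := by ring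
      _ ≤ _ := this
  have hB1 : 3 * N ^ 3 / (x - 3) ^ 3 ≤ (3 * N ^ 3 / 4) * (1 / (x - 3) ^ 2 - 1 / x ^ 2) := by
    have e : (3 * N ^ 3 / 4) * (1 / (x - 3) ^ 2 - 1 / x ^ 2)
        = 3 * N ^ 3 * ((6 * x - 9) * (x - 3)) / (4 * x ^ 2 * (x - 3) ^ 3) := by
      field_simp
      ring
    rw [e, div_le_div_iff₀ (by positivity) (by positivity)]
    have h4 : 4 * x ^ 2 ≤ (6 * x - 9) * (x - 3) := by nlinarith
    have h5 : 0 ≤ 3 * N ^ 3 * (x - 3) ^ 3 := by positivity
    have h6 := mul_le_mul_of_nonneg_left h4 h5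
    linarith
  have hB2 : 27 / (x * (x - 10)) ≤ 3 * N ^ 3 / (x - 3) ^ 3 := by
    rw [div_le_div_iff₀ (by positivity) (by positivity)]
    have h6 : (x - 3) ^ 3 ≤ x ^ 3 := pow_le_pow_left₀ hx3.le (by linarith) 3
    have h7 : 27 * x ^ 3 ≤ 3 * (10 * x) * (x * (x - 10)) := by
      have h8 : 0 ≤ x ^ 2 * (3 * x - 300) := mul_nonneg (sq_nonneg x) (by linarith)
      have e : 3 * (10 * x) * (x * (x - 10)) - 27 * x ^ 3 = x ^ 2 * (3 * x - 300) := by ring
      linarith
    have h8 : 3 * (10 * x) * (x * (x - 10)) ≤ 3 * N ^ 3 * (x * (x - 10)) := by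
      apply mul_le_mul_of_nonneg_right _ (by positivity)
      linarith
    linarith
  rw [hk]
  constructor
  · linarith
  · linarith

/-- the deterministic one-step estimate -/
theorem window_step_real {N x η m m' x0 : ℝ} (hN : 0 < N) (hx : 300 ≤ x) (hxN : 10 * x ≤ N ^ 3)
    (hη0 : 0 ≤ η) (hη : η ≤ 1 / 9) (hm : lamx N x / 2 ≤ m) (hx0 : x ≤ x0)
    (h1 : m * (x - 9 - 9 * η) + 6 ≤ m' * (x - 3))
    (h2 : m' * (x - 3) ≤ m * (x - 9 + 9 * η) + 6)
    (hw : |Real.log (m / lamx N x)| ≤ kap N x0 η x) :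
    |Real.log (m' / lamx N (x - 3))| ≤ kap N x0 η (x - 3) := by
  have hxpos : 0 < x := by linarith
  have hx3 : 0 < x - 3 := by linarith
  have hl := lamx_pos hN hxpos
  have hl3 := lamx_pos hN hx3
  have hmpos : 0 < m := by linarith
  have hm'pos : 0 < m' := by
    have : 0 < m' * (x - 3) := by
      have : 0 ≤ m * (x - 9 - 9 * η) := by
        apply mul_nonneg hmpos.le; linarith
      linarith
    exact (pos_iff_pos_of_mul_pos this).2 hx3
  have hratio : m' / lamx N (x - 3) = (m / lamx N x) * (m' * x ^ 2 / (m * (x - 3) ^ 2)) := by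
    unfold lamx
    field_simp
  have hlog : Real.log (m' / lamx N (x - 3)) = Real.log (m / lamx N x)
      + Real.log (m' * x ^ 2 / (m * (x - 3) ^ 2)) := by
    rw [hratio, Real.log_mul (by positivity) (by positivity)]
  have hinc := win_incr hN hx hxN hη0 hx0
  have hlo := win_lower hx hη0 hη hmpos hm'pos h1
  have hup := win_upper hN hx hη0 hm hm'pos h2
  rw [hlog]
  rw [abs_le] at hw ⊢
  constructor
  · linarith [hw.1, hinc.2]
  · linarith [hw.2, hinc.1]

/-- **one step of the window**: it is preserved as long as the removed `T` is `η`-regular and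
`mcod ≥ lamx / 2`. -/
theorem window_step {H : Finset (Finset V)} (hH : Lin3 H) {A T : Finset V}
    (hT : T ∈ act H A) {N η x0 : ℝ} (hN : 0 < N) (hx : 300 ≤ (A.card : ℝ))
    (hxN : 10 * (A.card : ℝ) ≤ N ^ 3) (hη0 : 0 ≤ η) (hη : η ≤ 1 / 9)
    (hm : lamx N A.card / 2 ≤ mcod H A) (hx0 : (A.card : ℝ) ≤ x0)
    (hreg : ∀ e ∈ T, |(codeg H A e : ℝ) - mcod H A| ≤ η * mcod H A)
    (hw : |Real.log (mcod H A / lamx N A.card)| ≤ kap N x0 η A.card) :
    |Real.log (mcod H (A \ T) / lamx N (A \ T).card)| ≤ kap N x0 η (A \ T).card := by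
  have h := mcod_step hH hT hreg
  have hc : ((A \ T).card : ℝ) = A.card - 3 := by
    have : ((A \ T).card : ℝ) + 3 = A.card := by exact_mod_cast card_sdiff_act hH hT
    linarith
  rw [hc]
  exact window_step_real hN hx hxN hη0 hη hm hx0 h.1 h.2 hw

/-- the window of a state -/
def Win (H : Finset (Finset V)) (N x0 η : ℝ) (A : Finset V) : Prop :=
  |Real.log (mcod H A / lamx N A.card)| ≤ kap N x0 η A.card

/-- the window is preserved by the transitions of the process from regular states. -/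
theorem Win.supp {H : Finset (Finset V)} (hH : Lin3 H) {A x : Finset V}
    (hx' : x ∈ (baseKer H).supp A) {N η x0 : ℝ} (hN : 0 < N) (hx : 300 ≤ (A.card : ℝ))
    (hxN : 10 * (A.card : ℝ) ≤ N ^ 3) (hη0 : 0 ≤ η) (hη : η ≤ 1 / 9)
    (hm : lamx N A.card / 2 ≤ mcod H A) (hx0 : (A.card : ℝ) ≤ x0)
    (hreg : ∀ e ∈ A, |(codeg H A e : ℝ) - mcod H A| ≤ η * mcod H A)
    (hw : Win H N x0 η A) : Win H N x0 η x := by
  rcases mem_supp_baseKer.1 hx' with ⟨-, rfl⟩ | ⟨T, hT, rfl⟩
  · exact hw
  · exact window_step hH hT hN hx hxN hη0 hη hm hx0 (fun e he => hreg e (subset_of_act hT he)) hw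

/-- the window gives `mcod` up to a constant -/
theorem mcod_of_window {N x η x0 m τ : ℝ} (hN : 0 < N) (hx : 0 < x) (hm : 0 < m)
    (hw : |Real.log (m / lamx N x)| ≤ kap N x0 η x) (hk : kap N x0 η x ≤ τ) (hτ : τ ≤ 1 / 2) :
    (1 - τ) * lamx N x ≤ m ∧ m ≤ (1 + 2 * τ) * lamx N x := by
  have hl := lamx_pos hN hx
  rw [abs_le] at hw
  have hτ0 : 0 ≤ τ := by linarith [abs_nonneg (Real.log (m / lamx N x)), hw.1, hw.2]
  have hpos : 0 < m / lamx N x := by positivity
  constructor
  · have h1 : Real.exp (-τ) ≤ m / lamx N x := by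
      rw [← Real.le_log_iff_exp_le hpos]
      linarith
    have h2 : 1 - τ ≤ Real.exp (-τ) := by linarith [Real.add_one_le_exp (-τ)]
    rw [← le_div_iff₀ hl]
    linarith
  · have h1 : m / lamx N x ≤ Real.exp τ := by
      rw [← Real.log_le_iff_le_exp hpos]
      linarith
    have h2 : Real.exp τ ≤ 1 + 2 * τ := by
      have h3 : 1 - τ ≤ Real.exp (-τ) := by linarith [Real.add_one_le_exp (-τ)]
      have h4 : Real.exp τ * Real.exp (-τ) = 1 := by rw [← Real.exp_add]; simp
      have h5 : 0 < Real.exp τ := Real.exp_pos τ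
      nlinarith [mul_le_mul_of_nonneg_left h3 h5.le]
    rw [← div_le_iff₀ hl]
    linarith

end Crest.Agent.R030.Kap
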