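import Crest.Agent.R030.Domin

/-!
# R030 (S0040): pathwise control of the mean codegree

`mcod H A = 3 |act H A| / |A|`.  Along paths on which all codegrees are `(1 ± η) mcod`, the ratio
`mcod / (c |A|²)` stays within `exp (± KW η c x₀ |A|)`,
`KW η c x₀ x = 3 η log (x₀/x) + 2 / (c x²) + 216 / x`.
-/

set_option autoImplicit false

open Finset

namespace Crest.Agent.R030

variable {V : Type*} [DecidableEq V] {H : Finset (Finset V)}

/-- two-sided codegree regularity -/
def RegU (H : Finset (Finset V)) (η : ℝ) (A : Finset V) : Prop :=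
  ∀ e ∈ A, |(codeg H A e : ℝ) - mcod H A| ≤ η * mcod H A

/-- width of the window for `log (mcod / (c x²))` -/
noncomputable def KW (η c x₀ x : ℝ) : ℝ :=
  3 * η * Real.log (x₀ / x) + 2 / (c * x ^ 2) + 216 / x

/-- `mcod` is inside the window -/
def InWin (H : Finset (Finset V)) (η c x₀ : ℝ) (A : Finset V) : Prop :=
  0 < mcod H A ∧ |Real.log (mcod H A / (c * (A.card : ℝ) ^ 2))| ≤ KW η c x₀ A.card

/-- number of active hyperedges after removing `T`. -/
lemma card_act_sdiff (hH : Lin3 H) {A T : Finset V} (hT : T ∈ act H A) :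
    (act H (A \ T)).card + ∑ e ∈ T, codeg H A e = (act H A).card + 2 := by
  classical
  rw [sum_codeg_eq A T, act_sdiff]
  have hTH := (mem_act.1 hT).1
  have h1 : ∀ T' ∈ act H A, (T' ∩ T).card
      = (if ¬ Disjoint T' T then 1 else 0) + (if T' = T then 2 else 0) := by
    intro T' hT'
    by_cases h : T' = T
    · subst h
      have h3 := hH.card3 T' hTH
      have hnd : ¬ Disjoint T' T' := by
        rw [Finset.disjoint_self_iff_empty]
        intro h0
        rw [h0] at h3
        simp at h3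
      rw [if_pos hnd, if_pos rfl, Finset.inter_self, h3]
    · have hle : (T' ∩ T).card ≤ 1 := by
        rw [Finset.card_le_one]
        intro a ha b hb
        by_contra hab
        rw [Finset.mem_inter] at ha hb
        exact h (hH.lin T' (mem_act.1 hT').1 T hTH a b hab ha.1 hb.1 ha.2 hb.2)
      by_cases hd : Disjoint T' T
      · have : (T' ∩ T).card = 0 := by
          rw [Finset.card_eq_zero, ← Finset.disjoint_iff_inter_eq_empty]; exact hd
        simp [h, hd, this]
      · have h0 : (T' ∩ T).card ≠ 0 := by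
          intro h0
          apply hd
          rw [Finset.disjoint_iff_inter_eq_empty, ← Finset.card_eq_zero]; exact h0
        simp only [hd, not_false_iff, if_true, h, if_false, add_zero]
        omega
  rw [Finset.sum_congr rfl h1, Finset.sum_add_distrib, Finset.sum_ite_eq' (act H A) T, if_pos hT,
    ← Finset.card_filter]
  have h2 := Finset.card_filter_add_card_filter_not (s := act H A) (fun T' => Disjoint T' T)
  omega

lemma log_one_sub_le {v : ℝ} (hv : v < 1) : Real.log (1 - v) ≤ - v := by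
  have := Real.log_le_sub_one_of_pos (show 0 < 1 - v by linarith)
  linarith

lemma le_log_one_sub {v : ℝ} (hv : v ≤ 1 / 2) : - v - 2 * v ^ 2 ≤ Real.log (1 - v) := by
  have h0 : 0 < 1 - v := by linarith
  have h1 := Real.one_sub_inv_le_log_of_pos h0
  refine le_trans ?_ h1
  have h2 : 1 - (1 - v)⁻¹ = - (v / (1 - v)) := by
    field_simp; ring
  rw [h2]
  have h3 : v / (1 - v) ≤ v + 2 * v ^ 2 := by
    rw [div_le_iff₀ h0]
    nlinarith [sq_nonneg v]
  linarith

/-- one step of `log (mcod / (c x²))` -/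
lemma kappa_log {x m S η c : ℝ} (hx : 36 ≤ x) (hm : 1 ≤ m) (_hη0 : 0 ≤ η) (hη : η ≤ 1 / 4)
    (hc : 0 < c) (hS : |S - 3 * m| ≤ 3 * η * m) :
    0 < 3 * (m * x / 3 - S + 2) / (x - 3) ∧
    |Real.log (3 * (m * x / 3 - S + 2) / (x - 3) / (c * (x - 3) ^ 2))
      - Real.log (m / (c * x ^ 2))| ≤ 9 * η / x + 6 / (x * m) + 648 / x ^ 2 := by
  have hx0 : 0 < x := by linarith
  have hx3 : 0 < x - 3 := by linarith
  have hm0 : 0 < m := by linarith
  set v : ℝ := 3 * (S - 2) / (m * x) with hv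
  rw [abs_le] at hS
  have hmx : 0 < m * x := by positivity
  have hv1 : |v - 9 / x| ≤ 9 * η / x + 6 / (x * m) := by
    have e : v - 9 / x = 3 * (S - 3 * m) / (m * x) - 6 / (x * m) := by
      rw [hv]; field_simp; ring
    rw [e, abs_le]
    have h1 : 3 * (S - 3 * m) / (m * x) ≤ 9 * η / x := by
      rw [div_le_div_iff₀ hmx hx0]
      nlinarith [mul_le_mul_of_nonneg_right hS.2 hx0.le]
    have h2 : -(9 * η / x) ≤ 3 * (S - 3 * m) / (m * x) := by
      rw [neg_le, ← neg_div, div_le_div_iff₀ hmx hx0]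
      nlinarith [mul_le_mul_of_nonneg_right hS.1 hx0.le]
    have h3 : 0 ≤ 6 / (x * m) := by positivity
    constructor <;> linarith
  have hv2 : |v| ≤ 18 / x := by
    have h1 : 9 * η / x ≤ 9 * (1/4) / x := by gcongr
    have h2 : 6 / (x * m) ≤ 6 / x := by
      rw [div_le_div_iff₀ (by positivity) hx0]
      nlinarith [mul_le_mul_of_nonneg_left hm hx0.le]
    have h3 : |v| ≤ |v - 9 / x| + |9 / x| := by
      have := abs_add_le (v - 9 / x) (9 / x)
      simpa using this
    have h4 : |9 / x| = 9 / x := abs_of_pos (by positivity)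
    rw [h4] at h3
    have h5 : (9 * (1/4) : ℝ) / x + 6 / x + 9 / x ≤ 18 / x := by
      rw [← add_div, ← add_div]
      gcongr
      norm_num
    linarith
  have hvhalf : v ≤ 1 / 2 := by
    have h1 : (18:ℝ) / x ≤ 1 / 2 := by
      rw [div_le_div_iff₀ hx0 (by norm_num)]; linarith
    exact (le_abs_self v).trans (hv2.trans h1)
  have h1v : 0 < 1 - v := by linarith
  have hQ : 3 * (m * x / 3 - S + 2) / (x - 3) = m * (x / (x - 3)) * (1 - v) := by
    rw [hv]; field_simp; ring
  rw [hQ]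
  refine ⟨by positivity, ?_⟩
  have hlog : Real.log (m * (x / (x - 3)) * (1 - v) / (c * (x - 3) ^ 2))
      - Real.log (m / (c * x ^ 2)) = 3 * (Real.log x - Real.log (x - 3)) + Real.log (1 - v) := by
    rw [Real.log_div (by positivity) (by positivity), Real.log_mul (by positivity) h1v.ne',
      Real.log_mul hm0.ne' (by positivity), Real.log_div hx0.ne' hx3.ne',
      Real.log_mul hc.ne' (by positivity), Real.log_pow, Real.log_div hm0.ne' (by positivity),
      Real.log_mul hc.ne' (by positivity), Real.log_pow]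
    push_cast
    ring
  rw [hlog]
  have hu : Real.log x - Real.log (x - 3) ≤ 3 / (x - 3) := by
    rw [← Real.log_div hx0.ne' hx3.ne']
    have := Real.log_le_sub_one_of_pos (show 0 < x / (x - 3) by positivity)
    refine this.trans (le_of_eq ?_)
    field_simp
    ring
  have hlo : 3 / x ≤ Real.log x - Real.log (x - 3) := by
    have := Real.log_le_sub_one_of_pos (show 0 < (x - 3) / x by positivity)
    rw [Real.log_div hx3.ne' hx0.ne'] at this
    have h2 : (x - 3) / x - 1 = - (3 / x) := by field_simp; ring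
    linarith
  have hu2 : 3 / (x - 3) ≤ 3 / x + 10 / x ^ 2 := by
    rw [div_add_div _ _ hx0.ne' (by positivity), div_le_div_iff₀ hx3 (by positivity)]
    nlinarith [mul_pos hx0 hx0, mul_pos hx0 (mul_pos hx0 hx0)]
  have hva := log_one_sub_le (show v < 1 by linarith)
  have hvb := le_log_one_sub hvhalf
  have hv3 : v ^ 2 ≤ 324 / x ^ 2 := by
    have h1 : v ^ 2 ≤ (18 / x) ^ 2 := by
      rw [← sq_abs v]
      exact pow_le_pow_left₀ (abs_nonneg v) hv2 2
    refine h1.trans (le_of_eq ?_)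
    rw [div_pow]; norm_num
  have e648 : (648:ℝ) / x ^ 2 = 2 * (324 / x ^ 2) := by ring
  have e30 : (0:ℝ) ≤ 324 / x ^ 2 := by positivity
  have e10 : (10:ℝ) / x ^ 2 ≤ 324 / x ^ 2 / 3 := by
    rw [div_div, div_le_div_iff₀ (by positivity) (by positivity)]
    nlinarith [mul_pos hx0 hx0]
  have e9 : 3 * (3 / x) = 9 / x := by ring
  rw [abs_le] at hv1
  rw [e648, abs_le]
  constructor
  · nlinarith [hv1.1, hv1.2]
  · nlinarith [hv1.1, hv1.2]

lemma KW_step {η c x₀ x : ℝ} (hη : 0 ≤ η) (hc : 0 < c) (hx0 : 0 < x₀) (hx : 3 < x) :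
    KW η c x₀ x + (9 * η / x + 12 / (c * x ^ 3) + 648 / x ^ 2) ≤ KW η c x₀ (x - 3) := by
  have hx' : 0 < x := by linarith
  have hx3 : 0 < x - 3 := by linarith
  unfold KW
  rw [Real.log_div hx0.ne' hx'.ne', Real.log_div hx0.ne' hx3.ne']
  have hlo : 3 / x ≤ Real.log x - Real.log (x - 3) := by
    have := Real.log_le_sub_one_of_pos (show 0 < (x - 3) / x by positivity)
    rw [Real.log_div hx3.ne' hx'.ne'] at this
    have h2 : (x - 3) / x - 1 = - (3 / x) := by field_simp; ring
    linarith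
  have h1 : 9 * η / x ≤ 3 * η * (Real.log x - Real.log (x - 3)) := by
    have := mul_le_mul_of_nonneg_left hlo (show 0 ≤ 3 * η by positivity)
    have e : 3 * η * (3 / x) = 9 * η / x := by ring
    linarith
  have h2 : 12 / (c * x ^ 3) ≤ 2 / (c * (x - 3) ^ 2) - 2 / (c * x ^ 2) := by
    have h3 : 6 / x ^ 3 ≤ 1 / (x - 3) ^ 2 - 1 / x ^ 2 := by
      rw [div_sub_div _ _ (by positivity) (by positivity),
        div_le_div_iff₀ (by positivity) (by positivity)]
      have h5 : 0 < x ^ 2 := by positivity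
      nlinarith [mul_pos h5 hx', mul_pos hx' hx3, mul_pos h5 hx3, sq_nonneg (x * (x - 3))]
    have h4 := mul_le_mul_of_nonneg_left h3 (show 0 ≤ 2 / c by positivity)
    have e1 : 2 / c * (6 / x ^ 3) = 12 / (c * x ^ 3) := by field_simp; ring
    have e2 : 2 / c * (1 / (x - 3) ^ 2 - 1 / x ^ 2) = 2 / (c * (x - 3) ^ 2) - 2 / (c * x ^ 2) := by
      field_simp
    linarith
  have h3 : 648 / x ^ 2 ≤ 216 / (x - 3) - 216 / x := by
    rw [div_sub_div _ _ hx3.ne' hx'.ne', div_le_div_iff₀ (by positivity) (by positivity)]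
    nlinarith [mul_pos hx' hx3, mul_pos hx' hx']
  nlinarith [h1, h2, h3]

lemma KW_anti {η c x₀ x y : ℝ} (hη : 0 ≤ η) (hc : 0 < c) (hx0 : 0 < x₀) (hx : 0 < x)
    (hxy : x ≤ y) : KW η c x₀ y ≤ KW η c x₀ x := by
  have hy : 0 < y := by linarith
  unfold KW
  have h1 : Real.log (x₀ / y) ≤ Real.log (x₀ / x) := by
    apply Real.log_le_log (by positivity)
    gcongr
  have h2 : 3 * η * Real.log (x₀ / y) ≤ 3 * η * Real.log (x₀ / x) :=
    mul_le_mul_of_nonneg_left h1 (by positivity)
  have h3 : 2 / (c * y ^ 2) ≤ 2 / (c * x ^ 2) := by gcongr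
  have h4 : 216 / y ≤ 216 / x := by gcongr
  linarith

/-- bounds for `mcod` inside the window -/
lemma inWin_bounds {η c x₀ : ℝ} (hc : 0 < c) {A : Finset V} (hA : 0 < A.card)
    (h : InWin H η c x₀ A) (hK : KW η c x₀ A.card ≤ Real.log 2) :
    c / 2 * (A.card : ℝ) ^ 2 ≤ mcod H A ∧ mcod H A ≤ 2 * c * (A.card : ℝ) ^ 2 := by
  obtain ⟨hm, hw⟩ := h
  have hx : (0:ℝ) < A.card := by exact_mod_cast hA
  have hw2 := abs_le.1 (hw.trans hK)
  have hpos : 0 < mcod H A / (c * (A.card : ℝ) ^ 2) := by positivity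
  have h1 : mcod H A / (c * (A.card : ℝ) ^ 2) ≤ 2 := by
    have := (Real.log_le_iff_le_exp hpos).1 hw2.2
    rwa [Real.exp_log (by norm_num)] at this
  have h2 : 1 / 2 ≤ mcod H A / (c * (A.card : ℝ) ^ 2) := by
    have := (Real.le_log_iff_exp_le hpos).1 hw2.1
    rwa [Real.exp_neg, Real.exp_log (by norm_num), ← one_div] at this
  rw [div_le_iff₀ (by positivity)] at h1
  rw [le_div_iff₀ (by positivity)] at h2
  constructor <;> linarith

/-- **the window is preserved** -/
theorem inWin_step (hH : Lin3 H) {η c x₀ : ℝ} (hη0 : 0 ≤ η) (hη : η ≤ 1 / 4) (hc : 0 < c)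
    (hx0 : 0 < x₀) {A T : Finset V} (hreg : RegU H η A) (hwin : InWin H η c x₀ A)
    (hT : T ∈ act H A) (hA : 36 ≤ A.card) (hm : 1 ≤ mcod H A)
    (hK : KW η c x₀ A.card ≤ Real.log 2) : InWin H η c x₀ (A \ T) := by
  have hx : (36:ℝ) ≤ A.card := by exact_mod_cast hA
  have hxpos : (0:ℝ) < A.card := by linarith
  have hcard := card_sdiff_act hH hT
  have hc' : ((A \ T).card : ℝ) = (A.card : ℝ) - 3 := by
    have : ((A \ T).card : ℝ) + 3 = A.card := by exact_mod_cast hcard
    linarith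
  have hQ := card_act_sdiff hH hT
  have hQ' : ((act H (A \ T)).card : ℝ)
      = (act H A).card - (∑ e ∈ T, (codeg H A e : ℝ)) + 2 := by
    have : ((act H (A \ T)).card : ℝ) + ∑ e ∈ T, (codeg H A e : ℝ) = (act H A).card + 2 := by
      exact_mod_cast hQ
    linarith
  have hTA := (mem_act.1 hT)
  have hS : |(∑ e ∈ T, (codeg H A e : ℝ)) - 3 * mcod H A| ≤ 3 * η * mcod H A := by
    have h3 : (3:ℝ) * mcod H A = ∑ _e ∈ T, mcod H A := by
      rw [Finset.sum_const, hH.card3 T hTA.1]; simp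
    rw [h3, ← Finset.sum_sub_distrib]
    refine (Finset.abs_sum_le_sum_abs _ _).trans ?_
    refine (Finset.sum_le_sum (fun e he => hreg e (hTA.2 he))).trans (le_of_eq ?_)
    rw [Finset.sum_const, hH.card3 T hTA.1]
    simp
    ring
  have hmQ : ((act H A).card : ℝ) = mcod H A * A.card / 3 := by
    unfold mcod; field_simp
  have key := kappa_log (x := A.card) (m := mcod H A) (S := ∑ e ∈ T, (codeg H A e : ℝ)) (η := η)
    (c := c) hx hm hη0 hη hc hS
  have hm' : mcod H (A \ T) = 3 * (mcod H A * A.card / 3 - (∑ e ∈ T, (codeg H A e : ℝ)) + 2)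
      / ((A.card : ℝ) - 3) := by
    unfold mcod at hmQ ⊢
    rw [hQ', hc', ← hmQ]
  rw [← hm'] at key
  refine ⟨key.1, ?_⟩
  rw [hc']
  have hb := inWin_bounds hc (by omega) hwin hK
  have h6 : 6 / (A.card * mcod H A) ≤ 12 / (c * (A.card : ℝ) ^ 3) := by
    rw [div_le_div_iff₀ (mul_pos hxpos (by linarith)) (by positivity)]
    have := mul_le_mul_of_nonneg_left hb.1 hxpos.le
    nlinarith
  have h7 := KW_step (x := (A.card : ℝ)) hη0 hc hx0 (by linarith)
  have h8 := abs_sub_abs_le_abs_sub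
    (Real.log (mcod H (A \ T) / (c * ((A.card : ℝ) - 3) ^ 2)))
    (Real.log (mcod H A / (c * (A.card : ℝ) ^ 2)))
  have h9 := hwin.2
  linarith [key.2]

/-- hitting-probability form of the invariance of the window -/
theorem inWin_hit (hH : Lin3 H) {η c x₀ x₁ : ℝ} (hη0 : 0 ≤ η) (hη : η ≤ 1 / 4) (hc : 0 < c)
    (hx0 : 0 < x₀) (hx1 : 36 ≤ x₁) (hcx1 : 2 ≤ c * x₁ ^ 2)
    (hK : KW η c x₀ x₁ ≤ Real.log 2) {G : Finset V → Prop} (hG : ∀ A, G A → RegU H η A)
    (A₀ : Finset V) (h0 : x₁ ≤ A₀.card → InWin H η c x₀ A₀) (k : ℕ) :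
    (baseKer H).hit (fun A => x₁ ≤ (A.card : ℝ) ∧ ¬ InWin H η c x₀ A) G k A₀ = 0 := by
  refine (baseKer H).hit_eq_zero
    (I := fun A => x₁ ≤ (A.card : ℝ) → InWin H η c x₀ A) ?_ ?_ k A₀ h0
  · intro A hA _ hGA x hx hx1'
    rcases mem_supp_baseKer.1 hx with ⟨-, rfl⟩ | ⟨T, hT, rfl⟩
    · exact hA hx1'
    · have hcard := card_sdiff_act hH hT
      have hc' : ((A \ T).card : ℝ) + 3 = A.card := by exact_mod_cast hcard
      have hxA : x₁ ≤ (A.card : ℝ) := by linarith
      have hw := hA hxA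
      have hKA : KW η c x₀ A.card ≤ Real.log 2 :=
        (KW_anti hη0 hc hx0 (by linarith) hxA).trans hK
      have hpos : 0 < A.card := by omega
      have hb := inWin_bounds hc hpos hw hKA
      have h36 : 36 ≤ A.card := by
        have : (36:ℝ) ≤ A.card := by linarith
        exact_mod_cast this
      refine inWin_step hH hη0 hη hc hx0 (hG A hGA) hw hT h36 ?_ hKA
      refine le_trans ?_ hb.1
      have : x₁ ^ 2 ≤ (A.card : ℝ) ^ 2 := pow_le_pow_left₀ (by linarith) hxA 2
      nlinarith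
  · intro A hA hB
    exact hB.2 (hA hB.1)

/-- `RegU` and the window give the hypothesis `LowGood` of the domination lemma. -/
lemma lowGood_of_inWin {η c x₀ : ℝ} (hc : 0 < c) {A : Finset V} (hA : 0 < A.card)
    (hreg : RegU H η A) (h : InWin H η c x₀ A) (hK : KW η c x₀ A.card ≤ Real.log 2) :
    LowGood H η (c / 2) A := by
  refine ⟨fun e he => ?_, (inWin_bounds hc hA h hK).1⟩
  have := abs_le.1 (hreg e he)
  linarith [this.1]

section Graph

open Crest.CombinatoricsR.TriangleRemoval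

variable {n : ℕ}

lemma card_allEdges_choose (n : ℕ) : (allEdges n).card = n.choose 2 := by
  have := Sym2.card_subtype_not_diag (α := Fin n)
  rw [Fintype.card_fin] at this
  rw [← this, allEdges, Fintype.card_subtype]

lemma card_allEdges_real (n : ℕ) : ((allEdges n).card : ℝ) = n * (n - 1) / 2 := by
  rw [card_allEdges_choose, Nat.cast_choose_two]

lemma card_act_allEdges_choose (n : ℕ) : (act (triHyp n) (allEdges n)).card = n.choose 3 := by
  rw [card_act_triHyp]
  have : triangles (allEdges n) = (Finset.univ : Finset (Fin n)).powersetCard 3 := by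
    unfold triangles
    rw [Finset.filter_true_of_mem]
    intro t _ u _ v _ huv
    simp [allEdges, huv]
  rw [this, Finset.card_powersetCard, Finset.card_univ, Fintype.card_fin]

lemma mcod_allEdges {n : ℕ} (hn : 2 ≤ n) : mcod (triHyp n) (allEdges n) = (n : ℝ) - 2 := by
  unfold mcod
  rw [card_act_allEdges_choose, card_allEdges_choose]
  have h1 := Nat.choose_succ_right_eq n 2
  have h2 : (n.choose 3 : ℝ) * 3 = (n.choose 2 : ℝ) * ((n : ℝ) - 2) := by
    have h3 : ((n.choose 3 * 3 : ℕ) : ℝ) = ((n.choose 2 * (n - 2) : ℕ) : ℝ) := by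
      exact_mod_cast h1
    push_cast [Nat.cast_sub hn] at h3
    exact h3
  have h4 : (0:ℝ) < (n.choose 2 : ℝ) := by exact_mod_cast Nat.choose_pos hn
  rw [div_eq_iff h4.ne']
  linarith

/-- the complete graph is inside the window -/
lemma inWin_allEdges {n : ℕ} (hn : 3 ≤ n) {η : ℝ} :
    InWin (triHyp n) η (4 / (n : ℝ) ^ 3) ((allEdges n).card : ℝ) (allEdges n) := by
  have hn' : (3:ℝ) ≤ n := by exact_mod_cast hn
  have hm := mcod_allEdges (n := n) (by omega)
  have hx : ((allEdges n).card : ℝ) = n * (n - 1) / 2 := card_allEdges_real n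
  have hxpos : (0:ℝ) < ((allEdges n).card : ℝ) := by
    rw [hx]; nlinarith
  refine ⟨by rw [hm]; linarith, ?_⟩
  set v : ℝ := 1 / ((n : ℝ) - 1) ^ 2 with hv
  have h1 : (0:ℝ) < (n : ℝ) - 1 := by linarith
  have hv0 : 0 < v := by positivity
  have hv4 : v ≤ 1 / 4 := by
    rw [hv, div_le_div_iff₀ (by positivity) (by norm_num)]
    nlinarith
  have e : mcod (triHyp n) (allEdges n) / (4 / (n : ℝ) ^ 3 * ((allEdges n).card : ℝ) ^ 2)
      = 1 - v := by
    rw [hm, hx, hv]
    field_simp
    ring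
  rw [e]
  have ha := log_one_sub_le (show v < 1 by linarith)
  have hb := le_log_one_sub (show v ≤ 1 / 2 by linarith)
  have h2 : |Real.log (1 - v)| ≤ 2 * v := by
    rw [abs_le]
    constructor
    · nlinarith
    · linarith
  refine h2.trans ?_
  unfold KW
  rw [div_self hxpos.ne', Real.log_one, mul_zero, zero_add]
  have h3 : 0 ≤ 2 / (4 / (n : ℝ) ^ 3 * ((allEdges n).card : ℝ) ^ 2) := by positivity
  have h4 : 2 * v ≤ 216 / ((allEdges n).card : ℝ) := by
    rw [hx, hv, mul_one_div, div_le_div_iff₀ (by positivity) (by nlinarith)]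
    nlinarith
  linarith

/-- **Kappa**: with `c = 4 / n³`, along paths with `RegU` the mean codegree stays in the window
as long as at least `x₁` edges are present. -/
theorem kappa_hit {n : ℕ} (hn : 3 ≤ n) {η x₁ : ℝ} (hη0 : 0 ≤ η) (hη : η ≤ 1 / 4)
    (hx1 : 36 ≤ x₁) (hcx1 : 2 ≤ 4 / (n : ℝ) ^ 3 * x₁ ^ 2)
    (hK : KW η (4 / (n : ℝ) ^ 3) ((allEdges n).card : ℝ) x₁ ≤ Real.log 2)
    {G : Finset (Sym2 (Fin n)) → Prop} (hG : ∀ A, G A → RegU (triHyp n) η A) (k : ℕ) :
    (baseKer (triHyp n)).hit (fun A => x₁ ≤ (A.card : ℝ) ∧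
      ¬ InWin (triHyp n) η (4 / (n : ℝ) ^ 3) ((allEdges n).card : ℝ) A) G k (allEdges n) = 0 := by
  have hn' : (3:ℝ) ≤ n := by exact_mod_cast hn
  have hxpos : (0:ℝ) < ((allEdges n).card : ℝ) := by
    rw [card_allEdges_real]; nlinarith
  exact inWin_hit (lin3_triHyp n) hη0 hη (by positivity) hxpos hx1 hcx1 hK hG (allEdges n)
    (fun _ => inWin_allEdges hn) k

end Graph

end Crest.Agent.R030
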