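import Crest.Agent.R030.Influence
import Crest.Agent.R030.Prog

/-!
Row 30 (S0040): the label bridge.  The uniform hyperedge removal process is the greedy process
with iid uniform labels, up to ties.
-/

set_option autoImplicit false

namespace Crest.Agent.R030

open Finset

variable {V : Type*} [DecidableEq V]

/-! ### Greedy sets -/

/-- Alive set after all labels `< s` have been processed. -/
def gs (H : Finset (Finset V)) (U : Finset V → ℕ) (A : Finset V) : ℕ → Finset V
  | 0 => A
  | s + 1 => gs H U A s \ (H.filter (fun T => U T = s ∧ T ⊆ gs H U A s)).biUnion id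

theorem mem_gs_succ {H : Finset (Finset V)} {U : Finset V → ℕ} {A : Finset V} {s : ℕ} {e : V} :
    e ∈ gs H U A (s + 1) ↔ e ∈ gs H U A s ∧ ∀ T ∈ H, e ∈ T → U T = s → ¬ (T ⊆ gs H U A s) := by
  simp only [gs, Finset.mem_sdiff, Finset.mem_biUnion, Finset.mem_filter, id, not_exists, not_and]
  constructor
  · rintro ⟨h1, h2⟩
    exact ⟨h1, fun T hT heT hU hs => h2 T ⟨hT, hU, hs⟩ heT⟩
  · rintro ⟨h1, h2⟩
    exact ⟨h1, fun T hT heT => h2 T hT.1 heT hT.2.1 hT.2.2⟩

theorem gs_succ_subset {H : Finset (Finset V)} {U : Finset V → ℕ} {A : Finset V} (s : ℕ) :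
    gs H U A (s + 1) ⊆ gs H U A s := fun _ he => (mem_gs_succ.1 he).1

theorem gs_antitone (H : Finset (Finset V)) (U : Finset V → ℕ) (A : Finset V) :
    Antitone (gs H U A) := antitone_nat_of_succ_le (fun s => gs_succ_subset s)

theorem gs_subset (H : Finset (Finset V)) (U : Finset V → ℕ) (A : Finset V) (s : ℕ) :
    gs H U A s ⊆ A := gs_antitone H U A (Nat.zero_le s)

theorem mem_gs_iff {H : Finset (Finset V)} {U : Finset V → ℕ} {A : Finset V} {s : ℕ} {e : V} :
    e ∈ gs H U A s ↔ e ∈ A ∧ ∀ T ∈ H, e ∈ T → U T < s → ¬ (T ⊆ gs H U A (U T)) := by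
  induction s with
  | zero => simp [gs]
  | succ s ih =>
    rw [mem_gs_succ, ih]
    constructor
    · rintro ⟨⟨h1, h2⟩, h3⟩
      refine ⟨h1, fun T hT heT hlt => ?_⟩
      rcases Nat.lt_succ_iff_lt_or_eq.1 hlt with h | h
      · exact h2 T hT heT h
      · rw [h]
        exact h3 T hT heT h
    · rintro ⟨h1, h2⟩
      refine ⟨⟨h1, fun T hT heT hlt => h2 T hT heT (Nat.lt_succ_of_lt hlt)⟩, ?_⟩
      intro T hT heT hU
      have := h2 T hT heT (by omega)
      rwa [hU] at this

/-- Only active hyperedges matter. -/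
theorem gs_act (H : Finset (Finset V)) (U : Finset V → ℕ) (A : Finset V) (s : ℕ) :
    gs (act H A) U A s = gs H U A s := by
  induction s with
  | zero => rfl
  | succ s ih =>
    ext e
    rw [mem_gs_succ, mem_gs_succ, ih]
    constructor
    · rintro ⟨h1, h2⟩
      refine ⟨h1, fun T hT heT hU hsub => ?_⟩
      exact h2 T (mem_act.2 ⟨hT, hsub.trans (gs_subset H U A s)⟩) heT hU hsub
    · rintro ⟨h1, h2⟩
      exact ⟨h1, fun T hT heT hU hsub => h2 T (mem_act.1 hT).1 heT hU hsub⟩

/-- `gs` depends only on the labels of hyperedges in `H`. -/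
theorem gs_congr {H : Finset (Finset V)} {U U' : Finset V → ℕ} (h : ∀ T ∈ H, U T = U' T)
    (A : Finset V) (s : ℕ) : gs H U A s = gs H U' A s := by
  induction s with
  | zero => rfl
  | succ s ih =>
    ext e
    rw [mem_gs_succ, mem_gs_succ, ih]
    constructor
    · rintro ⟨h1, h2⟩
      exact ⟨h1, fun T hT heT hU => h2 T hT heT ((h T hT).trans hU)⟩
    · rintro ⟨h1, h2⟩
      exact ⟨h1, fun T hT heT hU => h2 T hT heT ((h T hT).symm.trans hU)⟩

/-- the alive set after trying `T` -/
def tryT (A T : Finset V) : Finset V := if T ⊆ A then A \ T else A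

/-- Peeling off the hyperedge of smallest label. -/
theorem gs_peel {S : Finset (Finset V)} {U : Finset V → ℕ} {T0 : Finset V} (hT0 : T0 ∈ S)
    (hmin : ∀ T ∈ S.erase T0, U T0 < U T) (A : Finset V) {s : ℕ} (hs : U T0 < s) :
    gs S U A s = gs (S.erase T0) U (tryT A T0) s := by
  have hbefore : ∀ (S' : Finset (Finset V)) (B : Finset V) (r : ℕ), (∀ T ∈ S', r ≤ U T) →
      gs S' U B r = B := by
    intro S' B r
    induction r with
    | zero => intro _; rfl
    | succ r ih =>
      intro h
      have h0 := ih (fun T hT => by have := h T hT; omega)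
      ext e
      rw [mem_gs_succ, h0]
      constructor
      · exact fun h' => h'.1
      · intro he
        refine ⟨he, fun T hT _ hU => ?_⟩
        have := h T hT
        omega
  obtain ⟨k, rfl⟩ : ∃ k, s = U T0 + 1 + k := ⟨s - (U T0 + 1), by omega⟩
  induction k with
  | zero =>
    have h1 : gs S U A (U T0) = A := by
      apply hbefore
      intro T hT
      by_cases h : T = T0
      · rw [h]
      · exact (hmin T (Finset.mem_erase.2 ⟨h, hT⟩)).le
    have h2 : gs (S.erase T0) U (tryT A T0) (U T0 + 1 + 0) = tryT A T0 := by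
      apply hbefore
      intro T hT
      exact hmin T hT
    rw [h2]
    ext e
    rw [add_zero, mem_gs_succ, h1]
    unfold tryT
    split_ifs with hsub
    · rw [Finset.mem_sdiff]
      constructor
      · rintro ⟨he, h⟩
        exact ⟨he, fun heT => h T0 hT0 heT rfl hsub⟩
      · rintro ⟨he, heT⟩
        refine ⟨he, fun T hT heT' hU _ => ?_⟩
        by_cases h : T = T0
        · exact heT (h ▸ heT')
        · have := hmin T (Finset.mem_erase.2 ⟨h, hT⟩)
          omega
    · constructor
      · exact fun h => h.1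
      · intro he
        refine ⟨he, fun T hT _ hU hs => ?_⟩
        by_cases h : T = T0
        · exact hsub (h ▸ hs)
        · have := hmin T (Finset.mem_erase.2 ⟨h, hT⟩)
          omega
  | succ k ih =>
    have ih' := ih (by omega)
    have e1 : U T0 + 1 + (k + 1) = (U T0 + 1 + k) + 1 := by omega
    rw [e1]
    ext e
    rw [mem_gs_succ, mem_gs_succ, ih']
    constructor
    · rintro ⟨h1, h2⟩
      exact ⟨h1, fun T hT heT hU => h2 T (Finset.mem_of_mem_erase hT) heT hU⟩
    · rintro ⟨h1, h2⟩
      refine ⟨h1, fun T hT heT hU => ?_⟩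
      by_cases h : T = T0
      · subst h
        omega
      · exact h2 T (Finset.mem_erase.2 ⟨h, hT⟩) heT hU

/-! ### Averages over labels -/

section avg

variable {ι : Type*} [Fintype ι] [DecidableEq ι] {M : ℕ}

/-- average over all assignments `ι → Fin M` -/
noncomputable def avgL (F : (ι → Fin M) → ℝ) : ℝ :=
  (Fintype.card (ι → Fin M) : ℝ)⁻¹ * ∑ U : ι → Fin M, F U

theorem avgL_const [NeZero M] (c : ℝ) : avgL (fun _ : ι → Fin M => c) = c := by
  unfold avgL
  rw [Finset.sum_const, Finset.card_univ, nsmul_eq_mul, ← mul_assoc,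
    inv_mul_cancel₀ (by exact_mod_cast Fintype.card_ne_zero), one_mul]

theorem avgL_mono {F G : (ι → Fin M) → ℝ} (h : ∀ U, F U ≤ G U) : avgL F ≤ avgL G :=
  mul_le_mul_of_nonneg_left (Finset.sum_le_sum fun U _ => h U) (by positivity)

theorem avgL_mul_left (c : ℝ) (F : (ι → Fin M) → ℝ) : avgL (fun U => c * F U) = c * avgL F := by
  unfold avgL
  rw [← Finset.mul_sum]
  ring

theorem avgL_add (F G : (ι → Fin M) → ℝ) : avgL (fun U => F U + G U) = avgL F + avgL G := by
  unfold avgL
  rw [Finset.sum_add_distrib, mul_add]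

theorem avgL_sub (F G : (ι → Fin M) → ℝ) : avgL (fun U => F U - G U) = avgL F - avgL G := by
  unfold avgL
  rw [Finset.sum_sub_distrib, mul_sub]

theorem avgL_sum {κ : Type*} (s : Finset κ) (F : κ → (ι → Fin M) → ℝ) :
    avgL (fun U => ∑ i ∈ s, F i U) = ∑ i ∈ s, avgL (F i) := by
  unfold avgL
  rw [Finset.sum_comm, Finset.mul_sum]

theorem abs_avgL_le {F : (ι → Fin M) → ℝ} {G : (ι → Fin M) → ℝ} (h : ∀ U, |F U| ≤ G U) :
    |avgL F| ≤ avgL G := by
  unfold avgL
  rw [abs_mul, abs_of_nonneg (by positivity)]
  exact mul_le_mul_of_nonneg_left ((Finset.abs_sum_le_sum_abs _ _).trans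
    (Finset.sum_le_sum fun U _ => h U)) (by positivity)

/-- Resampling one coordinate. -/
theorem avgL_update (F : (ι → Fin M) → ℝ) (T : ι) [NeZero M] :
    avgL F = (M : ℝ)⁻¹ * ∑ l, avgL (fun U => F (Function.update U T l)) := by
  unfold avgL
  rw [← Finset.mul_sum, ← mul_assoc, mul_comm ((M : ℝ)⁻¹), mul_assoc]
  congr 1
  rw [Finset.sum_comm]
  have hΛ : (M : ℝ) ≠ 0 := by exact_mod_cast NeZero.ne M
  rw [eq_inv_mul_iff_mul_eq₀ hΛ]
  have h1 : ∑ U : ι → Fin M, ∑ l : Fin M, F (Function.update U T l)
      = ∑ x : (ι → Fin M) × Fin M, F (Function.update x.1 T x.2) := by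
    rw [Fintype.sum_prod_type]
  have h2 : ∑ x : (ι → Fin M) × Fin M, F (Function.update x.1 T x.2)
      = ∑ x : (ι → Fin M) × Fin M, F x.1 := by
    refine Finset.sum_bij' (fun x _ => (Function.update x.1 T x.2, x.1 T))
      (fun x _ => (Function.update x.1 T x.2, x.1 T)) ?_ ?_ ?_ ?_ ?_
    · intro _ _; exact Finset.mem_univ _
    · intro _ _; exact Finset.mem_univ _
    · rintro ⟨U, l⟩ _
      simp
    · rintro ⟨U, l⟩ _
      simp
    · rintro ⟨U, l⟩ _
      rfl
  rw [h1, h2, Fintype.sum_prod_type]
  simp only [Finset.sum_const, Finset.card_univ, nsmul_eq_mul, Fintype.card_fin]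
  rw [Finset.mul_sum]

end avg

/-! ### The bridge -/

section bridge

variable [Fintype V] {M : ℕ} [NeZero M]

/-- Injective on `S` with all labels `≥ a`. -/
def Good (S : Finset (Finset V)) (a : ℕ) (U : Finset V → Fin M) : Prop :=
  Set.InjOn U (S : Set (Finset V)) ∧ ∀ T ∈ S, a ≤ (U T).val

noncomputable instance (S : Finset (Finset V)) (a : ℕ) (U : Finset V → Fin M) : Decidable (Good S a U) :=
  Classical.propDecidable _

/-- probability that `k` labels are different and `≥ a` -/
noncomputable def cc (M : ℕ) : ℕ → ℕ → ℝ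
  | 0, _ => 1
  | k + 1, a => (k + 1) * ((M : ℝ)⁻¹ * ∑ l : Fin M, if a ≤ l.val then cc M k (l.val + 1) else 0)

/-- the value `f (final set)` -/
noncomputable def fin1 (M : ℕ) (S : Finset (Finset V)) (f : Finset V → ℝ) (A : Finset V)
    (U : Finset V → Fin M) : ℝ := f (gs S (fun T => (U T).val) A M)

omit [Fintype V] in
theorem fin1_congr {S : Finset (Finset V)} {f : Finset V → ℝ} {A : Finset V}
    {U U' : Finset V → Fin M} (h : ∀ T ∈ S, U T = U' T) : fin1 M S f A U = fin1 M S f A U' := by
  unfold fin1
  rw [gs_congr (fun T hT => by rw [h T hT])]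

omit [Fintype V] [NeZero M] in
theorem good_iff_exists_min {S : Finset (Finset V)} (hS : S.Nonempty) {a : ℕ}
    {U : Finset V → Fin M} :
    Good S a U ↔ ∃ T0 ∈ S, a ≤ (U T0).val ∧ Good (S.erase T0) ((U T0).val + 1) U := by
  constructor
  · rintro ⟨h1, h2⟩
    obtain ⟨T0, hT0, hmin⟩ := Finset.exists_min_image S (fun T => (U T).val) hS
    refine ⟨T0, hT0, h2 T0 hT0, ?_, ?_⟩
    · exact h1.mono (by exact_mod_cast Finset.erase_subset _ _)
    · intro T hT
      rw [Finset.mem_erase] at hT
      have h3 := hmin T hT.2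
      have h4 : (U T0).val ≠ (U T).val := by
        intro h
        exact hT.1 (h1 hT.2 hT0 (Fin.ext h.symm))
      omega
  · rintro ⟨T0, hT0, ha, h1, h2⟩
    constructor
    · intro T hT T' hT' h
      rw [Finset.mem_coe] at hT hT'
      by_cases hTT : T = T0
      · by_cases hTT' : T' = T0
        · rw [hTT, hTT']
        · exfalso
          have := h2 T' (Finset.mem_erase.2 ⟨hTT', hT'⟩)
          rw [← h, hTT] at this
          omega
      · by_cases hTT' : T' = T0
        · exfalso
          have := h2 T (Finset.mem_erase.2 ⟨hTT, hT⟩)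
          rw [h, hTT'] at this
          omega
        · exact h1 (Finset.mem_erase.2 ⟨hTT, hT⟩) (Finset.mem_erase.2 ⟨hTT', hT'⟩) h
    · intro T hT
      by_cases hTT : T = T0
      · rw [hTT]; exact ha
      · have := h2 T (Finset.mem_erase.2 ⟨hTT, hT⟩)
        omega

omit [Fintype V] [NeZero M] in
theorem min_unique {S : Finset (Finset V)} {U : Finset V → Fin M} {T0 T1 : Finset V}
    (h0 : T0 ∈ S) (h1 : T1 ∈ S) (g0 : Good (S.erase T0) ((U T0).val + 1) U)
    (g1 : Good (S.erase T1) ((U T1).val + 1) U) : T0 = T1 := by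
  by_contra hne
  have a := g0.2 T1 (Finset.mem_erase.2 ⟨fun h => hne h.symm, h1⟩)
  have b := g1.2 T0 (Finset.mem_erase.2 ⟨hne, h0⟩)
  omega

/-- Decomposition of the indicator according to the hyperedge of smallest label. -/
theorem indicator_good {S : Finset (Finset V)} (hS : S.Nonempty) (a : ℕ)
    (U : Finset V → Fin M) (g : ℝ) (g' : Finset V → ℝ)
    (hg : ∀ T0 ∈ S, Good (S.erase T0) ((U T0).val + 1) U → g = g' T0) :
    (if Good S a U then g else 0)
      = ∑ T0 ∈ S, if (a ≤ (U T0).val ∧ Good (S.erase T0) ((U T0).val + 1) U) then g' T0 else 0 := by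
  by_cases h : Good S a U
  · rw [if_pos h]
    obtain ⟨T0, hT0, ha, hg0⟩ := (good_iff_exists_min hS).1 h
    rw [Finset.sum_eq_single T0]
    · rw [if_pos ⟨ha, hg0⟩]
      exact hg T0 hT0 hg0
    · intro T hT hne
      rw [if_neg]
      rintro ⟨_, hg1⟩
      exact hne (min_unique hT hT0 hg1 hg0)
    · intro hn
      exact absurd hT0 hn
  · rw [if_neg h]
    symm
    apply Finset.sum_eq_zero
    intro T0 hT0
    rw [if_neg]
    intro hc
    exact h ((good_iff_exists_min hS).2 ⟨T0, hT0, hc.1, hc.2⟩)

omit [Fintype V] [NeZero M] in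
theorem good_congr {S : Finset (Finset V)} {a : ℕ} {U U' : Finset V → Fin M}
    (h : ∀ T ∈ S, U T = U' T) : Good S a U ↔ Good S a U' := by
  have key : ∀ (U U' : Finset V → Fin M), (∀ T ∈ S, U T = U' T) → Good S a U → Good S a U' := by
    intro U U' h hg
    constructor
    · intro T hT T' hT' he
      rw [← h T hT, ← h T' hT'] at he
      exact hg.1 hT hT' he
    · intro T hT
      rw [← h T hT]
      exact hg.2 T hT
  exact ⟨key U U' h, key U' U (fun T hT => (h T hT).symm)⟩

/-- averaging identity of `Phi` over a set `S` of hyperedges containing all active ones -/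
theorem Phi_avg_try {H : Finset (Finset V)} (hne : ∀ T ∈ H, T.Nonempty) (f : Finset V → ℝ)
    (A : Finset V) {S : Finset (Finset V)} (hS : act H A ⊆ S) (hSH : S ⊆ H) :
    ∑ T ∈ S, Phi H f (tryT A T) = (S.card : ℝ) * Phi H f A := by
  have h1 : ∀ T ∈ S, Phi H f (tryT A T)
      = (if T ∈ act H A then Phi H f (A \ T) - Phi H f A else 0) + Phi H f A := by
    intro T hT
    unfold tryT
    by_cases h : T ⊆ A
    · rw [if_pos h, if_pos (mem_act.2 ⟨hSH hT, h⟩)]
      ring
    · rw [if_neg h, if_neg (fun h' => h (mem_act.1 h').2)]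
      ring
  rw [Finset.sum_congr rfl h1, Finset.sum_add_distrib, Finset.sum_const, nsmul_eq_mul,
    ← Finset.sum_filter]
  have h2 : S.filter (fun T => T ∈ act H A) = act H A := by
    ext T
    rw [Finset.mem_filter]
    exact ⟨fun h => h.2, fun h => ⟨hS h, h⟩⟩
  rw [h2]
  have := gen_Phi hne f A
  unfold gen at this
  rw [this, zero_add]

/-- **Main induction**. -/
theorem avg_good_eq {H : Finset (Finset V)} (hne : ∀ T ∈ H, T.Nonempty) (f : Finset V → ℝ) :
    ∀ (k : ℕ) (S : Finset (Finset V)) (A : Finset V) (a : ℕ), S.card = k → act H A ⊆ S → S ⊆ H →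
      avgL (fun U : Finset V → Fin M => if Good S a U then fin1 M S f A U else 0)
        = cc M k a * Phi H f A := by
  intro k
  induction k with
  | zero =>
    intro S A a hk hS hSH
    have hS0 : S = ∅ := Finset.card_eq_zero.1 hk
    subst hS0
    have hact : act H A = ∅ := Finset.subset_empty.1 hS
    have h1 : ∀ U : Finset V → Fin M, (if Good ∅ a U then fin1 M ∅ f A U else 0) = f A := by
      intro U
      rw [if_pos ⟨by simp, by simp⟩]
      unfold fin1
      have : ∀ s, gs (∅ : Finset (Finset V)) (fun T => (U T).val) A s = A := by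
        intro s
        induction s with
        | zero => rfl
        | succ s ih => simp [gs, ih]
      rw [this]
    simp only [h1]
    rw [avgL_const, Phi_of_act_empty f hact]
    simp [cc]
  | succ k ih =>
    intro S A a hk hS hSH
    have hSne : S.Nonempty := Finset.card_pos.1 (by omega)
    have e1 : ∀ U : Finset V → Fin M, (if Good S a U then fin1 M S f A U else 0)
        = ∑ T0 ∈ S, if (a ≤ (U T0).val ∧ Good (S.erase T0) ((U T0).val + 1) U)
            then fin1 M (S.erase T0) f (tryT A T0) U else 0 := by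
      intro U
      apply indicator_good hSne a U
      intro T0 hT0 hg
      unfold fin1
      rw [gs_peel (U := fun T => (U T).val) hT0 ?_ A (U T0).isLt]
      intro T hT
      have := hg.2 T hT
      exact this
    simp only [e1]
    rw [avgL_sum]
    have e2 : ∀ T0 ∈ S, avgL (fun U : Finset V → Fin M =>
        if (a ≤ (U T0).val ∧ Good (S.erase T0) ((U T0).val + 1) U)
            then fin1 M (S.erase T0) f (tryT A T0) U else 0)
        = ((M : ℝ)⁻¹ * ∑ l : Fin M, if a ≤ l.val then cc M k (l.val + 1) else 0)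
          * Phi H f (tryT A T0) := by
      intro T0 hT0
      rw [avgL_update _ T0, mul_assoc, Finset.sum_mul]
      congr 1
      apply Finset.sum_congr rfl
      intro l _
      have h3 : ∀ U : Finset V → Fin M,
          (if (a ≤ ((Function.update U T0 l) T0).val ∧
              Good (S.erase T0) (((Function.update U T0 l) T0).val + 1) (Function.update U T0 l))
            then fin1 M (S.erase T0) f (tryT A T0) (Function.update U T0 l) else 0)
          = if a ≤ l.val then (if Good (S.erase T0) (l.val + 1) U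
              then fin1 M (S.erase T0) f (tryT A T0) U else 0) else 0 := by
        intro U
        have hc : ∀ T ∈ S.erase T0, Function.update U T0 l T = U T := by
          intro T hT
          rw [Function.update_of_ne (Finset.ne_of_mem_erase hT)]
        rw [Function.update_self, fin1_congr hc]
        by_cases ha : a ≤ l.val
        · rw [if_pos ha]
          by_cases hg : Good (S.erase T0) (l.val + 1) U
          · rw [if_pos hg, if_pos ⟨ha, (good_congr hc).2 hg⟩]
          · rw [if_neg hg, if_neg (fun h => hg ((good_congr hc).1 h.2))]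
        · rw [if_neg ha, if_neg (fun h => ha h.1)]
      simp only [h3]
      by_cases ha : a ≤ l.val
      · simp only [if_pos ha]
        apply ih
        · rw [Finset.card_erase_of_mem hT0, hk]; rfl
        · intro T hT
          rw [Finset.mem_erase]
          by_cases hsub : T0 ⊆ A
          · have htry : tryT A T0 = A \ T0 := by unfold tryT; rw [if_pos hsub]
            rw [htry] at hT
            refine ⟨?_, hS (act_mono Finset.sdiff_subset hT)⟩
            rintro rfl
            obtain ⟨x, hx⟩ := hne T (hSH hT0)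
            exact (Finset.mem_sdiff.1 ((mem_act.1 hT).2 hx)).2 hx
          · have htry : tryT A T0 = A := by unfold tryT; rw [if_neg hsub]
            rw [htry] at hT
            refine ⟨?_, hS hT⟩
            rintro rfl
            exact hsub (mem_act.1 hT).2
        · exact (Finset.erase_subset _ _).trans hSH
      · simp only [if_neg ha]
        rw [avgL_const]
        ring
    rw [Finset.sum_congr rfl e2, ← Finset.mul_sum, Phi_avg_try hne f A hS hSH, hk]
    simp only [cc]
    push_cast
    ring

/-- probability of a tie -/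
theorem avg_eq_label (T T' : Finset V) (h : T ≠ T') :
    avgL (fun U : Finset V → Fin M => if U T = U T' then (1 : ℝ) else 0) = (M : ℝ)⁻¹ := by
  rw [avgL_update _ T, ← avgL_sum]
  have : ∀ U : Finset V → Fin M,
      (∑ l : Fin M, if (Function.update U T l) T = (Function.update U T l) T' then (1 : ℝ) else 0)
        = 1 := by
    intro U
    have h1 : ∀ l : Fin M, (if (Function.update U T l) T = (Function.update U T l) T'
        then (1 : ℝ) else 0) = if l = U T' then 1 else 0 := by
      intro l
      rw [Function.update_self, Function.update_of_ne (fun h' => h h'.symm)]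
    rw [Finset.sum_congr rfl (fun l _ => h1 l)]
    simp
  simp only [this]
  rw [avgL_const, mul_one]

theorem avg_not_good_le (S : Finset (Finset V)) :
    avgL (fun U : Finset V → Fin M => if Good S 0 U then (0 : ℝ) else 1)
      ≤ (S.card : ℝ) ^ 2 / M := by
  have h1 : ∀ U : Finset V → Fin M, (if Good S 0 U then (0 : ℝ) else 1)
      ≤ ∑ T ∈ S, ∑ T' ∈ S.erase T, if U T = U T' then (1 : ℝ) else 0 := by
    intro U
    have hnn : 0 ≤ ∑ T ∈ S, ∑ T' ∈ S.erase T, if U T = U T' then (1 : ℝ) else 0 :=
      Finset.sum_nonneg fun T _ => Finset.sum_nonneg fun T' _ => by split_ifs <;> norm_num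
    split_ifs with hg
    · exact hnn
    · have : ∃ T ∈ S, ∃ T' ∈ S, T ≠ T' ∧ U T = U T' := by
        by_contra hcon
        push Not at hcon
        apply hg
        refine ⟨?_, fun _ _ => Nat.zero_le _⟩
        intro T hT T' hT' he
        by_contra hne
        exact hcon T hT T' hT' hne he
      obtain ⟨T, hT, T', hT', hne, he⟩ := this
      calc (1 : ℝ) = if U T = U T' then 1 else 0 := by rw [if_pos he]
        _ ≤ ∑ T'' ∈ S.erase T, if U T = U T'' then (1 : ℝ) else 0 :=
            Finset.single_le_sum (f := fun T'' => if U T = U T'' then (1 : ℝ) else 0)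
              (fun T'' _ => by split_ifs <;> norm_num)
              (Finset.mem_erase.2 ⟨fun h => hne h.symm, hT'⟩)
        _ ≤ _ := Finset.single_le_sum (f := fun T => ∑ T'' ∈ S.erase T,
              if U T = U T'' then (1 : ℝ) else 0)
              (fun T _ => Finset.sum_nonneg fun T'' _ => by split_ifs <;> norm_num) hT
  refine (avgL_mono h1).trans ?_
  rw [avgL_sum]
  have h2 : ∀ T ∈ S, avgL (fun U : Finset V → Fin M => ∑ T' ∈ S.erase T,
      if U T = U T' then (1 : ℝ) else 0) ≤ (S.card : ℝ) / M := by
    intro T hT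
    rw [avgL_sum]
    have h3 : ∀ T' ∈ S.erase T, avgL (fun U : Finset V → Fin M =>
        if U T = U T' then (1 : ℝ) else 0) = (M : ℝ)⁻¹ := by
      intro T' hT'
      exact avg_eq_label T T' (fun h => (Finset.mem_erase.1 hT').1 h.symm)
    rw [Finset.sum_congr rfl h3, Finset.sum_const, nsmul_eq_mul, div_eq_mul_inv]
    apply mul_le_mul_of_nonneg_right _ (by positivity)
    exact_mod_cast Finset.card_le_card (Finset.erase_subset T S)
  refine (Finset.sum_le_sum h2).trans ?_
  rw [Finset.sum_const, nsmul_eq_mul]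
  apply le_of_eq
  ring

omit [Fintype V] in
theorem abs_Phi_le {H : Finset (Finset V)} (hne : ∀ T ∈ H, T.Nonempty) {f : Finset V → ℝ} {B : ℝ}
    (hf : ∀ A, |f A| ≤ B) : ∀ A, |Phi H f A| ≤ B := by
  have hv : ∀ (k : ℕ) (A : Finset V), |val H f k A| ≤ B := by
    intro k
    induction k with
    | zero => intro A; exact hf A
    | succ k ih =>
      intro A
      simp only [val]
      split_ifs with h
      · exact hf A
      · rw [abs_mul, abs_of_nonneg (by positivity : (0 : ℝ) ≤ ((act H A).card : ℝ)⁻¹)]
        have hpos : (0 : ℝ) < (act H A).card := by exact_mod_cast Nat.pos_of_ne_zero h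
        rw [inv_mul_le_iff₀ hpos]
        refine (Finset.abs_sum_le_sum_abs _ _).trans ?_
        rw [← nsmul_eq_mul, ← Finset.sum_const]
        exact Finset.sum_le_sum fun T _ => ih _
  intro A
  exact hv _ A

/-- **Label bridge.** -/
theorem label_bridge {H : Finset (Finset V)} (hne : ∀ T ∈ H, T.Nonempty) {f : Finset V → ℝ}
    {B : ℝ} (hf : ∀ A, |f A| ≤ B) (A : Finset V) :
    |Phi H f A - avgL (fun U : Finset V → Fin M => f (gs H (fun T => (U T).val) A M))|
      ≤ 2 * B * ((act H A).card : ℝ) ^ 2 / M := by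
  set S := act H A with hSdef
  have hB : 0 ≤ B := (abs_nonneg _).trans (hf ∅)
  have hSH : S ⊆ H := Finset.filter_subset _ _
  have e0 : ∀ U : Finset V → Fin M, f (gs H (fun T => (U T).val) A M) = fin1 M S f A U := by
    intro U
    unfold fin1
    rw [hSdef, gs_act]
  have e1 := avg_good_eq (M := M) hne f S.card S A 0 rfl (Finset.Subset.refl _) hSH
  have e2 := avg_good_eq (M := M) hne (fun _ => (1 : ℝ)) S.card S A 0 rfl
    (Finset.Subset.refl _) hSH
  have hP1 : Phi H (fun _ => (1 : ℝ)) A = 1 := by
    have hv : ∀ (k : ℕ) (A : Finset V), val H (fun _ => (1 : ℝ)) k A = 1 := by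
      intro k
      induction k with
      | zero => intro A; rfl
      | succ k ih =>
        intro A
        simp only [val]
        split_ifs with h
        · rfl
        · simp only [ih, Finset.sum_const, nsmul_eq_mul, mul_one]
          exact inv_mul_cancel₀ (by exact_mod_cast h)
    exact hv _ A
  rw [hP1, mul_one] at e2
  have htie := avg_not_good_le (M := M) S
  have e3 : avgL (fun U : Finset V → Fin M => if Good S 0 U then (0 : ℝ) else 1)
      = 1 - cc M S.card 0 := by
    rw [← e2]
    have : ∀ U : Finset V → Fin M, (if Good S 0 U then (0 : ℝ) else 1)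
        = 1 - (if Good S 0 U then fin1 M S (fun _ => (1 : ℝ)) A U else 0) := by
      intro U
      split_ifs with h
      · simp [fin1]
      · simp
    simp only [this]
    rw [avgL_sub, avgL_const]
  rw [e3] at htie
  have hcc : 0 ≤ 1 - cc M S.card 0 := by
    rw [← e3]
    have := avgL_mono (F := fun _ : Finset V → Fin M => (0 : ℝ))
      (G := fun U => if Good S 0 U then (0 : ℝ) else 1)
      (fun U => by split_ifs <;> norm_num)
    rwa [avgL_const] at this
  have e4 : avgL (fun U : Finset V → Fin M => f (gs H (fun T => (U T).val) A M))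
      = cc M S.card 0 * Phi H f A
        + avgL (fun U : Finset V → Fin M => if Good S 0 U then 0 else fin1 M S f A U) := by
    rw [← e1, ← avgL_add]
    congr 1
    funext U
    rw [e0 U]
    split_ifs <;> simp
  have e5 : |avgL (fun U : Finset V → Fin M => if Good S 0 U then 0 else fin1 M S f A U)|
      ≤ B * (1 - cc M S.card 0) := by
    rw [← e3, ← avgL_mul_left]
    apply abs_avgL_le
    intro U
    split_ifs with h
    · simp
    · rw [mul_one]; exact hf _
  have e6 := abs_Phi_le hne hf A
  rw [e4]
  have e7 : Phi H f A - (cc M S.card 0 * Phi H f A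
        + avgL (fun U : Finset V → Fin M => if Good S 0 U then 0 else fin1 M S f A U))
      = (1 - cc M S.card 0) * Phi H f A
        - avgL (fun U : Finset V → Fin M => if Good S 0 U then 0 else fin1 M S f A U) := by ring
  rw [e7]
  refine (abs_sub _ _).trans ?_
  rw [abs_mul, abs_of_nonneg hcc]
  have e8 : (1 - cc M S.card 0) * |Phi H f A| ≤ (1 - cc M S.card 0) * B :=
    mul_le_mul_of_nonneg_left e6 hcc
  have e9 : (1 - cc M S.card 0) * B ≤ (S.card : ℝ) ^ 2 / M * B :=
    mul_le_mul_of_nonneg_right htie hB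
  have e10 : 2 * B * (S.card : ℝ) ^ 2 / M = 2 * ((S.card : ℝ) ^ 2 / M * B) := by ring
  rw [e10]
  linarith

end bridge

/-- Label bridge in terms of `avg` of `Prog.lean`. -/
theorem label_bridge_avg {V : Type} [DecidableEq V] [Fintype V] {M : ℕ} [NeZero M]
    {H : Finset (Finset V)} (hne : ∀ T ∈ H, T.Nonempty) {f : Finset V → ℝ}
    {B : ℝ} (hf : ∀ A, |f A| ≤ B) (A : Finset V) :
    |Phi H f A - avg (Finset V → Fin M) (fun U => f (gs H (fun T => (U T).val) A M))|
      ≤ 2 * B * ((act H A).card : ℝ) ^ 2 / M :=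
  label_bridge hne hf A

end Crest.Agent.R030
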