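import Crest.Agent.R030.WalkSum
import Crest.Prelude.Def_TriangleRemoval

/-!
# Row 30, Stage 1 (B): traces of powers of link adjacency matrices and the moment bound
-/

set_option autoImplicit false

namespace Crest.Agent.R030

open Finset Matrix
open scoped Classical
open Crest.CombinatoricsR.TriangleRemoval

variable {n : ℕ}

/-- Adjacency matrix of the link graph of `u`: `v ~ w` iff `uv, uw, vw ∈ E`. -/
noncomputable def linkM (E : Finset (Sym2 (Fin n))) (u : Fin n) : Matrix (Fin n) (Fin n) ℝ :=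
  fun v w => if s(u, v) ∈ E ∧ s(u, w) ∈ E ∧ s(v, w) ∈ E then 1 else 0

/-- Edges used by the walk `x, w 0, …, w (ℓ-1), y` in the link of `u` (spokes of the inner
vertices included, not those of `x` and `y`). -/
def pathE (u y : Fin n) : (ℓ : ℕ) → (x : Fin n) → (Fin ℓ → Fin n) → Finset (Sym2 (Fin n))
  | 0, x, _ => {s(x, y)}
  | ℓ + 1, x, w => stepE u x (w 0) ∪ pathE u y ℓ (w 0) (Fin.tail w)

lemma sum_fin_succ_fun {α : Type*} [Fintype α] (ℓ : ℕ) (f : (Fin (ℓ + 1) → α) → ℝ) :
    ∑ w : Fin (ℓ + 1) → α, f w = ∑ v : α, ∑ w : Fin ℓ → α, f (Fin.cons v w) := by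
  rw [← Fintype.sum_prod_type']
  exact (Fintype.sum_equiv (Fin.consEquiv (fun _ : Fin (ℓ + 1) => α)) _ _ (fun _ => rfl)).symm

/-- no diagonal element. -/
def Proper (F : Finset (Sym2 (Fin n))) : Prop := ∀ e ∈ F, ¬ e.IsDiag

lemma proper_union (F G : Finset (Sym2 (Fin n))) :
    Proper (F ∪ G) ↔ Proper F ∧ Proper G := by
  unfold Proper
  constructor
  · intro h
    exact ⟨fun e he => h e (mem_union_left _ he), fun e he => h e (mem_union_right _ he)⟩
  · rintro ⟨h1, h2⟩ e he
    rcases mem_union.1 he with he | he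
    · exact h1 e he
    · exact h2 e he

lemma proper_stepE (u x v : Fin n) : Proper (stepE u x v) ↔ ¬ (v = u ∨ v = x) := by
  unfold Proper stepE
  simp only [mem_insert, mem_singleton, forall_eq_or_imp, forall_eq, Sym2.mk_isDiag_iff]
  tauto

lemma proper_singleton (x y : Fin n) : Proper ({s(x, y)} : Finset (Sym2 (Fin n))) ↔ x ≠ y := by
  unfold Proper
  simp [Sym2.mk_isDiag_iff]

lemma card_union_sdiff (A B F : Finset (Sym2 (Fin n))) :
    ((A ∪ B) \ F).card = (A \ F).card + (B \ (F ∪ A)).card := by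
  rw [← card_union_of_disjoint]
  · congr 1
    ext e
    simp only [mem_sdiff, mem_union]
    tauto
  · rw [disjoint_left]
    intro e he he'
    simp only [mem_sdiff, mem_union] at he he'
    tauto

lemma W_eq_sum (p : ℝ) (u y : Fin n) (ℓ : ℕ) :
    ∀ (F : Finset (Sym2 (Fin n))) (x : Fin n),
      W p u y ℓ F x = ∑ w : Fin ℓ → Fin n,
        if Proper (pathE u y ℓ x w) then p ^ (pathE u y ℓ x w \ F).card else 0 := by
  induction ℓ with
  | zero =>
    intro F x
    rw [W, Fintype.sum_unique]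
    simp only [pathE, proper_singleton]
    by_cases h : x = y
    · rw [if_pos h, if_neg (fun h' => h' h)]
    · rw [if_neg h, if_pos h]
  | succ ℓ ih =>
    intro F x
    rw [W, sum_fin_succ_fun]
    refine Finset.sum_congr rfl fun v _ => ?_
    split_ifs with h
    · symm
      refine Finset.sum_eq_zero fun w _ => ?_
      rw [if_neg]
      intro hP
      simp only [pathE, Fin.cons_zero] at hP
      rw [proper_union, proper_stepE] at hP
      exact hP.1 h
    · rw [ih, mul_sum]
      refine Finset.sum_congr rfl fun w _ => ?_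
      have e1 : pathE u y (ℓ + 1) x (Fin.cons v w) = stepE u x v ∪ pathE u y ℓ v w := by
        simp [pathE, Fin.cons_zero, Fin.tail_cons]
      rw [e1, proper_union, proper_stepE, card_union_sdiff, pow_add]
      by_cases hP : Proper (pathE u y ℓ v w)
      · rw [if_pos hP, if_pos ⟨h, hP⟩]
      · rw [if_neg hP, if_neg (fun hh => hP hh.2), mul_zero]

/-- Edges of the closed walk `x, w 0, …, w (ℓ-1), x` in the link of `u`. -/
def closedE (u : Fin n) (ℓ : ℕ) (xw : Fin n × (Fin ℓ → Fin n)) : Finset (Sym2 (Fin n)) :=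
  {s(u, xw.1)} ∪ pathE u xw.1 ℓ xw.1 xw.2

lemma card_pathE_le (u y : Fin n) (ℓ : ℕ) : ∀ (x : Fin n) (w : Fin ℓ → Fin n),
    (pathE u y ℓ x w).card ≤ 2 * ℓ + 1 := by
  induction ℓ with
  | zero => intro x w; simp [pathE]
  | succ ℓ ih =>
    intro x w
    rw [pathE]
    refine (card_union_le _ _).trans ?_
    have h1 : (stepE u x (w 0)).card ≤ 2 := card_le_two
    have h2 := ih (w 0) (Fin.tail w)
    omega

lemma card_closedE_le (u : Fin n) (ℓ : ℕ) (xw : Fin n × (Fin ℓ → Fin n)) :
    (closedE u ℓ xw).card ≤ 2 * ℓ + 2 := by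
  unfold closedE
  refine (card_union_le _ _).trans ?_
  have := card_pathE_le u xw.1 ℓ xw.1 xw.2
  rw [card_singleton]
  omega

/-- Entries of powers of the link matrix as sums over walks. -/
lemma linkM_pow_apply (E : Finset (Sym2 (Fin n))) (u : Fin n) (ℓ : ℕ) :
    ∀ x y : Fin n, (linkM E u ^ (ℓ + 1)) x y =
      ∑ w : Fin ℓ → Fin n,
        if s(u, x) ∈ E ∧ s(u, y) ∈ E ∧ pathE u y ℓ x w ⊆ E then (1:ℝ) else 0 := by
  induction ℓ with
  | zero =>
    intro x y
    rw [Fintype.sum_unique, zero_add, pow_one]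
    simp only [linkM, pathE, singleton_subset_iff]
  | succ ℓ ih =>
    intro x y
    rw [pow_succ', Matrix.mul_apply, sum_fin_succ_fun]
    refine Finset.sum_congr rfl fun v _ => ?_
    rw [ih, mul_sum]
    refine Finset.sum_congr rfl fun w _ => ?_
    have e1 : pathE u y (ℓ + 1) x (Fin.cons v w) = stepE u x v ∪ pathE u y ℓ v w := by
      simp [pathE, Fin.cons_zero, Fin.tail_cons]
    rw [e1]
    simp only [linkM]
    by_cases h1 : s(u, x) ∈ E ∧ s(u, v) ∈ E ∧ s(x, v) ∈ E
    · rw [if_pos h1, one_mul]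
      by_cases h2 : s(u, v) ∈ E ∧ s(u, y) ∈ E ∧ pathE u y ℓ v w ⊆ E
      · rw [if_pos h2, if_pos]
        refine ⟨h1.1, h2.2.1, ?_⟩
        rw [union_subset_iff, stepE, insert_subset_iff, singleton_subset_iff]
        exact ⟨⟨h1.2.1, h1.2.2⟩, h2.2.2⟩
      · rw [if_neg h2, if_neg]
        rintro ⟨h3, h4, h5⟩
        rw [union_subset_iff] at h5
        exact h2 ⟨h1.2.1, h4, h5.2⟩
    · rw [if_neg h1, zero_mul, if_neg]
      rintro ⟨h3, h4, h5⟩
      rw [union_subset_iff, stepE, insert_subset_iff, singleton_subset_iff] at h5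
      exact h1 ⟨h3, h5.1.1, h5.1.2⟩

/-- Trace of powers of the link matrix as a sum over closed walks. -/
lemma trace_linkM_pow (E : Finset (Sym2 (Fin n))) (u : Fin n) (ℓ : ℕ) :
    (linkM E u ^ (ℓ + 1)).trace =
      ∑ xw : Fin n × (Fin ℓ → Fin n), if closedE u ℓ xw ⊆ E then (1:ℝ) else 0 := by
  rw [Matrix.trace, Fintype.sum_prod_type]
  refine Finset.sum_congr rfl fun x _ => ?_
  rw [Matrix.diag_apply, linkM_pow_apply]
  refine Finset.sum_congr rfl fun w _ => ?_
  unfold closedE
  simp only [union_subset_iff, singleton_subset_iff]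
  congr 1
  rw [eq_iff_iff]
  tauto

/-- Vertices touched by `F` other than through... : the support. -/
def supp (F : Finset (Sym2 (Fin n))) : Finset (Fin n) :=
  univ.filter fun a => ∃ b, s(a, b) ∈ F

lemma touch_supp (u : Fin n) (F : Finset (Sym2 (Fin n))) : Touch u F (supp F) := by
  intro a b hab _
  simp only [supp, mem_filter, mem_univ, true_and]
  exact ⟨b, hab⟩

lemma card_supp_le (F : Finset (Sym2 (Fin n))) : (supp F).card ≤ 2 * F.card := by
  classical
  have h : supp F ⊆ F.biUnion fun e => e.toFinset := by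
    intro a ha
    simp only [supp, mem_filter, mem_univ, true_and] at ha
    obtain ⟨b, hb⟩ := ha
    rw [mem_biUnion]
    exact ⟨s(a, b), hb, by simp⟩
  refine (card_le_card h).trans ?_
  refine (card_biUnion_le).trans ?_
  calc ∑ e ∈ F, e.toFinset.card ≤ ∑ _e ∈ F, 2 := by
        refine Finset.sum_le_sum fun e _ => ?_
        induction e with
        | _ a b =>
          have : (s(a, b)).toFinset ⊆ {a, b} := by
            intro c hc
            simpa using hc
          exact (card_le_card this).trans card_le_two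
    _ = 2 * F.card := by rw [sum_const, smul_eq_mul, mul_comm]

/-- **Extension bound for closed walks in a link.** -/
theorem closed_ext_bound {p r : ℝ} (hp : 0 ≤ p) (hp1 : p ≤ 1) (hr : 1 ≤ r)
    (hr2 : r ^ 2 = n * p ^ 2) (u : Fin n) (ℓ : ℕ) (K₀ : ℕ) (K : ℝ)
    (hK : (2 * K₀ + ℓ + 1 : ℝ) ≤ K)
    (F : Finset (Sym2 (Fin n))) (hF : F.card ≤ K₀) :
    ∑ xw : Fin n × (Fin ℓ → Fin n),
      (if Proper (closedE u ℓ xw) then p ^ (closedE u ℓ xw \ F).card else 0) ≤
    (n * p + K) * (p * (r ^ 2 + K) ^ ℓ + ℓ * K * p * (r ^ 2 + K) ^ (ℓ - 1) +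
        ((1 + K) * r) ^ (ℓ + 1)) := by
  classical
  have hr0 : 0 < r := by linarith
  have hℓ0 : (0:ℝ) ≤ ℓ := by positivity
  have hK₀0 : (0:ℝ) ≤ K₀ := by positivity
  have hK0 : 0 ≤ K := by linarith
  set M : ℝ := p * (r ^ 2 + K) ^ ℓ + ℓ * K * p * (r ^ 2 + K) ^ (ℓ - 1) +
        ((1 + K) * r) ^ (ℓ + 1) with hM
  have hM0 : 0 ≤ M := by positivity
  have hScard : ((supp F).card : ℝ) ≤ 2 * K₀ := by
    have h1 := card_supp_le F
    have h2 : (supp F).card ≤ 2 * K₀ := by omega
    exact_mod_cast h2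
  rw [Fintype.sum_prod_type]
  -- rewrite inner sum through `W`
  have inner : ∀ x : Fin n, ∑ w : Fin ℓ → Fin n,
      (if Proper (closedE u ℓ (x, w)) then p ^ (closedE u ℓ (x, w) \ F).card else 0) =
      if x = u then 0 else
        p ^ (({s(u, x)} : Finset (Sym2 (Fin n))) \ F).card * W p u x ℓ (F ∪ {s(u, x)}) x := by
    intro x
    split_ifs with hx
    · refine Finset.sum_eq_zero fun w _ => ?_
      rw [if_neg]
      intro hP
      unfold closedE at hP
      rw [proper_union, proper_singleton] at hP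
      exact hP.1 hx.symm
    · rw [W_eq_sum, mul_sum]
      refine Finset.sum_congr rfl fun w _ => ?_
      unfold closedE
      simp only
      rw [proper_union, proper_singleton, card_union_sdiff, pow_add]
      by_cases hP : Proper (pathE u x ℓ x w)
      · rw [if_pos ⟨fun h => hx h.symm, hP⟩, if_pos hP]
      · rw [if_neg (fun hh => hP hh.2), if_neg hP, mul_zero]
  have hWb : ∀ x : Fin n, x ≠ u → W p u x ℓ (F ∪ {s(u, x)}) x ≤ M := by
    intro x hxu
    have hT : Touch u (F ∪ {s(u, x)}) (insert x (supp F)) := by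
      intro a b hab ha
      rw [mem_union, mem_singleton] at hab
      rcases hab with hab | hab
      · exact mem_insert_of_mem (touch_supp u F a b hab ha)
      · rw [Sym2.eq_iff] at hab
        rcases hab with ⟨h1, _⟩ | ⟨h1, _⟩
        · exact absurd h1 ha
        · rw [h1]; exact mem_insert_self _ _
    have hH : Hgt u (F ∪ {s(u, x)}) (fun _ => 0) := fun _ _ _ _ _ => by simp
    have hcard : (((insert x (supp F)).card : ℕ) : ℝ) + ℓ ≤ K := by
      have h1 : (insert x (supp F)).card ≤ (supp F).card + 1 := card_insert_le _ _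
      have h2 : (((insert x (supp F)).card : ℕ) : ℝ) ≤ (supp F).card + 1 := by exact_mod_cast h1
      linarith
    have := W_le hp hp1 hr hr2 u x hxu K ℓ (F ∪ {s(u, x)}) (insert x (supp F)) (fun _ => 0) x
      hT hH (mem_insert_self _ _) hxu (mem_insert_self _ _) rfl hcard
    simpa [hM] using this
  simp_rw [inner]
  have hS1 : ((insert u (supp F)).card : ℝ) ≤ K := by
    have h1 : (insert u (supp F)).card ≤ (supp F).card + 1 := card_insert_le _ _
    have h2 : (((insert u (supp F)).card : ℕ) : ℝ) ≤ (supp F).card + 1 := by exact_mod_cast h1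
    linarith
  refine (sum_split (S := supp F) (A := p * M) (B := M) (K := K) (by positivity) hM0
    (by linarith) ?_ ?_).trans (le_of_eq (by ring))
  · intro x hx
    split_ifs with hxu
    · positivity
    · have hnot : s(u, x) ∉ F := (touch_supp u F).not_mem hx hxu u
      have : (({s(u, x)} : Finset (Sym2 (Fin n))) \ F).card = 1 := by
        rw [sdiff_eq_self_of_disjoint (by simpa using hnot), card_singleton]
      rw [this, pow_one]
      exact mul_le_mul_of_nonneg_left (hWb x hxu) hp
  · intro x _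
    split_ifs with hxu
    · exact hM0
    · calc p ^ (({s(u, x)} : Finset (Sym2 (Fin n))) \ F).card * W p u x ℓ (F ∪ {s(u, x)}) x
          ≤ 1 * W p u x ℓ (F ∪ {s(u, x)}) x :=
            mul_le_mul_of_nonneg_right (pow_le_one₀ hp hp1) (W_nonneg hp _ _ _ _ _)
        _ = W p u x ℓ (F ∪ {s(u, x)}) x := one_mul _
        _ ≤ M := hWb x hxu

end Crest.Agent.R030
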