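import Mathlib

/-!
Row 30 (S0040), helper953.  Summation of the weights `J^a/a! J^b/b! J^c/c!` of the fresh exploration
against the counts `R a b c` of pairs of paths.
-/

set_option autoImplicit false

namespace Crest.Agent.R030

open Finset

/-- Triple sum of products. -/
theorem triple_sum_exp_le {y : ℝ} (hy : 0 ≤ y) (N : ℕ) :
    ∑ a ∈ range N, ∑ b ∈ range N, ∑ c ∈ range N,
      y ^ a / (a.factorial : ℝ) * (y ^ b / (b.factorial : ℝ)) * (y ^ c / (c.factorial : ℝ))
      ≤ Real.exp (3 * y) := by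
  have h := Real.sum_le_exp_of_nonneg hy N
  have h0 : 0 ≤ ∑ i ∈ range N, y ^ i / (i.factorial : ℝ) :=
    Finset.sum_nonneg fun i _ => by positivity
  have e1 : ∑ a ∈ range N, ∑ b ∈ range N, ∑ c ∈ range N,
      y ^ a / (a.factorial : ℝ) * (y ^ b / (b.factorial : ℝ)) * (y ^ c / (c.factorial : ℝ))
      = (∑ i ∈ range N, y ^ i / (i.factorial : ℝ)) ^ 3 := by
    rw [pow_three, Finset.sum_mul_sum]
    simp only [Finset.sum_mul, Finset.mul_sum]
    refine Finset.sum_congr rfl fun a _ => Finset.sum_congr rfl fun b _ =>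
      Finset.sum_congr rfl fun c _ => ?_
    ring
  rw [e1, show 3 * y = y + y + y by ring, Real.exp_add, Real.exp_add]
  calc (∑ i ∈ range N, y ^ i / (i.factorial : ℝ)) ^ 3 ≤ (Real.exp y) ^ 3 :=
        pow_le_pow_left₀ h0 h 3
    _ = Real.exp y * Real.exp y * Real.exp y := by ring

/-- Weighted sum of `R a b c`: short paths are bounded by `S0 * Y^(a+b+c)` (first moment), all
paths by `R0 * D^(a+b+c)` (degrees). -/
theorem weighted_sum_le {J Y S0 D R0 : ℝ} (hJ : 0 ≤ J) (hY : 0 ≤ Y) (hS0 : 0 ≤ S0) (hD : 0 ≤ D)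
    (hR0 : 0 ≤ R0) (K N : ℕ) (R : ℕ → ℕ → ℕ → ℝ)
    (h1 : ∀ a b c, a + b + c ≤ K → R a b c ≤ S0 * Y ^ (a + b + c))
    (h2 : ∀ a b c, R a b c ≤ R0 * D ^ (a + b + c)) :
    ∑ a ∈ range N, ∑ b ∈ range N, ∑ c ∈ range N,
      J ^ a / (a.factorial : ℝ) * (J ^ b / (b.factorial : ℝ)) * (J ^ c / (c.factorial : ℝ)) * R a b c
      ≤ S0 * Real.exp (3 * (J * Y)) + R0 * Real.exp (-K) * Real.exp (3 * (Real.exp 1 * D * J)) := by
  have hterm : ∀ a b c : ℕ,
      J ^ a / (a.factorial : ℝ) * (J ^ b / (b.factorial : ℝ)) * (J ^ c / (c.factorial : ℝ)) * R a b c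
      ≤ S0 * ((J * Y) ^ a / (a.factorial : ℝ) * ((J * Y) ^ b / (b.factorial : ℝ)) *
          ((J * Y) ^ c / (c.factorial : ℝ)))
        + R0 * Real.exp (-K) * ((Real.exp 1 * D * J) ^ a / (a.factorial : ℝ) *
          ((Real.exp 1 * D * J) ^ b / (b.factorial : ℝ)) *
          ((Real.exp 1 * D * J) ^ c / (c.factorial : ℝ))) := by
    intro a b c
    set W := J ^ a / (a.factorial : ℝ) * (J ^ b / (b.factorial : ℝ)) *
      (J ^ c / (c.factorial : ℝ)) with hW
    have hW0 : 0 ≤ W := by positivity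
    have e1 : S0 * ((J * Y) ^ a / (a.factorial : ℝ) * ((J * Y) ^ b / (b.factorial : ℝ)) *
          ((J * Y) ^ c / (c.factorial : ℝ))) = W * (S0 * Y ^ (a + b + c)) := by
      rw [hW]; simp only [mul_pow, pow_add]; ring
    have e2 : R0 * Real.exp (-K) * ((Real.exp 1 * D * J) ^ a / (a.factorial : ℝ) *
          ((Real.exp 1 * D * J) ^ b / (b.factorial : ℝ)) *
          ((Real.exp 1 * D * J) ^ c / (c.factorial : ℝ)))
        = W * (R0 * D ^ (a + b + c) * (Real.exp (-K) * Real.exp 1 ^ (a + b + c))) := by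
      rw [hW]; simp only [mul_pow, pow_add]; ring
    rw [e1, e2]
    by_cases h : a + b + c ≤ K
    · have := mul_le_mul_of_nonneg_left (h1 a b c h) hW0
      have h3 : 0 ≤ W * (R0 * D ^ (a + b + c) * (Real.exp (-K) * Real.exp 1 ^ (a + b + c))) := by
        positivity
      linarith
    · push Not at h
      have h4 : 1 ≤ Real.exp (-K) * Real.exp 1 ^ (a + b + c) := by
        rw [← Real.exp_nat_mul, ← Real.exp_add]
        apply Real.one_le_exp
        have : (K : ℝ) ≤ ((a + b + c : ℕ) : ℝ) := by exact_mod_cast h.le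
        linarith
      have h5 : 0 ≤ R0 * D ^ (a + b + c) := by positivity
      have h6 : R a b c ≤ R0 * D ^ (a + b + c) * (Real.exp (-K) * Real.exp 1 ^ (a + b + c)) :=
        (h2 a b c).trans (le_mul_of_one_le_right h5 h4)
      have h7 := mul_le_mul_of_nonneg_left h6 hW0
      have h8 : 0 ≤ W * (S0 * Y ^ (a + b + c)) := by positivity
      linarith
  have hJY : 0 ≤ J * Y := by positivity
  have hE : 0 ≤ Real.exp 1 * D * J := by positivity
  calc _ ≤ ∑ a ∈ range N, ∑ b ∈ range N, ∑ c ∈ range N,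
        (S0 * ((J * Y) ^ a / (a.factorial : ℝ) * ((J * Y) ^ b / (b.factorial : ℝ)) *
          ((J * Y) ^ c / (c.factorial : ℝ)))
        + R0 * Real.exp (-K) * ((Real.exp 1 * D * J) ^ a / (a.factorial : ℝ) *
          ((Real.exp 1 * D * J) ^ b / (b.factorial : ℝ)) *
          ((Real.exp 1 * D * J) ^ c / (c.factorial : ℝ)))) :=
        Finset.sum_le_sum fun a _ => Finset.sum_le_sum fun b _ => Finset.sum_le_sum fun c _ =>
          hterm a b c
    _ = S0 * (∑ a ∈ range N, ∑ b ∈ range N, ∑ c ∈ range N,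
          (J * Y) ^ a / (a.factorial : ℝ) * ((J * Y) ^ b / (b.factorial : ℝ)) *
          ((J * Y) ^ c / (c.factorial : ℝ)))
        + R0 * Real.exp (-K) * (∑ a ∈ range N, ∑ b ∈ range N, ∑ c ∈ range N,
          (Real.exp 1 * D * J) ^ a / (a.factorial : ℝ) *
          ((Real.exp 1 * D * J) ^ b / (b.factorial : ℝ)) *
          ((Real.exp 1 * D * J) ^ c / (c.factorial : ℝ))) := by
        simp only [Finset.sum_add_distrib, Finset.mul_sum]
    _ ≤ _ := by
        have a1 := mul_le_mul_of_nonneg_left (triple_sum_exp_le hJY N) hS0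
        have a2 := mul_le_mul_of_nonneg_left (triple_sum_exp_le hE N)
          (show 0 ≤ R0 * Real.exp (-K) by positivity)
        linarith

end Crest.Agent.R030
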