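import Mathlib

/-!
# R030 (S0040): probability toolbox for finite discrete chains (no measure theory)

* `Ker ι Ω`          : a Markov kernel: from `ω` jump to `nxt ω i`, `i` uniform in the nonempty
                       finite set `idx ω`; `avg ω f` the expectation of `f` after one step,
                       `supp ω` the set of successors.
* `K.E k f ω`        : expectation of `f` after `k` steps started at `ω`.
* `K.hit B G k ω`    : probability to visit `B` within `k` steps, all earlier states being in `G`.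
* `hit_le_of_super`  : Ville's inequality,  `hit_union` : union bound,
* `freedman`, `freedman_abs`, `cheb` : Freedman and Kolmogorov–Chebyshev inequalities.
* `K.hist`           : the kernel on histories `σ × List σ` (current state, past states).
* `K.comp f`, `K.qv f` : martingale part and predictable quadratic variation of a functional `f`
                       of the history.
-/

set_option autoImplicit false

open Finset

namespace Crest.Agent.R030

/-- A Markov kernel on `Ω` with uniform choice in a finite nonempty index set. -/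
structure Ker (ι Ω : Type*) where
  idx : Ω → Finset ι
  ne : ∀ ω, (idx ω).Nonempty
  nxt : Ω → ι → Ω

namespace Ker

variable {ι Ω : Type*} (K : Ker ι Ω)

/-- set of successors -/
def supp (ω : Ω) : Set Ω := {x | ∃ i ∈ K.idx ω, K.nxt ω i = x}

/-- one step expectation -/
noncomputable def avg (ω : Ω) (f : Ω → ℝ) : ℝ :=
  ((K.idx ω).card : ℝ)⁻¹ * ∑ i ∈ K.idx ω, f (K.nxt ω i)

lemma nxt_mem_supp {ω : Ω} {i : ι} (hi : i ∈ K.idx ω) : K.nxt ω i ∈ K.supp ω := ⟨i, hi, rfl⟩

lemma card_pos (ω : Ω) : (0 : ℝ) < ((K.idx ω).card : ℝ) := by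
  exact_mod_cast Finset.card_pos.2 (K.ne ω)

lemma avg_add (ω : Ω) (f g : Ω → ℝ) :
    K.avg ω (fun x => f x + g x) = K.avg ω f + K.avg ω g := by
  simp only [avg, Finset.sum_add_distrib, mul_add]

lemma avg_smul (ω : Ω) (c : ℝ) (f : Ω → ℝ) : K.avg ω (fun x => c * f x) = c * K.avg ω f := by
  simp only [avg, ← Finset.mul_sum]; ring

lemma avg_const (ω : Ω) (c : ℝ) : K.avg ω (fun _ => c) = c := by
  have := (K.card_pos ω).ne'
  simp only [avg, Finset.sum_const, nsmul_eq_mul]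
  rw [inv_mul_cancel_left₀ this]

lemma avg_mono (ω : Ω) (f g : Ω → ℝ) (h : ∀ x ∈ K.supp ω, f x ≤ g x) :
    K.avg ω f ≤ K.avg ω g := by
  refine mul_le_mul_of_nonneg_left (Finset.sum_le_sum fun i hi => h _ ⟨i, hi, rfl⟩) ?_
  positivity

lemma avg_congr {ω : Ω} {f g : Ω → ℝ} (h : ∀ x ∈ K.supp ω, f x = g x) :
    K.avg ω f = K.avg ω g :=
  le_antisymm (K.avg_mono ω f g (fun x hx => (h x hx).le))
    (K.avg_mono ω g f (fun x hx => (h x hx).ge))

lemma avg_zero (ω : Ω) : K.avg ω (fun _ => 0) = 0 := K.avg_const ω 0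

lemma avg_neg (ω : Ω) (f : Ω → ℝ) : K.avg ω (fun x => - f x) = - K.avg ω f := by
  have := K.avg_smul ω (-1) f
  simpa using this

lemma avg_sub (ω : Ω) (f g : Ω → ℝ) :
    K.avg ω (fun x => f x - g x) = K.avg ω f - K.avg ω g := by
  have := K.avg_add ω f (fun x => - g x)
  rw [avg_neg] at this
  simpa [sub_eq_add_neg] using this

lemma avg_mul_const (ω : Ω) (c : ℝ) (f : Ω → ℝ) :
    K.avg ω (fun x => f x * c) = K.avg ω f * c := by
  have := K.avg_smul ω c f
  rw [mul_comm (K.avg ω f) c, ← this]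
  exact K.avg_congr (fun x _ => mul_comm _ _)

lemma avg_add_const (ω : Ω) (c : ℝ) (f : Ω → ℝ) :
    K.avg ω (fun x => f x + c) = K.avg ω f + c := by
  rw [K.avg_add ω f (fun _ => c), avg_const]

lemma avg_const_add (ω : Ω) (c : ℝ) (f : Ω → ℝ) :
    K.avg ω (fun x => c + f x) = c + K.avg ω f := by
  rw [K.avg_add ω (fun _ => c) f, avg_const]

lemma avg_sub_const (ω : Ω) (c : ℝ) (f : Ω → ℝ) :
    K.avg ω (fun x => f x - c) = K.avg ω f - c := by
  rw [K.avg_sub ω f (fun _ => c), avg_const]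

lemma avg_const_sub (ω : Ω) (c : ℝ) (f : Ω → ℝ) :
    K.avg ω (fun x => c - f x) = c - K.avg ω f := by
  rw [K.avg_sub ω (fun _ => c) f, avg_const]

lemma avg_sum {κ : Type*} (s : Finset κ) (ω : Ω) (f : κ → Ω → ℝ) :
    K.avg ω (fun x => ∑ i ∈ s, f i x) = ∑ i ∈ s, K.avg ω (f i) := by
  classical
  induction s using Finset.induction_on with
  | empty => simp [K.avg_zero]
  | insert a s ha ih =>
    simp only [Finset.sum_insert ha]
    rw [K.avg_add, ih]

lemma avg_nonneg {ω : Ω} {f : Ω → ℝ} (h : ∀ x ∈ K.supp ω, 0 ≤ f x) : 0 ≤ K.avg ω f := by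
  have := K.avg_mono ω (fun _ => 0) f h
  rwa [avg_zero] at this

lemma avg_le_const {ω : Ω} {f : Ω → ℝ} {c : ℝ} (h : ∀ x ∈ K.supp ω, f x ≤ c) :
    K.avg ω f ≤ c := by
  have := K.avg_mono ω f (fun _ => c) h
  rwa [avg_const] at this

lemma const_le_avg {ω : Ω} {f : Ω → ℝ} {c : ℝ} (h : ∀ x ∈ K.supp ω, c ≤ f x) :
    c ≤ K.avg ω f := by
  have := K.avg_mono ω (fun _ => c) f h
  rwa [avg_const] at this

lemma abs_avg_le (ω : Ω) (f : Ω → ℝ) : |K.avg ω f| ≤ K.avg ω (fun x => |f x|) := by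
  rw [abs_le]
  constructor
  · rw [← K.avg_neg]
    exact K.avg_mono _ _ _ (fun x _ => neg_abs_le _)
  · exact K.avg_mono _ _ _ (fun x _ => le_abs_self _)

/-- Cauchy–Schwarz / Jensen for squares. -/
lemma sq_avg_le (ω : Ω) (f : Ω → ℝ) : (K.avg ω f) ^ 2 ≤ K.avg ω (fun x => f x ^ 2) := by
  have h : 0 ≤ K.avg ω (fun x => (f x - K.avg ω f) ^ 2) :=
    K.avg_nonneg (fun x _ => sq_nonneg _)
  have h2 : K.avg ω (fun x => (f x - K.avg ω f) ^ 2)
      = K.avg ω (fun x => f x ^ 2) - (K.avg ω f) ^ 2 := by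
    have e : (fun x => (f x - K.avg ω f) ^ 2)
        = fun x => (f x ^ 2 - (2 * K.avg ω f) * f x) + (K.avg ω f) ^ 2 := by
      funext x; ring
    rw [e, K.avg_add_const, K.avg_sub, K.avg_smul]
    ring
  linarith

/-- variance identity -/
lemma avg_sq_sub (ω : Ω) (f : Ω → ℝ) (c : ℝ) :
    K.avg ω (fun x => (f x - c) ^ 2)
      = K.avg ω (fun x => f x ^ 2) - 2 * c * K.avg ω f + c ^ 2 := by
  have e : (fun x => (f x - c) ^ 2) = fun x => (f x ^ 2 - (2 * c) * f x) + c ^ 2 := by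
    funext x; ring
  rw [e, K.avg_add_const, K.avg_sub, K.avg_smul]

/-! ### Iterated expectation -/

/-- expectation of `f` after `k` steps from `ω` -/
noncomputable def E (f : Ω → ℝ) : ℕ → Ω → ℝ
  | 0, ω => f ω
  | k + 1, ω => K.avg ω (E f k)

@[simp] lemma E_zero (f : Ω → ℝ) (ω : Ω) : K.E f 0 ω = f ω := rfl
lemma E_succ (f : Ω → ℝ) (k : ℕ) (ω : Ω) : K.E f (k + 1) ω = K.avg ω (K.E f k) := rfl

lemma E_succ' (f : Ω → ℝ) (k : ℕ) (ω : Ω) :
    K.E f (k + 1) ω = K.E (fun x => K.avg x f) k ω := by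
  induction k generalizing ω with
  | zero => rfl
  | succ k ih => rw [E_succ, E_succ]; exact K.avg_congr (fun x _ => ih x)

lemma E_add_time (f : Ω → ℝ) (k l : ℕ) (ω : Ω) :
    K.E f (k + l) ω = K.E (K.E f l) k ω := by
  induction k generalizing ω with
  | zero => simp
  | succ k ih =>
    rw [Nat.succ_add, E_succ, E_succ]; exact K.avg_congr (fun x _ => ih x)

lemma E_const (c : ℝ) (k : ℕ) (ω : Ω) : K.E (fun _ => c) k ω = c := by
  induction k generalizing ω with
  | zero => rfl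
  | succ k ih => rw [E_succ, K.avg_congr (fun x _ => ih x), avg_const]

lemma E_add (f g : Ω → ℝ) (k : ℕ) (ω : Ω) :
    K.E (fun x => f x + g x) k ω = K.E f k ω + K.E g k ω := by
  induction k generalizing ω with
  | zero => rfl
  | succ k ih => rw [E_succ, K.avg_congr (fun x _ => ih x), avg_add]; rfl

lemma E_smul (c : ℝ) (f : Ω → ℝ) (k : ℕ) (ω : Ω) :
    K.E (fun x => c * f x) k ω = c * K.E f k ω := by
  induction k generalizing ω with
  | zero => rfl
  | succ k ih => rw [E_succ, K.avg_congr (fun x _ => ih x), avg_smul]; rfl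

lemma E_sub (f g : Ω → ℝ) (k : ℕ) (ω : Ω) :
    K.E (fun x => f x - g x) k ω = K.E f k ω - K.E g k ω := by
  induction k generalizing ω with
  | zero => rfl
  | succ k ih => rw [E_succ, K.avg_congr (fun x _ => ih x), avg_sub]; rfl

/-- `I` is preserved by all transitions -/
def Closed (I : Ω → Prop) : Prop := ∀ ω, I ω → ∀ x ∈ K.supp ω, I x

variable {K} in
lemma E_mono_of {I : Ω → Prop} (hI : K.Closed I) {f g : Ω → ℝ} (h : ∀ ω, I ω → f ω ≤ g ω)
    (k : ℕ) (ω : Ω) (hω : I ω) : K.E f k ω ≤ K.E g k ω := by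
  induction k generalizing ω with
  | zero => exact h ω hω
  | succ k ih => exact K.avg_mono _ _ _ (fun x hx => ih x (hI ω hω x hx))

lemma E_mono {f g : Ω → ℝ} (h : ∀ ω, f ω ≤ g ω) (k : ℕ) (ω : Ω) : K.E f k ω ≤ K.E g k ω := by
  induction k generalizing ω with
  | zero => exact h ω
  | succ k ih => exact K.avg_mono _ _ _ (fun x _ => ih x)

lemma E_nonneg {f : Ω → ℝ} (h : ∀ ω, 0 ≤ f ω) (k : ℕ) (ω : Ω) : 0 ≤ K.E f k ω := by
  have := K.E_mono (f := fun _ => 0) h k ω
  rwa [E_const] at this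

lemma E_sum {κ : Type*} (s : Finset κ) (f : κ → Ω → ℝ) (k : ℕ) (ω : Ω) :
    K.E (fun x => ∑ i ∈ s, f i x) k ω = ∑ i ∈ s, K.E (f i) k ω := by
  induction k generalizing ω with
  | zero => rfl
  | succ k ih => rw [E_succ, K.avg_congr (fun x _ => ih x), avg_sum]; rfl

lemma sq_E_le (f : Ω → ℝ) (k : ℕ) (ω : Ω) :
    (K.E f k ω) ^ 2 ≤ K.E (fun x => f x ^ 2) k ω := by
  induction k generalizing ω with
  | zero => rfl
  | succ k ih =>
    rw [E_succ]
    exact (K.sq_avg_le _ _).trans (K.avg_mono _ _ _ (fun x _ => ih x))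

lemma abs_E_le (f : Ω → ℝ) (k : ℕ) (ω : Ω) :
    |K.E f k ω| ≤ K.E (fun x => |f x|) k ω := by
  induction k generalizing ω with
  | zero => rfl
  | succ k ih =>
    rw [E_succ]
    exact (K.abs_avg_le _ _).trans (K.avg_mono _ _ _ (fun x _ => ih x))

/-- time-dependent supermartingale -/
lemma E_le_of_super {I : Ω → Prop} (hI : K.Closed I) (f : ℕ → Ω → ℝ)
    (h : ∀ i ω, I ω → K.avg ω (f (i + 1)) ≤ f i ω) (k i : ℕ) (ω : Ω) (hω : I ω) :
    K.E (f (i + k)) k ω ≤ f i ω := by
  induction k generalizing i ω with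
  | zero => simp
  | succ k ih =>
    rw [E_succ]
    refine le_trans (K.avg_mono _ _ (f (i+1)) (fun x hx => ?_)) (h i ω hω)
    have := ih (i + 1) x (hI ω hω x hx)
    rwa [show i + 1 + k = i + (k + 1) by ring] at this

lemma E_eq_of_mart {I : Ω → Prop} (hI : K.Closed I) (f : ℕ → Ω → ℝ)
    (h : ∀ i ω, I ω → K.avg ω (f (i + 1)) = f i ω) (k i : ℕ) (ω : Ω) (hω : I ω) :
    K.E (f (i + k)) k ω = f i ω := by
  induction k generalizing i ω with
  | zero => simp
  | succ k ih =>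
    rw [E_succ, ← h i ω hω]
    refine K.avg_congr (fun x hx => ?_)
    have := ih (i + 1) x (hI ω hω x hx)
    rwa [show i + 1 + k = i + (k + 1) by ring] at this

/-! ### Hitting probabilities -/

open Classical in
/-- probability to visit `B` within `k` steps, all earlier states being in `G`. -/
noncomputable def hit (B G : Ω → Prop) : ℕ → Ω → ℝ
  | 0, ω => if B ω then 1 else 0
  | k + 1, ω => if B ω then 1 else if G ω then K.avg ω (hit B G k) else 0

variable {B G : Ω → Prop}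

lemma hit_of_mem {k : ℕ} {ω : Ω} (h : B ω) : K.hit B G k ω = 1 := by
  cases k <;> simp [hit, h]

lemma hit_zero_of_not {ω : Ω} (h : ¬ B ω) : K.hit B G 0 ω = 0 := by simp [hit, h]

lemma hit_of_not_good {k : ℕ} {ω : Ω} (h : ¬ B ω) (h2 : ¬ G ω) : K.hit B G k ω = 0 := by
  cases k <;> simp [hit, h, h2]

lemma hit_succ {k : ℕ} {ω : Ω} (h : ¬ B ω) (h2 : G ω) :
    K.hit B G (k + 1) ω = K.avg ω (K.hit B G k) := by simp [hit, h, h2]

lemma hit_nonneg (k : ℕ) (ω : Ω) : 0 ≤ K.hit B G k ω := by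
  induction k generalizing ω with
  | zero => by_cases h : B ω <;> simp [hit, h]
  | succ k ih =>
    by_cases h : B ω
    · simp [hit, h]
    · by_cases h2 : G ω
      · rw [K.hit_succ h h2]; exact K.avg_nonneg (fun x _ => ih x)
      · rw [K.hit_of_not_good h h2]

lemma hit_le_one (k : ℕ) (ω : Ω) : K.hit B G k ω ≤ 1 := by
  induction k generalizing ω with
  | zero => by_cases h : B ω <;> simp [hit, h]
  | succ k ih =>
    by_cases h : B ω
    · simp [hit, h]
    · by_cases h2 : G ω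
      · rw [K.hit_succ h h2]; exact K.avg_le_const (fun x _ => ih x)
      · rw [K.hit_of_not_good h h2]; norm_num

lemma hit_mono_time {k l : ℕ} (hkl : k ≤ l) (ω : Ω) : K.hit B G k ω ≤ K.hit B G l ω := by
  induction k generalizing l ω with
  | zero =>
    by_cases h : B ω
    · rw [K.hit_of_mem h, K.hit_of_mem h]
    · rw [K.hit_zero_of_not h]; exact K.hit_nonneg _ _
  | succ k ih =>
    obtain ⟨l, rfl⟩ : ∃ m, l = m + 1 := ⟨l - 1, by omega⟩
    by_cases h : B ω
    · rw [K.hit_of_mem h, K.hit_of_mem h]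
    · by_cases h2 : G ω
      · rw [K.hit_succ h h2, K.hit_succ h h2]
        exact K.avg_mono _ _ _ (fun x _ => ih (by omega) x)
      · rw [K.hit_of_not_good h h2, K.hit_of_not_good h h2]

/-- `I` is preserved by transitions from states in `G` and not in `B`. -/
def ClosedOn (I B G : Ω → Prop) : Prop := ∀ ω, I ω → ¬ B ω → G ω → ∀ x ∈ K.supp ω, I x

lemma Closed.closedOn {I : Ω → Prop} (h : K.Closed I) (B G : Ω → Prop) : K.ClosedOn I B G :=
  fun ω hω _ _ => h ω hω

lemma closedOn_true (B G : Ω → Prop) : K.ClosedOn (fun _ => True) B G :=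
  fun _ _ _ _ _ _ => trivial

/-- **Ville's inequality.** -/
lemma hit_le_of_super {I : Ω → Prop} (hI : K.ClosedOn I B G) {Z : Ω → ℝ}
    (h0 : ∀ ω, I ω → 0 ≤ Z ω) (hB : ∀ ω, I ω → B ω → 1 ≤ Z ω)
    (hG : ∀ ω, I ω → ¬ B ω → G ω → K.avg ω Z ≤ Z ω) (k : ℕ) (ω : Ω) (hω : I ω) :
    K.hit B G k ω ≤ Z ω := by
  induction k generalizing ω with
  | zero =>
    by_cases h : B ω
    · rw [K.hit_of_mem h]; exact hB ω hω h
    · rw [K.hit_zero_of_not h]; exact h0 ω hω
  | succ k ih =>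
    by_cases h : B ω
    · rw [K.hit_of_mem h]; exact hB ω hω h
    · by_cases h2 : G ω
      · rw [K.hit_succ h h2]
        exact le_trans (K.avg_mono _ _ _ (fun x hx => ih x (hI ω hω h h2 x hx))) (hG ω hω h h2)
      · rw [K.hit_of_not_good h h2]; exact h0 ω hω

/-- General union bound: every state of `B` reached inside `G` belongs to some `B' j`, `j ∈ s`. -/
lemma hit_union {κ : Type*} (s : Finset κ) {I : Ω → Prop} (B' : κ → Ω → Prop)
    (G' : κ → Ω → Prop) (hI : K.ClosedOn I B G)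
    (hB : ∀ ω, I ω → B ω → ∃ j ∈ s, B' j ω)
    (hG : ∀ ω, I ω → ¬ B ω → G ω → ∀ j ∈ s, G' j ω)
    (k : ℕ) (ω : Ω) (hω : I ω) :
    K.hit B G k ω ≤ ∑ j ∈ s, K.hit (B' j) (G' j) k ω := by
  induction k generalizing ω with
  | zero =>
    by_cases h : B ω
    · obtain ⟨j, hj, hj2⟩ := hB ω hω h
      rw [K.hit_of_mem h]
      calc (1:ℝ) = K.hit (B' j) (G' j) 0 ω := by rw [K.hit_of_mem hj2]
        _ ≤ _ := Finset.single_le_sum (f := fun j => K.hit (B' j) (G' j) 0 ω)
                  (fun i _ => K.hit_nonneg 0 ω) hj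
    · rw [K.hit_zero_of_not h]; exact Finset.sum_nonneg (fun i _ => K.hit_nonneg 0 ω)
  | succ k ih =>
    by_cases h : B ω
    · obtain ⟨j, hj, hj2⟩ := hB ω hω h
      rw [K.hit_of_mem h]
      calc (1:ℝ) = K.hit (B' j) (G' j) (k+1) ω := by rw [K.hit_of_mem hj2]
        _ ≤ _ := Finset.single_le_sum (f := fun j => K.hit (B' j) (G' j) (k+1) ω)
                  (fun i _ => K.hit_nonneg (k+1) ω) hj
    · by_cases h2 : G ω
      · rw [K.hit_succ h h2]
        have h3 : K.avg ω (K.hit B G k) ≤ ∑ j ∈ s, K.avg ω (K.hit (B' j) (G' j) k) := by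
          rw [← K.avg_sum]
          exact K.avg_mono _ _ _ (fun x hx => ih x (hI ω hω h h2 x hx))
        refine h3.trans (Finset.sum_le_sum (fun j hj => ?_))
        by_cases h4 : B' j ω
        · rw [K.hit_of_mem h4]; exact K.avg_le_const (fun x _ => K.hit_le_one _ _)
        · rw [K.hit_succ h4 (hG ω hω h h2 j hj)]
      · rw [K.hit_of_not_good h h2]; exact Finset.sum_nonneg (fun i _ => K.hit_nonneg (k+1) ω)

/-- monotonicity in the target and the good set -/
lemma hit_mono {B' G' : Ω → Prop} {I : Ω → Prop} (hI : K.ClosedOn I B G)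
    (hB : ∀ ω, I ω → B ω → B' ω) (hG : ∀ ω, I ω → ¬ B ω → G ω → G' ω)
    (k : ℕ) (ω : Ω) (hω : I ω) : K.hit B G k ω ≤ K.hit B' G' k ω := by
  have := K.hit_union (B := B) (G := G) ({()} : Finset Unit) (I := I) (fun _ => B')
    (fun _ => G') hI (fun ω h1 h2 => ⟨(), by simp, hB ω h1 h2⟩)
    (fun ω h1 h2 h3 _ _ => hG ω h1 h2 h3) k ω hω
  simpa using this

/-- If `B` cannot be reached (from `I`-states), the hitting probability vanishes. -/
lemma hit_eq_zero {I : Ω → Prop} (hI : K.ClosedOn I B G) (hB : ∀ ω, I ω → ¬ B ω)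
    (k : ℕ) (ω : Ω) (hω : I ω) : K.hit B G k ω = 0 := by
  refine le_antisymm ?_ (K.hit_nonneg k ω)
  have := K.hit_union (B := B) (G := G) (∅ : Finset Unit) (I := I) (fun _ => B)
    (fun _ => G) hI (fun ω h1 h2 => absurd h2 (hB ω h1)) (fun _ _ _ _ _ hj => by simp at hj) k ω hω
  simpa using this

/-- **Bootstrap / union bound.** If along paths staying in `G` a state not in `G` can only be
reached when some `B' j` has occurred, the exit probability is at most the sum. `I` records the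
information "all past states were in `G` and in no `B' j`". -/
lemma exit_le {κ : Type*} (s : Finset κ) {I : Ω → Prop} (B' : κ → Ω → Prop)
    (hI : ∀ ω, I ω → G ω → (∀ j ∈ s, ¬ B' j ω) → ∀ x ∈ K.supp ω, I x)
    (hex : ∀ ω, I ω → (∀ j ∈ s, ¬ B' j ω) → G ω)
    (k : ℕ) (ω : Ω) (hω : I ω) :
    K.hit (fun ω => ¬ G ω) G k ω ≤ ∑ j ∈ s, K.hit (B' j) G k ω := by
  induction k generalizing ω with
  | zero =>
    by_cases h : G ω
    · rw [K.hit_zero_of_not (B := fun ω => ¬ G ω) (by simpa using h)]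
      exact Finset.sum_nonneg (fun i _ => K.hit_nonneg 0 ω)
    · have h1 : ∃ j ∈ s, B' j ω := by
        by_contra hcon
        push Not at hcon
        exact h (hex ω hω hcon)
      obtain ⟨j, hj, hj2⟩ := h1
      rw [K.hit_of_mem (B := fun ω => ¬ G ω) h]
      calc (1:ℝ) = K.hit (B' j) G 0 ω := by rw [K.hit_of_mem hj2]
        _ ≤ _ := Finset.single_le_sum (f := fun j => K.hit (B' j) G 0 ω)
                  (fun i _ => K.hit_nonneg 0 ω) hj
  | succ k ih =>
    by_cases h0 : ∃ j ∈ s, B' j ω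
    · obtain ⟨j, hj, hj2⟩ := h0
      calc K.hit (fun ω => ¬ G ω) G (k+1) ω ≤ 1 := K.hit_le_one _ _
        _ = K.hit (B' j) G (k+1) ω := by rw [K.hit_of_mem hj2]
        _ ≤ _ := Finset.single_le_sum (f := fun j => K.hit (B' j) G (k+1) ω)
                  (fun i _ => K.hit_nonneg (k+1) ω) hj
    · push Not at h0
      have h : G ω := hex ω hω h0
      rw [K.hit_succ (B := fun ω => ¬ G ω) (by simpa using h) h]
      have h3 : K.avg ω (K.hit (fun ω => ¬ G ω) G k) ≤ ∑ j ∈ s, K.avg ω (K.hit (B' j) G k) := by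
        rw [← K.avg_sum]
        exact K.avg_mono _ _ _ (fun x hx => ih x (hI ω hω h h0 x hx))
      refine h3.trans (Finset.sum_le_sum (fun j hj => ?_))
      rw [K.hit_succ (h0 j hj) h]

/-- splitting the time interval -/
lemma hit_add_time (k l : ℕ) (ω : Ω) :
    K.hit B G (k + l) ω ≤ K.hit B G k ω + K.E (K.hit B G l) k ω := by
  induction k generalizing ω with
  | zero =>
    rw [Nat.zero_add, E_zero]
    linarith [K.hit_nonneg (B := B) (G := G) 0 ω]
  | succ k ih =>
    by_cases h : B ω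
    · rw [K.hit_of_mem h, K.hit_of_mem h]
      linarith [K.E_nonneg (f := K.hit B G l) (fun x => K.hit_nonneg l x) (k+1) ω]
    · by_cases h2 : G ω
      · rw [show k + 1 + l = (k + l) + 1 by ring, K.hit_succ h h2, K.hit_succ h h2, E_succ,
          ← K.avg_add]
        exact K.avg_mono _ _ _ (fun x _ => ih x)
      · rw [K.hit_of_not_good h h2, K.hit_of_not_good h h2]
        linarith [K.E_nonneg (f := K.hit B G l) (fun x => K.hit_nonneg l x) (k+1) ω]

/-- expectation split according to a bad event -/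
lemma E_le_hit {I : Ω → Prop} (hI : K.ClosedOn I B (fun _ => True)) {f g : Ω → ℝ}
    {C : ℝ} (hfC : ∀ ω, f ω ≤ g ω + C) (hf : ∀ ω, I ω → ¬ B ω → f ω ≤ g ω)
    (k : ℕ) (ω : Ω) (hω : I ω) :
    K.E f k ω ≤ K.E g k ω + C * K.hit B (fun _ => True) k ω := by
  induction k generalizing ω with
  | zero =>
    by_cases h : B ω
    · rw [K.hit_of_mem h]; simpa using hfC ω
    · rw [K.hit_zero_of_not h]; simpa using hf ω hω h
  | succ k ih =>
    by_cases h : B ω
    · rw [K.hit_of_mem h]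
      have := K.E_mono hfC (k+1) ω
      rw [K.E_add g (fun _ => C), E_const] at this
      linarith
    · rw [K.hit_succ h trivial, E_succ, E_succ, ← K.avg_smul, ← K.avg_add]
      exact K.avg_mono _ _ _ (fun x hx => ih x (hI ω hω h trivial x hx))

/-! ### Exponential supermartingales, Freedman's inequality -/

/-- `exp (θ x) ≤ 1 + θ x + θ² x²` for `θ x ≤ 1`. -/
lemma exp_le_quad {y : ℝ} (hy : y ≤ 1) : Real.exp y ≤ 1 + y + y ^ 2 := by
  rcases le_or_gt 0 y with h | h
  · have := Real.exp_bound' h hy (n := 2) (by norm_num)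
    simp only [Finset.sum_range_succ, Finset.sum_range_zero] at this
    norm_num at this
    nlinarith [sq_nonneg y]
  · -- y < 0 : exp y ≤ 1 + y + y²/2
    have h1 : Real.exp y ≤ 1 + y + y ^ 2 / 2 := by
      have h2 : 1 - y + y ^ 2 / 2 ≤ Real.exp (-y) := by
        have := Real.quadratic_le_exp_of_nonneg (x := -y) (by linarith)
        nlinarith
      have h3 : 0 < 1 - y + y ^ 2 / 2 := by nlinarith
      have h4 : Real.exp y * Real.exp (-y) = 1 := by rw [← Real.exp_add]; simp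
      have h5 : Real.exp y * (1 - y + y ^ 2 / 2) ≤ 1 :=
        (mul_le_mul_of_nonneg_left h2 (Real.exp_pos y).le).trans h4.le
      have h6 : 1 ≤ (1 + y + y ^ 2 / 2) * (1 - y + y ^ 2 / 2) := by nlinarith [sq_nonneg (y^2)]
      by_contra hcon
      push Not at hcon
      nlinarith
    nlinarith [sq_nonneg y]

/-- one step of the exponential supermartingale -/
lemma avg_exp_le {ω : Ω} {X : Ω → ℝ} {θ v : ℝ} (hθ : 0 ≤ θ)
    (hX : ∀ x ∈ K.supp ω, θ * X x ≤ 1) (hmean : K.avg ω X ≤ 0)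
    (hvar : K.avg ω (fun x => X x ^ 2) ≤ v) :
    K.avg ω (fun x => Real.exp (θ * X x)) ≤ Real.exp (θ ^ 2 * v) := by
  have h1 : K.avg ω (fun x => Real.exp (θ * X x))
      ≤ K.avg ω (fun x => 1 + θ * X x + θ ^ 2 * X x ^ 2) := by
    refine K.avg_mono _ _ _ (fun x hx => ?_)
    have := exp_le_quad (hX x hx)
    nlinarith
  have h2 : K.avg ω (fun x => 1 + θ * X x + θ ^ 2 * X x ^ 2)
      = 1 + θ * K.avg ω X + θ ^ 2 * K.avg ω (fun x => X x ^ 2) := by
    rw [K.avg_add ω (fun x => 1 + θ * X x) (fun x => θ ^ 2 * X x ^ 2), K.avg_smul,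
      K.avg_const_add, K.avg_smul]
  rw [h2] at h1
  have h3 : θ * K.avg ω X ≤ 0 := mul_nonpos_of_nonneg_of_nonpos hθ hmean
  have h4 : θ ^ 2 * K.avg ω (fun x => X x ^ 2) ≤ θ ^ 2 * v :=
    mul_le_mul_of_nonneg_left hvar (sq_nonneg θ)
  have h5 := Real.add_one_le_exp (θ ^ 2 * v)
  linarith

/-- **Freedman's inequality**, parametrised by `θ`. `M` supermartingale on `G`, increments
`≤ c` with `θ c ≤ 1`, `V` dominates the predictable quadratic variation. -/
lemma freedman_theta {I : Ω → Prop} (hI : K.ClosedOn I B G) {M V : Ω → ℝ} {c θ a v : ℝ}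
    (hθ : 0 ≤ θ) (hθc : θ * c ≤ 1)
    (hinc : ∀ ω, I ω → ¬ B ω → G ω → ∀ x ∈ K.supp ω, M x - M ω ≤ c)
    (hmean : ∀ ω, I ω → ¬ B ω → G ω → K.avg ω M ≤ M ω)
    (hV : ∀ ω, I ω → ¬ B ω → G ω → ∀ x ∈ K.supp ω,
      V ω + K.avg ω (fun y => (M y - M ω) ^ 2) ≤ V x)
    (ω₀ : Ω) (h₀ : I ω₀)
    (hB : ∀ ω, I ω → B ω → M ω₀ + a ≤ M ω ∧ V ω ≤ V ω₀ + v) (k : ℕ) :
    K.hit B G k ω₀ ≤ Real.exp (- θ * a + θ ^ 2 * v) := by
  have key := K.hit_le_of_super (B := B) (G := G) (I := I) hI
    (Z := fun ω => Real.exp (θ * (M ω - M ω₀ - a) - θ ^ 2 * (V ω - V ω₀ - v)))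
    (fun ω _ => (Real.exp_pos _).le)
    (fun ω h1 h2 => by
      obtain ⟨h3, h4⟩ := hB ω h1 h2
      have h5 : 0 ≤ θ * (M ω - M ω₀ - a) := mul_nonneg hθ (by linarith)
      have h6 : θ ^ 2 * (V ω - V ω₀ - v) ≤ 0 :=
        mul_nonpos_of_nonneg_of_nonpos (sq_nonneg θ) (by linarith)
      exact Real.one_le_exp (by linarith))
    (fun ω h1 h2 h3 => by
      set w := K.avg ω (fun y => (M y - M ω) ^ 2) with hw
      have h4 : K.avg ω (fun x => Real.exp (θ * (M x - M ω₀ - a) - θ ^ 2 * (V x - V ω₀ - v)))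
          ≤ K.avg ω (fun x => Real.exp (θ * (M ω - M ω₀ - a) - θ ^ 2 * (V ω - V ω₀ - v)
              - θ ^ 2 * w) * Real.exp (θ * (M x - M ω))) := by
        refine K.avg_mono _ _ _ (fun x hx => ?_)
        rw [← Real.exp_add]
        refine Real.exp_le_exp.2 ?_
        have h5 := hV ω h1 h2 h3 x hx
        have h6 : θ ^ 2 * (V ω + w) ≤ θ ^ 2 * V x := mul_le_mul_of_nonneg_left h5 (sq_nonneg θ)
        nlinarith
      refine h4.trans ?_
      rw [K.avg_smul]
      have h7 : K.avg ω (fun x => Real.exp (θ * (M x - M ω))) ≤ Real.exp (θ ^ 2 * w) := by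
        refine K.avg_exp_le hθ (fun x hx => ?_) ?_ le_rfl
        · exact le_trans (mul_le_mul_of_nonneg_left (hinc ω h1 h2 h3 x hx) hθ) hθc
        · rw [K.avg_sub_const]; linarith [hmean ω h1 h2 h3]
      calc Real.exp (θ * (M ω - M ω₀ - a) - θ ^ 2 * (V ω - V ω₀ - v) - θ ^ 2 * w)
            * K.avg ω (fun x => Real.exp (θ * (M x - M ω)))
          ≤ Real.exp (θ * (M ω - M ω₀ - a) - θ ^ 2 * (V ω - V ω₀ - v) - θ ^ 2 * w)
            * Real.exp (θ ^ 2 * w) := mul_le_mul_of_nonneg_left h7 (Real.exp_pos _).le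
        _ = Real.exp (θ * (M ω - M ω₀ - a) - θ ^ 2 * (V ω - V ω₀ - v)) := by
            rw [← Real.exp_add]; congr 1; ring)
    k ω₀ h₀
  refine key.trans (le_of_eq ?_)
  congr 1
  ring

/-- **Freedman's inequality**: if on `G` the increments of the supermartingale `M` are `≤ c` and
`V` dominates the predictable quadratic variation, the probability to see `M ≥ M₀ + a` with
`V ≤ V₀ + v` is at most `exp (- a² / (4 v + 2 a c))`. -/
theorem freedman {I : Ω → Prop} (hI : K.ClosedOn I B G) {M V : Ω → ℝ} {c a v : ℝ}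
    (hc : 0 < c) (ha : 0 < a) (hv : 0 < v)
    (hinc : ∀ ω, I ω → ¬ B ω → G ω → ∀ x ∈ K.supp ω, M x - M ω ≤ c)
    (hmean : ∀ ω, I ω → ¬ B ω → G ω → K.avg ω M ≤ M ω)
    (hV : ∀ ω, I ω → ¬ B ω → G ω → ∀ x ∈ K.supp ω,
      V ω + K.avg ω (fun y => (M y - M ω) ^ 2) ≤ V x)
    (ω₀ : Ω) (h₀ : I ω₀)
    (hB : ∀ ω, I ω → B ω → M ω₀ + a ≤ M ω ∧ V ω ≤ V ω₀ + v) (k : ℕ) :
    K.hit B G k ω₀ ≤ Real.exp (- (a ^ 2 / (4 * v + 2 * a * c))) := by
  rcases le_or_gt (a * c) (2 * v) with h | h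
  · -- θ = a / (2 v)
    have h1 := K.freedman_theta (c := c) (θ := a / (2 * v)) hI (by positivity)
      (by rw [div_mul_eq_mul_div, div_le_one (by positivity)]; exact h) hinc hmean hV ω₀ h₀ hB k
    refine h1.trans (Real.exp_le_exp.2 ?_)
    have h2 : -(a / (2 * v)) * a + (a / (2 * v)) ^ 2 * v = - (a ^ 2 / (4 * v)) := by
      field_simp; ring
    rw [h2, neg_le_neg_iff]
    apply div_le_div_of_nonneg_left (by positivity) (by positivity)
    nlinarith [mul_pos ha hc]
  · have h1 := K.freedman_theta (c := c) (θ := 1 / c) hI (by positivity)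
      (by rw [one_div, inv_mul_cancel₀ hc.ne']) hinc hmean hV ω₀ h₀ hB k
    refine h1.trans (Real.exp_le_exp.2 ?_)
    have h2 : -(1 / c) * a + (1 / c) ^ 2 * v ≤ - (a / (2 * c)) := by
      have h3 : (1 / c) ^ 2 * v ≤ a / (2 * c) := by
        rw [div_pow, one_pow, one_div, ← div_eq_inv_mul, div_le_div_iff₀ (by positivity) (by positivity)]
        nlinarith [mul_pos ha hc, mul_pos hc hc]
      have h4 : -(1 / c) * a = - (a / (2 * c)) - a / (2 * c) := by field_simp; ring
      linarith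
    refine h2.trans ?_
    rw [neg_le_neg_iff]
    rw [div_le_div_iff₀ (by positivity) (by positivity)]
    nlinarith [mul_pos ha hc, mul_pos ha hv, mul_pos ha ha]

/-- two-sided Freedman -/
theorem freedman_abs {I : Ω → Prop} (hI : K.ClosedOn I B G) {M V : Ω → ℝ} {c a v : ℝ}
    (hc : 0 < c) (ha : 0 < a) (hv : 0 < v)
    (hinc : ∀ ω, I ω → G ω → ∀ x ∈ K.supp ω, |M x - M ω| ≤ c)
    (hmean : ∀ ω, I ω → G ω → K.avg ω M = M ω)
    (hV : ∀ ω, I ω → G ω → ∀ x ∈ K.supp ω,
      V ω + K.avg ω (fun y => (M y - M ω) ^ 2) ≤ V x)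
    (ω₀ : Ω) (h₀ : I ω₀)
    (hB : ∀ ω, I ω → B ω → a ≤ |M ω - M ω₀| ∧ V ω ≤ V ω₀ + v) (k : ℕ) :
    K.hit B G k ω₀ ≤ 2 * Real.exp (- (a ^ 2 / (4 * v + 2 * a * c))) := by
  have h1 := K.hit_union (B := B) (G := G) (I := I) (Finset.univ : Finset Bool)
    (fun b ω => I ω ∧ B ω ∧ (if b then a ≤ M ω - M ω₀ else a ≤ M ω₀ - M ω))
    (fun _ ω => ¬ B ω ∧ G ω) hI
    (fun ω h1 h2 => by
      obtain ⟨h3, -⟩ := hB ω h1 h2
      rcases le_abs.1 h3 with h4 | h4
      · exact ⟨true, by simp, h1, h2, by simpa using h4⟩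
      · exact ⟨false, by simp, h1, h2, by simpa using (by linarith : a ≤ M ω₀ - M ω)⟩)
    (fun ω h1 h2 h3 _ _ => ⟨h2, h3⟩) k ω₀ h₀
  refine h1.trans ?_
  have h2 : ∀ b ∈ (Finset.univ : Finset Bool),
      K.hit (fun ω => I ω ∧ B ω ∧ (if b then a ≤ M ω - M ω₀ else a ≤ M ω₀ - M ω))
        (fun ω => ¬ B ω ∧ G ω) k ω₀ ≤ Real.exp (- (a ^ 2 / (4 * v + 2 * a * c))) := by
    intro b _
    cases b with
    | true =>
      refine K.freedman (I := I) (M := M) (V := V) (c := c) (fun ω h1 h2 h3 => hI ω h1 h3.1 h3.2)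
        hc ha hv (fun ω h1 _ h3 x hx => (le_abs_self _).trans (hinc ω h1 h3.2 x hx))
        (fun ω h1 _ h3 => (hmean ω h1 h3.2).le) (fun ω h1 _ h3 => hV ω h1 h3.2) ω₀ h₀ ?_ k
      intro ω h1 h2
      simp only [if_true] at h2
      exact ⟨by linarith [h2.2.2], (hB ω h1 h2.2.1).2⟩
    | false =>
      refine K.freedman (I := I) (M := fun ω => - M ω) (V := V) (c := c)
        (fun ω h1 h2 h3 => hI ω h1 h3.1 h3.2)
        hc ha hv (fun ω h1 _ h3 x hx => ?_)
        (fun ω h1 _ h3 => ?_) (fun ω h1 _ h3 x hx => ?_) ω₀ h₀ ?_ k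
      · have := (neg_le_abs (M x - M ω)).trans (hinc ω h1 h3.2 x hx)
        linarith
      · rw [K.avg_neg, hmean ω h1 h3.2]
      · have := hV ω h1 h3.2 x hx
        refine le_trans (le_of_eq ?_) this
        congr 1
        refine K.avg_congr (fun y _ => ?_)
        ring
      · intro ω h1 h2
        simp only [Bool.false_eq_true, if_false] at h2
        exact ⟨by linarith [h2.2.2], (hB ω h1 h2.2.1).2⟩
  calc ∑ b ∈ (Finset.univ : Finset Bool), K.hit
        (fun ω => I ω ∧ B ω ∧ (if b then a ≤ M ω - M ω₀ else a ≤ M ω₀ - M ω))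
        (fun ω => ¬ B ω ∧ G ω) k ω₀
      ≤ ∑ _b ∈ (Finset.univ : Finset Bool), Real.exp (- (a ^ 2 / (4 * v + 2 * a * c))) :=
        Finset.sum_le_sum h2
    _ = 2 * Real.exp (- (a ^ 2 / (4 * v + 2 * a * c))) := by simp

/-- **Kolmogorov–Chebyshev maximal inequality**: `M` martingale on `G`, `V` dominates the
predictable quadratic variation and stays below `V₀ + v`. -/
theorem cheb {I : Ω → Prop} (hI : K.ClosedOn I B G) {M V : Ω → ℝ} {a v : ℝ}
    (ha : 0 < a)
    (hmean : ∀ ω, I ω → ¬ B ω → G ω → K.avg ω M = M ω)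
    (hV : ∀ ω, I ω → ¬ B ω → G ω → ∀ x ∈ K.supp ω,
      V ω + K.avg ω (fun y => (M y - M ω) ^ 2) ≤ V x)
    (ω₀ : Ω) (h₀ : I ω₀) (hVb : ∀ ω, I ω → V ω ≤ V ω₀ + v)
    (hB : ∀ ω, I ω → B ω → a ≤ |M ω - M ω₀|) (k : ℕ) :
    K.hit B G k ω₀ ≤ v / a ^ 2 := by
  have key := K.hit_le_of_super (B := B) (G := G) (I := I) hI
    (Z := fun ω => (a ^ 2)⁻¹ * ((M ω - M ω₀) ^ 2 + (V ω₀ + v - V ω)))
    (fun ω h1 => by
      have := hVb ω h1
      have h2 := sq_nonneg (M ω - M ω₀)
      exact mul_nonneg (by positivity) (by linarith))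
    (fun ω h1 h2 => by
      have h3 := hB ω h1 h2
      have h4 : a ^ 2 ≤ (M ω - M ω₀) ^ 2 := by
        rw [← sq_abs (M ω - M ω₀)]
        exact pow_le_pow_left₀ ha.le h3 2
      have h5 := hVb ω h1
      rw [← inv_mul_cancel₀ (show a ^ 2 ≠ 0 by positivity)]
      exact mul_le_mul_of_nonneg_left (by linarith) (by positivity))
    (fun ω h1 h2 h3 => by
      rw [K.avg_smul]
      refine mul_le_mul_of_nonneg_left ?_ (by positivity)
      set w := K.avg ω (fun y => (M y - M ω) ^ 2) with hw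
      have h4 : K.avg ω (fun x => (M x - M ω₀) ^ 2 + (V ω₀ + v - V x))
          ≤ K.avg ω (fun x => ((M x - M ω) ^ 2 + (2 * (M ω - M ω₀)) * (M x - M ω))
              + ((M ω - M ω₀) ^ 2 + (V ω₀ + v - V ω - w))) := by
        refine K.avg_mono _ _ _ (fun x hx => ?_)
        have h5 := hV ω h1 h2 h3 x hx
        nlinarith
      refine h4.trans (le_of_eq ?_)
      rw [K.avg_add_const, K.avg_add, K.avg_smul, K.avg_sub_const, hmean ω h1 h2 h3, ← hw]
      ring)
    k ω₀ h₀
  refine key.trans (le_of_eq ?_)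
  field_simp
  ring

/-! ### Histories -/

/-- the kernel on histories: (current state, past states (most recent first)) -/
def hist {σ : Type*} (K : Ker ι σ) : Ker ι (σ × List σ) where
  idx h := K.idx h.1
  ne h := K.ne h.1
  nxt h i := (K.nxt h.1 i, h.1 :: h.2)

variable {σ : Type*} (L : Ker ι σ)

lemma hist_avg (h : σ × List σ) (f : σ × List σ → ℝ) :
    L.hist.avg h f = L.avg h.1 (fun s => f (s, h.1 :: h.2)) := rfl

lemma hist_supp (h x : σ × List σ) :
    x ∈ L.hist.supp h ↔ x.1 ∈ L.supp h.1 ∧ x.2 = h.1 :: h.2 := by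
  constructor
  · rintro ⟨i, hi, rfl⟩
    exact ⟨⟨i, hi, rfl⟩, rfl⟩
  · rintro ⟨⟨i, hi, h1⟩, h2⟩
    refine ⟨i, hi, ?_⟩
    exact Prod.ext h1 h2.symm

/-- functionals of the current state only -/
lemma hist_E (f : σ → ℝ) (k : ℕ) (h : σ × List σ) :
    L.hist.E (fun x => f x.1) k h = L.E f k h.1 := by
  induction k generalizing h with
  | zero => rfl
  | succ k ih =>
    rw [E_succ, hist_avg, E_succ]
    exact L.avg_congr (fun x _ => ih (x, h.1 :: h.2))

lemma hist_hit (B G : σ → Prop) (k : ℕ) (h : σ × List σ) :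
    L.hist.hit (fun x => B x.1) (fun x => G x.1) k h = L.hit B G k h.1 := by
  induction k generalizing h with
  | zero =>
    by_cases h1 : B h.1
    · rw [L.hist.hit_of_mem (B := fun x => B x.1) h1, L.hit_of_mem h1]
    · rw [L.hist.hit_zero_of_not (B := fun x => B x.1) h1, L.hit_zero_of_not h1]
  | succ k ih =>
    by_cases h1 : B h.1
    · rw [L.hist.hit_of_mem (B := fun x => B x.1) h1, L.hit_of_mem h1]
    · by_cases h2 : G h.1
      · rw [L.hist.hit_succ (B := fun x => B x.1) (G := fun x => G x.1) h1 h2, L.hit_succ h1 h2,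
          hist_avg]
        exact L.avg_congr (fun x _ => ih (x, h.1 :: h.2))
      · rw [L.hist.hit_of_not_good (B := fun x => B x.1) (G := fun x => G x.1) h1 h2,
          L.hit_of_not_good h1 h2]

/-- martingale part of a functional `f` of the history:
`comp f (s, []) = f (s, [])`, increments `f - E[f | past]`. -/
noncomputable def compAux (f : σ × List σ → ℝ) : σ → List σ → ℝ
  | s, [] => f (s, [])
  | s, (t :: l) => compAux f t l + (f (s, t :: l) - L.hist.avg (t, l) f)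

noncomputable def comp (f : σ × List σ → ℝ) (h : σ × List σ) : ℝ := L.compAux f h.1 h.2

/-- drift part: sum over the past of `E[f next] - f`. -/
noncomputable def driftAux (f : σ × List σ → ℝ) : List σ → ℝ
  | [] => 0
  | (t :: l) => driftAux f l + (L.hist.avg (t, l) f - f (t, l))

noncomputable def drift (f : σ × List σ → ℝ) (h : σ × List σ) : ℝ := L.driftAux f h.2

/-- predictable quadratic variation -/
noncomputable def qvAux (f : σ × List σ → ℝ) : List σ → ℝ
  | [] => 0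
  | (t :: l) => qvAux f l + L.hist.avg (t, l) (fun x => (f x - L.hist.avg (t, l) f) ^ 2)

noncomputable def qv (f : σ × List σ → ℝ) (h : σ × List σ) : ℝ := L.qvAux f h.2

lemma comp_nil (f : σ × List σ → ℝ) (s : σ) : L.comp f (s, []) = f (s, []) := rfl
lemma drift_nil (f : σ × List σ → ℝ) (s : σ) : L.drift f (s, []) = 0 := rfl
lemma qv_nil (f : σ × List σ → ℝ) (s : σ) : L.qv f (s, []) = 0 := rfl

lemma comp_step (f : σ × List σ → ℝ) {h x : σ × List σ} (hx : x ∈ L.hist.supp h) :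
    L.comp f x = L.comp f h + (f x - L.hist.avg h f) := by
  obtain ⟨s, l⟩ := x
  rw [hist_supp] at hx
  obtain ⟨-, h2⟩ := hx
  simp only at h2
  subst h2
  rfl

lemma drift_step (f : σ × List σ → ℝ) {h x : σ × List σ} (hx : x ∈ L.hist.supp h) :
    L.drift f x = L.drift f h + (L.hist.avg h f - f h) := by
  obtain ⟨s, l⟩ := x
  rw [hist_supp] at hx
  obtain ⟨-, h2⟩ := hx
  simp only at h2
  subst h2
  rfl

lemma qv_step (f : σ × List σ → ℝ) {h x : σ × List σ} (hx : x ∈ L.hist.supp h) :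
    L.qv f x = L.qv f h + L.hist.avg h (fun y => (f y - L.hist.avg h f) ^ 2) := by
  obtain ⟨s, l⟩ := x
  rw [hist_supp] at hx
  obtain ⟨-, h2⟩ := hx
  simp only at h2
  subst h2
  rfl

/-- Doob decomposition -/
lemma comp_add_drift (f : σ × List σ → ℝ) (h : σ × List σ) :
    L.comp f h + L.drift f h = f h := by
  obtain ⟨s, l⟩ := h
  induction l generalizing s with
  | nil => simp [comp, drift, compAux, driftAux]
  | cons t l ih =>
    have := ih t
    simp only [comp, drift, compAux, driftAux] at this ⊢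
    linarith

/-- `comp f` is a martingale -/
lemma avg_comp (f : σ × List σ → ℝ) (h : σ × List σ) :
    L.hist.avg h (L.comp f) = L.comp f h := by
  rw [L.hist.avg_congr (fun x hx => L.comp_step f hx)]
  rw [L.hist.avg_const_add, L.hist.avg_sub_const]
  ring

lemma avg_comp_sq (f : σ × List σ → ℝ) (h : σ × List σ) :
    L.hist.avg h (fun y => (L.comp f y - L.comp f h) ^ 2)
      = L.hist.avg h (fun y => (f y - L.hist.avg h f) ^ 2) := by
  refine L.hist.avg_congr (fun x hx => ?_)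
  rw [L.comp_step f hx]
  ring

lemma qv_le (f : σ × List σ → ℝ) {h x : σ × List σ} (hx : x ∈ L.hist.supp h) :
    L.qv f h + L.hist.avg h (fun y => (L.comp f y - L.comp f h) ^ 2) ≤ L.qv f x := by
  rw [L.qv_step f hx, avg_comp_sq]

/-- the variance is at most the second moment of the increment -/
lemma var_le (f : σ × List σ → ℝ) (h : σ × List σ) (c : ℝ) :
    L.hist.avg h (fun y => (f y - L.hist.avg h f) ^ 2)
      ≤ L.hist.avg h (fun y => (f y - c) ^ 2) := by
  rw [L.hist.avg_sq_sub, L.hist.avg_sq_sub]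
  nlinarith [sq_nonneg (L.hist.avg h f - c)]

lemma abs_comp_inc_le (f : σ × List σ → ℝ) {h : σ × List σ} {c : ℝ}
    (hc : ∀ x ∈ L.hist.supp h, |f x - f h| ≤ c) {x : σ × List σ} (hx : x ∈ L.hist.supp h) :
    |L.comp f x - L.comp f h| ≤ 2 * c := by
  rw [L.comp_step f hx]
  have h1 : |L.hist.avg h f - f h| ≤ c := by
    rw [← L.hist.avg_sub_const]
    exact (L.hist.abs_avg_le _ _).trans (L.hist.avg_le_const hc)
  have h2 := hc x hx
  rw [abs_le] at h1 h2 ⊢
  constructor <;> linarith [h1.1, h1.2, h2.1, h2.2]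

end Ker

end Crest.Agent.R030
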