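import Crest.Agent.R030.Explore

/-!
Row 30 (S0040), helper953.  Deterministic degree bounds for descending paths of ports.

* `NN tri ch k lst t` : number of descending port paths of length `k` starting in the list `lst`
  whose last triangle is `t`;
* `N1 tri ch k c t`   : the same, starting at the port `c`;
* `sum_ports_ch_le`   : backward degree bound (every port is a child of at most `2 D` ports);
* `sum_NN_root_le`    : `∑_{e ∈ A} NN k (rtL H e) t ≤ 3 (2 D)^k`;
* `card_chF_le`       : forward degree bound.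
-/

set_option autoImplicit false

namespace Crest.Agent.R030

open Finset

section NN

variable {P B : Type} [DecidableEq B]

/-- Number of descending port paths of length `k` starting in `lst` with last triangle `t`. -/
noncomputable def NN (tri : P → B) (ch : P → List P) : ℕ → List P → B → ℝ
  | 0, lst, t => (lst.map (fun c => if tri c = t then (1 : ℝ) else 0)).sum
  | k + 1, lst, t => (lst.map (fun c => NN tri ch k (ch c) t)).sum

/-- Number of descending port paths of length `k` starting at `c` with last triangle `t`. -/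
noncomputable def N1 (tri : P → B) (ch : P → List P) (k : ℕ) (c : P) (t : B) : ℝ :=
  match k with
  | 0 => if tri c = t then (1 : ℝ) else 0
  | k + 1 => NN tri ch k (ch c) t

variable {tri : P → B} {ch : P → List P}

theorem NN_eq_sum_N1 (k : ℕ) (lst : List P) (t : B) :
    NN tri ch k lst t = (lst.map (fun c => N1 tri ch k c t)).sum := by
  cases k <;> rfl

theorem list_sum_map_nonneg {α : Type*} (l : List α) (f : α → ℝ) (h : ∀ c ∈ l, 0 ≤ f c) :
    0 ≤ (l.map f).sum := by
  apply List.sum_nonneg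
  intro x hx
  rw [List.mem_map] at hx
  obtain ⟨c, hc, rfl⟩ := hx
  exact h c hc

theorem NN_nonneg (k : ℕ) (lst : List P) (t : B) : 0 ≤ NN tri ch k lst t := by
  induction k generalizing lst with
  | zero => exact list_sum_map_nonneg _ _ fun c _ => by split_ifs <;> norm_num
  | succ k ih => exact list_sum_map_nonneg _ _ fun c _ => ih _

theorem N1_nonneg (k : ℕ) (c : P) (t : B) : 0 ≤ N1 tri ch k c t := by
  cases k with
  | zero => unfold N1; split_ifs <;> norm_num
  | succ k => exact NN_nonneg k _ t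

/-- If the list only contains ports with a property closed under `ch`, and `t` is not the triangle
of a port with this property, then there is no path. -/
theorem NN_eq_zero (Q : P → Prop) (hQ : ∀ c, Q c → ∀ d ∈ ch c, Q d) {t : B}
    (ht : ∀ c, Q c → tri c ≠ t) (k : ℕ) (lst : List P) (hl : ∀ c ∈ lst, Q c) :
    NN tri ch k lst t = 0 := by
  induction k generalizing lst with
  | zero =>
    unfold NN
    have : lst.map (fun c => if tri c = t then (1 : ℝ) else 0) = lst.map (fun _ => (0 : ℝ)) := by
      apply List.map_congr_left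
      intro c hc
      rw [if_neg (ht c (hl c hc))]
    rw [this]; simp
  | succ k ih =>
    unfold NN
    have : lst.map (fun c => NN tri ch k (ch c) t) = lst.map (fun _ => (0 : ℝ)) := by
      apply List.map_congr_left
      intro c hc
      exact ih _ (hQ c (hl c hc))
    rw [this]; simp

/-- Total number of descending paths of length `k`. -/
theorem sum_NN_le [Fintype B] (Q : P → Prop) (hQ : ∀ c, Q c → ∀ d ∈ ch c, Q d) {D : ℝ}
    (hD0 : 0 ≤ D) (hD : ∀ c, Q c → ((ch c).length : ℝ) ≤ D) (k : ℕ) (lst : List P)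
    (hl : ∀ c ∈ lst, Q c) :
    ∑ t, NN tri ch k lst t ≤ (lst.length : ℝ) * D ^ k := by
  induction k generalizing lst with
  | zero =>
    unfold NN
    induction lst with
    | nil => simp
    | cons c lst ih =>
      simp only [List.map_cons, List.sum_cons, Finset.sum_add_distrib]
      have h1 := ih (fun c hc => hl c (List.mem_cons_of_mem _ hc))
      have h2 : ∑ t : B, (if tri c = t then (1 : ℝ) else 0) = 1 := by simp
      rw [h2]
      simp only [List.length_cons, pow_zero, mul_one] at h1 ⊢
      push_cast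
      linarith
  | succ k ih =>
    unfold NN
    induction lst with
    | nil => simp
    | cons c lst ih2 =>
      simp only [List.map_cons, List.sum_cons, Finset.sum_add_distrib]
      have h1 := ih2 (fun c hc => hl c (List.mem_cons_of_mem _ hc))
      have hc := hl c List.mem_cons_self
      have h2 := ih (ch c) (hQ c hc)
      have h3 : ((ch c).length : ℝ) * D ^ k ≤ D * D ^ k :=
        mul_le_mul_of_nonneg_right (hD c hc) (by positivity)
      simp only [List.length_cons]
      push_cast
      rw [pow_succ] at h1 ⊢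
      nlinarith [h1, h2, h3]

end NN

section ports

variable {V : Type} [DecidableEq V]

/-- All ports of `H`. -/
def ports (H : Finset (Finset V)) : Finset (Finset V × V) :=
  H.biUnion (fun T => T.image (fun v => (T, v)))

theorem mem_ports {H : Finset (Finset V)} {c : Finset V × V} :
    c ∈ ports H ↔ c.1 ∈ H ∧ c.2 ∈ c.1 := by
  unfold ports
  rw [Finset.mem_biUnion]
  constructor
  · rintro ⟨T, hT, h⟩
    rw [Finset.mem_image] at h
    obtain ⟨v, hv, rfl⟩ := h
    exact ⟨hT, hv⟩
  · rintro ⟨h1, h2⟩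
    exact ⟨c.1, h1, Finset.mem_image.2 ⟨c.2, h2, rfl⟩⟩

theorem chL_ports {H : Finset (Finset V)} (c : Finset V × V) :
    ∀ d ∈ chL H c, d ∈ ports H := by
  intro d hd
  rw [mem_chL] at hd
  exact mem_ports.2 ⟨hd.1, hd.2.2.2.1⟩

theorem rtL_ports {H : Finset (Finset V)} (e : V) : ∀ d ∈ rtL H e, d ∈ ports H := by
  intro d hd
  rw [mem_rtL] at hd
  refine mem_ports.2 ⟨hd.1, ?_⟩
  rw [hd.2.1]; exact hd.2.2

/-- Forward degree bound. -/
theorem card_chF_le {H : Finset (Finset V)} (hH : Lin3 H) {D : ℕ}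
    (hD : ∀ v, (H.filter (fun T => v ∈ T)).card ≤ D) {c : Finset V × V} (hc : c ∈ ports H) :
    (chF H c).card ≤ 2 * D := by
  rw [mem_ports] at hc
  have h1 : chF H c ⊆ (c.1.erase c.2).biUnion
      (fun w => (H.filter (fun T => w ∈ T)).image (fun T => (T, w))) := by
    intro d hd
    rw [mem_chF] at hd
    rw [Finset.mem_biUnion]
    exact ⟨d.2, Finset.mem_erase.2 ⟨hd.2.2.1, hd.2.1⟩,
      Finset.mem_image.2 ⟨d.1, Finset.mem_filter.2 ⟨hd.1, hd.2.2.2.1⟩, rfl⟩⟩
  refine (Finset.card_le_card h1).trans ?_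
  refine Finset.card_biUnion_le.trans ?_
  have h2 : ∀ w ∈ c.1.erase c.2,
      ((H.filter (fun T => w ∈ T)).image (fun T => (T, w))).card ≤ D :=
    fun w _ => Finset.card_image_le.trans (hD w)
  refine (Finset.sum_le_sum h2).trans ?_
  rw [Finset.sum_const, Finset.card_erase_of_mem hc.2, hH.card3 _ hc.1]
  simp

theorem length_chL_le {H : Finset (Finset V)} (hH : Lin3 H) {D : ℕ}
    (hD : ∀ v, (H.filter (fun T => v ∈ T)).card ≤ D) {c : Finset V × V} (hc : c ∈ ports H) :
    (chL H c).length ≤ 2 * D := by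
  unfold chL
  rw [Finset.length_toList]
  exact card_chF_le hH hD hc

theorem length_rtL_le {H : Finset (Finset V)} {D : ℕ}
    (hD : ∀ v, (H.filter (fun T => v ∈ T)).card ≤ D) (e : V) :
    (rtL H e).length ≤ D := by
  unfold rtL rtF
  rw [Finset.length_toList]
  exact Finset.card_image_le.trans (hD e)

/-- Number of parents of a port. -/
theorem card_parents_le {H : Finset (Finset V)} (hH : Lin3 H) {D : ℕ}
    (hD : ∀ v, (H.filter (fun T => v ∈ T)).card ≤ D) (d : Finset V × V) :
    ((ports H).filter (fun c => d ∈ chF H c)).card ≤ 2 * D := by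
  have h1 : (ports H).filter (fun c => d ∈ chF H c) ⊆
      (H.filter (fun T => d.2 ∈ T)).biUnion (fun T => (T.erase d.2).image (fun v => (T, v))) := by
    intro c hc
    rw [Finset.mem_filter, mem_ports, mem_chF] at hc
    obtain ⟨⟨h1, h2⟩, h3, h4, h5, h6, h7⟩ := hc
    rw [Finset.mem_biUnion]
    exact ⟨c.1, Finset.mem_filter.2 ⟨h1, h4⟩,
      Finset.mem_image.2 ⟨c.2, Finset.mem_erase.2 ⟨Ne.symm h5, h2⟩, rfl⟩⟩
  refine (Finset.card_le_card h1).trans ?_
  refine Finset.card_biUnion_le.trans ?_
  have h2 : ∀ T ∈ H.filter (fun T => d.2 ∈ T),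
      ((T.erase d.2).image (fun v => (T, v))).card ≤ 2 := by
    intro T hT
    rw [Finset.mem_filter] at hT
    refine Finset.card_image_le.trans ?_
    rw [Finset.card_erase_of_mem hT.2, hH.card3 _ hT.1]
  refine (Finset.sum_le_sum h2).trans ?_
  rw [Finset.sum_const, smul_eq_mul, mul_comm]
  exact Nat.mul_le_mul_left 2 (hD d.2)

/-- **Backward degree bound.** -/
theorem sum_ports_ch_le {H : Finset (Finset V)} (hH : Lin3 H) {D : ℕ}
    (hD : ∀ v, (H.filter (fun T => v ∈ T)).card ≤ D) (f : Finset V × V → ℝ)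
    (hf : ∀ c, 0 ≤ f c) :
    ∑ p ∈ ports H, ((chL H p).map f).sum ≤ 2 * (D : ℝ) * ∑ c ∈ ports H, f c := by
  have h1 : ∀ p ∈ ports H, ((chL H p).map f).sum
      = ∑ c ∈ ports H, if c ∈ chF H p then f c else 0 := by
    intro p _
    unfold chL
    rw [Finset.sum_map_toList, ← Finset.sum_filter]
    apply Finset.sum_congr _ (fun _ _ => rfl)
    ext c
    rw [Finset.mem_filter]
    constructor
    · intro h
      refine ⟨?_, h⟩
      have := chL_ports (H := H) p c (by unfold chL; rwa [Finset.mem_toList])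
      exact this
    · exact fun h => h.2
  rw [Finset.sum_congr rfl h1, Finset.sum_comm, Finset.mul_sum]
  apply Finset.sum_le_sum
  intro c _
  rw [← Finset.sum_filter, Finset.sum_const, nsmul_eq_mul]
  apply mul_le_mul_of_nonneg_right _ (hf c)
  exact_mod_cast card_parents_le hH hD c

theorem sum_ports_N1_le {H : Finset (Finset V)} (hH : Lin3 H) {D : ℕ}
    (hD : ∀ v, (H.filter (fun T => v ∈ T)).card ≤ D) (t : Finset V) (k : ℕ) :
    ∑ p ∈ ports H, N1 Prod.fst (chL H) k p t ≤ 3 * (2 * (D : ℝ)) ^ k := by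
  induction k with
  | zero =>
    simp only [N1, pow_zero, mul_one]
    rw [← Finset.sum_filter, Finset.sum_const, nsmul_eq_mul, mul_one]
    by_cases ht : t ∈ H
    · have h1 : (ports H).filter (fun p => p.1 = t) ⊆ t.image (fun v => (t, v)) := by
        intro p hp
        rw [Finset.mem_filter, mem_ports] at hp
        rw [Finset.mem_image]
        refine ⟨p.2, ?_, ?_⟩
        · rw [← hp.2]; exact hp.1.2
        · rw [← hp.2]
      have h2 := (Finset.card_le_card h1).trans Finset.card_image_le
      rw [hH.card3 t ht] at h2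
      exact_mod_cast h2
    · have h1 : (ports H).filter (fun p => p.1 = t) = ∅ := by
        apply Finset.filter_false_of_mem
        intro p hp h
        rw [mem_ports, h] at hp
        exact ht hp.1
      rw [h1]; norm_num
  | succ k ih =>
    have h1 : ∀ p ∈ ports H, N1 Prod.fst (chL H) (k + 1) p t
        = ((chL H p).map (fun c => N1 Prod.fst (chL H) k c t)).sum := by
      intro p _
      exact NN_eq_sum_N1 k (chL H p) t
    rw [Finset.sum_congr rfl h1]
    refine (sum_ports_ch_le hH hD _ (fun c => N1_nonneg k c t)).trans ?_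
    have h2 : 0 ≤ 2 * (D : ℝ) := by positivity
    calc 2 * (D : ℝ) * ∑ c ∈ ports H, N1 Prod.fst (chL H) k c t
        ≤ 2 * (D : ℝ) * (3 * (2 * (D : ℝ)) ^ k) := mul_le_mul_of_nonneg_left ih h2
      _ = 3 * (2 * (D : ℝ)) ^ (k + 1) := by rw [pow_succ]; ring

/-- Sum over the roots of a function of the root ports. -/
theorem sum_root_le {H : Finset (Finset V)} (A : Finset V) (f : Finset V × V → ℝ)
    (hf : ∀ c, 0 ≤ f c) :
    ∑ e ∈ A, ((rtL H e).map f).sum ≤ ∑ c ∈ ports H, f c := by
  have h1 : ∀ e ∈ A, ((rtL H e).map f).sum = ∑ c ∈ ports H, if c.2 = e then f c else 0 := by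
    intro e _
    unfold rtL
    rw [Finset.sum_map_toList, ← Finset.sum_filter]
    apply Finset.sum_congr _ (fun _ _ => rfl)
    ext c
    rw [Finset.mem_filter, mem_ports]
    have := mem_rtL (H := H) (e := e) (d := c)
    unfold rtL at this
    rw [Finset.mem_toList] at this
    rw [this]
    constructor
    · rintro ⟨h1, h2, h3⟩
      exact ⟨⟨h1, h2 ▸ h3⟩, h2⟩
    · rintro ⟨⟨h1, h2⟩, h3⟩
      exact ⟨h1, h3, h3 ▸ h2⟩
  rw [Finset.sum_congr rfl h1, Finset.sum_comm]
  apply Finset.sum_le_sum
  intro c _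
  rw [Finset.sum_ite_eq]
  split_ifs
  · exact le_rfl
  · exact hf c

/-- Number of descending paths of length `k` from all roots ending at `t`. -/
theorem sum_NN_root_le {H : Finset (Finset V)} (hH : Lin3 H) {D : ℕ}
    (hD : ∀ v, (H.filter (fun T => v ∈ T)).card ≤ D) (A : Finset V) (t : Finset V) (k : ℕ) :
    ∑ e ∈ A, NN Prod.fst (chL H) k (rtL H e) t ≤ 3 * (2 * (D : ℝ)) ^ k := by
  simp only [NN_eq_sum_N1]
  exact (sum_root_le A _ (fun c => N1_nonneg k c t)).trans (sum_ports_N1_le hH hD t k)

theorem NN_root_eq_zero {H : Finset (Finset V)} {t : Finset V} (ht : t ∉ H) (k : ℕ) (e : V) :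
    NN Prod.fst (chL H) k (rtL H e) t = 0 := by
  apply NN_eq_zero (fun c => c ∈ ports H) (fun c _ d hd => chL_ports c d hd)
  · intro c hc h
    rw [mem_ports, h] at hc
    exact ht hc.1
  · exact rtL_ports e

/-- **Two-root term.**  If the expected numbers of asks are bounded by weighted path counts, then
the cross term of the second moment is at most `|H| (3 ∑_k w_k (2D)^k)^2`. -/
theorem sum_cnt_sq_le [Fintype V] {H : Finset (Finset V)} (hH : Lin3 H) {D : ℕ}
    (hD : ∀ v, (H.filter (fun T => v ∈ T)).card ≤ D) (A : Finset V) (N : ℕ) (w : ℕ → ℝ)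
    (hw : ∀ k, 0 ≤ w k) (cnt : V → Finset V → ℝ) (hc0 : ∀ e t, 0 ≤ cnt e t)
    (hc : ∀ e ∈ A, ∀ t, cnt e t ≤ ∑ k ∈ range N, w k * NN Prod.fst (chL H) k (rtL H e) t) :
    ∑ t : Finset V, (∑ e ∈ A, cnt e t) ^ 2
      ≤ (H.card : ℝ) * (3 * ∑ k ∈ range N, w k * (2 * (D : ℝ)) ^ k) ^ 2 := by
  have h1 : ∀ t, ∑ e ∈ A, cnt e t ≤ 3 * ∑ k ∈ range N, w k * (2 * (D : ℝ)) ^ k := by
    intro t
    calc ∑ e ∈ A, cnt e t
        ≤ ∑ e ∈ A, ∑ k ∈ range N, w k * NN Prod.fst (chL H) k (rtL H e) t :=
          Finset.sum_le_sum fun e he => hc e he t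
      _ = ∑ k ∈ range N, w k * ∑ e ∈ A, NN Prod.fst (chL H) k (rtL H e) t := by
          rw [Finset.sum_comm]
          simp only [Finset.mul_sum]
      _ ≤ ∑ k ∈ range N, w k * (3 * (2 * (D : ℝ)) ^ k) :=
          Finset.sum_le_sum fun k _ =>
            mul_le_mul_of_nonneg_left (sum_NN_root_le hH hD A t k) (hw k)
      _ = 3 * ∑ k ∈ range N, w k * (2 * (D : ℝ)) ^ k := by
          rw [Finset.mul_sum]
          exact Finset.sum_congr rfl fun k _ => by ring
  have h0 : ∀ t, 0 ≤ ∑ e ∈ A, cnt e t := fun t => Finset.sum_nonneg fun e _ => hc0 e t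
  have hz : ∀ t, t ∉ H → ∑ e ∈ A, cnt e t = 0 := by
    intro t ht
    apply Finset.sum_eq_zero
    intro e he
    apply le_antisymm _ (hc0 e t)
    refine (hc e he t).trans (le_of_eq ?_)
    apply Finset.sum_eq_zero
    intro k _
    rw [NN_root_eq_zero ht, mul_zero]
  calc ∑ t : Finset V, (∑ e ∈ A, cnt e t) ^ 2
      = ∑ t ∈ H, (∑ e ∈ A, cnt e t) ^ 2 := by
        symm
        apply Finset.sum_subset (Finset.subset_univ _)
        intro t _ ht
        rw [hz t ht]; norm_num
    _ ≤ ∑ t ∈ H, (3 * ∑ k ∈ range N, w k * (2 * (D : ℝ)) ^ k) ^ 2 :=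
        Finset.sum_le_sum fun t _ => pow_le_pow_left₀ (h0 t) (h1 t) 2
    _ = _ := by rw [Finset.sum_const, nsmul_eq_mul]

end ports

end Crest.Agent.R030
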