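import Mathlib

/-!
Row 30 (S0040), last window: the pointwise inequality of the mirror-descent stability lemma
(note 5271 of helper235).  With `Φ w = w log w - w + 1` we prove, for all `w₁, w₂, w₃ ≥ 0`,

  `0 ≤ (5/4) (Φ w₁ + Φ w₂ + Φ w₃) + (w₁ w₂ w₃ + 2 - w₁ - w₂ - w₃)`

and the form in `r_i = log w_i` : with `ψ r = 1 + (r - 1) e^r`, `s = r₁ + r₂ + r₃`,

  `- (9/4) (ψ r₁ + ψ r₂ + ψ r₃) ≤ s e^s - (r₁ e^{r₁} + r₂ e^{r₂} + r₃ e^{r₃})`.
-/

set_option autoImplicit false

open Real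

namespace Crest.Agent.R030

/-- `Φ w = w log w - w + 1` -/
noncomputable def Phi (w : ℝ) : ℝ := w * log w - w + 1

/-- `ψ r = 1 + (r - 1) e^r = Φ (e^r)` -/
noncomputable def psi (r : ℝ) : ℝ := 1 + (r - 1) * exp r

theorem psi_eq (r : ℝ) : psi r = Phi (exp r) := by
  unfold psi Phi
  rw [log_exp]; ring

/-- Young's inequality for the pair `Φ`, `e^θ - 1` -/
theorem Phi_young {w : ℝ} (hw : 0 ≤ w) (θ : ℝ) : w * θ - exp θ + 1 ≤ Phi w := by
  unfold Phi
  rcases hw.eq_or_lt with rfl | hw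
  · simp only [zero_mul]
    linarith [exp_pos θ]
  · have h1 : (θ - log w) + 1 ≤ exp (θ - log w) := add_one_le_exp _
    have h2 : exp θ = w * exp (θ - log w) := by
      rw [exp_sub, exp_log hw]
      field_simp
    rw [h2]
    nlinarith [mul_le_mul_of_nonneg_left h1 hw.le]

theorem Phi_nonneg {w : ℝ} (hw : 0 ≤ w) : 0 ≤ Phi w := by
  have := Phi_young hw 0
  simp at this
  linarith

theorem psi_nonneg (r : ℝ) : 0 ≤ psi r := by
  rw [psi_eq]; exact Phi_nonneg (exp_pos r).le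

theorem Phi_one : Phi 1 = 0 := by unfold Phi; simp

/-- `Φ (1 - x) ≥ x² / 2` for `x ∈ [0,1]` -/
theorem Phi_one_sub {x : ℝ} (hx0 : 0 ≤ x) (hx1 : x ≤ 1) : x ^ 2 / 2 ≤ Phi (1 - x) := by
  rcases hx1.eq_or_lt with rfl | hx1
  · unfold Phi; norm_num
  have hw : 0 < 1 - x := by linarith
  -- log (1 - x) ≥ -x/(1-x) ... use the bound log y ≥ (y - 1/y)/2 for y ≤ 1
  have key : (1 - x - 1 / (1 - x)) / 2 ≤ log (1 - x) := by
    -- let y = 1 - x ∈ (0,1], t = -log y ≥ 0; need log y ≥ (y - 1/y)/2, i.e. sinh t ≥ t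
    have ht : 0 ≤ -log (1 - x) := by
      have := log_nonpos hw.le (by linarith)
      linarith
    have h := Real.self_le_sinh_iff.2 ht
    rw [Real.sinh_eq] at h
    rw [neg_neg, exp_neg, exp_log hw] at h
    rw [one_div]
    linarith
  unfold Phi
  have h2 := mul_le_mul_of_nonneg_left key hw.le
  have h3 : (1 - x) * ((1 - x - 1 / (1 - x)) / 2) = ((1 - x) ^ 2 - 1) / 2 := by
    field_simp
  rw [h3] at h2
  nlinarith

/-- auxiliary: log (1+a) ≥ (3/2)(6a+a²)/(3+a)² for `a ≥ 0` -/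
theorem Phi_lower {a : ℝ} (ha : 0 ≤ a) : 3 * a ^ 2 / (2 * (3 + a)) ≤ Phi (1 + a) := by
  -- f(a) = Φ(1+a) - 3a²/(2(3+a)); f' = log(1+a) - (3/2)(6a+a²)/(3+a)²
  have hlog : ∀ a : ℝ, 0 ≤ a → 3 / 2 * (6 * a + a ^ 2) / (3 + a) ^ 2 ≤ log (1 + a) := by
    intro a ha
    let f : ℝ → ℝ := fun a => log (1 + a) - 3 / 2 * (6 * a + a ^ 2) / (3 + a) ^ 2
    have hmono : MonotoneOn f (Set.Ici 0) := by
      apply monotoneOn_of_deriv_nonneg (convex_Ici 0)
      · apply ContinuousOn.sub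
        · apply ContinuousOn.log
          · fun_prop
          · intro x hx; have : (0 : ℝ) ≤ x := hx; positivity
        · apply ContinuousOn.div
          · fun_prop
          · fun_prop
          · intro x hx; have : (0 : ℝ) ≤ x := hx; positivity
      · intro x hx
        rw [interior_Ici] at hx
        have hx' : (0 : ℝ) < x := hx
        apply DifferentiableAt.differentiableWithinAt
        apply DifferentiableAt.sub
        · apply DifferentiableAt.log
          · fun_prop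
          · positivity
        · apply DifferentiableAt.div
          · fun_prop
          · fun_prop
          · positivity
      · intro x hx
        rw [interior_Ici] at hx
        have hx' : (0 : ℝ) < x := hx
        have h1 : HasDerivAt (fun a : ℝ => log (1 + a)) (1 / (1 + x)) x := by
          have := (hasDerivAt_id x).const_add (1 : ℝ)
          exact this.log (by simp; positivity)
        have h2 : HasDerivAt (fun a : ℝ => 3 / 2 * (6 * a + a ^ 2) / (3 + a) ^ 2)
            (((3 / 2 * (6 * 1 + 2 * x)) * (3 + x) ^ 2 -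
              3 / 2 * (6 * x + x ^ 2) * (2 * (3 + x))) / ((3 + x) ^ 2) ^ 2) x := by
          have e1 : HasDerivAt (fun a : ℝ => 3 / 2 * (6 * a + a ^ 2)) (3 / 2 * (6 * 1 + 2 * x)) x := by
            have := (((hasDerivAt_id x).const_mul (6 : ℝ)).add ((hasDerivAt_id x).pow 2)).const_mul
              (3 / 2 : ℝ)
            simpa using this
          have e2 : HasDerivAt (fun a : ℝ => (3 + a) ^ 2) (2 * (3 + x)) x := by
            have := ((hasDerivAt_id' x).const_add (3 : ℝ)).fun_pow 2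
            simpa using this
          exact e1.div e2 (by positivity)
        have h3 := h1.sub h2
        have h4 : deriv f x = 1 / (1 + x) - ((3 / 2 * (6 * 1 + 2 * x)) * (3 + x) ^ 2 -
              3 / 2 * (6 * x + x ^ 2) * (2 * (3 + x))) / ((3 + x) ^ 2) ^ 2 := h3.deriv
        rw [h4]
        have h5 : ((3 / 2 * (6 * 1 + 2 * x)) * (3 + x) ^ 2 -
              3 / 2 * (6 * x + x ^ 2) * (2 * (3 + x))) / ((3 + x) ^ 2) ^ 2 = 27 / (3 + x) ^ 3 := by
          field_simp
          ring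
        rw [h5, sub_nonneg, div_le_div_iff₀ (by positivity) (by positivity)]
        nlinarith [pow_pos hx' 2, pow_pos hx' 3]
    have h0 := hmono (Set.mem_Ici.2 le_rfl) (Set.mem_Ici.2 ha) ha
    simp only [f] at h0
    norm_num at h0
    linarith
  let g : ℝ → ℝ := fun a => Phi (1 + a) - 3 * a ^ 2 / (2 * (3 + a))
  have hmono : MonotoneOn g (Set.Ici 0) := by
    have hd : ∀ x : ℝ, 0 ≤ x → HasDerivAt g (log (1 + x) -
        ((3 * (2 * x)) * (2 * (3 + x)) - 3 * x ^ 2 * 2) / (2 * (3 + x)) ^ 2) x := by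
      intro x hx
      have e0 : HasDerivAt (fun a : ℝ => 1 + a) 1 x := by
        simpa using (hasDerivAt_id x).const_add (1 : ℝ)
      have e1 : HasDerivAt (fun a : ℝ => Phi (1 + a)) (log (1 + x)) x := by
        have h := (e0.fun_mul (e0.log (by positivity))).fun_sub e0
        have h' := h.add_const (1 : ℝ)
        have h3 : (1 : ℝ) * log (1 + x) + (1 + x) * (1 / (1 + x)) - 1 = log (1 + x) := by
          field_simp
          ring
        rw [h3] at h'
        exact h'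
      have e2 : HasDerivAt (fun a : ℝ => 3 * a ^ 2 / (2 * (3 + a)))
          (((3 * (2 * x)) * (2 * (3 + x)) - 3 * x ^ 2 * 2) / (2 * (3 + x)) ^ 2) x := by
        have f1 : HasDerivAt (fun a : ℝ => 3 * a ^ 2) (3 * (2 * x)) x := by
          have := ((hasDerivAt_id x).pow 2).const_mul (3 : ℝ)
          simpa using this
        have f2 : HasDerivAt (fun a : ℝ => 2 * (3 + a)) 2 x := by
          have := ((hasDerivAt_id x).const_add (3 : ℝ)).const_mul (2 : ℝ)
          simpa using this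
        exact f1.div f2 (by positivity)
      exact e1.sub e2
    apply monotoneOn_of_deriv_nonneg (convex_Ici 0)
    · intro x hx
      exact (hd x hx).continuousAt.continuousWithinAt
    · intro x hx
      rw [interior_Ici] at hx
      exact (hd x (le_of_lt hx)).differentiableAt.differentiableWithinAt
    · intro x hx
      rw [interior_Ici] at hx
      have hx' : (0 : ℝ) < x := hx
      rw [(hd x hx'.le).deriv]
      have := hlog x hx'.le
      have h5 : ((3 * (2 * x)) * (2 * (3 + x)) - 3 * x ^ 2 * 2) / (2 * (3 + x)) ^ 2 =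
          3 / 2 * (6 * x + x ^ 2) / (3 + x) ^ 2 := by
        field_simp
        ring
      rw [h5]; linarith
  have h0 := hmono (Set.mem_Ici.2 le_rfl) (Set.mem_Ici.2 ha) ha
  simp only [g] at h0
  have : Phi (1 + 0) = 0 := by rw [add_zero]; exact Phi_one
  rw [this] at h0
  norm_num at h0
  linarith

/-- cubic lower bound of the exponential -/
theorem cubic_le_exp {z : ℝ} (hz : 0 ≤ z) : 1 + z + z ^ 2 / 2 + z ^ 3 / 6 ≤ exp z := by
  have := Real.sum_le_exp_of_nonneg hz 4
  simp only [Finset.sum_range_succ, Finset.range_zero, Finset.sum_empty] at this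
  norm_num [Nat.factorial] at this
  linarith

/-- the diagonal case: `(5/2) Φ (1+h) - 2h + (5/4) (1 - exp (-(4/5)(2h + h²))) ≥ 0` -/
theorem diag_ineq {h : ℝ} (hh : 0 ≤ h) :
    2 * h ≤ 5 / 2 * Phi (1 + h) + 5 / 4 * (1 - exp (-(4 / 5 * (2 * h + h ^ 2)))) := by
  have h1 := Phi_lower hh
  set z : ℝ := 4 / 5 * (2 * h + h ^ 2) with hz
  have hz0 : 0 ≤ z := by positivity
  have h2 : exp (-z) ≤ 1 / (1 + z + z ^ 2 / 2 + z ^ 3 / 6) := by
    rw [exp_neg, ← one_div]
    exact one_div_le_one_div_of_le (by positivity) (cubic_le_exp hz0)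
  have h3 : 2 * h ≤ 5 / 2 * (3 * h ^ 2 / (2 * (3 + h))) +
      5 / 4 * (1 - 1 / (1 + z + z ^ 2 / 2 + z ^ 3 / 6)) := by
    have hE : 0 < 1 + z + z ^ 2 / 2 + z ^ 3 / 6 := by positivity
    have hh3 : 0 < 3 + h := by positivity
    rw [← sub_nonneg]
    have : 5 / 2 * (3 * h ^ 2 / (2 * (3 + h))) +
      5 / 4 * (1 - 1 / (1 + z + z ^ 2 / 2 + z ^ 3 / 6)) - 2 * h =
      (h ^ 2 * (39 / 20 + 7 / 25 * h - 241 / 375 * h ^ 2 - 386 / 375 * h ^ 3 + 6 / 25 * h ^ 4
        + 184 / 375 * h ^ 5 + 56 / 375 * h ^ 6)) / ((3 + h) * (1 + z + z ^ 2 / 2 + z ^ 3 / 6)) := by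
      field_simp
      rw [hz]
      ring
    rw [this]
    apply div_nonneg _ (by positivity)
    apply mul_nonneg (by positivity)
    nlinarith [sq_nonneg (h - 1), sq_nonneg (h ^ 2 - 1), sq_nonneg (h ^ 2 - h), pow_nonneg hh 3,
      mul_nonneg hh (sq_nonneg (h - 1)), mul_nonneg hh (sq_nonneg (h ^ 2 - 1)),
      mul_nonneg (pow_nonneg hh 3) (sq_nonneg (h - 1)), pow_nonneg hh 5, pow_nonneg hh 6]
  linarith

/-- `k x = (5/4) Φ(e^x) - (e^x - 1)` is convex on `x ≥ 0` -/
theorem convexOn_k : ConvexOn ℝ (Set.Ici (0 : ℝ))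
    (fun x => 5 / 4 * ((x - 1) * exp x + 1) - (exp x - 1)) := by
  have hd : ∀ x : ℝ, HasDerivAt (fun x => 5 / 4 * ((x - 1) * exp x + 1) - (exp x - 1))
      (5 / 4 * (x * exp x) - exp x) x := by
    intro x
    have e1 : HasDerivAt (fun x : ℝ => x - 1) 1 x := (hasDerivAt_id' x).sub_const 1
    have e2 := ((e1.fun_mul (Real.hasDerivAt_exp x)).add_const 1).const_mul (5 / 4 : ℝ)
    have e3 := e2.fun_sub ((Real.hasDerivAt_exp x).sub_const 1)
    exact e3.congr_deriv (by ring)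
  have hd2 : ∀ x : ℝ, HasDerivAt (fun x => 5 / 4 * (x * exp x) - exp x)
      (5 / 4 * (exp x + x * exp x) - exp x) x := by
    intro x
    have e2 := ((hasDerivAt_id' x).fun_mul (Real.hasDerivAt_exp x)).const_mul (5 / 4 : ℝ)
    have e3 := e2.fun_sub (Real.hasDerivAt_exp x)
    exact e3.congr_deriv (by ring)
  have hder : deriv (fun x : ℝ => 5 / 4 * ((x - 1) * exp x + 1) - (exp x - 1)) =
      fun x => 5 / 4 * (x * exp x) - exp x := funext fun x => (hd x).deriv
  apply convexOn_of_deriv2_nonneg (convex_Ici 0)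
  · exact fun x _ => (hd x).continuousAt.continuousWithinAt
  · exact fun x _ => (hd x).differentiableAt.differentiableWithinAt
  · rw [hder]
    exact fun x _ => (hd2 x).differentiableAt.differentiableWithinAt
  · intro x hx
    rw [interior_Ici] at hx
    have hx' : (0 : ℝ) < x := hx
    rw [Function.iterate_succ, Function.iterate_one, Function.comp, hder, (hd2 x).deriv]
    nlinarith [exp_pos x, mul_pos hx' (exp_pos x)]

/-- case of two variables `≥ 1`: after minimising over the third one -/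
theorem two_ineq {a b : ℝ} (ha : 0 ≤ a) (hb : 0 ≤ b) :
    a + b ≤ 5 / 4 * (Phi (1 + a) + Phi (1 + b)) +
      5 / 4 * (1 - exp (-(4 / 5 * (a + b + a * b)))) := by
  set x := log (1 + a) with hx
  set y := log (1 + b) with hy
  have hx0 : 0 ≤ x := log_nonneg (by linarith)
  have hy0 : 0 ≤ y := log_nonneg (by linarith)
  have hea : exp x = 1 + a := exp_log (by linarith)
  have heb : exp y = 1 + b := exp_log (by linarith)
  set m := (x + y) / 2 with hm
  have hm0 : 0 ≤ m := by positivity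
  have hk := convexOn_k.2 (Set.mem_Ici.2 hx0) (Set.mem_Ici.2 hy0) (by norm_num : (0 : ℝ) ≤ 1 / 2)
    (by norm_num : (0 : ℝ) ≤ 1 / 2) (by norm_num)
  have hm' : (1 / 2 : ℝ) • x + (1 / 2 : ℝ) • y = m := by
    simp only [smul_eq_mul]; rw [hm]; ring
  rw [hm'] at hk
  simp only [smul_eq_mul] at hk
  have hh : 0 ≤ exp m - 1 := by linarith [one_le_exp hm0]
  have hd := diag_ineq hh
  have h1 : 1 + (exp m - 1) = exp m := by ring
  rw [h1] at hd
  have h2 : 2 * (exp m - 1) + (exp m - 1) ^ 2 = a + b + a * b := by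
    have : exp m * exp m = (1 + a) * (1 + b) := by
      rw [← exp_add, ← hea, ← heb, ← exp_add, hm]
      congr 1; ring
    nlinarith
  rw [h2] at hd
  have hPa : Phi (1 + a) = (x - 1) * exp x + 1 := by rw [← hea]; unfold Phi; rw [log_exp]; ring
  have hPb : Phi (1 + b) = (y - 1) * exp y + 1 := by rw [← heb]; unfold Phi; rw [log_exp]; ring
  have hPm : Phi (exp m) = (m - 1) * exp m + 1 := by unfold Phi; rw [log_exp]; ring
  rw [hPa, hPb]
  rw [hPm] at hd
  rw [hea, heb] at hk ⊢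
  linarith

/-- `e^q - 1 - q ≤ ...`: upper bound for the conjugate, `(5/4)(e^{4q/5} - 1) - q ≤ (9/16) q²` on
`[0,1]` -/
theorem conj_bound {q : ℝ} (hq0 : 0 ≤ q) (hq1 : q ≤ 1) :
    5 / 4 * (exp (4 / 5 * q) - 1) - q ≤ 9 / 16 * q ^ 2 := by
  have h := Real.exp_bound' (x := 4 / 5 * q) (by positivity) (by linarith) (n := 4) (by norm_num)
  simp only [Finset.sum_range_succ, Finset.range_zero, Finset.sum_empty] at h
  norm_num [Nat.factorial] at h
  have h3 : q ^ 3 ≤ q ^ 2 := by nlinarith [sq_nonneg q]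
  have h4 : q ^ 4 ≤ q ^ 2 := by
    nlinarith [sq_nonneg q, mul_nonneg (sq_nonneg q) (sub_nonneg.2 hq1),
      mul_nonneg (mul_nonneg (sq_nonneg q) hq0) (sub_nonneg.2 hq1)]
  nlinarith

/-- the main inequality, in the variables `w_i ≥ 0` -/
theorem key_w {w₁ w₂ w₃ : ℝ} (h₁ : 0 ≤ w₁) (h₂ : 0 ≤ w₂) (h₃ : 0 ≤ w₃) :
    0 ≤ 5 / 4 * (Phi w₁ + Phi w₂ + Phi w₃) + (w₁ * w₂ * w₃ + 2 - w₁ - w₂ - w₃) := by
  -- two variables ≥ 1
  have two : ∀ u v w : ℝ, 1 ≤ u → 1 ≤ v → 0 ≤ w →
      0 ≤ 5 / 4 * (Phi u + Phi v + Phi w) + (u * v * w + 2 - u - v - w) := by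
    intro u v w hu hv hw
    have h := two_ineq (sub_nonneg.2 hu) (sub_nonneg.2 hv)
    have e1 : 1 + (u - 1) = u := by ring
    have e2 : 1 + (v - 1) = v := by ring
    rw [e1, e2] at h
    have e3 : u - 1 + (v - 1) + (u - 1) * (v - 1) = u * v - 1 := by ring
    rw [e3] at h
    have hy := Phi_young hw (-(4 / 5 * (u * v - 1)))
    nlinarith
  -- at most one variable ≥ 1
  have one : ∀ u x y : ℝ, 0 ≤ u → 0 ≤ x → x ≤ 1 → 0 ≤ y → y ≤ 1 →
      0 ≤ 5 / 4 * (Phi u + Phi (1 - x) + Phi (1 - y)) +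
        (u * (1 - x) * (1 - y) + 2 - u - (1 - x) - (1 - y)) := by
    intro u x y hu hx0 hx1 hy0 hy1
    have hX := Phi_one_sub hx0 hx1
    have hY := Phi_one_sub hy0 hy1
    have hq0 : 0 ≤ x + y - x * y := by nlinarith
    have hq1 : x + y - x * y ≤ 1 := by nlinarith
    have hc := conj_bound hq0 hq1
    have hU := Phi_young hu (4 / 5 * (x + y - x * y))
    have hq2 : (x + y - x * y) ^ 2 ≤ (x + y) ^ 2 := by
      apply pow_le_pow_left₀ hq0
      nlinarith [mul_nonneg hx0 hy0]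
    nlinarith [sq_nonneg (x - y)]
  rcases le_total 1 w₁ with a1 | a1 <;> rcases le_total 1 w₂ with a2 | a2 <;>
    rcases le_total 1 w₃ with a3 | a3
  · exact two w₁ w₂ w₃ a1 a2 h₃
  · exact two w₁ w₂ w₃ a1 a2 h₃
  · have := two w₁ w₃ w₂ a1 a3 h₂
    nlinarith
  · have := one w₁ (1 - w₂) (1 - w₃) h₁ (by linarith) (by linarith) (by linarith) (by linarith)
    have e : ∀ w : ℝ, 1 - (1 - w) = w := fun w => by ring
    rw [e, e] at this
    linarith
  · have := two w₂ w₃ w₁ a2 a3 h₁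
    nlinarith
  · have := one w₂ (1 - w₁) (1 - w₃) h₂ (by linarith) (by linarith) (by linarith) (by linarith)
    have e : ∀ w : ℝ, 1 - (1 - w) = w := fun w => by ring
    rw [e, e] at this
    nlinarith
  · have := one w₃ (1 - w₁) (1 - w₂) h₃ (by linarith) (by linarith) (by linarith) (by linarith)
    have e : ∀ w : ℝ, 1 - (1 - w) = w := fun w => by ring
    rw [e, e] at this
    nlinarith
  · have := one w₁ (1 - w₂) (1 - w₃) h₁ (by linarith) (by linarith) (by linarith) (by linarith)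
    have e : ∀ w : ℝ, 1 - (1 - w) = w := fun w => by ring
    rw [e, e] at this
    linarith

/-- the exact identity behind the mirror-descent form: with `s = r₁+r₂+r₃`,
`s e^s - Σ r_i e^{r_i} + C Σ ψ r_i = Φ(e^s) + (C-1) Σ Φ(e^{r_i}) + (e^s + 2 - Σ e^{r_i})` -/
theorem mirror_identity (C r₁ r₂ r₃ : ℝ) :
    (r₁ + r₂ + r₃) * exp (r₁ + r₂ + r₃) - (r₁ * exp r₁ + r₂ * exp r₂ + r₃ * exp r₃) +
      C * (psi r₁ + psi r₂ + psi r₃) =
    psi (r₁ + r₂ + r₃) + (C - 1) * (psi r₁ + psi r₂ + psi r₃) +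
      (exp (r₁ + r₂ + r₃) + 2 - exp r₁ - exp r₂ - exp r₃) := by
  unfold psi
  ring

/-- **235's inequality** with `C = 9/4`, in the strengthened form with `ψ(s)` kept -/
theorem mirror_ineq_strong (r₁ r₂ r₃ : ℝ) :
    psi (r₁ + r₂ + r₃) - 9 / 4 * (psi r₁ + psi r₂ + psi r₃) ≤
      (r₁ + r₂ + r₃) * exp (r₁ + r₂ + r₃) -
        (r₁ * exp r₁ + r₂ * exp r₂ + r₃ * exp r₃) := by
  have h := key_w (exp_pos r₁).le (exp_pos r₂).le (exp_pos r₃).le
  have hid := mirror_identity (9 / 4) r₁ r₂ r₃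
  rw [← psi_eq, ← psi_eq, ← psi_eq, ← exp_add, ← exp_add] at h
  linarith

/-- **235's inequality** with `C = 9/4` -/
theorem mirror_ineq (r₁ r₂ r₃ : ℝ) :
    -(9 / 4 * (psi r₁ + psi r₂ + psi r₃)) ≤
      (r₁ + r₂ + r₃) * exp (r₁ + r₂ + r₃) -
        (r₁ * exp r₁ + r₂ * exp r₂ + r₃ * exp r₃) := by
  have := mirror_ineq_strong r₁ r₂ r₃
  linarith [psi_nonneg (r₁ + r₂ + r₃)]

end Crest.Agent.R030
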