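import Crest.Agent.R030.Assemble
import Crest.Agent.R030.ErrFinal

/-!
Row 30 (S0040), helper745: choice of the constants.
-/

set_option autoImplicit false

open Finset Filter Topology
open Crest.CombinatoricsR.TriangleRemoval

namespace Crest.Agent.R030.Main

theorem exists_k : ∃ k : ℕ, Even (k + 3) ∧ (400 : ℝ) / (1 / 100) ≤ ((k + 3 : ℕ) : ℝ) :=
  ⟨79997, ⟨40000, rfl⟩, by norm_num⟩

theorem final :
    Tendsto (fun n : ℕ =>
      expectFinal
        (fun e : ℕ => ((e : ℝ) / (n : ℝ) ^ ((3 : ℝ) / 2) - 1 / (2 * Real.sqrt 2)) ^ 2)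
        (n ^ 2) (allEdges n)) atTop (nhds 0) := by
  obtain ⟨k, hk, hkq⟩ := exists_k
  have ht : 0 < tauq (k + 3) := tauq_pos (by omega)
  have hδ0 : (0:ℝ) < 1 / 100 := by norm_num
  have hκ0 : 0 < min (tauq (k + 3) / 3) (1 / 400400) := lt_min (by linarith) (by norm_num)
  have hκ1 : min (tauq (k + 3) / 3) (1 / 400400) ≤ 1 / 400400 := min_le_right _ _
  have hκ2 : 3 * min (tauq (k + 3) / 3) (1 / 400400) ≤ tauq (k + 3) := by
    have := min_le_left (tauq (k + 3) / 3) (1 / 400400)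
    linarith
  exact of_err hδ0 le_rfl hk hkq hκ0 hκ1 hκ2
    (ErrB.hE1 hδ0 le_rfl hκ0.le hκ1 hkq) (ErrB.hE2 hδ0 le_rfl hκ0.le hκ1 hkq)

end Crest.Agent.R030.Main
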