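import Crest.Agent.R030.Start

/-!
# R030 (S0040): Stage 1, the regularity never fails first

`hit_notReg_le`: from the one-step drift inequality (C3) for `V = ZZ q + Γ HH q` on good states to
the bound of the probability that `Reg` fails while all previous states are good.
-/

set_option autoImplicit false

open Finset Filter Topology
open Crest.CombinatoricsR.TriangleRemoval

namespace Crest.Agent.R030

namespace Stage1

variable {V : Type*} [DecidableEq V] {H : Finset (Finset V)}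

/-- the size condition never fails before time `k` -/
theorem hit_size (hH : Lin3 H) {G : Finset V → Prop} {X : ℝ} (k : ℕ) (A : Finset V)
    (h : X + 3 * k ≤ (A.card : ℝ)) :
    (baseKer H).hit (fun B => ¬ X ≤ (B.card : ℝ)) G k A = 0 := by
  induction k generalizing A with
  | zero =>
    rw [Ker.hit_zero_of_not]
    simp only [Nat.cast_zero, mul_zero, add_zero] at h
    simpa using h
  | succ k ih =>
    have hA : ¬ ¬ X ≤ (A.card : ℝ) := by
      push_cast at h
      push Not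
      have : (0:ℝ) ≤ k := by positivity
      linarith
    by_cases hG : G A
    · rw [Ker.hit_succ _ (B := fun B => ¬ X ≤ (B.card : ℝ)) hA hG]
      rw [Ker.avg_congr _ (g := fun _ => 0) ?_, Ker.avg_zero]
      intro x hx
      apply ih
      have hc : (A.card : ℝ) - 3 ≤ x.card := by
        rcases mem_supp_baseKer.1 hx with ⟨-, rfl⟩ | ⟨T, hT, rfl⟩
        · linarith
        · have := card_sdiff_act hH hT
          have h2 : ((A \ T).card : ℝ) + 3 = A.card := by exact_mod_cast this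
          linarith
      push_cast at h
      linarith
    · rw [Ker.hit_of_not_good _ (B := fun B => ¬ X ≤ (B.card : ℝ)) hA hG]

theorem card_supp_ge (hH : Lin3 H) {A x : Finset V} (hx : x ∈ (baseKer H).supp A) :
    (A.card : ℝ) - 3 ≤ x.card := by
  rcases mem_supp_baseKer.1 hx with ⟨-, rfl⟩ | ⟨T, hT, rfl⟩
  · linarith
  · have := card_sdiff_act hH hT
    have h2 : ((A \ T).card : ℝ) + 3 = A.card := by exact_mod_cast this
    linarith

/-- `(x-3)^(-q) - x^(-q) ≥ 3 q x^(-q-1)` -/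
theorem inv_pow_incr {x : ℝ} (hx : 3 < x) (q : ℕ) :
    3 * q / (x ^ q * x) ≤ 1 / (x - 3) ^ q - 1 / x ^ q := by
  have hx0 : 0 < x := by linarith
  have hx3 : 0 < x - 3 := by linarith
  have h1 : 1 + 3 * (q:ℝ) / x ≤ (1 + 3 / x) ^ q := by
    have := one_add_mul_le_pow (a := 3 / x) (by
      have : 0 < 3 / x := by positivity
      linarith) q
    calc 1 + 3 * (q:ℝ) / x = 1 + q * (3 / x) := by ring
      _ ≤ _ := this
  have h2 : (1 + 3 / x) ^ q ≤ (x / (x - 3)) ^ q := by
    apply pow_le_pow_left₀ (by positivity)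
    rw [le_div_iff₀ hx3]
    have : (1 + 3 / x) * (x - 3) = x - 9 / x := by field_simp; ring
    rw [this]
    have : 0 < 9 / x := by positivity
    linarith
  have h3 : 1 / (x - 3) ^ q = (x / (x - 3)) ^ q / x ^ q := by
    rw [div_pow]
    field_simp
  have h4 : 3 * (q:ℝ) / (x ^ q * x) = ((1 + 3 * (q:ℝ) / x) - 1) / x ^ q := by
    field_simp
    ring
  rw [h3, h4, ← sub_div]
  apply div_le_div_of_nonneg_right _ (by positivity)
  linarith

/-- `g (x - 3) (1 + c₀ / x) ≤ g x` for `g x = (x / x₀)^c₀` -/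
theorem rpow_step {x x0 c0 : ℝ} (hx : 3 < x) (hx0 : 0 < x0) (hc0 : 0 ≤ c0) :
    ((x - 3) / x0) ^ c0 * (1 + c0 / x) ≤ (x / x0) ^ c0 := by
  have hx' : 0 < x := by linarith
  have hx3 : 0 < x - 3 := by linarith
  have h1 : ((x - 3) / x0) ^ c0 = (x / x0) ^ c0 * (1 - 3 / x) ^ c0 := by
    rw [← Real.mul_rpow (by positivity) (by
      rw [sub_nonneg, div_le_one hx']; linarith)]
    congr 1
    field_simp
  have h2 : (1 - 3 / x) ^ c0 ≤ Real.exp (-(3 * c0 / x)) := by
    have h3 : 1 - 3 / x ≤ Real.exp (-(3 / x)) := by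
      have := Real.add_one_le_exp (-(3 / x)); linarith
    have h4 : 0 ≤ 1 - 3 / x := by rw [sub_nonneg, div_le_one hx']; linarith
    calc (1 - 3 / x) ^ c0 ≤ (Real.exp (-(3 / x))) ^ c0 := Real.rpow_le_rpow h4 h3 hc0
      _ = Real.exp (-(3 * c0 / x)) := by
        rw [← Real.exp_mul]; congr 1; ring
  have h5 : 1 + c0 / x ≤ Real.exp (c0 / x) := by
    have := Real.add_one_le_exp (c0 / x); linarith
  have h6 : Real.exp (-(3 * c0 / x)) * Real.exp (c0 / x) ≤ 1 := by
    rw [← Real.exp_add]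
    apply Real.exp_le_one_iff.2
    have : 0 ≤ c0 / x := by positivity
    have e : -(3 * c0 / x) + c0 / x = - (2 * (c0 / x)) := by ring
    rw [e]; linarith
  rw [h1, mul_assoc]
  have hg : 0 ≤ (x / x0) ^ c0 := by positivity
  calc (x / x0) ^ c0 * ((1 - 3 / x) ^ c0 * (1 + c0 / x))
      ≤ (x / x0) ^ c0 * (Real.exp (-(3 * c0 / x)) * Real.exp (c0 / x)) := by
        apply mul_le_mul_of_nonneg_left _ hg
        apply mul_le_mul h2 h5 (by positivity) (Real.exp_pos _).le
    _ ≤ (x / x0) ^ c0 * 1 := mul_le_mul_of_nonneg_left h6 hg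
    _ = _ := mul_one _

variable {n : ℕ}

theorem ZZ_nonneg {q r : ℕ} (hq : q = 2 * r) (E : Finset (Sym2 (Fin n))) : 0 ≤ ZZ q E := by
  unfold ZZ
  apply div_nonneg _ (by positivity)
  apply Finset.sum_nonneg
  intro p _
  rw [hq, pow_mul]
  positivity

theorem HH_nonneg {q r : ℕ} (hq : q = 2 * r) (E : Finset (Sym2 (Fin n))) : 0 ≤ HH q E := by
  unfold HH
  apply div_nonneg _ (by positivity)
  apply Finset.sum_nonneg
  intro u _
  rw [hq, pow_mul]
  positivity

theorem even_pow_abs {q r : ℕ} (hq : q = 2 * r) (z : ℝ) : |z| ^ q = z ^ q := by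
  rw [hq, pow_mul, pow_mul, sq_abs]

theorem even_pow_nonneg {q r : ℕ} (hq : q = 2 * r) (z : ℝ) : 0 ≤ z ^ q := by
  rw [hq, pow_mul]; positivity

/-- a state which is not regular has large `ZZ` -/
theorem ZZ_of_notReg {q r : ℕ} (hq : q = 2 * r) {E : Finset (Sym2 (Fin n))}
    (hE : E ⊆ allEdges n) {η : ℝ} (hη : 0 ≤ η) (h : ¬ Reg E (mE E) η) :
    0 < (E.card : ℝ) ∧ η ^ q / (2 * E.card) ≤ ZZ q E := by
  obtain ⟨u, v, huv, h⟩ : ∃ u v, s(u, v) ∈ E ∧ η < |zeta E u v| := by
    by_contra hcon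
    push Not at hcon
    exact h (fun u v huv => hcon u v huv)
  have hcard : 0 < E.card := Finset.card_pos.2 ⟨_, huv⟩
  have hcard' : (0:ℝ) < E.card := by exact_mod_cast hcard
  have h1 : η ^ q ≤ (zeta E u v) ^ q := by
    rw [← even_pow_abs hq (zeta E u v)]
    exact pow_le_pow_left₀ hη h.le q
  have h5 : (u, v) ∈ darts E := mem_darts.2 huv
  have h6 : (zeta E u v) ^ q ≤ ∑ p ∈ darts E, (zeta E p.1 p.2) ^ q := by
    rw [← Finset.add_sum_erase _ _ h5]
    have : 0 ≤ ∑ p ∈ (darts E).erase (u, v), (zeta E p.1 p.2) ^ q :=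
      Finset.sum_nonneg (fun p _ => even_pow_nonneg hq _)
    linarith
  refine ⟨hcard', ?_⟩
  unfold ZZ
  rw [card_darts (Iface.not_isDiag_of_sub hE)]
  exact div_le_div_of_nonneg_right (h1.trans h6) (by positivity)
/-- good states have positive mean codegree -/
theorem mE_pos {δ : ℝ} {E : Finset (Sym2 (Fin n))} (hn : 1 ≤ n) (hη : etan δ n < 1)
    (h : PreE δ E) : 0 < mE E := by
  have hX : 0 < (E.card : ℝ) := lt_of_lt_of_le (Iface.Xn_pos (δ := δ) hn) h.size
  have hne : E.Nonempty := Finset.card_pos.1 (by exact_mod_cast hX)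
  obtain ⟨e, he⟩ := hne
  induction e using Sym2.ind with
  | _ u v =>
    have h1 := h.reg u v he
    rcases (Kap.mcod_nonneg (triHyp n) E).lt_or_eq with h2 | h2
    · exact h2
    · exfalso
      have h3 : mE E = 0 := h2.symm
      rw [h3, div_zero, zero_sub, abs_neg, abs_one] at h1
      linarith

theorem alive {δ : ℝ} {E : Finset (Sym2 (Fin n))} (hn : 1 ≤ n) (hη : etan δ n < 1)
    (h : PreE δ E) : act (triHyp n) E ≠ ∅ := by
  intro h0
  have := mE_pos hn hη h
  unfold mE at this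
  rw [h0] at this
  simp at this

/-- mean codegree against `lamx` on good states -/
theorem mE_ge {δ : ℝ} {E : Finset (Sym2 (Fin n))} (hn : 1 ≤ n) (hη : etan δ n < 1)
    (hkap : ∀ x, Xn δ n ≤ x → x ≤ x0n n → Kap.kap n (x0n n) (etan δ n) x ≤ 1 / 2)
    (h : PreE δ E) : Kap.lamx n E.card / 2 ≤ mE E := by
  have hX : 0 < (E.card : ℝ) := lt_of_lt_of_le (Iface.Xn_pos (δ := δ) hn) h.size
  have h1 := Kap.mcod_of_window (τ := 1 / 2) (by exact_mod_cast hn) hX (mE_pos hn hη h) h.win
    (hkap _ h.size (Iface.card_le_x0n h.sub)) le_rfl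
  have := h1.1
  linarith

open Classical in
/-- **Stage 1, regularity.** -/
theorem hit_notReg_le {δ κ Γ c0 Cq : ℝ} {q r : ℕ} (hq : q = 2 * r) (hr : 1 ≤ r) (hn : 4 ≤ n)
    (hη1 : etan δ n < 1)
    (hΓ : 0 ≤ Γ) (hc0 : 0 ≤ c0) (hCq : 0 ≤ Cq) (hX : 6 < Xn δ n) (hXx : Xn δ n ≤ x0n n)
    (hkap : ∀ x, Xn δ n ≤ x → x ≤ x0n n → Kap.kap n (x0n n) (etan δ n) x ≤ 1 / 2)
    {G : Finset (Sym2 (Fin n)) → Prop} (hG : ∀ E, G E → GoodE δ q κ E)
    (hC3 : ∀ E : Finset (Sym2 (Fin n)), GoodE δ q κ E →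
      avT E (fun E' => ZZ q E' + Γ * HH q E')
        ≤ (1 + c0 / E.card) * (ZZ q E + Γ * HH q E) + Cq * (1 / mE E) ^ r / E.card)
    (k : ℕ) :
    (baseKer (triHyp n)).hit (fun E => ¬ Reg E (mE E) (etan δ n)) G k (allEdges n)
      ≤ (n : ℝ) ^ 2 * (1 / etan δ n) ^ q * (x0n n / (Xn δ n - 3)) ^ c0
        * (Cq * ((n : ℝ) ^ 3 / 2) ^ r / (3 * q)) / (Xn δ n - 3) ^ q := by
  have hn1 : 1 ≤ n := by omega
  have hn0 : (0:ℝ) < n := by exact_mod_cast hn1
  have hq0 : q ≠ 0 := by omega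
  have hq1 : (0:ℝ) < q := by
    have : 0 < q := by omega
    exact_mod_cast this
  have hη : 0 < etan δ n := Iface.etan_pos hn1
  set X := Xn δ n with hXdef
  set x0 := x0n n with hx0def
  set η := etan δ n with hηdef
  have hX3 : 0 < X - 3 := by linarith
  have hx0pos : 0 < x0 := by
    have h1 := Iface.x0n_ge (n := n) (by omega)
    have h2 : 0 < (n:ℝ) ^ 2 / 4 := by positivity
    linarith
  set A : ℝ := (n : ℝ) ^ 2 * (1 / η) ^ q * (x0 / (X - 3)) ^ c0 with hA
  have hA0 : 0 ≤ A := by positivity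
  set D : ℝ := Cq * ((n : ℝ) ^ 3 / 2) ^ r / (3 * q) with hD
  have hD0 : 0 ≤ D := by positivity
  set W : Finset (Sym2 (Fin n)) → ℝ := fun E => ZZ q E + Γ * HH q E with hW
  have hW0 : ∀ E, 0 ≤ W E := fun E =>
    add_nonneg (ZZ_nonneg hq E) (mul_nonneg hΓ (HH_nonneg hq E))
  set Z : Finset (Sym2 (Fin n)) → ℝ := fun E =>
    A * (W E * ((E.card : ℝ) / x0) ^ c0 + D * (1 / (X - 3) ^ q - 1 / (E.card : ℝ) ^ q)) with hZ
  set I : Finset (Sym2 (Fin n)) → Prop := fun E => E ⊆ allEdges n ∧ X - 3 ≤ (E.card : ℝ) with hI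
  have hDterm : ∀ E, I E → 0 ≤ D * (1 / (X - 3) ^ q - 1 / (E.card : ℝ) ^ q) := by
    intro E hE
    apply mul_nonneg hD0
    rw [sub_nonneg]
    apply one_div_le_one_div_of_le (by positivity)
    exact pow_le_pow_left₀ hX3.le hE.2 q
  have hstart : Z (allEdges n) ≤ A * D / (X - 3) ^ q := by
    rw [hZ]
    simp only
    have h1 : W (allEdges n) = 0 := by
      rw [hW]
      simp only
      rw [Iface.ZZ_start (by omega) hq0, Iface.HH_start (by omega) hq0]
      ring
    rw [h1, zero_mul, zero_add]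
    have h2 : 0 ≤ 1 / ((allEdges n).card : ℝ) ^ q := by positivity
    have h3 : A * (D * (1 / (X - 3) ^ q - 1 / ((allEdges n).card : ℝ) ^ q))
        ≤ A * (D * (1 / (X - 3) ^ q)) := by
      apply mul_le_mul_of_nonneg_left _ hA0
      apply mul_le_mul_of_nonneg_left _ hD0
      linarith
    calc _ ≤ A * (D * (1 / (X - 3) ^ q)) := h3
      _ = _ := by ring
  have hIstart : I (allEdges n) := by
    refine ⟨Finset.Subset.refl _, ?_⟩
    have h1 : ((allEdges n).card : ℝ) = x0 := rfl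
    rw [h1]
    linarith
  refine le_trans ?_ hstart
  refine Ker.hit_le_of_super _ (I := I) ?_ ?_ ?_ ?_ k _ hIstart
  · intro E hE _ hGE x hx
    refine ⟨(subset_of_mem_supp hx).trans hE.1, ?_⟩
    have h1 := card_supp_ge (lin3_triHyp n) hx
    have h2 := (hG E hGE).size
    linarith
  · intro E hE
    apply mul_nonneg hA0
    apply add_nonneg _ (hDterm E hE)
    have := hW0 E
    positivity
  · intro E hE hB
    obtain ⟨hc, hz⟩ := ZZ_of_notReg hq hE.1 hη.le hB
    have h1 : (E.card : ℝ) ≤ (n:ℝ) ^ 2 / 2 := (Iface.card_le_x0n hE.1).trans (Iface.x0n_le n)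
    have h2 : η ^ q / (n:ℝ) ^ 2 ≤ W E := by
      have h3 : η ^ q / (n:ℝ) ^ 2 ≤ η ^ q / (2 * E.card) := by
        apply div_le_div_of_nonneg_left (by positivity) (by positivity)
        linarith
      have h4 : 0 ≤ Γ * HH q E := mul_nonneg hΓ (HH_nonneg hq E)
      have : W E = ZZ q E + Γ * HH q E := rfl
      linarith
    have h5 : ((X - 3) / x0) ^ c0 ≤ ((E.card : ℝ) / x0) ^ c0 := by
      apply Real.rpow_le_rpow (by positivity) _ hc0
      exact div_le_div_of_nonneg_right hE.2 hx0pos.le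
    have h6 : 1 ≤ A * (W E * ((E.card : ℝ) / x0) ^ c0) := by
      have h7 : η ^ q / (n:ℝ) ^ 2 * ((X - 3) / x0) ^ c0 ≤ W E * ((E.card : ℝ) / x0) ^ c0 :=
        mul_le_mul h2 h5 (by positivity) (hW0 E)
      have h8 : A * (η ^ q / (n:ℝ) ^ 2 * ((X - 3) / x0) ^ c0) = 1 := by
        rw [hA]
        have e1 : (x0 / (X - 3)) ^ c0 * ((X - 3) / x0) ^ c0 = 1 := by
          rw [← Real.mul_rpow (by positivity) (by positivity)]
          have : x0 / (X - 3) * ((X - 3) / x0) = 1 := by field_simp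
          rw [this, Real.one_rpow]
        have e2 : (1 / η) ^ q * η ^ q = 1 := by
          rw [← mul_pow]
          have : 1 / η * η = 1 := by field_simp
          rw [this, one_pow]
        calc (n:ℝ) ^ 2 * (1 / η) ^ q * (x0 / (X - 3)) ^ c0
              * (η ^ q / (n:ℝ) ^ 2 * ((X - 3) / x0) ^ c0)
            = ((n:ℝ) ^ 2 / (n:ℝ) ^ 2) * ((1 / η) ^ q * η ^ q)
              * ((x0 / (X - 3)) ^ c0 * ((X - 3) / x0) ^ c0) := by ring
          _ = 1 := by rw [e1, e2, div_self (by positivity)]; ring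
      calc (1:ℝ) = A * (η ^ q / (n:ℝ) ^ 2 * ((X - 3) / x0) ^ c0) := h8.symm
        _ ≤ _ := mul_le_mul_of_nonneg_left h7 hA0
    have h9 := mul_nonneg hA0 (hDterm E hE)
    calc (1:ℝ) ≤ A * (W E * ((E.card : ℝ) / x0) ^ c0) := h6
      _ ≤ A * (W E * ((E.card : ℝ) / x0) ^ c0)
          + A * (D * (1 / (X - 3) ^ q - 1 / (E.card : ℝ) ^ q)) := by linarith
      _ = Z E := by rw [hZ]; ring
  · intro E hE _ hGE
    have hgood := hG E hGE
    set x : ℝ := (E.card : ℝ) with hx
    have hxX : X ≤ x := hgood.size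
    have hx3 : 3 < x := by linarith
    have hxpos : 0 < x := by linarith
    have hxx0 : x ≤ x0 := Iface.card_le_x0n hgood.sub
    have hk := hkap x hxX hxx0
    have hlam := Kap.lamx_pos hn0 hxpos
    have hm := mE_ge hn1 hη1 hkap hgood.toPreE
    have hmpos := mE_pos hn1 hη1 hgood.toPreE
    have hal := alive hn1 hη1 hgood.toPreE
    -- the average of `Z`
    have havg : (baseKer (triHyp n)).avg E Z
        = (A * ((x - 3) / x0) ^ c0) * avT E W
          + A * (D * (1 / (X - 3) ^ q - 1 / (x - 3) ^ q)) := by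
      have e1 : (baseKer (triHyp n)).avg E Z = (baseKer (triHyp n)).avg E
          (fun E' => (A * ((x - 3) / x0) ^ c0) * W E'
            + A * (D * (1 / (X - 3) ^ q - 1 / (x - 3) ^ q))) := by
        apply Ker.avg_congr
        intro E' hE'
        have hc : (E'.card : ℝ) = x - 3 := by
          have := card_of_mem_supp (lin3_triHyp n) hal hE'
          have h7 : (E'.card : ℝ) + 3 = (E.card : ℝ) := by exact_mod_cast this
          rw [hx]
          linarith
        simp only [hZ, hc]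
        ring
      rw [e1, Ker.avg_add_const, Ker.avg_smul, baseKer_avg hal]
      rfl
    rw [havg]
    have hC := hC3 E hgood
    have hg3 : 0 ≤ ((x - 3) / x0) ^ c0 := by
      apply Real.rpow_nonneg
      apply div_nonneg (by linarith) hx0pos.le
    have hg1 : ((x - 3) / x0) ^ c0 ≤ 1 := by
      apply Real.rpow_le_one (div_nonneg (by linarith) hx0pos.le) _ hc0
      rw [div_le_one hx0pos]
      linarith
    have herr : Cq * (1 / mE E) ^ r / x ≤ D * (3 * q / (x ^ q * x)) := by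
      have h1 : (1 / mE E) ^ r ≤ ((n:ℝ) ^ 3 / 2) ^ r / x ^ q := by
        have h2 : 1 / mE E ≤ ((n:ℝ) ^ 3 / 2) / x ^ 2 := by
          rw [div_le_div_iff₀ hmpos (by positivity)]
          have h3 : Kap.lamx n x / 2 * ((n:ℝ) ^ 3 / 2) = x ^ 2 := by
            unfold Kap.lamx
            field_simp
            ring
          have h4 := mul_le_mul_of_nonneg_right hm (by positivity : (0:ℝ) ≤ (n:ℝ) ^ 3 / 2)
          linarith
        calc (1 / mE E) ^ r ≤ (((n:ℝ) ^ 3 / 2) / x ^ 2) ^ r :=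
              pow_le_pow_left₀ (by positivity) h2 r
          _ = ((n:ℝ) ^ 3 / 2) ^ r / x ^ q := by rw [div_pow, ← pow_mul, hq]
      calc Cq * (1 / mE E) ^ r / x ≤ Cq * (((n:ℝ) ^ 3 / 2) ^ r / x ^ q) / x := by
            apply div_le_div_of_nonneg_right _ hxpos.le
            exact mul_le_mul_of_nonneg_left h1 hCq
        _ = D * (3 * q / (x ^ q * x)) := by
            rw [hD]
            field_simp
    have hincr := inv_pow_incr hx3 q
    have hrp := rpow_step hx3 hx0pos hc0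
    have hWE := hW0 E
    have hWdef : W E = ZZ q E + Γ * HH q E := rfl
    rw [← hWdef] at hC
    have hxq : 0 ≤ Cq * (1 / mE E) ^ r / x := by positivity
    have step1 : ((x - 3) / x0) ^ c0 * avT E W ≤ (x / x0) ^ c0 * W E + Cq * (1 / mE E) ^ r / x := by
      calc ((x - 3) / x0) ^ c0 * avT E W
          ≤ ((x - 3) / x0) ^ c0 * ((1 + c0 / x) * W E + Cq * (1 / mE E) ^ r / x) :=
            mul_le_mul_of_nonneg_left hC hg3
        _ = (((x - 3) / x0) ^ c0 * (1 + c0 / x)) * W E
            + ((x - 3) / x0) ^ c0 * (Cq * (1 / mE E) ^ r / x) := by ring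
        _ ≤ (x / x0) ^ c0 * W E + 1 * (Cq * (1 / mE E) ^ r / x) :=
            add_le_add (mul_le_mul_of_nonneg_right hrp hWE)
              (mul_le_mul_of_nonneg_right hg1 hxq)
        _ = _ := by ring
    have step2 : Cq * (1 / mE E) ^ r / x + D * (1 / (X - 3) ^ q - 1 / (x - 3) ^ q)
        ≤ D * (1 / (X - 3) ^ q - 1 / x ^ q) := by
      have := mul_le_mul_of_nonneg_left hincr hD0
      linarith
    have hfin : Z E = A * (W E * (x / x0) ^ c0 + D * (1 / (X - 3) ^ q - 1 / x ^ q)) := rfl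
    rw [hfin]
    have := mul_le_mul_of_nonneg_left (add_le_add step1 step2) hA0
    linarith

end Stage1

end Crest.Agent.R030
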