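import Crest.Agent.R030.StageC
import Crest.Agent.R030.HTrans

/-!
Row 30 (S0040), Stage 1, part (C) completed: no open hypothesis left.
-/

set_option autoImplicit false

open Finset Filter Topology
open Crest.CombinatoricsR.TriangleRemoval

namespace Crest.Agent.R030.StageC

theorem driftInput {q : ℕ} (hq : Even q) (hq2 : 2 ≤ q) : DriftInput q :=
  fun _ _ _ _ _ hE h hκ hκ1 hlink hε => HD.drift_final hq hq2 hE h hε hκ hκ1 hlink

/-- **Stage 1, part (C).** -/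
theorem hit_reg {δ : ℝ} (hδ0 : 0 < δ) (hδ1 : δ < 1) {q : ℕ} (hq : Even q)
    (hq2 : 2 ≤ q) {A : ℝ} (hA : 8 * (A + 3) ≤ 3 * δ * q) {κ : ℝ} (hκ0 : 0 ≤ κ)
    (hκ : 3 * κ ≤ tauq q) :
    ∀ᶠ n : ℕ in atTop, ∀ G : Finset (Sym2 (Fin n)) → Prop, (∀ E, G E → GoodE δ q κ E) →
      ∀ k : ℕ, (baseKer (triHyp n)).hit (fun E => ¬ Reg E (mE E) (etan δ n)) G k (allEdges n) ≤
        (n : ℝ) ^ (-A) :=
  hit_reg_eventually hδ0 hδ1 hq hq2 hA hκ0 hκ (driftInput hq hq2)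

end Crest.Agent.R030.StageC
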