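import Crest.Agent.R030.Params

/-!
# R030 (S0040): the initial state `K_n`
-/

set_option autoImplicit false

open Finset Filter Topology
open Crest.CombinatoricsR.TriangleRemoval

namespace Crest.Agent.R030

namespace Iface

variable {n : ℕ}

theorem mem_allEdges {u v : Fin n} : s(u, v) ∈ allEdges n ↔ u ≠ v := by
  simp [allEdges]

theorem cn_start {u v : Fin n} (huv : u ≠ v) :
    ((cn (allEdges n) u v).card : ℝ) = n - 2 := by
  have h1 : cn (allEdges n) u v = Finset.univ \ {u, v} := by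
    ext w
    rw [mem_cn, mem_allEdges, mem_allEdges]
    simp only [Finset.mem_sdiff, Finset.mem_univ, true_and, Finset.mem_insert,
      Finset.mem_singleton, not_or]
    constructor
    · rintro ⟨h1, h2⟩; exact ⟨Ne.symm h1, Ne.symm h2⟩
    · rintro ⟨h1, h2⟩; exact ⟨Ne.symm h1, Ne.symm h2⟩
  have h2 : (cn (allEdges n) u v).card + 2 = n := by
    rw [h1]
    have := Finset.card_sdiff_add_card_eq_card (Finset.subset_univ ({u, v} : Finset (Fin n)))
    rw [Finset.card_pair huv, Finset.card_univ, Fintype.card_fin] at this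
    exact this
  have h3 : ((cn (allEdges n) u v).card : ℝ) + 2 = n := by exact_mod_cast h2
  linarith

theorem triangles_start (n : ℕ) : (triangles (allEdges n)).card = n.choose 3 := by
  have : triangles (allEdges n) = (Finset.univ : Finset (Fin n)).powersetCard 3 := by
    unfold triangles
    rw [Finset.filter_eq_self]
    intro t _ u _ v _ huv
    exact mem_allEdges.2 huv
  rw [this, Finset.card_powersetCard, Finset.card_univ, Fintype.card_fin]

theorem mE_start (hn : 2 ≤ n) : mE (allEdges n) = n - 2 := by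
  unfold mE
  rw [card_act_triHyp, triangles_start, card_allEdges]
  have h1 : n.choose 3 * 3 = n.choose 2 * (n - 2) := by
    have := Nat.choose_succ_right_eq n 2
    simpa using this
  have h2 : (n.choose 3 : ℝ) * 3 = n.choose 2 * (n - 2) := by
    have h3 : ((n.choose 3 * 3 : ℕ) : ℝ) = ((n.choose 2 * (n - 2) : ℕ) : ℝ) := by rw [h1]
    push_cast [Nat.cast_sub hn] at h3
    exact h3
  have h3 : (0:ℝ) < n.choose 2 := by
    exact_mod_cast Nat.choose_pos hn
  rw [div_eq_iff h3.ne']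
  linarith

theorem zeta_start (hn : 3 ≤ n) {u v : Fin n} (huv : s(u, v) ∈ allEdges n) :
    zeta (allEdges n) u v = 0 := by
  unfold zeta
  rw [cn_start (mem_allEdges.1 huv), mE_start (by omega), div_self, sub_self]
  have : (3:ℝ) ≤ n := by exact_mod_cast hn
  linarith

theorem reg_start (hn : 3 ≤ n) {η : ℝ} (hη : 0 ≤ η) :
    Reg (allEdges n) (mE (allEdges n)) η := by
  intro u v huv
  have h := zeta_start hn huv
  unfold zeta at h
  rw [h, abs_zero]
  exact hη

theorem tt_start (hn : 3 ≤ n) (u : Fin n) : tt (allEdges n) u = 0 := by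
  unfold tt tav
  rw [Finset.sum_eq_zero, zero_div]
  intro w hw
  exact zeta_start hn (mem_nbr.1 hw)

theorem ZZ_start (hn : 3 ≤ n) {q : ℕ} (hq : q ≠ 0) : ZZ q (allEdges n) = 0 := by
  unfold ZZ
  rw [Finset.sum_eq_zero, zero_div]
  intro p hp
  rw [zeta_start hn (mem_darts.1 hp), zero_pow hq]

theorem HH_start (hn : 3 ≤ n) {q : ℕ} (hq : q ≠ 0) : HH q (allEdges n) = 0 := by
  unfold HH
  rw [Finset.sum_eq_zero, zero_div]
  intro u _
  rw [tt_start hn, zero_pow hq, mul_zero]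

theorem win_start (hn : 4 ≤ n) {η : ℝ} :
    Kap.Win (triHyp n) n (x0n n) η (allEdges n) := by
  unfold Kap.Win
  rw [← mE_eq_mcod, mE_start (by omega)]
  have hx : ((allEdges n).card : ℝ) = n * (n - 1) / 2 := x0n_eq n
  have hn4 : (4:ℝ) ≤ n := by exact_mod_cast hn
  have hx0 : x0n n = n * (n - 1) / 2 := x0n_eq n
  unfold Kap.kap
  rw [hx, hx0, div_self (by nlinarith), Real.log_one, mul_zero, zero_add]
  have hl : Kap.lamx n (n * (n - 1) / 2) = (n - 1) ^ 2 / n := by
    unfold Kap.lamx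
    field_simp
    ring
  rw [hl]
  have h1 : ((n:ℝ) - 2) / ((n - 1) ^ 2 / n) = 1 - 1 / (n - 1) ^ 2 := by
    have : (n:ℝ) - 1 ≠ 0 := by linarith
    field_simp
    ring
  rw [h1]
  have hpos : (0:ℝ) < n - 1 := by linarith
  have hsq : (9:ℝ) ≤ (n - 1) ^ 2 := by nlinarith
  have h2 : 1 / ((n:ℝ) - 1) ^ 2 ≤ 1 / 9 := by
    apply div_le_div_of_nonneg_left (by norm_num) (by norm_num) hsq
  have h3 : 0 < 1 / ((n:ℝ) - 1) ^ 2 := by positivity
  have h4 : 0 < 1 - 1 / ((n:ℝ) - 1) ^ 2 := by linarith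
  have h5 : Real.log (1 - 1 / ((n:ℝ) - 1) ^ 2) ≤ 0 :=
    Real.log_nonpos h4.le (by linarith)
  rw [abs_of_nonpos h5]
  have h6 := Real.one_sub_inv_le_log_of_pos h4
  have h7 : (1 - 1 / ((n:ℝ) - 1) ^ 2)⁻¹ - 1 ≤ 3 / (((n:ℝ) - 1) ^ 2 / (n:ℝ)) := by
    have hne : ((n:ℝ) - 1) ^ 2 - 1 ≠ 0 := by nlinarith
    have hne2 : ((n:ℝ) - 1) ≠ 0 := by linarith
    have e0 : 1 - 1 / ((n:ℝ) - 1) ^ 2 = (((n:ℝ) - 1) ^ 2 - 1) / ((n:ℝ) - 1) ^ 2 := by
      field_simp
    have e : (1 - 1 / ((n:ℝ) - 1) ^ 2)⁻¹ - 1 = 1 / (((n:ℝ) - 1) ^ 2 - 1) := by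
      rw [e0, inv_div, div_sub_one hne]
      congr 1
      ring
    rw [e, div_div_eq_mul_div, div_le_div_iff₀ (by linarith) (by positivity)]
    nlinarith
  linarith

end Iface

end Crest.Agent.R030
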