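import Mathlib
import Crest.Agent.R030.Chain

/-!
Row 30 (S0040), part (C3): abstract exit bound for the removal process.

If `V ≥ 0`, `V(A₀) = 0`, `V(A) ≥ v/|A|` on the bad set and
`avg V ≤ (1 + 3c/|A|) V(A) + β/|A|` at good states, then the probability of reaching the bad set
(through good states) is at most `|A₀|^c (β/3)/v`.
-/

set_option autoImplicit false

namespace Crest.Agent.R030.VExit

open Finset

theorem pow_drift {x : ℝ} (hx : 3 ≤ x) (c : ℕ) : (x - 3) ^ c * (1 + 3 * c / x) ≤ x ^ c := by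
  have hx0 : 0 < x := by linarith
  have h1 : 1 + (c : ℝ) * (3 / x) ≤ (1 + 3 / x) ^ c :=
    one_add_mul_le_pow (by have : 0 ≤ 3 / x := by positivity
                           linarith) c
  have h2 : (x - 3) ^ c * (1 + 3 * c / x) ≤ (x - 3) ^ c * (1 + 3 / x) ^ c := by
    refine mul_le_mul_of_nonneg_left ?_ (pow_nonneg (by linarith) c)
    calc 1 + 3 * (c : ℝ) / x = 1 + (c : ℝ) * (3 / x) := by ring
      _ ≤ _ := h1
  refine h2.trans ?_
  rw [← mul_pow]
  refine pow_le_pow_left₀ (mul_nonneg (by linarith) (by positivity)) ?_ c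
  have : (x - 3) * (1 + 3 / x) = x - 9 / x := by field_simp; ring
  rw [this]
  have : 0 ≤ 9 / x := by positivity
  linarith

theorem pow_noise {x β : ℝ} (hx : 3 ≤ x) (hβ : 0 ≤ β) {c : ℕ} (hc : 1 ≤ c) :
    (x - 3) ^ c * (β / x + β / 3) ≤ x ^ c * (β / 3) := by
  have hx0 : 0 < x := by linarith
  have h := pow_drift hx c
  have hc' : (1:ℝ) ≤ (c:ℝ) := by exact_mod_cast hc
  have h2 : β / x + β / 3 ≤ (β / 3) * (1 + 3 * c / x) := by
    have : (β / 3) * (1 + 3 * c / x) = β / 3 + c * (β / x) := by field_simp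
    rw [this]
    have h0 : 0 ≤ β / x := by positivity
    nlinarith
  calc (x - 3) ^ c * (β / x + β / 3) ≤ (x - 3) ^ c * ((β / 3) * (1 + 3 * c / x)) :=
        mul_le_mul_of_nonneg_left h2 (pow_nonneg (by linarith) c)
    _ = (β / 3) * ((x - 3) ^ c * (1 + 3 * c / x)) := by ring
    _ ≤ (β / 3) * x ^ c := mul_le_mul_of_nonneg_left h (by positivity)
    _ = _ := by ring

theorem step_real {x V β w r : ℝ} (hx : 3 ≤ x) (hV : 0 ≤ V) (hβ : 0 ≤ β) (hr : 0 ≤ r) {c : ℕ}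
    (hc : 1 ≤ c) (h : w ≤ (1 + 3 * c / x) * V + β / x) :
    r * ((x - 3) ^ c * (w + β / 3)) ≤ r * (x ^ c * (V + β / 3)) := by
  refine mul_le_mul_of_nonneg_left ?_ hr
  have h1 := pow_drift hx c
  have h2 := pow_noise hx hβ hc
  have h0 : 0 ≤ (x - 3) ^ c := pow_nonneg (by linarith) c
  calc (x - 3) ^ c * (w + β / 3)
      ≤ (x - 3) ^ c * (((1 + 3 * c / x) * V + β / x) + β / 3) :=
        mul_le_mul_of_nonneg_left (by linarith) h0
    _ = ((x - 3) ^ c * (1 + 3 * c / x)) * V + (x - 3) ^ c * (β / x + β / 3) := by ring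
    _ ≤ x ^ c * V + x ^ c * (β / 3) := add_le_add (mul_le_mul_of_nonneg_right h1 hV) h2
    _ = _ := by ring

variable {V : Type*} [DecidableEq V] {H : Finset (Finset V)}

/-- **Abstract exit bound.** -/
theorem exit_abs (hH : Lin3 H) (A₀ : Finset V) (Bad Good : Finset V → Prop)
    (W : Finset V → ℝ) {β v : ℝ} {c : ℕ} (hc : 1 ≤ c) (hβ : 0 ≤ β) (hv : 0 < v)
    (hW0 : ∀ A, A ⊆ A₀ → 0 ≤ W A) (hstart : W A₀ = 0)
    (hbad : ∀ A, A ⊆ A₀ → Bad A → 0 < A.card ∧ v / (A.card : ℝ) ≤ W A)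
    (hgood : ∀ A, A ⊆ A₀ → ¬ Bad A → Good A → 0 < (act H A).card ∧
      ((act H A).card : ℝ)⁻¹ * ∑ T ∈ act H A, W (A \ T) ≤
        (1 + 3 * c / (A.card : ℝ)) * W A + β / (A.card : ℝ)) (k : ℕ) :
    (baseKer H).hit Bad Good k A₀ ≤ (A₀.card : ℝ) ^ c * (β / 3) / v := by
  obtain ⟨Zf, hZf⟩ : ∃ Zf : Finset V → ℝ,
      Zf = fun A => v⁻¹ * ((A.card : ℝ) ^ c * (W A + β / 3)) := ⟨_, rfl⟩
  have hs : Zf A₀ = (A₀.card : ℝ) ^ c * (β / 3) / v := by
    rw [hZf]
    simp only [hstart, zero_add]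
    rw [inv_mul_eq_div]
  rw [← hs]
  refine (baseKer H).hit_le_of_super (I := fun A => A ⊆ A₀) ?_ ?_ ?_ ?_ k A₀ (Subset.refl _)
  · intro A hA _ _ A' hA'
    exact (subset_of_mem_supp hA').trans hA
  · intro A hA
    rw [hZf]
    exact mul_nonneg (by positivity) (mul_nonneg (by positivity)
      (add_nonneg (hW0 A hA) (by positivity)))
  · intro A hA hB
    obtain ⟨hpos, hb⟩ := hbad A hA hB
    rw [hZf]
    have hx : (0:ℝ) < (A.card : ℝ) := by exact_mod_cast hpos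
    have hx1 : (1:ℝ) ≤ (A.card : ℝ) := by exact_mod_cast hpos
    have h1 : v ≤ (A.card : ℝ) * W A := by
      rw [div_le_iff₀ hx] at hb; linarith
    have h2 : (A.card : ℝ) * W A ≤ (A.card : ℝ) ^ c * W A := by
      refine mul_le_mul_of_nonneg_right ?_ (hW0 A hA)
      calc (A.card : ℝ) = (A.card : ℝ) ^ 1 := (pow_one _).symm
        _ ≤ _ := pow_le_pow_right₀ hx1 hc
    have h3 : 0 ≤ (A.card : ℝ) ^ c * (β / 3) := by positivity
    show 1 ≤ v⁻¹ * ((A.card : ℝ) ^ c * (W A + β / 3))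
    rw [inv_mul_eq_div, le_div_iff₀ hv, one_mul]
    linarith
  · intro A hA hB hG
    obtain ⟨hact, hdr⟩ := hgood A hA hB hG
    have hne : act H A ≠ ∅ := (card_pos.1 hact).ne_empty
    rw [baseKer_avg hne]
    have hQ : (0:ℝ) < ((act H A).card : ℝ) := by exact_mod_cast hact
    have hcard3 : 3 ≤ A.card := by
      obtain ⟨T, hT⟩ := card_pos.1 hact
      have := card_sdiff_act hH hT
      omega
    have hx3 : (3:ℝ) ≤ (A.card : ℝ) := by exact_mod_cast hcard3
    have e1 : ∀ T ∈ act H A, Zf (A \ T) =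
        v⁻¹ * (((A.card : ℝ) - 3) ^ c * (W (A \ T) + β / 3)) := by
      intro T hT
      have := card_sdiff_act hH hT
      have h2 : ((A \ T).card : ℝ) = (A.card : ℝ) - 3 := by
        have : (((A \ T).card + 3 : ℕ) : ℝ) = (A.card : ℝ) := by exact_mod_cast this
        push_cast at this
        linarith
      rw [hZf]
      simp only [h2]
    rw [sum_congr rfl e1]
    have e2 : ((act H A).card : ℝ)⁻¹ * ∑ T ∈ act H A,
        v⁻¹ * (((A.card : ℝ) - 3) ^ c * (W (A \ T) + β / 3)) =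
        v⁻¹ * (((A.card : ℝ) - 3) ^ c *
          (((act H A).card : ℝ)⁻¹ * ∑ T ∈ act H A, W (A \ T) + β / 3)) := by
      rw [← mul_sum, ← mul_sum, sum_add_distrib, sum_const, nsmul_eq_mul]
      field_simp
    rw [e2, hZf]
    exact step_real hx3 (hW0 A hA) hβ (by positivity) hc hdr

end Crest.Agent.R030.VExit
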