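import Crest.Agent.R030.Visit
import Crest.Agent.R030.VisitPath

/-!
Row 30 (S0040), helper196.  Module (V), unrolled form: `cnt_port_le`, `cnt_root_le`,
`prs_port_le`, `prs_root_le`.
-/

set_option autoImplicit false

open Finset

namespace Crest.Agent.R030

namespace Prog

variable {B P : Type}

/-! ### Weights -/

section weights
variable {M : ℕ} {om : ℕ → ℝ}

theorem Wt_zero (s : ℕ) : Wt M om 0 s = 1 := by simp [Wt]

theorem base_nonneg (hom : ∀ l, 0 ≤ om l) (s : ℕ) : 0 ≤ (M : ℝ)⁻¹ * ∑ l ∈ range s, om l :=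
  mul_nonneg (by positivity) (Finset.sum_nonneg fun l _ => hom l)

theorem Wt_nonneg (hom : ∀ l, 0 ≤ om l) (k s : ℕ) : 0 ≤ Wt M om k s :=
  div_nonneg (pow_nonneg (base_nonneg hom s) k) (Nat.cast_nonneg _)

theorem Wt_mono (hom : ∀ l, 0 ≤ om l) (k : ℕ) {s t : ℕ} (h : s ≤ t) :
    Wt M om k s ≤ Wt M om k t := by
  unfold Wt
  refine div_le_div_of_nonneg_right (pow_le_pow_left₀ (base_nonneg hom s) ?_ k) (Nat.cast_nonneg _)
  refine mul_le_mul_of_nonneg_left ?_ (by positivity)
  exact Finset.sum_le_sum_of_subset_of_nonneg (Finset.range_mono h) fun l _ _ => hom l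

theorem pow_bernoulli {x d : ℝ} (hx : 0 ≤ x) (hd : 0 ≤ d) (k : ℕ) :
    x ^ (k + 1) + (k + 1) * (x ^ k * d) ≤ (x + d) ^ (k + 1) := by
  induction k with
  | zero => simp
  | succ k ih =>
    have h1 : (x + d) * (x ^ (k + 1) + (k + 1) * (x ^ k * d)) ≤ (x + d) ^ (k + 2) := by
      rw [pow_succ' (x + d) (k + 1)]
      exact mul_le_mul_of_nonneg_left ih (by positivity)
    refine le_trans ?_ h1
    push_cast
    have h2 : 0 ≤ (k + 1 : ℝ) * (x ^ k * d) * d := by positivity
    have h3 : x ^ (k + 1) = x * x ^ k := by ring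
    have h4 : x ^ (k + 1 + 1) = x * (x * x ^ k) := by ring
    rw [h4, h3]
    nlinarith

/-- The step of the many-to-one recursion. -/
theorem Wt_step (hom : ∀ l, 0 ≤ om l) (k s : ℕ) :
    (M : ℝ)⁻¹ * ∑ l ∈ range s, om l * Wt M om k l ≤ Wt M om (k + 1) s := by
  induction s with
  | zero => simp [Wt]
  | succ s ih =>
    rw [Finset.sum_range_succ, mul_add]
    set x := (M : ℝ)⁻¹ * ∑ l ∈ range s, om l with hx
    set d := (M : ℝ)⁻¹ * om s with hd
    have hx0 : 0 ≤ x := base_nonneg hom s
    have hd0 : 0 ≤ d := mul_nonneg (by positivity) (hom s)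
    have e1 : Wt M om (k + 1) (s + 1) = (x + d) ^ (k + 1) / ((k + 1).factorial : ℝ) := by
      unfold Wt
      rw [Finset.sum_range_succ, mul_add]
    have e2 : Wt M om (k + 1) s = x ^ (k + 1) / ((k + 1).factorial : ℝ) := rfl
    have e3 : (M : ℝ)⁻¹ * (om s * Wt M om k s) = d * (x ^ k / (k.factorial : ℝ)) := by
      rw [hd]; unfold Wt; ring
    rw [e2] at ih
    rw [e1, e3]
    have hb := pow_bernoulli hx0 hd0 k
    have hf : (0:ℝ) < (k.factorial : ℝ) := Nat.cast_pos.2 (Nat.factorial_pos k)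
    have e4 : d * (x ^ k / (k.factorial : ℝ))
        = ((k + 1) * (x ^ k * d)) / ((k + 1).factorial : ℝ) := by
      rw [Nat.factorial_succ]
      push_cast
      have : (k : ℝ) + 1 ≠ 0 := by positivity
      field_simp
    rw [e4]
    calc _ ≤ x ^ (k + 1) / ((k + 1).factorial : ℝ)
            + ((k + 1) * (x ^ k * d)) / ((k + 1).factorial : ℝ) := add_le_add ih (le_refl _)
      _ = (x ^ (k + 1) + (k + 1) * (x ^ k * d)) / ((k + 1).factorial : ℝ) := by ring
      _ ≤ _ := div_le_div_of_nonneg_right hb (Nat.cast_nonneg _)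

end weights

/-! ### Linearity of the path functionals -/

section lin

theorem lsum_finset {α ι : Type} (S : Finset ι) (w : ι → ℝ) (F : ι → α → ℝ) (xs : List α) :
    (xs.map (fun c => ∑ k ∈ S, w k * F k c)).sum = ∑ k ∈ S, w k * (xs.map (F k)).sum := by
  induction xs with
  | nil => simp
  | cons x xs ih => simp only [List.map_cons, List.sum_cons, ih, mul_add, Finset.sum_add_distrib]

theorem lsum_mul_left {α : Type} (a : ℝ) (F : α → ℝ) (xs : List α) :
    (xs.map (fun c => a * F c)).sum = a * (xs.map F).sum := by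
  induction xs with
  | nil => simp
  | cons x xs ih => simp only [List.map_cons, List.sum_cons, ih, mul_add]

theorem crs_finset {α ι : Type} (S : Finset ι) (w : ι → ℝ) (F : ι → α → ℝ) (xs : List α) :
    crs (fun c => ∑ k ∈ S, w k * F k c) xs
      = ∑ i ∈ S, ∑ j ∈ S, w i * w j * crs2 (F i) (F j) xs := by
  induction xs with
  | nil => simp [crs2]
  | cons x xs ih =>
    rw [crs_cons, ih, lsum_finset, Finset.sum_mul_sum]
    simp only [crs2, mul_add, Finset.sum_add_distrib]
    congr 1
    refine Finset.sum_congr rfl fun i _ => Finset.sum_congr rfl fun j _ => by ring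

variable (tri : P → B) (ch : P → List P)

theorem Sk_add (a : ℕ) (φ ψ : List P → ℝ) (lst : List P) :
    Sk ch a (fun l => φ l + ψ l) lst = Sk ch a φ lst + Sk ch a ψ lst := by
  induction a generalizing lst with
  | zero => rfl
  | succ a ih =>
    simp only [Sk, ih]
    rw [List.sum_map_add]

theorem Sk_mul_left (a : ℕ) (x : ℝ) (φ : List P → ℝ) (lst : List P) :
    Sk ch a (fun l => x * φ l) lst = x * Sk ch a φ lst := by
  induction a generalizing lst with
  | zero => rfl
  | succ a ih =>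
    simp only [Sk, ih]
    rw [lsum_mul_left]

theorem Sk_zero_fun (a : ℕ) (lst : List P) : Sk ch a (fun _ => (0:ℝ)) lst = 0 := by
  have := Sk_mul_left ch a 0 (fun _ => (0:ℝ)) lst
  simpa using this

theorem Sk_finset {ι : Type} (S : Finset ι) (a : ℕ) (φ : ι → List P → ℝ) (lst : List P) :
    Sk ch a (fun l => ∑ i ∈ S, φ i l) lst = ∑ i ∈ S, Sk ch a (φ i) lst := by
  classical
  induction S using Finset.induction_on with
  | empty => simp [Sk_zero_fun]
  | insert i S hi ih => simp only [Finset.sum_insert hi, Sk_add, ih]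

theorem Sk_mono {a : ℕ} {φ ψ : List P → ℝ} (h : ∀ l, φ l ≤ ψ l) (lst : List P) :
    Sk ch a φ lst ≤ Sk ch a ψ lst := by
  induction a generalizing lst with
  | zero => exact h lst
  | succ a ih => exact lsum_mono fun c _ => ih (ch c)

theorem Sk_nonneg {a : ℕ} {φ : List P → ℝ} (h : ∀ l, 0 ≤ φ l) (lst : List P) :
    0 ≤ Sk ch a φ lst := by
  have := Sk_mono ch (a := a) (φ := fun _ => 0) h lst
  rwa [Sk_zero_fun] at this

variable [DecidableEq B]

theorem Nk_nonneg (k : ℕ) (lst : List P) (τ : B) : 0 ≤ Nk tri ch k lst τ := by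
  induction k generalizing lst with
  | zero => exact Nat.cast_nonneg _
  | succ k ih => exact lsum_nonneg fun c _ => ih (ch c)

theorem Anc_nonneg (i : ℕ) (lst : List P) : 0 ≤ Anc tri ch i lst :=
  lsum_nonneg fun _ _ => lsum_nonneg fun _ _ => Nk_nonneg tri ch _ _ _

omit [DecidableEq B] in
theorem crs2_nonneg {α : Type} {f g : α → ℝ} (hf : ∀ c, 0 ≤ f c) (hg : ∀ c, 0 ≤ g c)
    (xs : List α) : 0 ≤ crs2 f g xs := by
  induction xs with
  | nil => simp [crs2]
  | cons x xs ih => exact add_nonneg (mul_nonneg (hf x) (lsum_nonneg fun c _ => hg c)) ih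

theorem Cou_nonneg [Fintype B] (i j : ℕ) (lst : List P) : 0 ≤ Cou tri ch i j lst :=
  Finset.sum_nonneg fun _ _ => crs2_nonneg (fun _ => Nk_nonneg tri ch _ _ _)
    (fun _ => Nk_nonneg tri ch _ _ _) lst

theorem RR_nonneg [Fintype B] (a i j : ℕ) (lst : List P) : 0 ≤ RR tri ch a i j lst := by
  refine Sk_nonneg ch (fun l => ?_) lst
  refine add_nonneg (Cou_nonneg tri ch i j l) ?_
  split_ifs
  · exact Anc_nonneg tri ch i l
  · exact le_refl _

end lin

/-! ### Counts -/

section counts
variable {M : ℕ} [NeZero M] (tri : P → B) (ch : P → List P) [DecidableEq B]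

/-- The standing hypotheses of module (V): `G` is a set of ports closed under `ch`; the skipped
products over the child lists of ports of `G` at level `l` are at most `om l`. -/
structure VHyp (M : ℕ) (tri : P → B) (ch : P → List P) (G : P → Prop) (om : ℕ → ℝ) : Prop where
  om_nonneg : ∀ l, 0 ≤ om l
  closed : ∀ c, G c → ∀ c' ∈ ch c, G c'
  nodup : ∀ c, G c → ((ch c).map tri).Nodup
  skip : ∀ b l, l ≤ b → l < M → ∀ c, G c → Skip (keep M ch b l) (ch c) (om l)

variable {tri ch} {G : P → Prop} {om : ℕ → ℝ}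

/-- Level averages of a bound that is a combination of the weights. -/
theorem level_le (h : VHyp M tri ch G om) {s : ℕ} (b : ℕ) (F : ℕ → ℝ) (N : ℕ → ℝ)
    (hN : ∀ k, 0 ≤ N k) (hF : ∀ l < s, F l ≤ ∑ k ∈ range b, Wt M om k l * N k) :
    (M : ℝ)⁻¹ * ∑ l ∈ range s, om l * F l ≤ ∑ k ∈ range b, Wt M om (k + 1) s * N k := by
  calc (M : ℝ)⁻¹ * ∑ l ∈ range s, om l * F l
      ≤ (M : ℝ)⁻¹ * ∑ l ∈ range s, om l * ∑ k ∈ range b, Wt M om k l * N k := by
        refine mul_le_mul_of_nonneg_left (Finset.sum_le_sum fun l hl => ?_) (by positivity)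
        exact mul_le_mul_of_nonneg_left (hF l (Finset.mem_range.1 hl)) (h.om_nonneg l)
    _ = ∑ k ∈ range b, ((M : ℝ)⁻¹ * ∑ l ∈ range s, om l * Wt M om k l) * N k := by
        simp only [Finset.mul_sum, Finset.sum_mul]
        rw [Finset.sum_comm]
        refine Finset.sum_congr rfl fun k _ => Finset.sum_congr rfl fun l _ => by ring
    _ ≤ _ := Finset.sum_le_sum fun k _ =>
        mul_le_mul_of_nonneg_right (Wt_step h.om_nonneg k s) (hN k)

/-- The same with the trivial weight one. -/
theorem level_le' (h : VHyp M tri ch G om) {s : ℕ} (hs : s ≤ M) (b : ℕ) (F : ℕ → ℝ) (N : ℕ → ℝ)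
    (hN : ∀ k, 0 ≤ N k) (hF : ∀ l < s, F l ≤ ∑ k ∈ range b, Wt M om k l * N k) :
    (M : ℝ)⁻¹ * ∑ l ∈ range s, F l ≤ ∑ k ∈ range b, Wt M om k M * N k := by
  have hM : (0:ℝ) < M := Nat.cast_pos.2 (Nat.pos_of_ne_zero (NeZero.ne M))
  have hR : 0 ≤ ∑ k ∈ range b, Wt M om k M * N k :=
    Finset.sum_nonneg fun k _ => mul_nonneg (Wt_nonneg h.om_nonneg _ _) (hN k)
  calc (M : ℝ)⁻¹ * ∑ l ∈ range s, F l
      ≤ (M : ℝ)⁻¹ * ∑ l ∈ range s, ∑ k ∈ range b, Wt M om k M * N k := by
        refine mul_le_mul_of_nonneg_left (Finset.sum_le_sum fun l hl => ?_) (by positivity)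
        have hl' := Finset.mem_range.1 hl
        refine (hF l hl').trans (Finset.sum_le_sum fun k _ => ?_)
        exact mul_le_mul_of_nonneg_right (Wt_mono h.om_nonneg k (hl'.le.trans hs)) (hN k)
    _ = ((M : ℝ)⁻¹ * s) * ∑ k ∈ range b, Wt M om k M * N k := by
        rw [Finset.sum_const, Finset.card_range, nsmul_eq_mul]; ring
    _ ≤ 1 * ∑ k ∈ range b, Wt M om k M * N k := by
        refine mul_le_mul_of_nonneg_right ?_ hR
        calc (M : ℝ)⁻¹ * s ≤ (M : ℝ)⁻¹ * M :=
              mul_le_mul_of_nonneg_left (Nat.cast_le.2 hs) (by positivity)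
          _ = 1 := inv_mul_cancel₀ hM.ne'
    _ = _ := one_mul _

theorem cnt_free_zero (lst : List P) (s : ℕ) (τ : B) :
    cnt (free tri ch 0 lst s : Prog B (Fin M) Bool) τ = 0 := by
  rw [free, cnt_ret]

theorem prs_free_zero (lst : List P) (s : ℕ) :
    prs (free tri ch 0 lst s : Prog B (Fin M) Bool) = 0 := by
  rw [free, prs_ret]

/-- Expected number of asks of `τ` below a good port. -/
theorem cnt_port_le (h : VHyp M tri ch G om) (τ : B) (b : ℕ) {s : ℕ} (hsb : s ≤ b) (hs : s ≤ M)
    {c : P} (hc : G c) :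
    cnt (free tri ch b (ch c) s : Prog B (Fin M) Bool) τ
      ≤ ∑ k ∈ range b, Wt M om k s * Nk tri ch k (ch c) τ := by
  induction b generalizing s c with
  | zero => rw [cnt_free_zero]; simp
  | succ b ih =>
    refine (cnt_free_le tri ch b (ch c) hs om
      (fun l hl => h.skip b l (by omega) (lt_of_lt_of_le hl hs) c hc) τ).trans ?_
    rw [Finset.sum_range_succ', Wt_zero, one_mul, add_comm]
    refine add_le_add ?_ (le_refl _)
    have h1 : ((ch c).map (fun c' => (M : ℝ)⁻¹ * ∑ l ∈ range s,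
          om l * cnt (free tri ch b (ch c') l : Prog B (Fin M) Bool) τ)).sum
        ≤ ((ch c).map (fun c' => ∑ k ∈ range b, Wt M om (k + 1) s * Nk tri ch k (ch c') τ)).sum := by
      refine lsum_mono fun c' hc' => ?_
      refine level_le h b _ _ (fun k => Nk_nonneg tri ch k _ τ) fun l hl => ?_
      exact ih (by omega) (hl.le.trans hs) (h.closed c hc c' hc')
    refine h1.trans (le_of_eq ?_)
    rw [lsum_finset]
    rfl

/-- Expected number of asks of `τ` from the root. -/
theorem cnt_root_le (h : VHyp M tri ch G om) (τ : B) (b : ℕ) {s : ℕ} (hsb : s ≤ b + 1)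
    (hs : s ≤ M) {lst : List P} (hlst : ∀ c ∈ lst, G c) :
    cnt (free tri ch (b + 1) lst s : Prog B (Fin M) Bool) τ
      ≤ Nk tri ch 0 lst τ + ∑ k ∈ range b, Wt M om k M * Nk tri ch (k + 1) lst τ := by
  refine (cnt_free_le tri ch b lst hs (fun _ => 1)
    (fun l hl => skip_one (fun c _ => (keep_mem ch b (hl.le.trans hs) c).1)
      (fun c _ => (keep_mem ch b (hl.le.trans hs) c).2)) τ).trans ?_
  refine add_le_add (le_refl _) ?_
  have h1 : (lst.map (fun c' => (M : ℝ)⁻¹ * ∑ l ∈ range s,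
        (1:ℝ) * cnt (free tri ch b (ch c') l : Prog B (Fin M) Bool) τ)).sum
      ≤ (lst.map (fun c' => ∑ k ∈ range b, Wt M om k M * Nk tri ch k (ch c') τ)).sum := by
    refine lsum_mono fun c' hc' => ?_
    simp only [one_mul]
    refine level_le' h hs b _ _ (fun k => Nk_nonneg tri ch k _ τ) fun l hl => ?_
    exact cnt_port_le h τ b (by omega) (hl.le.trans hs) (hlst c' hc')
  refine h1.trans (le_of_eq ?_)
  rw [lsum_finset]
  rfl

/-! ### Pairs -/

/-- The local contribution of a node. -/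
noncomputable def PhiL (M : ℕ) (tri : P → B) (ch : P → List P) [Fintype B] (om : ℕ → ℝ) (N : ℕ)
    (lst : List P) : ℝ :=
  ∑ i ∈ range N, ∑ j ∈ range N, (Wt M om i M * Wt M om j M)
    * (Cou tri ch i j lst + if j = 0 then Anc tri ch i lst else 0)

theorem PhiL_eq [Fintype B] (N : ℕ) (lst : List P) :
    PhiL M tri ch om N lst
      = (lst.map (fun d => (lst.map (fun c => ∑ k ∈ range N,
          Wt M om k M * Nk tri ch k (ch c) (tri d))).sum)).sum
        + ∑ τ, crs (fun c => ∑ k ∈ range N, Wt M om k M * Nk tri ch k (ch c) τ) lst := by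
  unfold PhiL
  have h1 : ∑ τ, crs (fun c => ∑ k ∈ range N, Wt M om k M * Nk tri ch k (ch c) τ) lst
      = ∑ i ∈ range N, ∑ j ∈ range N, (Wt M om i M * Wt M om j M) * Cou tri ch i j lst := by
    simp only [crs_finset, Cou, Finset.mul_sum]
    rw [Finset.sum_comm]
    refine Finset.sum_congr rfl fun i _ => ?_
    rw [Finset.sum_comm]
  have h2 : (lst.map (fun d => (lst.map (fun c => ∑ k ∈ range N,
          Wt M om k M * Nk tri ch k (ch c) (tri d))).sum)).sum
      = ∑ i ∈ range N, Wt M om i M * Anc tri ch i lst := by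
    simp only [lsum_finset, Anc]
  have h3 : ∀ i ∈ range N, ∑ j ∈ range N, (Wt M om i M * Wt M om j M)
      * (if j = 0 then Anc tri ch i lst else 0) = Wt M om i M * Anc tri ch i lst := by
    intro i hi
    have hN : 0 ∈ range N := Finset.mem_range.2 (by have := Finset.mem_range.1 hi; omega)
    rw [Finset.sum_eq_single_of_mem 0 hN (fun j _ hj => by simp [hj])]
    simp [Wt_zero]
  rw [h1, h2]
  simp only [mul_add, Finset.sum_add_distrib]
  rw [Finset.sum_congr rfl h3]
  ring

theorem PhiL_Sk [Fintype B] (N a : ℕ) (lst : List P) :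
    Sk ch a (PhiL M tri ch om N) lst
      = ∑ i ∈ range N, ∑ j ∈ range N, (Wt M om i M * Wt M om j M) * RR tri ch a i j lst := by
  unfold PhiL RR
  rw [Sk_finset]
  refine Finset.sum_congr rfl fun i _ => ?_
  rw [Sk_finset]
  refine Finset.sum_congr rfl fun j _ => ?_
  rw [Sk_mul_left]

theorem pairs_free_step [Fintype B] (h : VHyp M tri ch G om) (b N : ℕ) (hbN : b ≤ N) {s : ℕ}
    (hsb : s ≤ b + 1) (hs : s ≤ M) {lst : List P} (hlst : ∀ c ∈ lst, G c)
    (hnd : (lst.map tri).Nodup) :
    (pairs (lst.map tri) : ℝ)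
        + (lst.map (fun d => (lst.map (fun c => (M : ℝ)⁻¹ * ∑ l ∈ range s,
            cnt (free tri ch b (ch c) l : Prog B (Fin M) Bool) (tri d))).sum)).sum
        + ∑ τ, crs (fun c => (M : ℝ)⁻¹ * ∑ l ∈ range s,
            cnt (free tri ch b (ch c) l : Prog B (Fin M) Bool) τ) lst
      ≤ PhiL M tri ch om N lst := by
  have hz : ∀ τ, ∀ c ∈ lst, (M : ℝ)⁻¹ * ∑ l ∈ range s,
      cnt (free tri ch b (ch c) l : Prog B (Fin M) Bool) τ
        ≤ ∑ k ∈ range N, Wt M om k M * Nk tri ch k (ch c) τ := by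
    intro τ c hc
    have h1 := level_le' h hs b
      (fun l => cnt (free tri ch b (ch c) l : Prog B (Fin M) Bool) τ)
      (fun k => Nk tri ch k (ch c) τ) (fun k => Nk_nonneg tri ch k _ τ)
      (fun l hl => cnt_port_le h τ b (by omega) (hl.le.trans hs) (hlst c hc))
    refine h1.trans (Finset.sum_le_sum_of_subset_of_nonneg (Finset.range_mono hbN)
      fun k _ _ => mul_nonneg (Wt_nonneg h.om_nonneg _ _) (Nk_nonneg tri ch k _ τ))
  rw [PhiL_eq, pairs_eq_zero_of_nodup hnd, Nat.cast_zero, zero_add]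
  refine add_le_add ?_ ?_
  · exact lsum_mono fun d _ => lsum_mono fun c hc => hz (tri d) c hc
  · refine Finset.sum_le_sum fun τ _ => crs_mono (fun c _ => ?_) fun c hc => hz τ c hc
    exact mul_nonneg (by positivity) (Finset.sum_nonneg fun l _ => cnt_nonneg _ _)

/-- Expected number of equal pairs of asks below a good port. -/
theorem prs_port_le [Fintype B] (h : VHyp M tri ch G om) (b N : ℕ) (hbN : b ≤ N) {s : ℕ}
    (hsb : s ≤ b) (hs : s ≤ M) {c : P} (hc : G c) :
    prs (free tri ch b (ch c) s : Prog B (Fin M) Bool)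
      ≤ ∑ a ∈ range b, Wt M om a s * Sk ch a (PhiL M tri ch om N) (ch c) := by
  induction b generalizing s c with
  | zero => rw [prs_free_zero]; simp
  | succ b ih =>
    have h0 := prs_free_le tri ch b (ch c) hs om
      (fun l hl => h.skip b l (by omega) (lt_of_lt_of_le hl hs) c hc)
    have h1 := pairs_free_step h b N (by omega) hsb hs (h.closed c hc) (h.nodup c hc)
    have h2 : ((ch c).map (fun c' => (M : ℝ)⁻¹ * ∑ l ∈ range s,
          om l * prs (free tri ch b (ch c') l : Prog B (Fin M) Bool))).sum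
        ≤ ((ch c).map (fun c' => ∑ a ∈ range b,
            Wt M om (a + 1) s * Sk ch a (PhiL M tri ch om N) (ch c'))).sum := by
      refine lsum_mono fun c' hc' => ?_
      refine level_le h b _ _ (fun a => Sk_nonneg ch (fun l => ?_) _) fun l hl => ?_
      · unfold PhiL
        refine Finset.sum_nonneg fun i _ => Finset.sum_nonneg fun j _ => mul_nonneg
          (mul_nonneg (Wt_nonneg h.om_nonneg _ _) (Wt_nonneg h.om_nonneg _ _)) ?_
        refine add_nonneg (Cou_nonneg tri ch i j l) ?_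
        split_ifs
        · exact Anc_nonneg tri ch i l
        · exact le_refl _
      · exact ih (by omega) (by omega) (hl.le.trans hs) (h.closed c hc c' hc')
    rw [lsum_finset] at h2
    rw [Finset.sum_range_succ', Wt_zero, one_mul]
    have h3 : ∑ a ∈ range b, Wt M om (a + 1) s * Sk ch (a + 1) (PhiL M tri ch om N) (ch c)
        = ∑ a ∈ range b, Wt M om (a + 1) s
            * ((ch c).map (fun c' => Sk ch a (PhiL M tri ch om N) (ch c'))).sum := rfl
    have h4 : Sk ch 0 (PhiL M tri ch om N) (ch c) = PhiL M tri ch om N (ch c) := rfl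
    rw [h3, h4]
    linarith

/-- **Module (V), pairs.** Expected number of pairs of equal asks from the root. -/
theorem prs_root_le [Fintype B] (h : VHyp M tri ch G om) (b : ℕ) {s : ℕ}
    (hsb : s ≤ b + 1) (hs : s ≤ M) {lst : List P} (hlst : ∀ c ∈ lst, G c)
    (hnd : (lst.map tri).Nodup) :
    prs (free tri ch (b + 1) lst s : Prog B (Fin M) Bool)
      ≤ (∑ i ∈ range b, ∑ j ∈ range b, (Wt M om i M * Wt M om j M) * RR tri ch 0 i j lst)
        + ∑ a ∈ range b, Wt M om a M * ∑ i ∈ range b, ∑ j ∈ range b,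
            (Wt M om i M * Wt M om j M) * RR tri ch (a + 1) i j lst := by
  have h0 := prs_free_le tri ch b lst hs (fun _ => 1)
    (fun l hl => skip_one (fun c _ => (keep_mem ch b (hl.le.trans hs) c).1)
      (fun c _ => (keep_mem ch b (hl.le.trans hs) c).2))
  have h1 := pairs_free_step h b b (le_refl b) hsb hs hlst hnd
  have h2 : (lst.map (fun c' => (M : ℝ)⁻¹ * ∑ l ∈ range s,
        (1:ℝ) * prs (free tri ch b (ch c') l : Prog B (Fin M) Bool))).sum
      ≤ (lst.map (fun c' => ∑ a ∈ range b,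
          Wt M om a M * Sk ch a (PhiL M tri ch om b) (ch c'))).sum := by
    refine lsum_mono fun c' hc' => ?_
    simp only [one_mul]
    refine level_le' h hs b _ _ (fun a => Sk_nonneg ch (fun l => ?_) _) fun l hl => ?_
    · unfold PhiL
      refine Finset.sum_nonneg fun i _ => Finset.sum_nonneg fun j _ => mul_nonneg
        (mul_nonneg (Wt_nonneg h.om_nonneg _ _) (Wt_nonneg h.om_nonneg _ _)) ?_
      refine add_nonneg (Cou_nonneg tri ch i j l) ?_
      split_ifs
      · exact Anc_nonneg tri ch i l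
      · exact le_refl _
    · exact prs_port_le h b b (le_refl b) (by omega) (hl.le.trans hs) (hlst c' hc')
  rw [lsum_finset] at h2
  have h3 : ∀ a ∈ range b, Wt M om a M
        * (lst.map (fun c' => Sk ch a (PhiL M tri ch om b) (ch c'))).sum
      = Wt M om a M * ∑ i ∈ range b, ∑ j ∈ range b,
            (Wt M om i M * Wt M om j M) * RR tri ch (a + 1) i j lst := by
    intro a _
    rw [← PhiL_Sk]
    rfl
  have h4 : PhiL M tri ch om b lst = Sk ch 0 (PhiL M tri ch om b) lst := rfl
  rw [Finset.sum_congr rfl h3] at h2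
  rw [h4, PhiL_Sk] at h1
  beta_reduce at h0
  linarith

end counts

end Prog

end Crest.Agent.R030
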