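import Mathlib

/-!
# Row 30, Stage 1 (B): closed walks in the link of a vertex, weighted by `p ^ #new edges`

Process-free combinatorics.  `W p u y ℓ F x` is the sum over all walks
`x, v₁, …, v_ℓ, y` (with `vᵢ ≠ u` and consecutive vertices distinct) of
`p ^ |{new edges}|`, where the edges used are the spokes `s(u,vᵢ)` and the walk edges, and an
edge is new if it is not in `F`.
-/

set_option autoImplicit false

namespace Crest.Agent.R030

open Finset

variable {n : ℕ}

/-- Edges added by one step of the walk from `x` to `v` in the link of `u`. -/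
def stepE (u x v : Fin n) : Finset (Sym2 (Fin n)) := {s(u, v), s(x, v)}

/-- weighted sum over walks. -/
noncomputable def W (p : ℝ) (u y : Fin n) : ℕ → Finset (Sym2 (Fin n)) → Fin n → ℝ
  | 0, F, x => if x = y then 0 else p ^ (({s(x, y)} : Finset (Sym2 (Fin n))) \ F).card
  | ℓ + 1, F, x => ∑ v : Fin n, if v = u ∨ v = x then 0 else
      p ^ (stepE u x v \ F).card * W p u y ℓ (F ∪ stepE u x v) v

/-- Vertices touched by `F` are in `S ∪ {u}`. -/
def Touch (u : Fin n) (F : Finset (Sym2 (Fin n))) (S : Finset (Fin n)) : Prop :=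
  ∀ a b, s(a, b) ∈ F → a ≠ u → a ∈ S

lemma W_nonneg {p : ℝ} (hp : 0 ≤ p) (u y : Fin n) (ℓ : ℕ) :
    ∀ (F : Finset (Sym2 (Fin n))) (x : Fin n), 0 ≤ W p u y ℓ F x := by
  induction ℓ with
  | zero =>
    intro F x
    unfold W
    split_ifs
    · exact le_refl _
    · positivity
  | succ ℓ ih =>
    intro F x
    unfold W
    refine Finset.sum_nonneg fun v _ => ?_
    split_ifs
    · exact le_refl _
    · exact mul_nonneg (by positivity) (ih _ _)

lemma Touch.mono {u : Fin n} {F F' : Finset (Sym2 (Fin n))} {S S' : Finset (Fin n)}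
    (h : Touch u F S) (hF : F' ⊆ F) (hS : S ⊆ S') : Touch u F' S' :=
  fun a b hab ha => hS (h a b (hF hab) ha)

lemma Touch.step {u : Fin n} {F : Finset (Sym2 (Fin n))} {S : Finset (Fin n)}
    (h : Touch u F S) {x v : Fin n} (hx : x ∈ S) :
    Touch u (F ∪ stepE u x v) (insert v S) := by
  intro a b hab ha
  rw [mem_union] at hab
  rcases hab with hab | hab
  · exact mem_insert_of_mem (h a b hab ha)
  · simp only [stepE, mem_insert, mem_singleton, Sym2.eq_iff] at hab
    rcases hab with (⟨rfl, rfl⟩ | ⟨rfl, rfl⟩) | (⟨rfl, rfl⟩ | ⟨rfl, rfl⟩)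
    · exact absurd rfl ha
    · exact mem_insert_self _ _
    · exact mem_insert_of_mem hx
    · exact mem_insert_self _ _

/-- A vertex outside `S ∪ {u}` has no edge in `F`. -/
lemma Touch.not_mem {u : Fin n} {F : Finset (Sym2 (Fin n))} {S : Finset (Fin n)}
    (h : Touch u F S) {v : Fin n} (hv : v ∉ S) (hvu : v ≠ u) (a : Fin n) : s(a, v) ∉ F := by
  intro hmem
  rw [Sym2.eq_swap] at hmem
  exact hv (h v a hmem hvu)

lemma card_stepE_new {u : Fin n} {F : Finset (Sym2 (Fin n))} {S : Finset (Fin n)}
    (h : Touch u F S) {x v : Fin n} (hxu : x ≠ u) (hv : v ∉ S) (hvu : v ≠ u) :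
    (stepE u x v \ F).card = 2 := by
  have h1 : stepE u x v \ F = stepE u x v := by
    rw [Finset.sdiff_eq_self_iff_disjoint]
    rw [Finset.disjoint_left]
    intro e he heF
    simp only [stepE, mem_insert, mem_singleton] at he
    rcases he with rfl | rfl
    · exact h.not_mem hv hvu u heF
    · exact h.not_mem hv hvu x heF
  rw [h1, stepE, card_pair]
  intro heq
  rw [Sym2.eq_iff] at heq
  rcases heq with ⟨h1, _⟩ | ⟨h1, _⟩
  · exact hxu h1.symm
  · exact hvu h1.symm

/-- Split of a sum over `v` into new and old vertices. -/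
lemma sum_split {S : Finset (Fin n)} {f : Fin n → ℝ} {A B : ℝ} {K : ℝ} (hA : 0 ≤ A) (hB : 0 ≤ B)
    (hK : (S.card : ℝ) ≤ K)
    (h1 : ∀ v, v ∉ S → f v ≤ A) (h2 : ∀ v, v ∈ S → f v ≤ B) :
    ∑ v : Fin n, f v ≤ n * A + K * B := by
  classical
  have : ∑ v : Fin n, f v = ∑ v ∈ S, f v + ∑ v ∈ Sᶜ, f v := by
    rw [Finset.sum_add_sum_compl]
  rw [this, add_comm]
  refine add_le_add ?_ ?_
  · calc ∑ v ∈ Sᶜ, f v ≤ ∑ _v ∈ Sᶜ, A :=
          Finset.sum_le_sum fun v hv => h1 v (by simpa using hv)
      _ = (Sᶜ.card : ℝ) * A := by rw [sum_const, nsmul_eq_mul]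
      _ ≤ n * A := by
          refine mul_le_mul_of_nonneg_right ?_ hA
          have : Sᶜ.card ≤ n := by
            simpa using Finset.card_le_univ (Sᶜ)
          exact_mod_cast this
  · calc ∑ v ∈ S, f v ≤ ∑ _v ∈ S, B := Finset.sum_le_sum fun v hv => h2 v hv
      _ = (S.card : ℝ) * B := by rw [sum_const, nsmul_eq_mul]
      _ ≤ K * B := mul_le_mul_of_nonneg_right hK hB

/-- Crude bound. -/
lemma W_le_crude {p : ℝ} (hp : 0 ≤ p) (hp1 : p ≤ 1) (u y : Fin n) (K : ℝ) (ℓ : ℕ) :
    ∀ (F : Finset (Sym2 (Fin n))) (S : Finset (Fin n)) (x : Fin n),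
      Touch u F S → x ∈ S → x ≠ u → (S.card : ℝ) + ℓ ≤ K →
      W p u y ℓ F x ≤ (n * p ^ 2 + K) ^ ℓ := by
  induction ℓ with
  | zero =>
    intro F S x _ _ _ _
    unfold W
    rw [pow_zero]
    split_ifs
    · exact zero_le_one
    · exact pow_le_one₀ hp hp1
  | succ ℓ ih =>
    intro F S x hT hx hxu hK
    push_cast at hK
    have hK0 : 0 ≤ K := by
      have : (0:ℝ) ≤ S.card := by positivity
      have : (0:ℝ) ≤ ℓ := by positivity
      linarith
    have hb : 0 ≤ (n * p ^ 2 + K) ^ ℓ := by positivity
    have hSK : (S.card : ℝ) ≤ K := by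
      have : (0:ℝ) ≤ ℓ := by positivity
      linarith
    unfold W
    refine (sum_split (S := S) (A := p ^ 2 * (n * p ^ 2 + K) ^ ℓ) (B := (n * p ^ 2 + K) ^ ℓ)
      (K := K) (by positivity) hb hSK ?_ ?_).trans (le_of_eq (by ring))
    · intro v hv
      split_ifs with h
      · positivity
      · push Not at h
        rw [card_stepE_new hT hxu hv h.1]
        refine mul_le_mul_of_nonneg_left ?_ (by positivity)
        refine ih _ (insert v S) v (hT.step hx) (mem_insert_self _ _) h.1 ?_
        rw [card_insert_of_notMem hv]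
        push_cast
        linarith
    · intro v hv
      split_ifs with h
      · positivity
      · push Not at h
        calc p ^ (stepE u x v \ F).card * W p u y ℓ (F ∪ stepE u x v) v
            ≤ 1 * W p u y ℓ (F ∪ stepE u x v) v :=
              mul_le_mul_of_nonneg_right (pow_le_one₀ hp hp1) (W_nonneg hp _ _ _ _ _)
          _ = W p u y ℓ (F ∪ stepE u x v) v := one_mul _
          _ ≤ _ := by
            refine ih _ S v ?_ hv h.1 (by linarith)
            have := hT.step (v := v) hx
            rwa [insert_eq_of_mem hv] at this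

/-- Height invariant: link edges of `F` join vertices of `S` whose heights differ by at most 1. -/
def Hgt (u : Fin n) (F : Finset (Sym2 (Fin n))) (h : Fin n → ℕ) : Prop :=
  ∀ a b, s(a, b) ∈ F → a ≠ u → b ≠ u → h a ≤ h b + 1

lemma Hgt.step_old {u : Fin n} {F : Finset (Sym2 (Fin n))} {h : Fin n → ℕ} (hh : Hgt u F h)
    {x v : Fin n} (hxv : s(x, v) ∈ F) : Hgt u (F ∪ stepE u x v) h := by
  intro a b hab ha hb
  rw [mem_union] at hab
  rcases hab with hab | hab
  · exact hh a b hab ha hb
  · simp only [stepE, mem_insert, mem_singleton] at hab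
    rcases hab with hab | hab
    · rw [Sym2.eq_iff] at hab
      rcases hab with ⟨h1, _⟩ | ⟨_, h1⟩
      · exact absurd h1 ha
      · exact absurd h1 hb
    · rw [← hab] at hxv
      exact hh a b hxv ha hb

lemma Hgt.step_new {u : Fin n} {F : Finset (Sym2 (Fin n))} {S : Finset (Fin n)} {h : Fin n → ℕ}
    (hT : Touch u F S) (hh : Hgt u F h)
    {x v : Fin n} (hx : x ∈ S) (hv : v ∉ S) (hvu : v ≠ u) :
    Hgt u (F ∪ stepE u x v) (Function.update h v (h x + 1)) := by
  intro a b hab ha hb
  have hxv : x ≠ v := fun h => hv (h ▸ hx)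
  rw [mem_union] at hab
  rcases hab with hab | hab
  · have hav : a ≠ v := by
      rintro rfl
      exact hv (hT a b hab hvu)
    have hbv : b ≠ v := by
      rintro rfl
      rw [Sym2.eq_swap] at hab
      exact hv (hT b a hab hvu)
    rw [Function.update_of_ne hav, Function.update_of_ne hbv]
    exact hh a b hab ha hb
  · simp only [stepE, mem_insert, mem_singleton] at hab
    rcases hab with hab | hab
    · rw [Sym2.eq_iff] at hab
      rcases hab with ⟨h1, _⟩ | ⟨_, h1⟩
      · exact absurd h1 ha
      · exact absurd h1 hb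
    · rw [Sym2.eq_iff] at hab
      rcases hab with ⟨rfl, rfl⟩ | ⟨rfl, rfl⟩
      · rw [Function.update_self, Function.update_of_ne hxv]
        omega
      · rw [Function.update_self, Function.update_of_ne hxv]

/-- Main bound for the walk sum. -/
theorem W_le {p r : ℝ} (hp : 0 ≤ p) (hp1 : p ≤ 1) (hr : 1 ≤ r) (hr2 : r ^ 2 = n * p ^ 2)
    (u y : Fin n) (hyu : y ≠ u) (K : ℝ) (ℓ : ℕ) :
    ∀ (F : Finset (Sym2 (Fin n))) (S : Finset (Fin n)) (h : Fin n → ℕ) (x : Fin n),
      Touch u F S → Hgt u F h → x ∈ S → x ≠ u → y ∈ S → h y = 0 → (S.card : ℝ) + ℓ ≤ K →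
      W p u y ℓ F x ≤ p * (r ^ 2 + K) ^ ℓ + ℓ * K * p * (r ^ 2 + K) ^ (ℓ - 1) +
        ((1 + K) * r) ^ (ℓ + 1) / r ^ (h x) := by
  have hr0 : 0 < r := by linarith
  induction ℓ with
  | zero =>
    intro F S h x hT hh hx hxu hy hhy hK
    have hK0 : 0 ≤ K := by
      have : (0:ℝ) ≤ S.card := by positivity
      simp at hK; linarith
    unfold W
    have hb : 0 ≤ ((1 + K) * r) ^ (0 + 1) / r ^ (h x) := by positivity
    simp only [pow_zero, mul_one, Nat.cast_zero, zero_mul, add_zero]
    split_ifs with hxy
    · linarith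
    · by_cases hmem : s(x, y) ∈ F
      · have hhx : h x ≤ 1 := by
          have := hh x y hmem hxu hyu
          omega
        have h1 : (1 : ℝ) ≤ ((1 + K) * r) ^ (0 + 1) / r ^ (h x) := by
          rw [le_div_iff₀ (by positivity), one_mul, zero_add, pow_one]
          calc r ^ h x ≤ r ^ 1 := pow_le_pow_right₀ hr hhx
            _ = 1 * r := by ring
            _ ≤ (1 + K) * r := mul_le_mul_of_nonneg_right (by linarith) hr0.le
        have h2 : p ^ (({s(x, y)} : Finset (Sym2 (Fin n))) \ F).card ≤ 1 := pow_le_one₀ hp hp1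
        linarith
      · have : (({s(x, y)} : Finset (Sym2 (Fin n))) \ F).card = 1 := by
          rw [sdiff_eq_self_of_disjoint (by simpa using hmem), card_singleton]
        rw [this, pow_one]
        linarith
  | succ ℓ ih =>
    intro F S h x hT hh hx hxu hy hhy hK
    push_cast at hK
    have hℓ0 : (0:ℝ) ≤ ℓ := by positivity
    have hS0 : (0:ℝ) ≤ S.card := by positivity
    have hK0 : 0 ≤ K := by linarith
    set L : ℝ := r ^ 2 + K with hL
    have hL0 : 0 ≤ L := by positivity
    set a : ℝ := p * L ^ ℓ + ℓ * K * p * L ^ (ℓ - 1) with ha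
    have ha0 : 0 ≤ a := by positivity
    set b : ℝ := ((1 + K) * r) ^ (ℓ + 1) with hb
    have hb0 : 0 ≤ b := by positivity
    set c : ℝ := p * L ^ ℓ with hc
    have hc0 : 0 ≤ c := by positivity
    have hSK : (S.card : ℝ) ≤ K := by linarith
    -- split the sum
    have key : W p u y (ℓ + 1) F x ≤
        n * (p ^ 2 * (a + b / r ^ (h x + 1))) + K * (a + c + b * r / r ^ (h x)) := by
      rw [W]
      refine sum_split (S := S) (A := p ^ 2 * (a + b / r ^ (h x + 1)))
        (B := a + c + b * r / r ^ (h x)) (K := K) (by positivity) (by positivity) hSK ?_ ?_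
      · intro v hv
        split_ifs with hvc
        · positivity
        · push Not at hvc
          rw [card_stepE_new hT hxu hv hvc.1]
          refine mul_le_mul_of_nonneg_left ?_ (by positivity)
          have hyv : y ≠ v := fun h => hv (h ▸ hy)
          have := ih (F ∪ stepE u x v) (insert v S) (Function.update h v (h x + 1)) v
            (hT.step hx) (Hgt.step_new hT hh hx hv hvc.1) (mem_insert_self _ _) hvc.1
            (mem_insert_of_mem hy) (by rw [Function.update_of_ne hyv, hhy]) (by
              rw [card_insert_of_notMem hv]; push_cast; linarith)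
          rw [Function.update_self] at this
          exact this
      · intro v hv
        split_ifs with hvc
        · positivity
        · push Not at hvc
          have hT' : Touch u (F ∪ stepE u x v) S := by
            have := hT.step (v := v) hx
            rwa [insert_eq_of_mem hv] at this
          by_cases hmem : s(x, v) ∈ F
          · have hhx : h x ≤ h v + 1 := hh x v hmem hxu hvc.1
            have h1 := ih (F ∪ stepE u x v) S h v hT' (hh.step_old hmem) hv hvc.1 hy hhy
              (by linarith)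
            have h2 : b / r ^ (h v) ≤ b * r / r ^ (h x) := by
              rw [div_le_div_iff₀ (by positivity) (by positivity), mul_assoc]
              refine mul_le_mul_of_nonneg_left ?_ hb0
              calc r ^ h x ≤ r ^ (h v + 1) := pow_le_pow_right₀ hr hhx
                _ = r * r ^ h v := by rw [pow_succ]; ring
            calc p ^ (stepE u x v \ F).card * W p u y ℓ (F ∪ stepE u x v) v
                ≤ 1 * W p u y ℓ (F ∪ stepE u x v) v :=
                  mul_le_mul_of_nonneg_right (pow_le_one₀ hp hp1) (W_nonneg hp _ _ _ _ _)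
              _ = W p u y ℓ (F ∪ stepE u x v) v := one_mul _
              _ ≤ a + b / r ^ (h v) := h1
              _ ≤ a + c + b * r / r ^ (h x) := by linarith
          · have h1 := W_le_crude hp hp1 u y K ℓ (F ∪ stepE u x v) S v hT' hv hvc.1
              (by linarith)
            have h2 : p ^ (stepE u x v \ F).card ≤ p := by
              have hcard : 1 ≤ (stepE u x v \ F).card := by
                rw [Nat.one_le_iff_ne_zero, Ne, card_eq_zero, sdiff_eq_empty_iff_subset]
                intro hsub
                exact hmem (hsub (by simp [stepE]))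
              calc p ^ (stepE u x v \ F).card ≤ p ^ 1 := pow_le_pow_of_le_one hp hp1 hcard
                _ = p := pow_one p
            have h3 : (n * p ^ 2 + K) ^ ℓ = L ^ ℓ := by rw [hL, hr2]
            rw [h3] at h1
            calc p ^ (stepE u x v \ F).card * W p u y ℓ (F ∪ stepE u x v) v
                ≤ p * L ^ ℓ := mul_le_mul h2 h1 (W_nonneg hp _ _ _ _ _) hp
              _ = c := rfl
              _ ≤ a + c + b * r / r ^ (h x) := by
                have : 0 ≤ b * r / r ^ (h x) := by positivity
                linarith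
    refine key.trans (le_of_eq ?_)
    have e1 : b / r ^ (h x + 1) = b / r ^ (h x) / r := by
      rw [pow_succ]; field_simp
    have e2 : (n : ℝ) * (p ^ 2 * (a + b / r ^ (h x + 1))) = r ^ 2 * a + r * (b / r ^ (h x)) := by
      rw [← mul_assoc, ← hr2, e1]
      field_simp
    rw [e2]
    have e3 : ((1 + K) * r) ^ (ℓ + 1 + 1) / r ^ (h x) = (1 + K) * r * (b / r ^ (h x)) := by
      rw [hb, pow_succ _ (ℓ + 1)]; ring
    rw [e3]
    have e4 : K * (a + c + b * r / r ^ (h x)) = K * a + K * c + K * r * (b / r ^ (h x)) := by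
      ring
    rw [e4]
    have e5 : L * a = p * L ^ (ℓ + 1) + ℓ * K * p * L ^ ℓ := by
      rw [ha]
      rcases Nat.eq_zero_or_pos ℓ with h0 | h0
      · subst h0; simp; ring
      · have : L ^ ℓ = L ^ (ℓ - 1) * L := by
          rw [← pow_succ]; congr 1; omega
        rw [hc, pow_succ, this]; ring
    have e6 : (ℓ + 1 - 1 : ℕ) = ℓ := by omega
    rw [e6]
    push_cast
    have e7 : r ^ 2 * a + K * a = L * a := by rw [hL]; ring
    have : r ^ 2 * a + r * (b / r ^ h x) + (K * a + K * c + K * r * (b / r ^ h x)) =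
        (r ^ 2 * a + K * a) + K * c + (1 + K) * r * (b / r ^ h x) := by ring
    rw [this, e7, e5, hc]
    ring

end Crest.Agent.R030
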